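/-
Row 269, Section 3, LIBRARY `LibCA` (package LF-S3-LibCA): four one-variable tools.   Statements: helper228.  HOST-FREE (Mathlib only).

* `ca_first_order`, `ca_second_order`: Taylor remainders at `e = 1` of a bounded holomorphic function on `ball 0 R`, `R ≥ 2`.
  Proof: `Complex.hasSum_taylorSeries_on_ball` + Cauchy estimates `|g^{(k)}(0)|/k! ≤ M/R'^k` (`R' < R`, then `R' → R`), geometric series
  `∑_{k≥1} R^{-k} = 1/(R-1) ≤ 2/R`, `∑_{k≥2} R^{-k} = 1/(R(R-1)) ≤ 2/R²`.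
  (Alternative: Schwarz lemma for `dslope`.)
* `ca_schwarz`: Schwarz lemma (Mathlib: `Complex.norm_le_norm_of_mapsTo_ball` family / `dslope`), with closed bound `≤ M`.
* `ca_second_lip`: for `g` holomorphic and bounded by `M` on `ball u₀ ϱ` of a complex normed space,
     `|g u - g u' - Dg(u₀)(u - u')| ≤ (32 M/ϱ²) max(|u-u₀|,|u'-u₀|) |u - u'|`   for `u, u' ∈ ball u₀ (ϱ/8)`.
  Proof with ONE complex variable: `a = u' - u₀`, `b = u - u'`, `G(λ) = g(u₀ + λ(a + b)) - g(u₀ + λ a)`; then `G 0 = 0`, `G'(0) = Dg(u₀) b`,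
  the left side is `G 1 - G 0 - G'(0)`.  On `|λ| < R := ϱ/(2 (|a| + |b|))` both points lie in `ball u₀ (ϱ/2)`, and
  `|g p - g p'| ≤ (2M/ϱ) |p - p'|` there (Cauchy estimate for the derivative along the segment + mean value inequality), so
  `|G λ| ≤ (2M/ϱ) R |b|`.  Now `ca_second_order` (rescaled).
* `ca_fixed_point`: holomorphic dependence of the fixed point of a uniform contraction.  Picard iterates `ξ₀ = 0`, `ξ_{k+1}(y) = T y (ξ_k y)`
  are holomorphic by (c), converge uniformly (`‖ξ_{k+1} - ξ_k‖ ≤ 2^{-k} ρ·2`), `TendstoLocallyUniformlyOn.differentiableOn`.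
-/
import Mathlib

set_option autoImplicit false

namespace Claimed.Agent.R269.S3

open Filter Topology

/-- passage to the limit `r' → r` in a Cauchy estimate -/
theorem lca_limit_radius {D M r : ℝ} (j : ℕ) (hr : 0 < r)
    (h : ∀ r', 0 < r' → r' < r → D * r' ^ j ≤ M) : D * r ^ j ≤ M := by
  have h1 : Tendsto (fun r' : ℝ => D * r' ^ j) (𝓝[<] r) (𝓝 (D * r ^ j)) := by
    apply Tendsto.mono_left _ nhdsWithin_le_nhds
    exact ((continuous_const.mul (continuous_pow j)).tendsto r)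
  refine le_of_tendsto h1 ?_
  filter_upwards [Ioo_mem_nhdsLT hr] with r' hr'
  exact h r' hr'.1 hr'.2

theorem lca_ball_iter_le {g : ℂ → ℂ} {c : ℂ} {r M : ℝ} (hr : 0 < r)
    (hg : DifferentiableOn ℂ g (Metric.ball c r)) (hb : ∀ y ∈ Metric.ball c r, ‖g y‖ ≤ M) (j : ℕ) :
    ‖iteratedDeriv j g c‖ ≤ j.factorial * M / r ^ j := by
  rw [le_div_iff₀ (pow_pos hr j)]
  apply lca_limit_radius j hr
  intro r' hr' hr'r
  rw [← le_div_iff₀ (pow_pos hr' j)]
  apply Complex.norm_iteratedDeriv_le_of_forall_mem_sphere_norm_le j hr'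
  · apply DifferentiableOn.diffContOnCl
    rw [closure_ball c hr'.ne']
    exact hg.mono (Metric.closedBall_subset_ball hr'r)
  · intro z hz
    exact hb z (Metric.closedBall_subset_ball hr'r (Metric.sphere_subset_closedBall hz))

theorem ca_schwarz {g : ℂ → ℂ} {c : ℂ} {R M : ℝ} (hg : DifferentiableOn ℂ g (Metric.ball c R))
    (hb : ∀ z ∈ Metric.ball c R, ‖g z‖ ≤ M) (h0 : g c = 0) :
    ∀ z ∈ Metric.ball c R, ‖g z‖ ≤ M * ‖z - c‖ / R := by
  intro z hz
  have h1 := Complex.dist_le_div_mul_dist_of_mapsTo_ball (f := g) (c := c) (R₁ := R) (R₂ := M) (z := z) hg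
    (fun w hw => by
      rw [h0]
      simpa using hb w hw) hz
  rw [h0, dist_zero_right, dist_eq_norm] at h1
  calc ‖g z‖ ≤ M / R * ‖z - c‖ := h1
    _ = M * ‖z - c‖ / R := by ring

theorem ca_first_order {g : ℂ → ℂ} {R M : ℝ} (hR : 2 ≤ R) (hg : DifferentiableOn ℂ g (Metric.ball 0 R))
    (hb : ∀ e ∈ Metric.ball (0 : ℂ) R, ‖g e‖ ≤ M) : ‖g 1 - g 0‖ ≤ 2 * M / R := by
  have h0 : (0 : ℂ) ∈ Metric.ball (0 : ℂ) R := Metric.mem_ball_self (by linarith)
  have h1 : (1 : ℂ) ∈ Metric.ball (0 : ℂ) R := by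
    rw [mem_ball_zero_iff, norm_one]; linarith
  have h2 := Complex.dist_le_div_mul_dist_of_mapsTo_ball (f := g) (c := 0) (R₁ := R) (R₂ := 2 * M)
    (z := 1) hg
    (fun w hw => by
      rw [Metric.mem_closedBall, dist_eq_norm]
      have := norm_sub_le (g w) (g 0)
      linarith [hb w hw, hb 0 h0]) h1
  rw [dist_eq_norm, dist_zero_right, norm_one, mul_one] at h2
  exact h2

theorem ca_second_order {g : ℂ → ℂ} {R M : ℝ} (hR : 2 ≤ R) (hg : DifferentiableOn ℂ g (Metric.ball 0 R))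
    (hb : ∀ e ∈ Metric.ball (0 : ℂ) R, ‖g e‖ ≤ M) : ‖g 1 - g 0 - deriv g 0‖ ≤ 2 * M / R ^ 2 := by
  have hR0 : 0 < R := by linarith
  have h0 : (0 : ℂ) ∈ Metric.ball (0 : ℂ) R := Metric.mem_ball_self hR0
  have hM : 0 ≤ M := (norm_nonneg _).trans (hb 0 h0)
  have h1 : (1 : ℂ) ∈ Metric.ball (0 : ℂ) R := by
    rw [mem_ball_zero_iff, norm_one]; linarith
  have hs := Complex.hasSum_taylorSeries_on_ball hg h1
  have hs2 := (hasSum_nat_add_iff' 2).2 hs
  have e1 : ∑ i ∈ Finset.range 2, ((i.factorial : ℂ)⁻¹ • ((1 : ℂ) - 0) ^ i • iteratedDeriv i g 0) =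
      g 0 + deriv g 0 := by
    simp [Finset.sum_range_succ, iteratedDeriv_one]
  rw [e1] at hs2
  have hgeo : HasSum (fun n : ℕ => M / R ^ 2 * (1 / R) ^ n) (M / R ^ 2 * (1 - 1 / R)⁻¹) :=
    (hasSum_geometric_of_lt_one (by positivity) (by rw [div_lt_one hR0]; linarith)).mul_left _
  have hle := hs2.norm_le_of_bounded hgeo (fun n => by
    have h3 := lca_ball_iter_le hR0 hg hb (n + 2)
    have hf : (0 : ℝ) < ((n + 2).factorial : ℝ) := by exact_mod_cast Nat.factorial_pos _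
    rw [sub_zero, one_pow, one_smul, norm_smul, norm_inv, Complex.norm_natCast]
    calc ((n + 2).factorial : ℝ)⁻¹ * ‖iteratedDeriv (n + 2) g 0‖
        ≤ ((n + 2).factorial : ℝ)⁻¹ * (((n + 2).factorial : ℝ) * M / R ^ (n + 2)) := by gcongr
      _ = M / R ^ 2 * (1 / R) ^ n := by
          rw [pow_add, one_div, inv_pow]
          field_simp)
  have e2 : g 1 - g 0 - deriv g 0 = g 1 - (g 0 + deriv g 0) := by ring
  rw [e2]
  refine hle.trans ?_
  have h4 : (1 - 1 / R)⁻¹ ≤ 2 := by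
    rw [inv_le_comm₀ (by rw [sub_pos, div_lt_one hR0]; linarith) (by norm_num)]
    have : 1 / R ≤ 1 / 2 := one_div_le_one_div_of_le (by norm_num) hR
    linarith
  calc M / R ^ 2 * (1 - 1 / R)⁻¹ ≤ M / R ^ 2 * 2 := by gcongr
    _ = 2 * M / R ^ 2 := by ring

/-- the derivative of a function along a complex line -/
theorem lca_line_hasDerivAt {V : Type*} [NormedAddCommGroup V] [NormedSpace ℂ V] (w v : V) (s : ℂ) :
    HasDerivAt (fun s : ℂ => w + s • v) v s := by
  have h1 : HasDerivAt (fun s : ℂ => s • v) ((1 : ℂ) • v) s := (hasDerivAt_id s).smul_const v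
  rw [one_smul] at h1
  exact h1.const_add w

/-- Cauchy estimate for the Fréchet derivative -/
theorem lca_fderiv_le {V : Type*} [NormedAddCommGroup V] [NormedSpace ℂ V] {f : V → ℂ} {w : V}
    {r A : ℝ} (hr : 0 < r) (hf : DifferentiableOn ℂ f (Metric.ball w r))
    (hA : ∀ z ∈ Metric.ball w r, ‖f z‖ ≤ A) : ‖fderiv ℂ f w‖ ≤ A / r := by
  have hA0 : 0 ≤ A := (norm_nonneg _).trans (hA w (Metric.mem_ball_self hr))
  apply ContinuousLinearMap.opNorm_le_bound _ (div_nonneg hA0 hr.le)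
  intro v
  by_cases hv : v = 0
  · simp [hv]
  have hv' : 0 < ‖v‖ := norm_pos_iff.2 hv
  have hmaps : ∀ s ∈ Metric.ball (0 : ℂ) (r / ‖v‖), w + s • v ∈ Metric.ball w r := by
    intro s hs
    rw [mem_ball_zero_iff, lt_div_iff₀ hv'] at hs
    rw [Metric.mem_ball, dist_eq_norm, add_sub_cancel_left, norm_smul]
    exact hs
  have hφ : DifferentiableOn ℂ (fun s : ℂ => f (w + s • v)) (Metric.ball 0 (r / ‖v‖)) := by
    intro s hs
    have h1 : DifferentiableAt ℂ f (w + s • v) :=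
      hf.differentiableAt (Metric.isOpen_ball.mem_nhds (hmaps s hs))
    exact (DifferentiableAt.comp s h1 (lca_line_hasDerivAt w v s).differentiableAt).differentiableWithinAt
  have h2 := lca_ball_iter_le (div_pos hr hv') hφ (fun s hs => hA _ (hmaps s hs)) 1
  have h3 : deriv (fun s : ℂ => f (w + s • v)) 0 = fderiv ℂ f w v := by
    have h4 : HasFDerivAt f (fderiv ℂ f w) (w + (0 : ℂ) • v) := by
      rw [zero_smul, add_zero]
      exact (hf.differentiableAt
        (Metric.isOpen_ball.mem_nhds (Metric.mem_ball_self hr))).hasFDerivAt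
    exact (HasFDerivAt.comp_hasDerivAt (f := fun s : ℂ => w + s • v) 0 h4
      (lca_line_hasDerivAt w v 0)).deriv
  rw [iteratedDeriv_one, h3] at h2
  calc ‖fderiv ℂ f w v‖ ≤ (Nat.factorial 1 : ℝ) * A / (r / ‖v‖) ^ 1 := h2
    _ = A / r * ‖v‖ := by
        simp only [Nat.factorial_one, Nat.cast_one, one_mul, pow_one]
        field_simp

theorem ca_second_lip {V : Type*} [NormedAddCommGroup V] [NormedSpace ℂ V] {g : V → ℂ} {u₀ : V} {ϱ M : ℝ}
    (hϱ : 0 < ϱ) (hg : DifferentiableOn ℂ g (Metric.ball u₀ ϱ)) (hb : ∀ u ∈ Metric.ball u₀ ϱ, ‖g u‖ ≤ M)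
    {u u' : V} (hu : u ∈ Metric.ball u₀ (ϱ / 8)) (hu' : u' ∈ Metric.ball u₀ (ϱ / 8)) :
    ‖g u - g u' - fderiv ℂ g u₀ (u - u')‖ ≤ 32 * M / ϱ ^ 2 * max ‖u - u₀‖ ‖u' - u₀‖ * ‖u - u'‖ := by
  have hM : 0 ≤ M := (norm_nonneg _).trans (hb u₀ (Metric.mem_ball_self hϱ))
  rw [Metric.mem_ball, dist_eq_norm] at hu hu'
  set m := max ‖u - u₀‖ ‖u' - u₀‖ with hm
  have hm1 : ‖u - u₀‖ ≤ m := le_max_left _ _
  have hm2 : ‖u' - u₀‖ ≤ m := le_max_right _ _
  have hm8 : m < ϱ / 8 := max_lt hu hu'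
  rcases eq_or_lt_of_le ((norm_nonneg _).trans hm1) with hm0 | hm0
  · -- `u = u' = u₀`
    have e1 : u = u₀ := by
      have : ‖u - u₀‖ ≤ 0 := by rw [hm0]; exact hm1
      exact sub_eq_zero.1 (norm_le_zero_iff.1 this)
    have e2 : u' = u₀ := by
      have : ‖u' - u₀‖ ≤ 0 := by rw [hm0]; exact hm2
      exact sub_eq_zero.1 (norm_le_zero_iff.1 this)
    rw [e1, e2]
    simp
  -- Lipschitz bound on the half ball
  have hlip : ∀ p ∈ Metric.ball u₀ (ϱ / 2), ∀ p' ∈ Metric.ball u₀ (ϱ / 2),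
      ‖g p - g p'‖ ≤ 2 * M / ϱ * ‖p - p'‖ := by
    intro p hp p' hp'
    have hsub : ∀ x ∈ Metric.ball u₀ (ϱ / 2), Metric.ball x (ϱ / 2) ⊆ Metric.ball u₀ ϱ := by
      intro x hx z hz
      have h1 : dist z x < ϱ / 2 := hz
      have h2 : dist x u₀ < ϱ / 2 := hx
      have h3 := dist_triangle z x u₀
      show dist z u₀ < ϱ
      linarith
    refine Convex.norm_image_sub_le_of_norm_fderiv_le (𝕜 := ℂ) (f := g) (s := Metric.ball u₀ (ϱ / 2))
      (fun x hx => hg.differentiableAt (Metric.isOpen_ball.mem_nhds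
        (hsub x hx (Metric.mem_ball_self (half_pos hϱ))))) (fun x hx => ?_) (convex_ball _ _) hp' hp
    have h4 := lca_fderiv_le (half_pos hϱ) (hg.mono (hsub x hx)) (fun z hz => hb z (hsub x hx hz))
    have h5 : M / (ϱ / 2) = 2 * M / ϱ := by field_simp
    rwa [h5] at h4
  -- the auxiliary function
  set R := ϱ / (2 * m) with hR
  have hR0 : 0 < R := by positivity
  have hR2 : 2 ≤ R := by
    rw [hR, le_div_iff₀ (by positivity)]
    linarith
  have hin : ∀ (w : V), ‖w‖ ≤ m → ∀ l ∈ Metric.ball (0 : ℂ) R, u₀ + l • w ∈ Metric.ball u₀ (ϱ / 2) := by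
    intro w hw l hl
    rw [mem_ball_zero_iff, hR, lt_div_iff₀ (by positivity)] at hl
    rw [Metric.mem_ball, dist_eq_norm, add_sub_cancel_left, norm_smul]
    have : ‖l‖ * ‖w‖ ≤ ‖l‖ * m := by gcongr
    linarith
  have hhalf : Metric.ball u₀ (ϱ / 2) ⊆ Metric.ball u₀ ϱ := Metric.ball_subset_ball (by linarith)
  have hdiff : ∀ (w : V), ‖w‖ ≤ m →
      DifferentiableOn ℂ (fun l : ℂ => g (u₀ + l • w)) (Metric.ball 0 R) := by
    intro w hw l hl
    have h1 : DifferentiableAt ℂ g (u₀ + l • w) :=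
      hg.differentiableAt (Metric.isOpen_ball.mem_nhds (hhalf (hin w hw l hl)))
    exact (DifferentiableAt.comp l h1 (lca_line_hasDerivAt u₀ w l).differentiableAt).differentiableWithinAt
  have hder : ∀ w : V, HasDerivAt (fun l : ℂ => g (u₀ + l • w)) (fderiv ℂ g u₀ w) 0 := by
    intro w
    have h4 : HasFDerivAt g (fderiv ℂ g u₀) (u₀ + (0 : ℂ) • w) := by
      rw [zero_smul, add_zero]
      exact (hg.differentiableAt (Metric.isOpen_ball.mem_nhds (Metric.mem_ball_self hϱ))).hasFDerivAt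
    exact HasFDerivAt.comp_hasDerivAt (f := fun l : ℂ => u₀ + l • w) 0 h4 (lca_line_hasDerivAt u₀ w 0)
  have key := ca_second_order (g := fun l : ℂ => g (u₀ + l • (u - u₀)) - g (u₀ + l • (u' - u₀)))
    (M := 2 * M / ϱ * (R * ‖u - u'‖)) hR2 ((hdiff _ hm1).sub (hdiff _ hm2)) (fun l hl => by
      have h1 := hlip _ (hin _ hm1 l hl) _ (hin _ hm2 l hl)
      refine h1.trans ?_
      have h2 : u₀ + l • (u - u₀) - (u₀ + l • (u' - u₀)) = l • (u - u') := by
        rw [add_sub_add_left_eq_sub, ← smul_sub]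
        congr 1
        abel
      rw [h2, norm_smul]
      have h3 : ‖l‖ ≤ R := (mem_ball_zero_iff.1 hl).le
      gcongr)
  have hd : deriv (fun l : ℂ => g (u₀ + l • (u - u₀)) - g (u₀ + l • (u' - u₀))) 0 =
      fderiv ℂ g u₀ (u - u') := by
    rw [((hder (u - u₀)).fun_sub (hder (u' - u₀))).deriv, ← map_sub]
    congr 1
    abel
  rw [hd] at key
  simp only [one_smul, zero_smul, add_zero, sub_self, sub_zero, add_sub_cancel] at key
  refine key.trans ?_
  have e3 : 2 * (2 * M / ϱ * (R * ‖u - u'‖)) / R ^ 2 = 8 * M / ϱ ^ 2 * m * ‖u - u'‖ := by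
    rw [hR]
    field_simp
    ring
  rw [e3]
  have h9 : 0 ≤ M / ϱ ^ 2 * m * ‖u - u'‖ := by positivity
  have e4 : 8 * M / ϱ ^ 2 * m * ‖u - u'‖ = 8 * (M / ϱ ^ 2 * m * ‖u - u'‖) := by ring
  have e5 : 32 * M / ϱ ^ 2 * m * ‖u - u'‖ = 32 * (M / ϱ ^ 2 * m * ‖u - u'‖) := by ring
  rw [e4, e5]
  linarith

theorem ca_fixed_point {V : Type*} [NormedAddCommGroup V] [NormedSpace ℂ V] [CompleteSpace V] {U : Set ℂ}
    (hU : IsOpen U) {ρ : ℝ} (hρ : 0 ≤ ρ) (T : ℂ → V → V)
    (hmaps : ∀ y ∈ U, ∀ ξ ∈ Metric.closedBall (0 : V) ρ, T y ξ ∈ Metric.closedBall (0 : V) ρ)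
    (hlip : ∀ y ∈ U, ∀ ξ ∈ Metric.closedBall (0 : V) ρ, ∀ ξ' ∈ Metric.closedBall (0 : V) ρ,
      ‖T y ξ - T y ξ'‖ ≤ 1 / 2 * ‖ξ - ξ'‖)
    (hhol : ∀ ξ : ℂ → V, DifferentiableOn ℂ ξ U → (∀ y ∈ U, ξ y ∈ Metric.closedBall (0 : V) ρ) →
      DifferentiableOn ℂ (fun y => T y (ξ y)) U) :
    ∃ ξ : ℂ → V, DifferentiableOn ℂ ξ U ∧ (∀ y ∈ U, ξ y ∈ Metric.closedBall (0 : V) ρ) ∧
      (∀ y ∈ U, T y (ξ y) = ξ y) ∧
      (∀ y ∈ U, ∀ η ∈ Metric.closedBall (0 : V) ρ, T y η = η → η = ξ y) := by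
  -- Picard iterates
  let X : ℕ → ℂ → V := fun k => Nat.rec (fun _ => 0) (fun _ ξ y => T y (ξ y)) k
  have X0 : ∀ y, X 0 y = 0 := fun _ => rfl
  have XS : ∀ k y, X (k + 1) y = T y (X k y) := fun _ _ => rfl
  have hX : ∀ k, DifferentiableOn ℂ (X k) U ∧ ∀ y ∈ U, X k y ∈ Metric.closedBall (0 : V) ρ := by
    intro k
    induction k with
    | zero =>
      refine ⟨differentiableOn_const 0, fun y _ => ?_⟩
      rw [X0]
      exact Metric.mem_closedBall_self hρ
    | succ k ih => exact ⟨hhol (X k) ih.1 ih.2, fun y hy => hmaps y hy _ (ih.2 y hy)⟩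
  have hstep : ∀ y ∈ U, ∀ k, dist (X k y) (X (k + 1) y) ≤ ρ * (1 / 2) ^ k := by
    intro y hy k
    induction k with
    | zero =>
      have h1 := (hX 1).2 y hy
      rw [X0, dist_comm, pow_zero, mul_one]
      exact h1
    | succ k ih =>
      rw [XS k y, XS (k + 1) y, dist_eq_norm]
      have h1 := hlip y hy _ ((hX k).2 y hy) _ ((hX (k + 1)).2 y hy)
      rw [dist_eq_norm] at ih
      rw [pow_succ]
      linarith
  have hlim : ∀ y ∈ U, Tendsto (fun k => X k y) atTop (𝓝 (limUnder atTop fun k => X k y)) :=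
    fun y hy => (cauchySeq_of_le_geometric (1 / 2) ρ (by norm_num) (hstep y hy)).tendsto_limUnder
  have hdist : ∀ y ∈ U, ∀ k, dist (X k y) (limUnder atTop fun k => X k y) ≤ ρ * (1 / 2) ^ k / (1 - 1 / 2) :=
    fun y hy k => dist_le_of_le_geometric_of_tendsto (1 / 2) ρ (by norm_num) (hstep y hy) (hlim y hy) k
  have hmem : ∀ y ∈ U, (limUnder atTop fun k => X k y) ∈ Metric.closedBall (0 : V) ρ := fun y hy =>
    Metric.isClosed_closedBall.mem_of_tendsto (hlim y hy)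
      (Filter.Eventually.of_forall fun k => (hX k).2 y hy)
  have hfix : ∀ y ∈ U, T y (limUnder atTop fun k => X k y) = limUnder atTop fun k => X k y := by
    intro y hy
    have h1 : Tendsto (fun k => X (k + 1) y) atTop (𝓝 (limUnder atTop fun k => X k y)) :=
      (tendsto_add_atTop_iff_nat 1).2 (hlim y hy)
    have h2 : Tendsto (fun k => X (k + 1) y) atTop (𝓝 (T y (limUnder atTop fun k => X k y))) := by
      rw [tendsto_iff_norm_sub_tendsto_zero]
      have h3 : Tendsto (fun k => 1 / 2 * ‖X k y - limUnder atTop fun k => X k y‖) atTop (𝓝 0) := by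
        have := (tendsto_iff_norm_sub_tendsto_zero.1 (hlim y hy)).const_mul (1 / 2 : ℝ)
        simpa using this
      refine squeeze_zero (fun _ => norm_nonneg _) (fun k => ?_) h3
      rw [XS]
      exact hlip y hy _ ((hX k).2 y hy) _ (hmem y hy)
    exact tendsto_nhds_unique h2 h1
  refine ⟨fun y => limUnder atTop fun k => X k y, ?_, hmem, hfix, ?_⟩
  · have hunif : TendstoUniformlyOn X (fun y => limUnder atTop fun k => X k y) atTop U := by
      rw [Metric.tendstoUniformlyOn_iff]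
      intro ε hε
      have h1 : Tendsto (fun k : ℕ => ρ * (1 / 2 : ℝ) ^ k / (1 - 1 / 2)) atTop (𝓝 0) := by
        have := ((tendsto_pow_atTop_nhds_zero_of_lt_one (r := (1 / 2 : ℝ)) (by norm_num)
          (by norm_num)).const_mul ρ).div_const (1 - 1 / 2 : ℝ)
        simpa using this
      filter_upwards [h1.eventually (gt_mem_nhds hε)] with k hk y hy
      rw [dist_comm]
      exact lt_of_le_of_lt (hdist y hy k) hk
    exact hunif.tendstoLocallyUniformlyOn.differentiableOn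
      (Filter.Eventually.of_forall fun k => (hX k).1) hU
  · intro y hy η hη hηfix
    have h1 := hlip y hy η hη _ (hmem y hy)
    rw [hηfix, hfix y hy] at h1
    have h2 : ‖η - limUnder atTop fun k => X k y‖ ≤ 0 := by
      have := norm_nonneg (η - limUnder atTop fun k => X k y)
      linarith
    exact sub_eq_zero.1 (norm_le_zero_iff.1 h2)

end Claimed.Agent.R269.S3
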