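/-
Row 269, Section 3, LIBRARY `Gen` (package LF-S3-Gen): calculus of the explicit formulas `pInC`, `pOutC` (Glance.lean), `Sgen`, `S12`, `rad` (S3/Defs.lean).
Statements: helper228.  HOST-FREE (Real.lean, Glance.lean, Defs.lean, LibHol).  Everything is a direct computation.   Used by units C, D, I.
With `ψ = (u+v)/2`, `d = (v-u)/2`:  `pIn = h ψ cos d - h' ψ sin d`,  `pOut = h ψ cos d + h' ψ sin d`,  `Sgen = 2 h ψ sin d`,  `S12 = (h + h'') ψ sin d / 2`.
-/
import Claimed.Agent.R269.S3.LibHol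

set_option autoImplicit false

namespace Claimed.Agent.R269.S3

open Real Complex ComplexConjugate

variable {h : ℂ → ℂ} {σ : ℝ}

theorem pOutC_swap (h : ℂ → ℂ) (u v : ℂ) : pOutC h u v = pInC h v u := by
  have e : (u - v) / 2 = -((v - u) / 2) := by ring
  simp only [pOutC, pInC, add_comm v u, e, Complex.cos_neg, Complex.sin_neg]
  ring

theorem S12_swap (h : ℂ → ℂ) (u v : ℂ) : S12 h v u = -S12 h u v := by
  have e : (u - v) / 2 = -((v - u) / 2) := by ring
  simp only [S12, add_comm v u, e, Complex.sin_neg]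
  ring

theorem pInC_self (h : ℂ → ℂ) (u : ℂ) : pInC h u u = h u := by
  have e : (u + u) / 2 = u := by ring
  simp [pInC, e]

theorem pOutC_self (h : ℂ → ℂ) (u : ℂ) : pOutC h u u = h u := by
  have e : (u + u) / 2 = u := by ring
  simp [pOutC, e]

/-! ### partial derivatives -/

theorem gen_hasDerivAt (hd : DifferentiableOn ℂ h (hstrip σ)) {z : ℂ} (hz : z ∈ hstrip σ) :
    HasDerivAt h (deriv h z) z :=
  (hd.differentiableAt ((isOpen_hstrip σ).mem_nhds hz)).hasDerivAt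

theorem gen_diff_deriv (hd : DifferentiableOn ℂ h (hstrip σ)) :
    DifferentiableOn ℂ (deriv h) (hstrip σ) := hd.deriv (isOpen_hstrip σ)

theorem gen_mid_left (u v : ℂ) : HasDerivAt (fun x : ℂ => (x + v) / 2) (1 / 2) u :=
  ((hasDerivAt_id u).add_const v).div_const 2

theorem gen_mid_right (u v : ℂ) : HasDerivAt (fun x : ℂ => (u + x) / 2) (1 / 2) v :=
  ((hasDerivAt_id v).const_add u).div_const 2

theorem gen_dif_left (u v : ℂ) : HasDerivAt (fun x : ℂ => (v - x) / 2) (-1 / 2) u :=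
  ((hasDerivAt_id u).const_sub v).div_const 2

theorem gen_dif_right (u v : ℂ) : HasDerivAt (fun x : ℂ => (x - u) / 2) (1 / 2) v :=
  ((hasDerivAt_id v).sub_const u).div_const 2

theorem hasDerivAt_pOutC_left (hd : DifferentiableOn ℂ h (hstrip σ)) {u v : ℂ} (hm : (u + v) / 2 ∈ hstrip σ) :
    HasDerivAt (fun x => pOutC h x v) (S12 h u v) u := by
  have h0 := (gen_hasDerivAt hd hm).comp u (gen_mid_left u v)
  have h1 := (gen_hasDerivAt (gen_diff_deriv hd) hm).comp u (gen_mid_left u v)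
  have hc := (gen_dif_left u v).ccos
  have hs := (gen_dif_left u v).csin
  refine ((h0.mul hc).add (h1.mul hs)).congr_deriv ?_
  simp only [S12, rad, Function.comp]
  ring

theorem hasDerivAt_pInC_right (hd : DifferentiableOn ℂ h (hstrip σ)) {u v : ℂ} (hm : (u + v) / 2 ∈ hstrip σ) :
    HasDerivAt (fun x => pInC h u x) (-S12 h u v) v := by
  have h0 := (gen_hasDerivAt hd hm).comp v (gen_mid_right u v)
  have h1 := (gen_hasDerivAt (gen_diff_deriv hd) hm).comp v (gen_mid_right u v)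
  have hc := (gen_dif_right u v).ccos
  have hs := (gen_dif_right u v).csin
  refine ((h0.mul hc).sub (h1.mul hs)).congr_deriv ?_
  simp only [S12, rad, Function.comp]
  ring

theorem hasDerivAt_Sgen_left (hd : DifferentiableOn ℂ h (hstrip σ)) {u v : ℂ} (hm : (u + v) / 2 ∈ hstrip σ) :
    HasDerivAt (fun x => Sgen h x v) (-pInC h u v) u := by
  have h0 := (gen_hasDerivAt hd hm).comp u (gen_mid_left u v)
  have hs := (gen_dif_left u v).csin
  refine ((h0.const_mul 2).mul hs).congr_deriv ?_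
  simp only [pInC, Function.comp]
  ring

theorem hasDerivAt_Sgen_right (hd : DifferentiableOn ℂ h (hstrip σ)) {u v : ℂ} (hm : (u + v) / 2 ∈ hstrip σ) :
    HasDerivAt (fun x => Sgen h u x) (pOutC h u v) v := by
  have h0 := (gen_hasDerivAt hd hm).comp v (gen_mid_right u v)
  have hs := (gen_dif_right u v).csin
  refine ((h0.const_mul 2).mul hs).congr_deriv ?_
  simp only [pOutC, Function.comp]
  ring

/-- the set of pairs whose midpoint lies in the strip. -/
def Mid (σ : ℝ) : Set (ℂ × ℂ) := {p | (p.1 + p.2) / 2 ∈ hstrip σ}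

theorem isOpen_Mid (σ : ℝ) : IsOpen (Mid σ) :=
  (isOpen_hstrip σ).preimage (f := fun p : ℂ × ℂ => (p.1 + p.2) / 2) (by fun_prop)

theorem gen_diff_mid {g : ℂ → ℂ} (hg : DifferentiableOn ℂ g (hstrip σ)) :
    DifferentiableOn ℂ (fun z : ℂ × ℂ => g ((z.1 + z.2) / 2)) (Mid σ) :=
  hg.comp (f := fun z : ℂ × ℂ => (z.1 + z.2) / 2)
    (by fun_prop : Differentiable ℂ fun z : ℂ × ℂ => (z.1 + z.2) / 2).differentiableOn (fun _ hz => hz)

theorem gen_diff_cos : Differentiable ℂ (fun z : ℂ × ℂ => Complex.cos ((z.2 - z.1) / 2)) :=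
  (by fun_prop : Differentiable ℂ fun z : ℂ × ℂ => (z.2 - z.1) / 2).ccos

theorem gen_diff_sin : Differentiable ℂ (fun z : ℂ × ℂ => Complex.sin ((z.2 - z.1) / 2)) :=
  (by fun_prop : Differentiable ℂ fun z : ℂ × ℂ => (z.2 - z.1) / 2).csin

theorem hol_pInC (hd : DifferentiableOn ℂ h (hstrip σ)) : Hol (pInC h) (Mid σ) :=
  ((gen_diff_mid hd).mul gen_diff_cos.differentiableOn).sub
    ((gen_diff_mid (gen_diff_deriv hd)).mul gen_diff_sin.differentiableOn)

theorem hol_pOutC (hd : DifferentiableOn ℂ h (hstrip σ)) : Hol (pOutC h) (Mid σ) :=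
  ((gen_diff_mid hd).mul gen_diff_cos.differentiableOn).add
    ((gen_diff_mid (gen_diff_deriv hd)).mul gen_diff_sin.differentiableOn)

theorem hol_Sgen (hd : DifferentiableOn ℂ h (hstrip σ)) : Hol (Sgen h) (Mid σ) :=
  ((gen_diff_mid hd).const_mul 2).mul gen_diff_sin.differentiableOn

theorem diff_rad (hd : DifferentiableOn ℂ h (hstrip σ)) : DifferentiableOn ℂ (rad h) (hstrip σ) :=
  hd.add (gen_diff_deriv (gen_diff_deriv hd))

theorem hol_S12 (hd : DifferentiableOn ℂ h (hstrip σ)) : Hol (S12 h) (Mid σ) := by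
  have := ((gen_diff_mid (diff_rad hd)).mul gen_diff_sin.differentiableOn).mul_const (1 / 2 : ℂ)
  refine this.congr fun z _ => ?_
  simp only [S12, Pi.mul_apply]
  ring

/-! ### symmetries -/

theorem gen_add_two_pi_mem {z : ℂ} (hz : z ∈ hstrip σ) : z + 2 * π ∈ hstrip σ := by
  have h1 : |z.im| < σ := hz
  show |(z + 2 * π).im| < σ
  have : (z + 2 * π).im = z.im := by
    rw [show z + 2 * π = z + ((2 * π : ℝ) : ℂ) by push_cast; ring, Complex.add_im, Complex.ofReal_im,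
      add_zero]
  rwa [this]

theorem gen_conj_mem {z : ℂ} (hz : z ∈ hstrip σ) : conj z ∈ hstrip σ := by
  have h1 : |z.im| < σ := hz
  show |(conj z).im| < σ
  rwa [Complex.conj_im, abs_neg]

theorem deriv_per (hd : DifferentiableOn ℂ h (hstrip σ)) (hp : ∀ z ∈ hstrip σ, h (z + 2 * π) = h z) :
    ∀ z ∈ hstrip σ, deriv h (z + 2 * π) = deriv h z := by
  intro z hz
  have e : (fun x => h (x + 2 * π)) =ᶠ[nhds z] h := by
    filter_upwards [(isOpen_hstrip σ).mem_nhds hz] with x hx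
    exact hp x hx
  rw [← e.deriv_eq]
  exact (deriv_comp_add_const h (2 * π) z).symm

theorem deriv_conj (hd : DifferentiableOn ℂ h (hstrip σ)) (hc : ∀ z ∈ hstrip σ, h (conj z) = conj (h z)) :
    ∀ z ∈ hstrip σ, deriv h (conj z) = conj (deriv h z) := by
  intro z hz
  have e : (conj ∘ h ∘ conj) =ᶠ[nhds (conj z)] h := by
    filter_upwards [(isOpen_hstrip σ).mem_nhds (gen_conj_mem hz)] with x hx
    simp only [Function.comp]
    rw [hc x hx, Complex.conj_conj]
  rw [← e.deriv_eq, deriv_conj_conj]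
  simp

theorem gen_shift_mid (u v : ℂ) : (u + 2 * π + (v + 2 * π)) / 2 = (u + v) / 2 + 2 * π := by ring

theorem gen_shift_dif (u v : ℂ) : (v + 2 * π - (u + 2 * π)) / 2 = (v - u) / 2 := by ring

theorem pInC_per (hd : DifferentiableOn ℂ h (hstrip σ)) (hp : ∀ z ∈ hstrip σ, h (z + 2 * π) = h z) {u v : ℂ}
    (hm : (u + v) / 2 ∈ hstrip σ) : pInC h (u + 2 * π) (v + 2 * π) = pInC h u v := by
  simp only [pInC, gen_shift_mid, gen_shift_dif]
  rw [hp _ hm, deriv_per hd hp _ hm]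

theorem pOutC_per (hd : DifferentiableOn ℂ h (hstrip σ)) (hp : ∀ z ∈ hstrip σ, h (z + 2 * π) = h z) {u v : ℂ}
    (hm : (u + v) / 2 ∈ hstrip σ) : pOutC h (u + 2 * π) (v + 2 * π) = pOutC h u v := by
  simp only [pOutC, gen_shift_mid, gen_shift_dif]
  rw [hp _ hm, deriv_per hd hp _ hm]

theorem Sgen_per (hp : ∀ z ∈ hstrip σ, h (z + 2 * π) = h z) {u v : ℂ}
    (hm : (u + v) / 2 ∈ hstrip σ) : Sgen h (u + 2 * π) (v + 2 * π) = Sgen h u v := by
  simp only [Sgen, gen_shift_mid, gen_shift_dif]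
  rw [hp _ hm]

theorem S12_per (hd : DifferentiableOn ℂ h (hstrip σ)) (hp : ∀ z ∈ hstrip σ, h (z + 2 * π) = h z) {u v : ℂ}
    (hm : (u + v) / 2 ∈ hstrip σ) : S12 h (u + 2 * π) (v + 2 * π) = S12 h u v := by
  simp only [S12, rad, gen_shift_mid, gen_shift_dif]
  rw [hp _ hm, deriv_per (gen_diff_deriv hd) (deriv_per hd hp) _ hm]

theorem gen_conj_mid (u v : ℂ) : (conj u + conj v) / 2 = conj ((u + v) / 2) := by
  rw [map_div₀, map_add, map_ofNat]

theorem gen_conj_dif (u v : ℂ) : (conj v - conj u) / 2 = conj ((v - u) / 2) := by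
  rw [map_div₀, map_sub, map_ofNat]

theorem pInC_conj (hd : DifferentiableOn ℂ h (hstrip σ)) (hc : ∀ z ∈ hstrip σ, h (conj z) = conj (h z)) {u v : ℂ}
    (hm : (u + v) / 2 ∈ hstrip σ) : pInC h (conj u) (conj v) = conj (pInC h u v) := by
  simp only [pInC, gen_conj_mid, gen_conj_dif]
  rw [hc _ hm, deriv_conj hd hc _ hm, Complex.cos_conj, Complex.sin_conj, map_sub, map_mul, map_mul]

theorem pOutC_conj (hd : DifferentiableOn ℂ h (hstrip σ)) (hc : ∀ z ∈ hstrip σ, h (conj z) = conj (h z)) {u v : ℂ}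
    (hm : (u + v) / 2 ∈ hstrip σ) : pOutC h (conj u) (conj v) = conj (pOutC h u v) := by
  simp only [pOutC, gen_conj_mid, gen_conj_dif]
  rw [hc _ hm, deriv_conj hd hc _ hm, Complex.cos_conj, Complex.sin_conj, map_add, map_mul, map_mul]

theorem S12_conj (hd : DifferentiableOn ℂ h (hstrip σ)) (hc : ∀ z ∈ hstrip σ, h (conj z) = conj (h z)) {u v : ℂ}
    (hm : (u + v) / 2 ∈ hstrip σ) : S12 h (conj u) (conj v) = conj (S12 h u v) := by
  simp only [S12, rad, gen_conj_mid, gen_conj_dif]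
  rw [hc _ hm, deriv_conj (gen_diff_deriv hd) (deriv_conj hd hc) _ hm, Complex.sin_conj, map_div₀,
    map_mul, map_add, map_ofNat]

/-! ### bridge to the real formulas of Real.lean -/

theorem gen_real_mem (hσ : 0 < σ) (x : ℝ) : (x : ℂ) ∈ hstrip σ := by
  show |((x : ℂ)).im| < σ
  simpa using hσ

theorem gen_real_val (hσ : 0 < σ) (hc : ∀ z ∈ hstrip σ, h (conj z) = conj (h z)) (x : ℝ) :
    h x = ((h x).re : ℂ) := by
  have h1 := hc x (gen_real_mem hσ x)
  rw [Complex.conj_ofReal] at h1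
  exact (Complex.conj_eq_iff_real.1 h1.symm).choose_spec.symm ▸ by simp

theorem gen_real_deriv (hσ : 0 < σ) (hd : DifferentiableOn ℂ h (hstrip σ))
    (hc : ∀ z ∈ hstrip σ, h (conj z) = conj (h z)) (x : ℝ) :
    deriv h x = (deriv (fun θ : ℝ => (h θ).re) x : ℝ) := by
  have h1 := (gen_hasDerivAt hd (gen_real_mem hσ x)).real_of_complex
  rw [h1.deriv]
  exact gen_real_val hσ (deriv_conj hd hc) x

theorem pInC_ofReal (hσ : 0 < σ) (hd : DifferentiableOn ℂ h (hstrip σ))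
    (hc : ∀ z ∈ hstrip σ, h (conj z) = conj (h z)) (a b : ℝ) :
    pInC h a b = (pIn (fun θ : ℝ => (h θ).re) a b : ℝ) := by
  have e1 : ((a : ℂ) + b) / 2 = (((a + b) / 2 : ℝ) : ℂ) := by push_cast; ring
  have e2 : ((b : ℂ) - a) / 2 = (((b - a) / 2 : ℝ) : ℂ) := by push_cast; ring
  simp only [pInC, pIn, e1, e2]
  conv_lhs => rw [gen_real_val hσ hc, gen_real_deriv hσ hd hc]
  push_cast
  rfl

theorem pOutC_ofReal (hσ : 0 < σ) (hd : DifferentiableOn ℂ h (hstrip σ))
    (hc : ∀ z ∈ hstrip σ, h (conj z) = conj (h z)) (a b : ℝ) :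
    pOutC h a b = (pOut (fun θ : ℝ => (h θ).re) a b : ℝ) := by
  have e1 : ((a : ℂ) + b) / 2 = (((a + b) / 2 : ℝ) : ℂ) := by push_cast; ring
  have e2 : ((b : ℂ) - a) / 2 = (((b - a) / 2 : ℝ) : ℂ) := by push_cast; ring
  simp only [pOutC, pOut, e1, e2]
  conv_lhs => rw [gen_real_val hσ hc, gen_real_deriv hσ hd hc]
  push_cast
  rfl

/-! ### bounds (Cauchy estimates from `|h| ≤ M` on `hstrip σ`) -/

/-- `h`, `h'`, `h''`, `h'''` are bounded on `hstrip (7σ/8)`. -/
theorem iter_h_le {M : ℝ} (hσ : 0 < σ) (hd : DifferentiableOn ℂ h (hstrip σ)) (hb : ∀ z ∈ hstrip σ, ‖h z‖ ≤ M) (j : ℕ) :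
    ∀ z ∈ hstrip (7 * σ / 8), ‖iteratedDeriv j h z‖ ≤ j.factorial * M / (σ / 8) ^ j := by
  intro z hz
  exact strip_iter_le (δ := σ / 8) (by positivity) hd hb j z
    (by rw [show σ - σ / 8 = 7 * σ / 8 by ring]; exact hz)

theorem gen_norm_exp_le (z : ℂ) : ‖Complex.exp z‖ ≤ Real.exp ‖z‖ := by
  rw [Complex.norm_exp]
  exact Real.exp_le_exp.2 (Complex.re_le_norm z)

theorem gen_norm_cos_le (w : ℂ) : ‖Complex.cos w‖ ≤ Real.exp ‖w‖ := by
  have h1 : ‖Complex.exp (w * Complex.I)‖ ≤ Real.exp ‖w‖ := by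
    have := gen_norm_exp_le (w * Complex.I)
    simpa using this
  have h2 : ‖Complex.exp (-w * Complex.I)‖ ≤ Real.exp ‖w‖ := by
    have := gen_norm_exp_le (-w * Complex.I)
    simpa using this
  rw [Complex.cos, norm_div]
  have h3 := norm_add_le (Complex.exp (w * Complex.I)) (Complex.exp (-w * Complex.I))
  have h4 : ‖(2 : ℂ)‖ = 2 := by simp
  rw [h4, div_le_iff₀ (by norm_num)]
  linarith

theorem gen_norm_sin_le (w : ℂ) : ‖Complex.sin w‖ ≤ Real.exp ‖w‖ := by
  have h1 : ‖Complex.exp (w * Complex.I)‖ ≤ Real.exp ‖w‖ := by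
    have := gen_norm_exp_le (w * Complex.I)
    simpa using this
  have h2 : ‖Complex.exp (-w * Complex.I)‖ ≤ Real.exp ‖w‖ := by
    have := gen_norm_exp_le (-w * Complex.I)
    simpa using this
  rw [Complex.sin, norm_div, norm_mul]
  have h3 := norm_sub_le (Complex.exp (-w * Complex.I)) (Complex.exp (w * Complex.I))
  have h4 : ‖(2 : ℂ)‖ = 2 := by simp
  rw [h4, Complex.norm_I, mul_one, div_le_iff₀ (by norm_num)]
  linarith

theorem gen_norm_sin_le_mul (w : ℂ) : ‖Complex.sin w‖ ≤ Real.exp ‖w‖ * ‖w‖ := by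
  have h := (convex_closedBall (0 : ℂ) ‖w‖).norm_image_sub_le_of_norm_hasDerivWithin_le
    (f := Complex.sin) (f' := Complex.cos) (C := Real.exp ‖w‖)
    (fun x _ => (Complex.hasDerivAt_sin x).hasDerivWithinAt)
    (fun x hx => (gen_norm_cos_le x).trans (Real.exp_le_exp.2 (by simpa using hx)))
    (x := 0) (y := w) (by simp) (by simp)
  simpa using h

/-- one constant for `pInC`, `pOutC`, `Sgen`, `S12`, `rad`, `rad'` as long as the midpoint is in `hstrip (7σ/8)` and `|v - u| ≤ R`. -/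
theorem gen_bounds {M : ℝ} (hσ : 0 < σ) (hd : DifferentiableOn ℂ h (hstrip σ)) (hb : ∀ z ∈ hstrip σ, ‖h z‖ ≤ M)
    (R : ℝ) :
    ∃ C : ℝ, 1 ≤ C ∧ (∀ z ∈ hstrip (7 * σ / 8), ‖rad h z‖ ≤ C ∧ ‖deriv (rad h) z‖ ≤ C) ∧
      ∀ u v : ℂ, (u + v) / 2 ∈ hstrip (7 * σ / 8) → ‖v - u‖ ≤ R →
        ‖pInC h u v‖ ≤ C ∧ ‖pOutC h u v‖ ≤ C ∧ ‖Sgen h u v‖ ≤ C ∧ ‖S12 h u v‖ ≤ C * ‖v - u‖ := by
  have hM : 0 ≤ M := (norm_nonneg _).trans (hb ((0 : ℝ) : ℂ) (gen_real_mem hσ 0))
  obtain ⟨K, hK⟩ : ∃ K : ℕ → ℝ, ∀ j, K j = j.factorial * M / (σ / 8) ^ j := ⟨_, fun _ => rfl⟩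
  have hK0 : ∀ j, 0 ≤ K j := fun j => by rw [hK]; positivity
  have hsub : hstrip (7 * σ / 8) ⊆ hstrip σ := fun z hz => by
    have h1 : |z.im| < 7 * σ / 8 := hz
    show |z.im| < σ
    linarith
  have b0 : ∀ z ∈ hstrip (7 * σ / 8), ‖h z‖ ≤ K 0 := fun z hz => by
    have := iter_h_le hσ hd hb 0 z hz
    rw [← hK] at this
    simpa using this
  have b1 : ∀ z ∈ hstrip (7 * σ / 8), ‖deriv h z‖ ≤ K 1 := fun z hz => by
    have := iter_h_le hσ hd hb 1 z hz
    rw [← hK] at this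
    simpa using this
  have b2 : ∀ z ∈ hstrip (7 * σ / 8), ‖deriv (deriv h) z‖ ≤ K 2 := fun z hz => by
    have := iter_h_le hσ hd hb 2 z hz
    rw [← hK] at this
    simpa [iteratedDeriv_succ] using this
  have b3 : ∀ z ∈ hstrip (7 * σ / 8), ‖deriv (deriv (deriv h)) z‖ ≤ K 3 := fun z hz => by
    have := iter_h_le hσ hd hb 3 z hz
    rw [← hK] at this
    simpa [iteratedDeriv_succ] using this
  have hE : 0 < Real.exp (R / 2) := Real.exp_pos _
  have brad : ∀ z ∈ hstrip (7 * σ / 8), ‖rad h z‖ ≤ K 0 + K 2 := fun z hz =>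
    (norm_add_le _ _).trans (add_le_add (b0 z hz) (b2 z hz))
  refine ⟨1 + 2 * (K 0 + K 1 + K 2 + K 3) * (1 + Real.exp (R / 2)), ?_, ?_, ?_⟩
  · have := hK0 0; have := hK0 1; have := hK0 2; have := hK0 3
    have : 0 ≤ 2 * (K 0 + K 1 + K 2 + K 3) * (1 + Real.exp (R / 2)) := by positivity
    linarith
  · intro z hz
    have hk0 := hK0 0; have hk1 := hK0 1; have hk2 := hK0 2; have hk3 := hK0 3
    have hp : 0 ≤ (K 0 + K 1 + K 2 + K 3) * Real.exp (R / 2) := by positivity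
    refine ⟨(brad z hz).trans (by nlinarith), ?_⟩
    have hz' := hsub hz
    have e : deriv (rad h) z = deriv h z + deriv (deriv (deriv h)) z := by
      have h1 := gen_hasDerivAt hd hz'
      have h2 := gen_hasDerivAt (gen_diff_deriv (gen_diff_deriv hd)) hz'
      exact (h1.add h2).deriv
    rw [e]
    refine (norm_add_le _ _).trans ((add_le_add (b1 z hz) (b3 z hz)).trans (by nlinarith))
  · intro u v hm hR
    have hk0 := hK0 0; have hk1 := hK0 1; have hk2 := hK0 2; have hk3 := hK0 3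
    have hw : ‖(v - u) / 2‖ ≤ R / 2 := by
      rw [norm_div]
      have h4 : ‖(2 : ℂ)‖ = 2 := by simp
      rw [h4]; linarith
    have hexp : Real.exp ‖(v - u) / 2‖ ≤ Real.exp (R / 2) := Real.exp_le_exp.2 hw
    have hc := (gen_norm_cos_le ((v - u) / 2)).trans hexp
    have hs := (gen_norm_sin_le ((v - u) / 2)).trans hexp
    have c0 := b0 _ hm
    have c1 := b1 _ hm
    have t1 : ‖h ((u + v) / 2) * Complex.cos ((v - u) / 2)‖ ≤ K 0 * Real.exp (R / 2) := by
      rw [norm_mul]; exact mul_le_mul c0 hc (norm_nonneg _) hk0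
    have t2 : ‖deriv h ((u + v) / 2) * Complex.sin ((v - u) / 2)‖ ≤ K 1 * Real.exp (R / 2) := by
      rw [norm_mul]; exact mul_le_mul c1 hs (norm_nonneg _) hk1
    have p2 : 0 ≤ K 2 * Real.exp (R / 2) := by positivity
    have p3 : 0 ≤ K 3 * Real.exp (R / 2) := by positivity
    have p0 : 0 ≤ K 0 * Real.exp (R / 2) := by positivity
    have p1 : 0 ≤ K 1 * Real.exp (R / 2) := by positivity
    refine ⟨?_, ?_, ?_, ?_⟩
    · refine (norm_sub_le _ _).trans ?_
      nlinarith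
    · refine (norm_add_le _ _).trans ?_
      nlinarith
    · have t3 : ‖Sgen h u v‖ ≤ 2 * (K 0 * Real.exp (R / 2)) := by
        simp only [Sgen]
        rw [norm_mul, norm_mul]
        have h4 : ‖(2 : ℂ)‖ = 2 := by simp
        rw [h4, mul_assoc]
        exact mul_le_mul_of_nonneg_left (mul_le_mul c0 hs (norm_nonneg _) hk0) (by norm_num)
      nlinarith
    · have hs2 := gen_norm_sin_le_mul ((v - u) / 2)
      have h4 : ‖(2 : ℂ)‖ = 2 := by simp
      have hn : ‖(v - u) / 2‖ = ‖v - u‖ / 2 := by rw [norm_div, h4]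
      have hs3 : ‖Complex.sin ((v - u) / 2)‖ ≤ Real.exp (R / 2) * (‖v - u‖ / 2) := by
        rw [← hn]
        exact hs2.trans (mul_le_mul_of_nonneg_right hexp (norm_nonneg _))
      have t4 : ‖S12 h u v‖ ≤ (K 0 + K 2) * (Real.exp (R / 2) * (‖v - u‖ / 2)) / 2 := by
        simp only [S12]
        rw [norm_div, norm_mul, h4]
        exact div_le_div_of_nonneg_right
          (mul_le_mul (brad _ hm) hs3 (norm_nonneg _) (by linarith)) (by norm_num)
      refine t4.trans ?_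
      have hn0 := norm_nonneg (v - u)
      have q0 : 0 ≤ K 0 * Real.exp (R / 2) * ‖v - u‖ := by positivity
      have q1 : 0 ≤ K 1 * Real.exp (R / 2) * ‖v - u‖ := by positivity
      have q2 : 0 ≤ K 2 * Real.exp (R / 2) * ‖v - u‖ := by positivity
      have q3 : 0 ≤ K 3 * Real.exp (R / 2) * ‖v - u‖ := by positivity
      have r0 : 0 ≤ K 0 * ‖v - u‖ := by positivity
      have r1 : 0 ≤ K 1 * ‖v - u‖ := by positivity
      have r2 : 0 ≤ K 2 * ‖v - u‖ := by positivity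
      have r3 : 0 ≤ K 3 * ‖v - u‖ := by positivity
      nlinarith

end Claimed.Agent.R269.S3
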