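/-
Row 269, Section 3, LIBRARY `Area` (package LF-S3-Area): the area form in the coordinates `(y,t)`.   Statements: helper228.
Uses Gen, LibHol.  Used by unit C (`Good.symp`) and unit I (`Glance.area`).   ~250 lines: chain rule only.

`pI y t = pIn(Θ, Θ⁺)`, `pO y t = pOut(Θ⁻, Θ)`, `Θ^± = Θ(y ± t, t)`.     With `P₁,P₂` the partial derivatives of `pInC h` at `(Θ,Θ⁺)` (they exist: `hol_pInC`, `hol_slice_y/t`; use `hol_chain` for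
`F = pInC h`, `g₁ u = Θ u t`, ...;  `P₂ = -S12` by `hasDerivAt_pInC_right`):
   `pI_y = P₁ Θ_y + P₂ Θ⁺_y`,    `pI_t = P₁ Θ_t + P₂ (Θ⁺_y + Θ⁺_t)`,     so  `pI_y Θ_t - pI_t Θ_y = -P₂ ((Θ⁺_y + Θ⁺_t) Θ_y - Θ⁺_y Θ_t) = Bf y t`.
Similarly with `Q₁ = S12(Θ⁻,Θ)` (`hasDerivAt_pOutC_left`):   `pO_y = Q₁ Θ⁻_y + Q₂ Θ_y`,  `pO_t = Q₁ (Θ⁻_t - Θ⁻_y) + Q₂ Θ_t`,   so  `pO_y Θ_t - pO_t Θ_y = Q₁ (Θ⁻_y Θ_t - Θ⁻_t Θ_y + Θ⁻_y Θ_y) = Bf (y-t) t`.
-/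
import Claimed.Agent.R269.S3.Gen

set_option autoImplicit false

namespace Claimed.Agent.R269.S3

open Real Complex ComplexConjugate

/-- momentum of the line `y`, seen from the next vertex. -/
noncomputable def pI (h : ℂ → ℂ) (Θ : ℂ → ℂ → ℂ) (y t : ℂ) : ℂ := pInC h (Θ y t) (Θ (y + t) t)

/-- momentum of the line `y`, seen from the previous vertex. -/
noncomputable def pO (h : ℂ → ℂ) (Θ : ℂ → ℂ → ℂ) (y t : ℂ) : ℂ := pOutC h (Θ (y - t) t) (Θ y t)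

/-- the coefficient of `dp ∧ dΘ` in the coordinates `(y,t)`. -/
noncomputable def Bf (h : ℂ → ℂ) (Θ : ℂ → ℂ → ℂ) (y t : ℂ) : ℂ :=
  S12 h (Θ y t) (Θ (y + t) t) *
    ((dy Θ (y + t) t + dt Θ (y + t) t) * dy Θ y t - dy Θ (y + t) t * dt Θ y t)

variable {h : ℂ → ℂ} {σ s d : ℝ} {Θ : ℂ → ℂ → ℂ}

theorem Rs_eq_pO_sub_pI (h : ℂ → ℂ) (Θ : ℂ → ℂ → ℂ) (y t : ℂ) :
    Rs h (fun x => Θ x t) t y = pO h Θ y t - pI h Θ y t := rfl

theorem area_mem0 {y t : ℂ} : (y, t) ∈ Dom 0 s d ↔ ‖t‖ < d ∧ |y.im| < s := by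
  simp only [Dom, Set.mem_ofPred_eq, zero_mul, sub_zero]

theorem area_mem1 {y t : ℂ} : (y, t) ∈ Dom 1 s d ↔ ‖t‖ < d ∧ |y.im| < s - |t.im| := by
  simp only [Dom, Set.mem_ofPred_eq, one_mul]

theorem area_self {z : ℂ × ℂ} (hz : z ∈ Dom 1 s d) : (z.1, z.2) ∈ Dom 0 s d := by
  obtain ⟨y, t⟩ := z
  rw [area_mem1] at hz
  rw [area_mem0]
  exact ⟨hz.1, by have := abs_nonneg t.im; linarith [hz.2]⟩

theorem area_add {z : ℂ × ℂ} (hz : z ∈ Dom 1 s d) : (z.1 + z.2, z.2) ∈ Dom 0 s d := by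
  obtain ⟨y, t⟩ := z
  rw [area_mem1] at hz
  rw [area_mem0]
  refine ⟨hz.1, ?_⟩
  rw [Complex.add_im]
  have := abs_add_le y.im t.im
  linarith [hz.2]

theorem area_sub {z : ℂ × ℂ} (hz : z ∈ Dom 1 s d) : (z.1 - z.2, z.2) ∈ Dom 0 s d := by
  obtain ⟨y, t⟩ := z
  rw [area_mem1] at hz
  rw [area_mem0]
  refine ⟨hz.1, ?_⟩
  rw [Complex.sub_im]
  have := abs_sub y.im t.im
  linarith [hz.2]

theorem area_mid {u v : ℂ} (hu : u ∈ hstrip σ) (hv : v ∈ hstrip σ) : (u + v) / 2 ∈ hstrip σ := by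
  have h := (convex_hstrip σ) hu hv (a := 1 / 2) (b := 1 / 2) (by norm_num) (by norm_num) (by norm_num)
  have e : (1 / 2 : ℝ) • u + (1 / 2 : ℝ) • v = (u + v) / 2 := by
    simp only [Complex.real_smul]; push_cast; ring
  rwa [e] at h

theorem area_hol_add {F : ℂ → ℂ → ℂ} (hF : Hol F (Dom 0 s d)) : Hol (fun y t => F (y + t) t) (Dom 1 s d) :=
  hol_comp (G₁ := fun y t => y + t) (G₂ := fun _ t => t) hF
    (differentiable_fst.add differentiable_snd).differentiableOn differentiable_snd.differentiableOn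
    (fun _ hz => area_add hz)

theorem area_hol_sub {F : ℂ → ℂ → ℂ} (hF : Hol F (Dom 0 s d)) : Hol (fun y t => F (y - t) t) (Dom 1 s d) :=
  hol_comp (G₁ := fun y t => y - t) (G₂ := fun _ t => t) hF
    (differentiable_fst.sub differentiable_snd).differentiableOn differentiable_snd.differentiableOn
    (fun _ hz => area_sub hz)

theorem area_hol_self {F : ℂ → ℂ → ℂ} (hF : Hol F (Dom 0 s d)) : Hol F (Dom 1 s d) :=
  hF.mono fun _ hz => area_self hz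

theorem hol_pI (hd : DifferentiableOn ℂ h (hstrip σ)) (hΘ : Hol Θ (Dom 0 s d))
    (hm : ∀ z ∈ Dom 0 s d, Θ z.1 z.2 ∈ hstrip σ) : Hol (pI h Θ) (Dom 1 s d) :=
  hol_comp (F := pInC h) (G₁ := Θ) (G₂ := fun y t => Θ (y + t) t) (hol_pInC hd)
    (area_hol_self hΘ) (area_hol_add hΘ)
    (fun _ hz => area_mid (hm _ (area_self hz)) (hm _ (area_add hz)))

theorem hol_pO (hd : DifferentiableOn ℂ h (hstrip σ)) (hΘ : Hol Θ (Dom 0 s d))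
    (hm : ∀ z ∈ Dom 0 s d, Θ z.1 z.2 ∈ hstrip σ) : Hol (pO h Θ) (Dom 1 s d) :=
  hol_comp (F := pOutC h) (G₁ := fun y t => Θ (y - t) t) (G₂ := Θ) (hol_pOutC hd)
    (area_hol_sub hΘ) (area_hol_self hΘ)
    (fun _ hz => area_mid (hm _ (area_sub hz)) (hm _ (area_self hz)))

theorem hol_Bf (hd : DifferentiableOn ℂ h (hstrip σ)) (hΘ : Hol Θ (Dom 0 s d))
    (hm : ∀ z ∈ Dom 0 s d, Θ z.1 z.2 ∈ hstrip σ) : Hol (Bf h Θ) (Dom 1 s d) := by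
  have h1 : Hol (dy Θ) (Dom 0 s d) := hol_dy (isOpen_Dom _ _ _) hΘ
  have h2 : Hol (dt Θ) (Dom 0 s d) := hol_dt (isOpen_Dom _ _ _) hΘ
  have hS : Hol (fun y t => S12 h (Θ y t) (Θ (y + t) t)) (Dom 1 s d) :=
    hol_comp (F := S12 h) (G₁ := Θ) (G₂ := fun y t => Θ (y + t) t) (hol_S12 hd)
      (area_hol_self hΘ) (area_hol_add hΘ)
      (fun _ hz => area_mid (hm _ (area_self hz)) (hm _ (area_add hz)))
  exact hS.mul ((((area_hol_add h1).add (area_hol_add h2)).mul (area_hol_self h1)).sub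
    ((area_hol_add h1).mul (area_hol_self h2)))

theorem area_hasDerivAt_y (hΘ : Hol Θ (Dom 0 s d)) {y t : ℂ} (h1 : (y, t) ∈ Dom 0 s d) :
    HasDerivAt (fun x => Θ x t) (dy Θ y t) y :=
  (hol_slice_y (isOpen_Dom _ _ _) hΘ h1).hasDerivAt

theorem area_hasDerivAt_t (hΘ : Hol Θ (Dom 0 s d)) {y t : ℂ} (h1 : (y, t) ∈ Dom 0 s d) :
    HasDerivAt (fun τ => Θ y τ) (dt Θ y t) t :=
  (hol_slice_t (isOpen_Dom _ _ _) hΘ h1).hasDerivAt

theorem area_hasDerivAt_add_t (hΘ : Hol Θ (Dom 0 s d)) {y t : ℂ} (h2 : (y + t, t) ∈ Dom 0 s d) :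
    HasDerivAt (fun τ => Θ (y + τ) τ) (dy Θ (y + t) t + dt Θ (y + t) t) t := by
  have h := hol_chain (isOpen_Dom _ _ _) hΘ (g₁ := fun τ => y + τ) (g₂ := fun τ => τ)
    ((hasDerivAt_id t).const_add y) (hasDerivAt_id t) h2
  simpa using h

theorem area_hasDerivAt_sub_t (hΘ : Hol Θ (Dom 0 s d)) {y t : ℂ} (h2 : (y - t, t) ∈ Dom 0 s d) :
    HasDerivAt (fun τ => Θ (y - τ) τ) (-dy Θ (y - t) t + dt Θ (y - t) t) t := by
  have h := hol_chain (isOpen_Dom _ _ _) hΘ (g₁ := fun τ => y - τ) (g₂ := fun τ => τ)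
    ((hasDerivAt_id t).const_sub y) (hasDerivAt_id t) h2
  simpa using h

theorem area_in (hd : DifferentiableOn ℂ h (hstrip σ)) (hΘ : Hol Θ (Dom 0 s d))
    (hm : ∀ z ∈ Dom 0 s d, Θ z.1 z.2 ∈ hstrip σ) {y t : ℂ} (h1 : (y, t) ∈ Dom 0 s d)
    (h2 : (y + t, t) ∈ Dom 0 s d) :
    dy (pI h Θ) y t * dt Θ y t - dt (pI h Θ) y t * dy Θ y t = Bf h Θ y t := by
  have hmid : (Θ y t + Θ (y + t) t) / 2 ∈ hstrip σ := area_mid (hm _ h1) (hm _ h2)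
  have k1 := hol_chain (isOpen_Mid _) (hol_pInC hd) (area_hasDerivAt_y hΘ h1)
    ((area_hasDerivAt_y hΘ h2).comp_add_const y t) hmid
  have k2 := hol_chain (isOpen_Mid _) (hol_pInC hd) (area_hasDerivAt_t hΘ h1)
    (area_hasDerivAt_add_t hΘ h2) hmid
  have k3 : dt (pInC h) (Θ y t) (Θ (y + t) t) = -S12 h (Θ y t) (Θ (y + t) t) :=
    (hasDerivAt_pInC_right hd hmid).deriv
  have e1 : dy (pI h Θ) y t = _ := k1.deriv
  have e2 : dt (pI h Θ) y t = _ := k2.deriv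
  rw [e1, e2, k3]
  simp only [Bf]
  ring

theorem area_out (hd : DifferentiableOn ℂ h (hstrip σ)) (hΘ : Hol Θ (Dom 0 s d))
    (hm : ∀ z ∈ Dom 0 s d, Θ z.1 z.2 ∈ hstrip σ) {y t : ℂ} (h1 : (y, t) ∈ Dom 0 s d)
    (h2 : (y - t, t) ∈ Dom 0 s d) :
    dy (pO h Θ) y t * dt Θ y t - dt (pO h Θ) y t * dy Θ y t = Bf h Θ (y - t) t := by
  have hmid : (Θ (y - t) t + Θ y t) / 2 ∈ hstrip σ := area_mid (hm _ h2) (hm _ h1)
  have k1 := hol_chain (isOpen_Mid _) (hol_pOutC hd) ((area_hasDerivAt_y hΘ h2).comp_sub_const y t)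
    (area_hasDerivAt_y hΘ h1) hmid
  have k2 := hol_chain (isOpen_Mid _) (hol_pOutC hd) (area_hasDerivAt_sub_t hΘ h2)
    (area_hasDerivAt_t hΘ h1) hmid
  have k3 : dy (pOutC h) (Θ (y - t) t) (Θ y t) = S12 h (Θ (y - t) t) (Θ y t) :=
    (hasDerivAt_pOutC_left hd hmid).deriv
  have e1 : dy (pO h Θ) y t = _ := k1.deriv
  have e2 : dt (pO h Θ) y t = _ := k2.deriv
  rw [e1, e2, k3]
  simp only [Bf, sub_add_cancel]
  ring

end Claimed.Agent.R269.S3
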