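/-
Row 269, Section 3 of P1 (03-joint.tex): joint glancing parametrisation.  Shared definitions.
Owner of this file: helper228 (sub-captain of Section 3).  Only the owner changes it.

DESIGN (v2, 07:45 UTC).  The scheme is the Newton scheme of the text, but FOUR parts of the text are gone:
 (a) no exact rational solution `U_*`, no inverse maps, no "assigned parameter jets" (P1 l.330-435),
     `GlancingRigid.unique` is not used;
 (b) no mode-by-mode comparison at the resonances (P1 l.585-625);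
 (c) no formal initial data (P1 Lemma 3.6);
 (d) no collar coordinates by the inverse function theorem (P1 l.780-795, not needed by `Glance`).
What replaces them:
 (a) FIRST compatibility: the orbit sum `∑_{j<q} E(y + j t₀, t₀)` at `t₀ = 2π l/q` is `O(ε²)`: it is the
     `y`-derivative of `W(x(y)) - W(X(y))`, `W` = action of a closed chain, `X(y)` = exact closed chain near the
     approximate one `x_j = Θ(y + j t₀, t₀)` (Dirichlet problem + `closes`); `X` is critical, so the difference is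
     quadratic (unit D, `RatSum.lean`);
 (b) SECOND compatibility: a consequence of the first one and of the IDENTITY (area preservation)
        `E_t + 3E/t - (E z)_y = ∂(a ∂z + a/t)`,   `z = Θ_t / Θ_y`,
     valid for EVERY candidate, by finite summations by parts along the orbit (unit `Compat.lean`, host-free);
 (c) parameter radii shrink by RELATIVE amounts `d ↦ d (1 - 20 δ)`, `δ` = loss of `y`-width, independent of `d`.
     Then all costs are polynomial in `Q = 1 + N + 1/δ` (a resonance `|t₀| < d` with `q ≤ N` forces `1/d < N`), and the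
     trivial candidate `Θ = φ`, with `E = O(d)`, starts the iteration if `d` is small.
* We work with the ANGLE `Θ = φ ∘ U` and with the explicit formulas `pInC`, `pOutC` of Glance.lean:
     `c · U' · R(U) = Θ' · (pOut(T₋ₜΘ, Θ) - pIn(Θ, TₜΘ))`,   `D₁₂ U'₋ U'₊ = S₁₂(Θ₋,Θ₊) Θ'₋ Θ'₊ / c`.
* All candidates satisfy `Θ(y,0) = φ(y)`; hence `E(y,0) = 0`, `a(y,0) = 1/4` (definitions below).
* All nonlinear facts are SLICE facts: `t` fixed, `f = Θ(·,t) : ℂ → ℂ`.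
* Second order remainders come from Cauchy estimates in an auxiliary complex parameter.
-/
import Claimed.Agent.R269.Glance

set_option autoImplicit false

namespace Claimed.Agent.R269.S3

open Real Complex ComplexConjugate

/-- radius of curvature `r = h + h''`. -/
noncomputable def rad (h : ℂ → ℂ) (z : ℂ) : ℂ := h z + deriv (deriv h) z

/-- `S₁₂(θ,θ') = r(ψ) sin d / 2` (P1 (2.2)). -/
noncomputable def S12 (h : ℂ → ℂ) (θ θ' : ℂ) : ℂ :=
  rad h ((θ + θ') / 2) * Complex.sin ((θ' - θ) / 2) / 2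

/-- The generating function `S(θ,θ') = 2 h(ψ) sin d` (P1 (2.1)); `S₁ = -pIn`, `S₂ = pOut`. -/
noncomputable def Sgen (h : ℂ → ℂ) (θ θ' : ℂ) : ℂ :=
  2 * h ((θ + θ') / 2) * Complex.sin ((θ' - θ) / 2)

/-- The fixed data of Section 3: holomorphic support function, Lazutkin coordinate `φ`
(`θ = φ x`, `r(φ x) φ'(x)^3 = c`), a few fixed bounds, and the collar property. -/
structure Base where
  hc : ℂ → ℂ
  σ : ℝ
  σ_pos : 0 < σ
  hc_diff : DifferentiableOn ℂ hc (hstrip σ)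
  hc_per : ∀ z ∈ hstrip σ, hc (z + 2 * π) = hc z
  hc_conj : ∀ z ∈ hstrip σ, hc (conj z) = conj (hc z)
  Mh : ℝ
  hc_bdd : ∀ z ∈ hstrip σ, ‖hc z‖ ≤ Mh
  rad_pos : ∀ x : ℝ, 0 < (rad hc x).re
  c : ℝ
  c_pos : 0 < c
  φ : ℂ → ℂ
  s₀ : ℝ
  s₀_pos : 0 < s₀
  φ_diff : DifferentiableOn ℂ φ (hstrip s₀)
  φ_per : ∀ z ∈ hstrip s₀, φ (z + 2 * π) = φ z + 2 * π
  φ_conj : ∀ z ∈ hstrip s₀, φ (conj z) = conj (φ z)
  φ_maps : ∀ z ∈ hstrip s₀, φ z ∈ hstrip (σ / 4)
  Mφ : ℝ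
  mφ : ℝ
  mφ_pos : 0 < mφ
  φ'_le : ∀ z ∈ hstrip s₀, ‖deriv φ z‖ ≤ Mφ
  φ'_ge : ∀ z ∈ hstrip s₀, mφ ≤ ‖deriv φ z‖
  φ'_pos : ∀ x : ℝ, 0 < (deriv φ x).re
  normal : ∀ z ∈ hstrip s₀, rad hc (φ z) * deriv φ z ^ 3 = c
  rigid : GlancingRigid (fun θ : ℝ => (hc θ).re)

/-- the real support function. -/
noncomputable def Base.hR (B : Base) (θ : ℝ) : ℝ := (B.hc θ).re

/-! ### Slice operators (`t` fixed, `f = Θ(·,t)`) -/

/-- stationarity defect at the vertex `y`: `pOut(f(y-t), f y) - pIn(f y, f(y+t))`. -/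
noncomputable def Rs (h : ℂ → ℂ) (f : ℂ → ℂ) (t y : ℂ) : ℂ :=
  pOutC h (f (y - t)) (f y) - pInC h (f y) (f (y + t))

/-- normalised residual `E = t⁻³ U' R(U)` (P1 (3.5)), `t ≠ 0`. -/
noncomputable def Es (B : Base) (f : ℂ → ℂ) (t y : ℂ) : ℂ :=
  deriv f y * Rs B.hc f t y / (B.c * t ^ 3)

/-- coefficient `a` of the linearised equation (P1 (3.6)), `t ≠ 0`. -/
noncomputable def As (B : Base) (f : ℂ → ℂ) (t y : ℂ) : ℂ :=
  S12 B.hc (f (y - t / 2)) (f (y + t / 2)) * deriv f (y - t / 2) * deriv f (y + t / 2) / (B.c * t)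

/-- the difference operator `∂ v = (T_{t/2} v - T_{-t/2} v)/t`, `t ≠ 0`. -/
noncomputable def ds (t : ℂ) (v : ℂ → ℂ) (y : ℂ) : ℂ := (v (y + t / 2) - v (y - t / 2)) / t

/-! ### Two-variable versions, with the correct values at `t = 0` -/

/-- `y`-derivative. -/
noncomputable def dy (F : ℂ → ℂ → ℂ) (y t : ℂ) : ℂ := deriv (fun x => F x t) y

/-- `t`-derivative. -/
noncomputable def dt (F : ℂ → ℂ → ℂ) (y t : ℂ) : ℂ := deriv (fun τ => F y τ) t

/-- `E(Θ)(y,t)`; it is `0` at `t = 0` (all candidates have `Θ(·,0) = φ`). -/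
noncomputable def E (B : Base) (Θ : ℂ → ℂ → ℂ) (y t : ℂ) : ℂ :=
  if t = 0 then 0 else Es B (fun x => Θ x t) t y

/-- `a(Θ)(y,t)`; it is `1/4` at `t = 0`. -/
noncomputable def A (B : Base) (Θ : ℂ → ℂ → ℂ) (y t : ℂ) : ℂ :=
  if t = 0 then 1 / 4 else As B (fun x => Θ x t) t y

/-- `∂ v (y,t)`; at `t = 0` it is `v'`. -/
noncomputable def dd (v : ℂ → ℂ → ℂ) (y t : ℂ) : ℂ :=
  if t = 0 then dy v y 0 else ds t (fun x => v x t) y

/-- the slanted domains `𝒟^ν(s,d)` (P1 (3.10)). -/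
def Dom (ν s d : ℝ) : Set (ℂ × ℂ) := {z | ‖z.2‖ < d ∧ |z.1.im| < s - ν * |z.2.im|}

/-- a strip times a small disc around the real parameter `t₀`. -/
def Wd (s t₀ r : ℝ) : Set (ℂ × ℂ) := hstrip s ×ˢ Metric.ball (t₀ : ℂ) r

/-- joint holomorphy. -/
def Hol (F : ℂ → ℂ → ℂ) (Ω : Set (ℂ × ℂ)) : Prop :=
  DifferentiableOn ℂ (fun z : ℂ × ℂ => F z.1 z.2) Ω

/-- sup bound on a set of `ℂ × ℂ`. -/
def Bd (F : ℂ → ℂ → ℂ) (Ω : Set (ℂ × ℂ)) (M : ℝ) : Prop := ∀ z ∈ Ω, ‖F z.1 z.2‖ ≤ M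

/-- bound for `F` and its first `k` derivatives in `y`. -/
def BdC (k : ℕ) (F : ℂ → ℂ → ℂ) (Ω : Set (ℂ × ℂ)) (M : ℝ) : Prop :=
  ∀ j ≤ k, ∀ z ∈ Ω, ‖iteratedDeriv j (fun x => F x z.2) z.1‖ ≤ M

/-- `2π`-periodicity in `y`. -/
def Per (F : ℂ → ℂ → ℂ) (Ω : Set (ℂ × ℂ)) : Prop := ∀ z ∈ Ω, F (z.1 + 2 * π) z.2 = F z.1 z.2

/-- symmetries: periodic in `y`, even in `t`, real. -/
structure Sym (F : ℂ → ℂ → ℂ) (Ω : Set (ℂ × ℂ)) : Prop where
  per : Per F Ω
  even : ∀ z ∈ Ω, F z.1 (-z.2) = F z.1 z.2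
  real : ∀ z ∈ Ω, F (conj z.1) (conj z.2) = conj (F z.1 z.2)

/-- A candidate on `𝒟^0(s,d) = hstrip s × ball 0 d`: `Θ - φ` is holomorphic, periodic, even, real,
vanishes at `t = 0`, and is `κ`-small with three `y`-derivatives. -/
structure Cand (B : Base) (s d κ : ℝ) (Θ : ℂ → ℂ → ℂ) : Prop where
  hol : Hol Θ (Dom 0 s d)
  sym : Sym (fun y t => Θ y t - B.φ y) (Dom 0 s d)
  zero : ∀ y ∈ hstrip s, Θ y 0 = B.φ y
  small : BdC 3 (fun y t => Θ y t - B.φ y) (Dom 0 s d) κ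

/-- An admissible slice: no symmetry, no parameter. -/
structure Slice (B : Base) (s κ : ℝ) (f : ℂ → ℂ) : Prop where
  diff : DifferentiableOn ℂ f (hstrip s)
  per : ∀ y ∈ hstrip s, f (y + 2 * π) = f y + 2 * π
  small : ∀ j ≤ 3, ∀ y ∈ hstrip s, ‖iteratedDeriv j (fun x => f x - B.φ x) y‖ ≤ κ

/-- a periodic holomorphic variation of `C³`-size `μ` on `hstrip s`. -/
structure Var (s μ : ℝ) (V : ℂ → ℂ) : Prop where
  diff : DifferentiableOn ℂ V (hstrip s)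
  per : ∀ y ∈ hstrip s, V (y + 2 * π) = V y
  small : ∀ j ≤ 3, ∀ y ∈ hstrip s, ‖iteratedDeriv j V y‖ ≤ μ

/-- An exact solution: the output of the Newton scheme. -/
structure Sol (B : Base) (s d κ : ℝ) (Θ : ℂ → ℂ → ℂ) : Prop where
  hol : Hol Θ (Dom 0 s d)
  sym : Sym (fun y t => Θ y t - B.φ y) (Dom 0 s d)
  zero : ∀ y ∈ hstrip s, Θ y 0 = B.φ y
  small : Bd (fun y t => Θ y t - B.φ y) (Dom 0 s d) κ
  stat : ∀ z ∈ Dom 1 s d, Rs B.hc (fun x => Θ x z.2) z.2 z.1 = 0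

/-- `n`-th Fourier coefficient of a `2π`-periodic function. -/
noncomputable def fc (n : ℤ) (g : ℂ → ℂ) : ℂ :=
  (2 * π)⁻¹ * ∫ x in (0 : ℝ)..(2 * π), g x * Complex.exp (-(n * x * Complex.I))

/-- mean over a real period. -/
noncomputable def mean (g : ℂ → ℂ) : ℂ := fc 0 g

/-- the orbit sum `∑_{j<q} g(y + j t₀)`. -/
noncomputable def osum (q : ℕ) (t₀ : ℝ) (g : ℂ → ℂ) (y : ℂ) : ℂ :=
  ∑ j ∈ Finset.range q, g (y + j * (t₀ : ℂ))

/-- the divisor `d_n(t) = 2 i sin(n t/2)/t`, `d_n(0) = i n`. -/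
noncomputable def dn (n : ℤ) (t : ℂ) : ℂ :=
  if t = 0 then Complex.I * n else 2 * Complex.I * Complex.sin (n * t / 2) / t

/-- `Q = 1 + N + δ⁻¹`. -/
noncomputable def QQ (N : ℕ) (δ : ℝ) : ℝ := 1 + N + δ⁻¹

/-- the rational parameter `2π l/q`. -/
noncomputable def rat (l q : ℕ) : ℝ := 2 * π * l / q

end Claimed.Agent.R269.S3
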