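/-
Row 269, Section 3: the UNIT EXPORTS (as `Prop`-valued definitions) of the blueprint, v2.
Owner: helper228.  A unit owner proves the theorem of his unit file (`Prelim.lean`, `Factor.lean`, ...).

  A  Prelim    StPrelim                      analytic h  ⇒  Base      (strip extension, Lazutkin coordinate)
  C  Factor    StFactor = ∃ s₁ κ K, Good     P1 Lemma 3.2 (slice facts, joint holomorphy, area identity)
  D  RatSum    StRatSum                      first compatibility (replaces P1 Lemma 3.4)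
  E  Division  StDivision                    P1 Lemma 3.5 (buffered Fourier division)
  K  Compat    StCompat                      second compatibility (replaces P1 l.330-435 and l.585-625); host-free
  F  Newton    StNewton                      P1 Prop 3.3
  H  Conv      StMain                        convergence of the scheme (no formal initial data)
  I  Collar    StCollar                      line coordinates, area form ⇒ Glance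
-/
import Claimed.Agent.R269.S3.Defs

set_option autoImplicit false

namespace Claimed.Agent.R269.S3

open Real Complex ComplexConjugate

/-- **Unit A.** -/
def StPrelim : Prop :=
  ∀ h : ℝ → ℝ, IsSupport h → GlancingRigid h → AnalyticOnNhd ℝ h Set.univ →
    ∃ B : Base, ∀ θ : ℝ, B.hc θ = h θ

/-- first variation of the slice residual in the direction `V`. -/
noncomputable def DEs (B : Base) (f V : ℂ → ℂ) (t y : ℂ) : ℂ :=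
  deriv (fun e : ℂ => Es B (fun x => f x + e * V x) t y) 0

/-- `z = Θ_t / Θ_y`. -/
noncomputable def zz (Θ : ℂ → ℂ → ℂ) (y t : ℂ) : ℂ := dt Θ y t / dy Θ y t

/-- **Unit C** (P1 Lemma 3.2).  `s₁`: maximal width (also bounds `|t|`), `κ`: the fixed smallness of
candidates (`2κ`-slices are still admissible), `K`: one constant for all bounds. -/
structure Good (B : Base) (s₁ κ K : ℝ) : Prop where
  s₁_pos : 0 < s₁
  s₁_le : 2 * s₁ ≤ B.s₀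
  s₁_le_one : s₁ ≤ 1
  κ_pos : 0 < κ
  κ_le_σ : 16 * κ ≤ B.σ
  κ_le_m : 8 * κ ≤ B.mφ
  K_ge : 1 ≤ K
  /-- uniform bound of the normalised residual (no negative power of `t`). -/
  Es_bd : ∀ s ≤ s₁, ∀ f, Slice B s (2 * κ) f → ∀ t y : ℂ, t ≠ 0 → ‖t‖ < s₁ →
    |y.im| + |t.im| < s → ‖Es B f t y‖ ≤ K
  /-- `4a` is close to one. -/
  As_close : ∀ s ≤ s₁, ∀ f, Slice B s (2 * κ) f → ∀ t y : ℂ, t ≠ 0 → ‖t‖ < s₁ →
    |y.im| + |t.im| / 2 < s → ‖4 * As B f t y - 1‖ ≤ 1 / 10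
  /-- Lipschitz bound. -/
  Es_lip : ∀ s ≤ s₁, ∀ f, Slice B s κ f → ∀ μ V, μ ≤ κ / 2 → Var s μ V → ∀ t y : ℂ, t ≠ 0 →
    ‖t‖ < s₁ → |y.im| + |t.im| < s →
    ‖Es B (fun x => f x + V x) t y - Es B f t y‖ ≤ K * μ
  /-- second order remainder. -/
  Es_rem : ∀ s ≤ s₁, ∀ f, Slice B s κ f → ∀ μ V, μ ≤ κ / 2 → Var s μ V → ∀ t y : ℂ, t ≠ 0 →
    ‖t‖ < s₁ → |y.im| + |t.im| < s →
    ‖Es B (fun x => f x + V x) t y - Es B f t y - DEs B f V t y‖ ≤ K * μ ^ 2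
  /-- automatic factorisation P1 (3.8): `E_U(U'v) = ∂(a ∂v) + (E v)'`. -/
  lin : ∀ s ≤ s₁, ∀ f, Slice B s (2 * κ) f → ∀ v, DifferentiableOn ℂ v (hstrip s) →
    ∀ t y : ℂ, t ≠ 0 → ‖t‖ < s₁ → |y.im| + |t.im| < s →
    DEs B f (fun x => deriv f x * v x) t y
      = ds t (fun x => As B f t x * ds t v x) y + deriv (fun x => Es B f t x * v x) y
  /-- the mean of `E` vanishes. -/
  Es_mean : ∀ s ≤ s₁, ∀ f, Slice B s (2 * κ) f → ∀ t : ℂ, t ≠ 0 → ‖t‖ < s₁ → |t.im| < s →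
    mean (Es B f t) = 0
  /-- the trivial candidate `φ` has a residual `O(t)`. -/
  Es_phi : ∀ t y : ℂ, t ≠ 0 → ‖t‖ < s₁ → |y.im| + |t.im| < s₁ → ‖Es B B.φ t y‖ ≤ K * ‖t‖
  /-- joint holomorphy, including `t = 0`. -/
  E_hol : ∀ s ≤ s₁, ∀ d ≤ s₁, ∀ Θ, Cand B s d (2 * κ) Θ → Hol (E B Θ) (Dom 1 s d)
  A_hol : ∀ s ≤ s₁, ∀ d ≤ s₁, ∀ Θ, Cand B s d (2 * κ) Θ → Hol (A B Θ) (Dom (1 / 2) s d)
  E_sym : ∀ s ≤ s₁, ∀ d ≤ s₁, ∀ Θ, Cand B s d (2 * κ) Θ → Sym (E B Θ) (Dom 1 s d)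
  A_sym : ∀ s ≤ s₁, ∀ d ≤ s₁, ∀ Θ, Cand B s d (2 * κ) Θ → Sym (A B Θ) (Dom (1 / 2) s d)
  /-- the area identity `E_t + 3E/t - (E z)_y = ∂(a ∂z + a/t)`, `z = Θ_t/Θ_y`, for EVERY candidate. -/
  symp : ∀ s ≤ s₁, ∀ d ≤ s₁, ∀ Θ, Cand B s d (2 * κ) Θ → ∀ w ∈ Dom 1 s d, w.2 ≠ 0 →
    dt (E B Θ) w.1 w.2 = -3 * E B Θ w.1 w.2 / w.2
      + dy (fun y t => E B Θ y t * zz Θ y t) w.1 w.2
      + dd (fun y t => A B Θ y t * (dd (zz Θ) y t + 1 / t)) w.1 w.2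
  /-- the collar property for steps `< 4 Mφ s₁`. -/
  closes : ∀ (q l : ℕ) (θ : ℕ → ℝ), IsChain B.hR (4 * B.Mφ * s₁) (q + 1) θ →
    θ (q + 1) = θ 0 + 2 * π * l → pOut B.hR (θ q) (θ (q + 1)) = pIn B.hR (θ 0) (θ 1)

/-- **Unit C**, export. -/
def StFactor (B : Base) : Prop := ∃ s₁ κ K : ℝ, Good B s₁ κ K

/-- **Unit D** (first compatibility; a statement on ONE real-symmetric slice at `t₀ = 2π l/q > 0`; `l/q` need not be
reduced).  If `|E| ≤ ε` on the strip, the orbit sum of `E` is `O(ε²)`. -/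
def RatSumC (B : Base) (s₁ κ : ℝ) (C : ℝ) (b : ℕ) : Prop :=
  ∀ (s δ ε : ℝ) (f : ℂ → ℂ) (l q : ℕ),
    s ≤ s₁ → 0 < δ → 2 * δ < s → Slice B s κ f → (∀ y ∈ hstrip s, f (conj y) = conj (f y)) →
    0 < l → 0 < q → rat l q < s₁ → 0 ≤ ε →
    (∀ y ∈ hstrip s, ‖Es B f (rat l q : ℝ) y‖ ≤ ε) →
    C * (q + δ⁻¹) ^ b * ε ≤ 1 →
    ∀ y ∈ hstrip (s - 2 * δ), ‖osum q (rat l q) (Es B f (rat l q : ℝ)) y‖ ≤ C * (q + δ⁻¹) ^ b * ε ^ 2

/-- **Unit D**, export. -/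
def StRatSum (B : Base) (s₁ κ : ℝ) : Prop := ∃ (C : ℝ) (b : ℕ), RatSumC B s₁ κ C b

/-- **Unit E** (P1 Lemma 3.5, buffered Fourier division).  Input on `𝒟^ν(s,d)`; the values of the
retained Fourier modes at the divisor zeros `2π j/n` of modulus `< d'` are `≤ η e^{-|n| s'}`;
output on `𝒟^{ν-1/2}(s'-δ, d'-r)`.  `δ`: loss of width, `r ≥ δ d`: parameter buffer. -/
def DivisionC (C : ℝ) (b : ℕ) : Prop :=
  ∀ (ν s s' d d' δ r M η : ℝ) (N : ℕ) (F : ℂ → ℂ → ℂ),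
    (ν = 1 / 2 ∨ ν = 1) → 0 < δ → δ ≤ 1 → 0 < d → s' ≤ s → d ≤ 1 → d ≤ s' → δ * d ≤ r → d' + r ≤ d → r < d' →
    1 ≤ N → 0 ≤ M → 0 ≤ η →
    Hol F (Dom ν s d) → Per F (Dom ν s d) → Bd F (Dom ν s d) M →
    (∀ t : ℂ, ‖t‖ < d → mean (fun y => F y t) = 0) →
    (∀ n : ℤ, n ≠ 0 → |n| ≤ N → ∀ j : ℤ, j ≠ 0 → |2 * π * j / n| < d' →
      ‖fc n (fun y => F y ((2 * π * j / n : ℝ) : ℂ))‖ ≤ η * Real.exp (-(|n| * s'))) →
    ∃ H : ℂ → ℂ → ℂ,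
      Hol H (Set.univ ×ˢ Metric.ball 0 (d' - r)) ∧
      Per H Set.univ ∧
      (∀ t : ℂ, ‖t‖ < d' - r → mean (fun y => H y t) = 0) ∧
      Bd H (Dom (ν - 1 / 2) (s' - δ) (d' - r)) (C * QQ N δ ^ b * (M + η)) ∧
      Bd (fun y t => dd H y t - F y t) (Dom ν (s' - δ) (d' - r))
        (C * QQ N δ ^ b * (η + M * Real.exp (-(N * δ)))) ∧
      (Sym F (Dom ν s d) → Sym H (Set.univ ×ˢ Metric.ball 0 (d' - r))) ∧
      ((∀ y ∈ hstrip s, F y 0 = 0) → ∀ y, H y 0 = 0)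

/-- **Unit E**, export. -/
def StDivision : Prop := ∃ (C : ℝ) (b : ℕ), DivisionC C b

/-- **Unit K** (second compatibility, abstract and host-free).  Near the real parameter `t₀ = 2π l/q`:
`∂h = -E - ρ`, the area identity for `(E, a, z)`, `E, h = O(ε)`, `ρ = O(ε²)`, orbit sum of `E` `= O(ε²)`.
Then the orbit sum of `(h + λ)/a` is `O(ε²)` if its mean vanishes. -/
def CompatC (C : ℝ) (b : ℕ) : Prop :=
  ∀ (s δ r ε P : ℝ) (l q : ℕ) (Ef h ρ a z : ℂ → ℂ → ℂ) (lam : ℂ),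
    0 < δ → 10 * δ < s → s ≤ 1 → 0 < l → 0 < q → rat l q ≤ 1 → 0 < r → r ≤ δ → 2 * r ≤ rat l q →
    1 ≤ P → 0 ≤ ε →
    Hol Ef (Wd s (rat l q) r) → Hol h (Wd s (rat l q) r) → Hol ρ (Wd s (rat l q) r) →
    Hol a (Wd s (rat l q) r) → Hol z (Wd s (rat l q) r) →
    Per Ef (Wd s (rat l q) r) → Per h (Wd s (rat l q) r) → Per ρ (Wd s (rat l q) r) →
    Per a (Wd s (rat l q) r) → Per z (Wd s (rat l q) r) →
    Bd Ef (Wd s (rat l q) r) ε → Bd h (Wd s (rat l q) r) (P * ε) → Bd ρ (Wd s (rat l q) r) (P * ε ^ 2) →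
    Bd z (Wd s (rat l q) r) P → (∀ w ∈ Wd s (rat l q) r, ‖4 * a w.1 w.2 - 1‖ ≤ 1 / 10) →
    (∀ w ∈ Wd (s - δ) (rat l q) r, dd h w.1 w.2 = -Ef w.1 w.2 - ρ w.1 w.2) →
    (∀ w ∈ Wd (s - 2 * δ) (rat l q) r,
      dt Ef w.1 w.2 = -3 * Ef w.1 w.2 / w.2 + dy (fun y t => Ef y t * z y t) w.1 w.2
        + dd (fun y t => a y t * (dd z y t + 1 / t)) w.1 w.2) →
    (∀ y ∈ hstrip s, ‖osum q (rat l q) (fun x => Ef x (rat l q : ℝ)) y‖ ≤ P * ε ^ 2) →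
    ‖lam‖ ≤ P * ε → mean (fun x => (h x (rat l q : ℝ) + lam) / a x (rat l q : ℝ)) = 0 →
    C * (P + q + δ⁻¹ + r⁻¹) ^ b * ε ≤ 1 →
    ∀ y ∈ hstrip (s - 10 * δ),
      ‖osum q (rat l q) (fun x => (h x (rat l q : ℝ) + lam) / a x (rat l q : ℝ)) y‖
        ≤ C * (P + q + δ⁻¹ + r⁻¹) ^ b * ε ^ 2

/-- **Unit K**, export. -/
def StCompat : Prop := ∃ (C : ℝ) (b : ℕ), CompatC C b

/-- the standing hypotheses of the Newton step (P1 Prop 3.3), without the smallness condition. -/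
structure Step (B : Base) (s₁ κ : ℝ) (s d δ ε : ℝ) (N : ℕ) (Θ : ℂ → ℂ → ℂ) : Prop where
  s_le : s ≤ s₁
  d_pos : 0 < d
  d_lt : 2 * d < s
  δ_pos : 0 < δ
  δ_lt : 100 * δ < s
  cand : Cand B s d κ Θ
  ε_pos : 0 < ε
  ε_lt : ε < 1
  err : Bd (E B Θ) (Dom 1 s d) ε
  N_pos : 1 ≤ N
  tail : Real.exp (-(N * δ)) ≤ ε

/-- **Unit F** (P1 Prop 3.3, a Newton step across all retained resonances).  Width `s ↦ s - 20 δ`, parameter radius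
`d ↦ d (1 - 20 δ)`; cost polynomial in `Q = 1 + N + 1/δ`, INDEPENDENT of `d`. -/
def NewtonC (B : Base) (s₁ κ : ℝ) (C : ℝ) (b : ℕ) : Prop :=
  ∀ (s d δ ε : ℝ) (N : ℕ) (Θ : ℂ → ℂ → ℂ), Step B s₁ κ s d δ ε N Θ →
    C * QQ N δ ^ b * ε ≤ 1 →
    ∃ Δ : ℂ → ℂ → ℂ,
      Hol Δ (Dom 0 (s - 20 * δ) (d * (1 - 20 * δ))) ∧ Sym Δ (Dom 0 (s - 20 * δ) (d * (1 - 20 * δ))) ∧
      (∀ y ∈ hstrip (s - 20 * δ), Δ y 0 = 0) ∧
      BdC 3 Δ (Dom 0 (s - 20 * δ) (d * (1 - 20 * δ))) (C * QQ N δ ^ b * ε) ∧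
      Bd (E B (fun y t => Θ y t + Δ y t)) (Dom 1 (s - 20 * δ) (d * (1 - 20 * δ)))
        (C * QQ N δ ^ b * ε ^ 2)

/-- **Unit F**, export. -/
def StNewton (B : Base) (s₁ κ : ℝ) : Prop := ∃ (C : ℝ) (b : ℕ), NewtonC B s₁ κ C b

/-- **Unit H**: the exact solution. -/
def StMain (B : Base) : Prop :=
  ∃ (s d κ : ℝ) (Θ : ℂ → ℂ → ℂ), 0 < d ∧ 2 * d < s ∧ s ≤ B.s₀ ∧ 8 * κ ≤ B.σ ∧ Sol B s d κ Θ

/-- **Unit I** (P1 l.752-815). -/
def StCollar : Prop :=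
  ∀ (B : Base) (s d κ : ℝ) (Θ : ℂ → ℂ → ℂ), 0 < d → 2 * d < s → s ≤ B.s₀ → 8 * κ ≤ B.σ →
    Sol B s d κ Θ → ∃ G : Glance, G.hc = B.hc

end Claimed.Agent.R269.S3
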