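/-
Row 269, Section 3, UNIT C: names for the fields of `Good` (S3/Stmt.lean), and the basic smallness `Pre`.   Owner: helper228.
-/
import Claimed.Agent.R269.S3.Stmt

set_option autoImplicit false

namespace Claimed.Agent.R269.S3

open Real Complex ComplexConjugate

/-- the basic smallness conditions. -/
structure Pre (B : Base) (s₁ κ : ℝ) : Prop where
  s₁_pos : 0 < s₁
  s₁_le : 2 * s₁ ≤ B.s₀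
  s₁_le_one : s₁ ≤ 1
  κ_pos : 0 < κ
  κ_le_σ : 16 * κ ≤ B.σ
  κ_le_m : 8 * κ ≤ B.mφ

def FEsBd (B : Base) (s₁ κ K : ℝ) : Prop :=
  ∀ s ≤ s₁, ∀ f, Slice B s (2 * κ) f → ∀ t y : ℂ, t ≠ 0 → ‖t‖ < s₁ →
    |y.im| + |t.im| < s → ‖Es B f t y‖ ≤ K

def FAsClose (B : Base) (s₁ κ : ℝ) : Prop :=
  ∀ s ≤ s₁, ∀ f, Slice B s (2 * κ) f → ∀ t y : ℂ, t ≠ 0 → ‖t‖ < s₁ →
    |y.im| + |t.im| / 2 < s → ‖4 * As B f t y - 1‖ ≤ 1 / 10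

def FEsLip (B : Base) (s₁ κ K : ℝ) : Prop :=
  ∀ s ≤ s₁, ∀ f, Slice B s κ f → ∀ μ V, μ ≤ κ / 2 → Var s μ V → ∀ t y : ℂ, t ≠ 0 →
    ‖t‖ < s₁ → |y.im| + |t.im| < s →
    ‖Es B (fun x => f x + V x) t y - Es B f t y‖ ≤ K * μ

def FEsRem (B : Base) (s₁ κ K : ℝ) : Prop :=
  ∀ s ≤ s₁, ∀ f, Slice B s κ f → ∀ μ V, μ ≤ κ / 2 → Var s μ V → ∀ t y : ℂ, t ≠ 0 →
    ‖t‖ < s₁ → |y.im| + |t.im| < s →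
    ‖Es B (fun x => f x + V x) t y - Es B f t y - DEs B f V t y‖ ≤ K * μ ^ 2

def FLin (B : Base) (s₁ κ : ℝ) : Prop :=
  ∀ s ≤ s₁, ∀ f, Slice B s (2 * κ) f → ∀ v, DifferentiableOn ℂ v (hstrip s) →
    ∀ t y : ℂ, t ≠ 0 → ‖t‖ < s₁ → |y.im| + |t.im| < s →
    DEs B f (fun x => deriv f x * v x) t y
      = ds t (fun x => As B f t x * ds t v x) y + deriv (fun x => Es B f t x * v x) y

def FMean (B : Base) (s₁ κ : ℝ) : Prop :=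
  ∀ s ≤ s₁, ∀ f, Slice B s (2 * κ) f → ∀ t : ℂ, t ≠ 0 → ‖t‖ < s₁ → |t.im| < s →
    mean (Es B f t) = 0

def FEsPhi (B : Base) (s₁ K : ℝ) : Prop :=
  ∀ t y : ℂ, t ≠ 0 → ‖t‖ < s₁ → |y.im| + |t.im| < s₁ → ‖Es B B.φ t y‖ ≤ K * ‖t‖

def FEHol (B : Base) (s₁ κ : ℝ) : Prop :=
  ∀ s ≤ s₁, ∀ d ≤ s₁, ∀ Θ, Cand B s d (2 * κ) Θ → Hol (E B Θ) (Dom 1 s d)

def FAHol (B : Base) (s₁ κ : ℝ) : Prop :=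
  ∀ s ≤ s₁, ∀ d ≤ s₁, ∀ Θ, Cand B s d (2 * κ) Θ → Hol (A B Θ) (Dom (1 / 2) s d)

def FESym (B : Base) (s₁ κ : ℝ) : Prop :=
  ∀ s ≤ s₁, ∀ d ≤ s₁, ∀ Θ, Cand B s d (2 * κ) Θ → Sym (E B Θ) (Dom 1 s d)

def FASym (B : Base) (s₁ κ : ℝ) : Prop :=
  ∀ s ≤ s₁, ∀ d ≤ s₁, ∀ Θ, Cand B s d (2 * κ) Θ → Sym (A B Θ) (Dom (1 / 2) s d)

def FSymp (B : Base) (s₁ κ : ℝ) : Prop :=
  ∀ s ≤ s₁, ∀ d ≤ s₁, ∀ Θ, Cand B s d (2 * κ) Θ → ∀ w ∈ Dom 1 s d, w.2 ≠ 0 →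
    dt (E B Θ) w.1 w.2 = -3 * E B Θ w.1 w.2 / w.2
      + dy (fun y t => E B Θ y t * zz Θ y t) w.1 w.2
      + dd (fun y t => A B Θ y t * (dd (zz Θ) y t + 1 / t)) w.1 w.2

def FCloses (B : Base) (s₁ : ℝ) : Prop :=
  ∀ (q l : ℕ) (θ : ℕ → ℝ), IsChain B.hR (4 * B.Mφ * s₁) (q + 1) θ →
    θ (q + 1) = θ 0 + 2 * π * l → pOut B.hR (θ q) (θ (q + 1)) = pIn B.hR (θ 0) (θ 1)

end Claimed.Agent.R269.S3
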