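/-
Row 269, Section 3: trivial monotonicity lemmas (proved).   Owner: helper228.
-/
import Claimed.Agent.R269.S3.FacDefs

set_option autoImplicit false

namespace Claimed.Agent.R269.S3

open Real Complex ComplexConjugate

variable {F : ℂ → ℂ → ℂ} {Ω Ω' : Set (ℂ × ℂ)} {M M' : ℝ}

theorem Bd.mono (h : Bd F Ω M) (hs : Ω' ⊆ Ω) (hM : M ≤ M') : Bd F Ω' M' :=
  fun z hz => (h z (hs hz)).trans hM

theorem BdC.mono {k : ℕ} (h : BdC k F Ω M) (hs : Ω' ⊆ Ω) (hM : M ≤ M') : BdC k F Ω' M' :=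
  fun j hj z hz => (h j hj z (hs hz)).trans hM

theorem Per.mono (h : Per F Ω) (hs : Ω' ⊆ Ω) : Per F Ω' := fun z hz => h z (hs hz)

theorem Sym.mono (h : Sym F Ω) (hs : Ω' ⊆ Ω) : Sym F Ω' :=
  ⟨h.per.mono hs, fun z hz => h.even z (hs hz), fun z hz => h.real z (hs hz)⟩

theorem hstrip_mono {s s' : ℝ} (h : s ≤ s') : hstrip s ⊆ hstrip s' := fun _ hz => lt_of_lt_of_le hz h

theorem Good.pre {B : Base} {s₁ κ K : ℝ} (h : Good B s₁ κ K) : Pre B s₁ κ :=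
  ⟨h.s₁_pos, h.s₁_le, h.s₁_le_one, h.κ_pos, h.κ_le_σ, h.κ_le_m⟩

theorem one_le_QQ (N : ℕ) {δ : ℝ} (hδ : 0 < δ) : 1 ≤ QQ N δ := by
  have h1 : (0 : ℝ) ≤ N := Nat.cast_nonneg N
  have h2 : 0 < δ⁻¹ := inv_pos.2 hδ
  unfold QQ
  linarith

theorem nat_le_QQ (N : ℕ) {δ : ℝ} (hδ : 0 < δ) : (N : ℝ) ≤ QQ N δ := by
  have h2 : 0 < δ⁻¹ := inv_pos.2 hδ
  unfold QQ
  linarith

theorem inv_le_QQ (N : ℕ) {δ : ℝ} (hδ : 0 < δ) : δ⁻¹ ≤ QQ N δ := by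
  have h1 : (0 : ℝ) ≤ N := Nat.cast_nonneg N
  unfold QQ
  linarith

theorem RatSumC.mono {B : Base} {s₁ κ C C' : ℝ} {b : ℕ} (h : RatSumC B s₁ κ C b) (hC : C ≤ C') :
    RatSumC B s₁ κ C' b := by
  intro s δ ε f l q h1 h2 h3 h4 h5 h6 h7 h8 h9 h10 h11 y hy
  have hX : 0 ≤ ((q : ℝ) + δ⁻¹) ^ b := by
    have : 0 < δ⁻¹ := inv_pos.2 h2
    positivity
  have e1 : C * ((q : ℝ) + δ⁻¹) ^ b * ε ≤ C' * ((q : ℝ) + δ⁻¹) ^ b * ε := by gcongr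
  refine (h s δ ε f l q h1 h2 h3 h4 h5 h6 h7 h8 h9 h10 (e1.trans h11) y hy).trans ?_
  gcongr

theorem DivisionC.mono {C C' : ℝ} {b : ℕ} (h : DivisionC C b) (hC : C ≤ C') : DivisionC C' b := by
  intro ν s s' d d' δ r M η N F h1 h2 h3 h0 h4 h5 h6 h7 h8 h9 h10 h11 h12 h13 h14 h15 h16 h17
  obtain ⟨H, a1, a2, a3, a4, a5, a6, a7⟩ :=
    h ν s s' d d' δ r M η N F h1 h2 h3 h0 h4 h5 h6 h7 h8 h9 h10 h11 h12 h13 h14 h15 h16 h17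
  have hQ : 0 ≤ QQ N δ ^ b := by
    have := one_le_QQ N h2
    positivity
  refine ⟨H, a1, a2, a3, a4.mono subset_rfl ?_, a5.mono subset_rfl ?_, a6, a7⟩
  · gcongr
  · have : 0 ≤ η + M * Real.exp (-(N * δ)) := by positivity
    gcongr

theorem CompatC.mono {C C' : ℝ} {b : ℕ} (h : CompatC C b) (hC : C ≤ C') : CompatC C' b := by
  intro s δ r ε P l q Ef hh ρ a z lam h1 h2 h3 h4 h5 h6 h7 h8 h9 h10 h11 h12 h13 h14 h15 h16 h17 h18 h19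
    h20 h21 h22 h23 h24 h25 h26 h27 h28 h29 h30 h31 h32 y hy
  have hX : 0 ≤ (P + q + δ⁻¹ + r⁻¹) ^ b := by
    have e1 : 0 < δ⁻¹ := inv_pos.2 h1
    have e2 : 0 < r⁻¹ := inv_pos.2 h7
    positivity
  have e1 : C * (P + q + δ⁻¹ + r⁻¹) ^ b * ε ≤ C' * (P + q + δ⁻¹ + r⁻¹) ^ b * ε := by gcongr
  refine (h s δ r ε P l q Ef hh ρ a z lam h1 h2 h3 h4 h5 h6 h7 h8 h9 h10 h11 h12 h13 h14 h15 h16 h17 h18 h19
    h20 h21 h22 h23 h24 h25 h26 h27 h28 h29 h30 h31 (e1.trans h32) y hy).trans ?_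
  gcongr

end Claimed.Agent.R269.S3
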