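/-
Row 269, Section 3, LIBRARY `LibHol` (package LF-S3-LibHol): functions of `(y,t) ∈ ℂ × ℂ` in the conventions of S3/Defs.lean.
Statements: helper228.  HOST-FREE (Defs.lean + Lib/SCV0.lean + Mathlib).  Everything here is routine.

TOOLS on main (sorry-free, owner helper270):
  `SCV.analyticOnNhd_of_differentiableOn` (Lib/SCV0.lean): `DifferentiableOn ℂ f U`, `U` an open subset of `ℂ × ℂ` ⇒ `AnalyticOnNhd`;
  `SCV.riemann_extension` (Lib/SCVa.lean): extension across `{g = 0}` of locally bounded holomorphic functions.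
HINTS.
* `hol_dy`, `hol_dt`: `AnalyticOnNhd.fderiv` and `dy F y t = fderiv ℂ F̂ (y,t) (1,0)`, `F̂ z = F z.1 z.2`.
* `hol_dy_dt_comm`: `ContDiffAt.isSymmSndFDerivAt` for the analytic `F̂`.
* `hol_lim`: the limit is continuous and separately holomorphic (`TendstoLocallyUniformlyOn.differentiableOn` in each
  variable), then Osgood (ask helper270: `osgood` of Lib/SCV.lean); or: Cauchy formula of `SCV.fderiv_apply_eq_circleIntegral` type.
* `hol_removable`: `SCV.riemann_extension` with `g z = z.2`; the extension is continuous, so it equals `F` at `t = 0` by `hl`.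
* `hol_dd`: for `t ≠ 0` a composition; near `t = 0` locally bounded by `sup |v_y|` (mean value inequality on the segment
  `[y - t/2, y + t/2]`), limit `v_y(y,0)` (e.g. `dd v y t - dy v y 0 = ∫`, or: `t ↦ v(y + t/2, t) - v(y - t/2, t)` has derivative
  `v_y(y,0)` at `0` by `hol_chain`, and vanishes at `0`: slope tends to the derivative).
* Cauchy estimates: `Complex.norm_deriv_le_of_forall_mem_sphere_norm_le`, `Complex.norm_iteratedDeriv_le_of_forall_mem_sphere_norm_le`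
  on spheres of radius `δ' < δ`, then `δ' → δ`.
-/
import Claimed.Agent.R269.S3.Defs
import Claimed.Agent.R269.Lib.SCV0

set_option autoImplicit false

namespace Claimed.Agent.R269.S3

open Real Complex ComplexConjugate Filter Topology

theorem isOpen_hstrip (s : ℝ) : IsOpen (hstrip s) :=
  isOpen_lt (continuous_abs.comp Complex.continuous_im) continuous_const

theorem convex_hstrip (s : ℝ) : Convex ℝ (hstrip s) := by
  intro x hx y hy a b ha hb hab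
  have hx' : |x.im| < s := hx
  have hy' : |y.im| < s := hy
  show |(a • x + b • y).im| < s
  have h1 : (a • x + b • y).im = a * x.im + b * y.im := by simp
  rw [h1]
  rw [abs_lt] at hx' hy' ⊢
  rcases eq_or_lt_of_le ha with rfl | ha'
  · have hb1 : b = 1 := by linarith
    subst hb1
    constructor <;> nlinarith [hy'.1, hy'.2]
  · constructor
    · nlinarith [hx'.1, hy'.1]
    · nlinarith [hx'.2, hy'.2]

theorem isOpen_Dom (ν s d : ℝ) : IsOpen (Dom ν s d) := by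
  apply IsOpen.inter
  · exact isOpen_lt (continuous_norm.comp continuous_snd) continuous_const
  · exact isOpen_lt (continuous_abs.comp (Complex.continuous_im.comp continuous_fst))
      (continuous_const.sub (continuous_const.mul
        (continuous_abs.comp (Complex.continuous_im.comp continuous_snd))))

theorem isOpen_Wd (s t₀ r : ℝ) : IsOpen (Wd s t₀ r) :=
  (isOpen_hstrip s).prod Metric.isOpen_ball

theorem Dom_mono {ν ν' s s' d d' : ℝ} (hν : ν' ≤ ν) (hs : s ≤ s') (hd : d ≤ d') : Dom ν s d ⊆ Dom ν' s' d' := by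
  rintro z ⟨h1, h2⟩
  refine ⟨lt_of_lt_of_le h1 hd, lt_of_lt_of_le h2 ?_⟩
  have := mul_le_mul_of_nonneg_right hν (abs_nonneg z.2.im)
  linarith

/-- `(y ± t/2, t)` stays in the domain with index `ν` if `(y,t)` is in the domain with index `ν + 1/2`. -/
theorem Dom_shift {ν s d : ℝ} {y t : ℂ} (h : (y, t) ∈ Dom (ν + 1 / 2) s d) (a : ℝ) (ha : |a| ≤ 1 / 2) :
    (y + a * t, t) ∈ Dom ν s d := by
  obtain ⟨h1, h2⟩ := h
  refine ⟨h1, ?_⟩
  show |(y + a * t).im| < s - ν * |t.im|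
  have h2' : |y.im| < s - (ν + 1 / 2) * |t.im| := h2
  have h3 : (y + a * t).im = y.im + a * t.im := by simp
  rw [h3]
  have h4 : |y.im + a * t.im| ≤ |y.im| + |a| * |t.im| := by
    rw [← abs_mul]; exact abs_add_le _ _
  have h5 := mul_le_mul_of_nonneg_right ha (abs_nonneg t.im)
  linarith

theorem Hol.mono {F : ℂ → ℂ → ℂ} {Ω Ω' : Set (ℂ × ℂ)} (h : Hol F Ω) (hs : Ω' ⊆ Ω) : Hol F Ω' :=
  DifferentiableOn.mono h hs

/-- composition. -/
theorem hol_comp {F G₁ G₂ : ℂ → ℂ → ℂ} {Ω Ω' : Set (ℂ × ℂ)} (hF : Hol F Ω) (h₁ : Hol G₁ Ω') (h₂ : Hol G₂ Ω')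
    (hm : ∀ z ∈ Ω', (G₁ z.1 z.2, G₂ z.1 z.2) ∈ Ω) : Hol (fun y t => F (G₁ y t) (G₂ y t)) Ω' := by
  have h : DifferentiableOn ℂ (fun z : ℂ × ℂ => (G₁ z.1 z.2, G₂ z.1 z.2)) Ω' :=
    DifferentiableOn.prodMk h₁ h₂
  exact DifferentiableOn.comp hF h hm

/-- composition with a function of one variable. -/
theorem hol_comp₁ {g : ℂ → ℂ} {G : ℂ → ℂ → ℂ} {U : Set ℂ} {Ω : Set (ℂ × ℂ)} (hg : DifferentiableOn ℂ g U)
    (hG : Hol G Ω) (hm : ∀ z ∈ Ω, G z.1 z.2 ∈ U) : Hol (fun y t => g (G y t)) Ω :=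
  DifferentiableOn.comp hg hG hm

theorem lh_hasFDerivAt {F : ℂ → ℂ → ℂ} {Ω : Set (ℂ × ℂ)} (hΩ : IsOpen Ω) (hF : Hol F Ω) {z : ℂ × ℂ}
    (h : z ∈ Ω) :
    HasFDerivAt (fun z : ℂ × ℂ => F z.1 z.2) (fderiv ℂ (fun z : ℂ × ℂ => F z.1 z.2) z) z :=
  (DifferentiableOn.differentiableAt hF (hΩ.mem_nhds h)).hasFDerivAt

theorem lh_hasDerivAt_curve {F : ℂ → ℂ → ℂ} {Ω : Set (ℂ × ℂ)} (hΩ : IsOpen Ω) (hF : Hol F Ω)
    {g₁ g₂ : ℂ → ℂ} {a₁ a₂ x : ℂ} (h₁ : HasDerivAt g₁ a₁ x) (h₂ : HasDerivAt g₂ a₂ x)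
    (hm : (g₁ x, g₂ x) ∈ Ω) :
    HasDerivAt (fun u => F (g₁ u) (g₂ u))
      (fderiv ℂ (fun z : ℂ × ℂ => F z.1 z.2) (g₁ x, g₂ x) (a₁, a₂)) x := by
  have h1 := lh_hasFDerivAt hΩ hF hm
  have h2 : HasDerivAt (fun u : ℂ => (g₁ u, g₂ u)) (a₁, a₂) x := h₁.prodMk h₂
  exact HasFDerivAt.comp_hasDerivAt (f := fun u : ℂ => (g₁ u, g₂ u)) x h1 h2

theorem lh_hasDerivAt_y {F : ℂ → ℂ → ℂ} {Ω : Set (ℂ × ℂ)} (hΩ : IsOpen Ω) (hF : Hol F Ω) {y t : ℂ}
    (h : (y, t) ∈ Ω) :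
    HasDerivAt (fun x => F x t) (fderiv ℂ (fun z : ℂ × ℂ => F z.1 z.2) (y, t) (1, 0)) y :=
  lh_hasDerivAt_curve hΩ hF (g₁ := fun x => x) (g₂ := fun _ => t) (hasDerivAt_id y)
    (hasDerivAt_const y t) h

theorem lh_hasDerivAt_t {F : ℂ → ℂ → ℂ} {Ω : Set (ℂ × ℂ)} (hΩ : IsOpen Ω) (hF : Hol F Ω) {y t : ℂ}
    (h : (y, t) ∈ Ω) :
    HasDerivAt (fun τ => F y τ) (fderiv ℂ (fun z : ℂ × ℂ => F z.1 z.2) (y, t) (0, 1)) t :=
  lh_hasDerivAt_curve hΩ hF (g₁ := fun _ => y) (g₂ := fun τ => τ) (hasDerivAt_const t y)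
    (hasDerivAt_id t) h

theorem lh_dy_eq {F : ℂ → ℂ → ℂ} {Ω : Set (ℂ × ℂ)} (hΩ : IsOpen Ω) (hF : Hol F Ω) {y t : ℂ}
    (h : (y, t) ∈ Ω) : dy F y t = fderiv ℂ (fun z : ℂ × ℂ => F z.1 z.2) (y, t) (1, 0) :=
  (lh_hasDerivAt_y hΩ hF h).deriv

theorem lh_dt_eq {F : ℂ → ℂ → ℂ} {Ω : Set (ℂ × ℂ)} (hΩ : IsOpen Ω) (hF : Hol F Ω) {y t : ℂ}
    (h : (y, t) ∈ Ω) : dt F y t = fderiv ℂ (fun z : ℂ × ℂ => F z.1 z.2) (y, t) (0, 1) :=
  (lh_hasDerivAt_t hΩ hF h).deriv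

theorem hol_slice_y {F : ℂ → ℂ → ℂ} {Ω : Set (ℂ × ℂ)} (hΩ : IsOpen Ω) (hF : Hol F Ω) {y t : ℂ}
    (h : (y, t) ∈ Ω) : DifferentiableAt ℂ (fun x => F x t) y :=
  (lh_hasDerivAt_y hΩ hF h).differentiableAt

theorem hol_slice_t {F : ℂ → ℂ → ℂ} {Ω : Set (ℂ × ℂ)} (hΩ : IsOpen Ω) (hF : Hol F Ω) {y t : ℂ}
    (h : (y, t) ∈ Ω) : DifferentiableAt ℂ (fun τ => F y τ) t :=
  (lh_hasDerivAt_t hΩ hF h).differentiableAt

/-- chain rule along a curve. -/
theorem hol_chain {F : ℂ → ℂ → ℂ} {Ω : Set (ℂ × ℂ)} (hΩ : IsOpen Ω) (hF : Hol F Ω) {g₁ g₂ : ℂ → ℂ}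
    {a₁ a₂ x : ℂ} (h₁ : HasDerivAt g₁ a₁ x) (h₂ : HasDerivAt g₂ a₂ x) (hm : (g₁ x, g₂ x) ∈ Ω) :
    HasDerivAt (fun u => F (g₁ u) (g₂ u)) (dy F (g₁ x) (g₂ x) * a₁ + dt F (g₁ x) (g₂ x) * a₂) x := by
  have h := lh_hasDerivAt_curve hΩ hF h₁ h₂ hm
  have h3 : ((a₁, a₂) : ℂ × ℂ) = a₁ • ((1 : ℂ), (0 : ℂ)) + a₂ • ((0 : ℂ), (1 : ℂ)) := by
    ext <;> simp
  rw [h3, map_add, map_smul, map_smul, ← lh_dy_eq hΩ hF hm, ← lh_dt_eq hΩ hF hm, smul_eq_mul,
    smul_eq_mul, mul_comm a₁, mul_comm a₂] at h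
  exact h

theorem lh_diff_fderiv {F : ℂ → ℂ → ℂ} {Ω : Set (ℂ × ℂ)} (hΩ : IsOpen Ω) (hF : Hol F Ω) :
    DifferentiableOn ℂ (fderiv ℂ (fun z : ℂ × ℂ => F z.1 z.2)) Ω :=
  (SCV.analyticOnNhd_of_differentiableOn hΩ hF).fderiv.differentiableOn

theorem hol_dy {F : ℂ → ℂ → ℂ} {Ω : Set (ℂ × ℂ)} (hΩ : IsOpen Ω) (hF : Hol F Ω) : Hol (dy F) Ω := by
  have h1 : DifferentiableOn ℂ
      (fun z => fderiv ℂ (fun z : ℂ × ℂ => F z.1 z.2) z ((1 : ℂ), (0 : ℂ))) Ω :=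
    (lh_diff_fderiv hΩ hF).clm_apply (differentiableOn_const _)
  exact h1.congr fun z hz => lh_dy_eq hΩ hF (y := z.1) (t := z.2) hz

theorem hol_dt {F : ℂ → ℂ → ℂ} {Ω : Set (ℂ × ℂ)} (hΩ : IsOpen Ω) (hF : Hol F Ω) : Hol (dt F) Ω := by
  have h1 : DifferentiableOn ℂ
      (fun z => fderiv ℂ (fun z : ℂ × ℂ => F z.1 z.2) z ((0 : ℂ), (1 : ℂ))) Ω :=
    (lh_diff_fderiv hΩ hF).clm_apply (differentiableOn_const _)
  exact h1.congr fun z hz => lh_dt_eq hΩ hF (y := z.1) (t := z.2) hz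

theorem lh_fderiv_apply {F : ℂ → ℂ → ℂ} {Ω : Set (ℂ × ℂ)} (hΩ : IsOpen Ω) (hF : Hol F Ω)
    {G : ℂ → ℂ → ℂ} (v : ℂ × ℂ)
    (hG : ∀ z ∈ Ω, G z.1 z.2 = fderiv ℂ (fun z : ℂ × ℂ => F z.1 z.2) z v) {z : ℂ × ℂ} (hz : z ∈ Ω)
    (w : ℂ × ℂ) :
    fderiv ℂ (fun z : ℂ × ℂ => G z.1 z.2) z w =
      fderiv ℂ (fderiv ℂ (fun z : ℂ × ℂ => F z.1 z.2)) z w v := by
  have h1 : (fun z : ℂ × ℂ => G z.1 z.2) =ᶠ[𝓝 z]
      (fun z => fderiv ℂ (fun z : ℂ × ℂ => F z.1 z.2) z v) := by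
    filter_upwards [hΩ.mem_nhds hz] with x hx using hG x hx
  rw [h1.fderiv_eq]
  have h2 : DifferentiableAt ℂ (fderiv ℂ (fun z : ℂ × ℂ => F z.1 z.2)) z :=
    (lh_diff_fderiv hΩ hF).differentiableAt (hΩ.mem_nhds hz)
  rw [fderiv_clm_apply h2 (differentiableAt_const v)]
  simp

theorem hol_dy_dt_comm {F : ℂ → ℂ → ℂ} {Ω : Set (ℂ × ℂ)} (hΩ : IsOpen Ω) (hF : Hol F Ω) :
    ∀ z ∈ Ω, dy (dt F) z.1 z.2 = dt (dy F) z.1 z.2 := by
  intro z hz
  rw [lh_dy_eq hΩ (hol_dt hΩ hF) (y := z.1) (t := z.2) hz,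
    lh_dt_eq hΩ (hol_dy hΩ hF) (y := z.1) (t := z.2) hz]
  rw [show ((z.1, z.2) : ℂ × ℂ) = z from rfl]
  rw [lh_fderiv_apply hΩ hF (0, 1) (fun z hz => lh_dt_eq hΩ hF (y := z.1) (t := z.2) hz) hz,
    lh_fderiv_apply hΩ hF (1, 0) (fun z hz => lh_dy_eq hΩ hF (y := z.1) (t := z.2) hz) hz]
  have ha : AnalyticAt ℂ (fun z : ℂ × ℂ => F z.1 z.2) z :=
    SCV.analyticOnNhd_of_differentiableOn hΩ hF z hz
  have hs : IsSymmSndFDerivAt ℂ (fun z : ℂ × ℂ => F z.1 z.2) z :=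
    (ha.contDiffAt (n := ⊤)).isSymmSndFDerivAt le_top
  exact hs _ _

theorem hol_iter {F : ℂ → ℂ → ℂ} {Ω : Set (ℂ × ℂ)} (hΩ : IsOpen Ω) (hF : Hol F Ω) (j : ℕ) :
    Hol (fun y t => iteratedDeriv j (fun x => F x t) y) Ω := by
  induction j with
  | zero => simpa [iteratedDeriv_zero] using hF
  | succ j ih =>
    have h := hol_dy hΩ ih
    refine DifferentiableOn.congr h ?_
    intro z _
    show iteratedDeriv (j + 1) (fun x => F x z.2) z.1 = _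
    rw [iteratedDeriv_succ]
    rfl

/-! ### Cauchy estimates -/

/-- passage to the limit `r' → r` in a Cauchy estimate -/
theorem lh_limit_radius {D M r : ℝ} (j : ℕ) (hr : 0 < r)
    (h : ∀ r', 0 < r' → r' < r → D * r' ^ j ≤ M) : D * r ^ j ≤ M := by
  have h1 : Tendsto (fun r' : ℝ => D * r' ^ j) (𝓝[<] r) (𝓝 (D * r ^ j)) := by
    apply Tendsto.mono_left _ nhdsWithin_le_nhds
    exact ((continuous_const.mul (continuous_pow j)).tendsto r)
  refine le_of_tendsto h1 ?_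
  filter_upwards [Ioo_mem_nhdsLT hr] with r' hr'
  exact h r' hr'.1 hr'.2

theorem lh_ball_iter_le {g : ℂ → ℂ} {c : ℂ} {r M : ℝ} (hr : 0 < r)
    (hg : DifferentiableOn ℂ g (Metric.ball c r)) (hb : ∀ y ∈ Metric.ball c r, ‖g y‖ ≤ M) (j : ℕ) :
    ‖iteratedDeriv j g c‖ ≤ j.factorial * M / r ^ j := by
  rw [le_div_iff₀ (pow_pos hr j)]
  apply lh_limit_radius j hr
  intro r' hr' hr'r
  rw [← le_div_iff₀ (pow_pos hr' j)]
  apply Complex.norm_iteratedDeriv_le_of_forall_mem_sphere_norm_le j hr'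
  · apply DifferentiableOn.diffContOnCl
    rw [closure_ball c hr'.ne']
    exact hg.mono (Metric.closedBall_subset_ball hr'r)
  · intro z hz
    exact hb z (Metric.closedBall_subset_ball hr'r (Metric.sphere_subset_closedBall hz))

theorem lh_ball_subset_hstrip {s δ : ℝ} {y : ℂ} (hy : y ∈ hstrip (s - δ)) :
    Metric.ball y δ ⊆ hstrip s := by
  intro x hx
  have hy' : |y.im| < s - δ := hy
  show |x.im| < s
  have h1 : |(x - y).im| ≤ ‖x - y‖ := Complex.abs_im_le_norm _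
  have h2 : ‖x - y‖ < δ := by rwa [← dist_eq_norm]
  have h3 : x.im = y.im + (x - y).im := by simp
  rw [h3]
  have h4 := abs_add_le y.im (x - y).im
  linarith

theorem strip_iter_le {g : ℂ → ℂ} {s δ M : ℝ} (hδ : 0 < δ) (hg : DifferentiableOn ℂ g (hstrip s))
    (hb : ∀ y ∈ hstrip s, ‖g y‖ ≤ M) (j : ℕ) :
    ∀ y ∈ hstrip (s - δ), ‖iteratedDeriv j g y‖ ≤ j.factorial * M / δ ^ j := by
  intro y hy
  have hsub := lh_ball_subset_hstrip hy
  exact lh_ball_iter_le hδ (hg.mono hsub) (fun x hx => hb x (hsub hx)) j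

theorem ball_deriv_le {g : ℂ → ℂ} {c : ℂ} {r M : ℝ} (hr : 0 < r) (hg : DifferentiableOn ℂ g (Metric.ball c r))
    (hb : ∀ y ∈ Metric.ball c r, ‖g y‖ ≤ M) : ‖deriv g c‖ ≤ M / r := by
  have h := lh_ball_iter_le hr hg hb 1
  simpa [iteratedDeriv_one] using h

theorem strip_deriv_le {g : ℂ → ℂ} {s δ M : ℝ} (hδ : 0 < δ) (hg : DifferentiableOn ℂ g (hstrip s))
    (hb : ∀ y ∈ hstrip s, ‖g y‖ ≤ M) : ∀ y ∈ hstrip (s - δ), ‖deriv g y‖ ≤ M / δ := by
  intro y hy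
  have hsub := lh_ball_subset_hstrip hy
  exact ball_deriv_le hδ (hg.mono hsub) (fun x hx => hb x (hsub hx))

/-- the slices of `Dom` in `y` are strips -/
theorem lh_mem_Dom_iff {ν s d : ℝ} {y t : ℂ} :
    (y, t) ∈ Dom ν s d ↔ ‖t‖ < d ∧ y ∈ hstrip (s - ν * |t.im|) := Iff.rfl

theorem lh_slice_diffOn {F : ℂ → ℂ → ℂ} {ν s d : ℝ} (hF : Hol F (Dom ν s d)) {t : ℂ} (ht : ‖t‖ < d) :
    DifferentiableOn ℂ (fun x => F x t) (hstrip (s - ν * |t.im|)) := fun x hx =>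
  (hol_slice_y (isOpen_Dom ν s d) hF (lh_mem_Dom_iff.2 ⟨ht, hx⟩)).differentiableWithinAt

theorem bd_dy {F : ℂ → ℂ → ℂ} {ν s d δ M : ℝ} (hδ : 0 < δ) (hF : Hol F (Dom ν s d))
    (hb : Bd F (Dom ν s d) M) : Bd (dy F) (Dom ν (s - δ) d) (M / δ) := by
  rintro ⟨y, t⟩ ⟨ht, hy⟩
  have ht' : ‖t‖ < d := ht
  refine strip_deriv_le hδ (lh_slice_diffOn hF ht')
    (fun x hx => hb (x, t) (lh_mem_Dom_iff.2 ⟨ht', hx⟩)) y ?_
  show |y.im| < s - ν * |t.im| - δ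
  have hy' : |y.im| < s - δ - ν * |t.im| := hy
  linarith

theorem bdC_of_bd {F : ℂ → ℂ → ℂ} {ν s d δ M : ℝ} (k : ℕ) (hδ : 0 < δ) (hδ1 : δ ≤ 1) (hM : 0 ≤ M)
    (hF : Hol F (Dom ν s d)) (hb : Bd F (Dom ν s d) M) :
    BdC k F (Dom ν (s - δ) d) (k.factorial * M / δ ^ k) := by
  rintro j hj ⟨y, t⟩ ⟨ht, hy⟩
  have ht' : ‖t‖ < d := ht
  have h1 : ‖iteratedDeriv j (fun x => F x t) y‖ ≤ j.factorial * M / δ ^ j := by
    refine strip_iter_le hδ (lh_slice_diffOn hF ht')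
      (fun x hx => hb (x, t) (lh_mem_Dom_iff.2 ⟨ht', hx⟩)) j y ?_
    show |y.im| < s - ν * |t.im| - δ
    have hy' : |y.im| < s - δ - ν * |t.im| := hy
    linarith
  refine h1.trans ?_
  have h2 : (j.factorial : ℝ) ≤ k.factorial := by exact_mod_cast Nat.factorial_le hj
  have h3 : δ ^ k ≤ δ ^ j := pow_le_pow_of_le_one hδ.le hδ1 hj
  exact div_le_div₀ (by positivity) (mul_le_mul_of_nonneg_right h2 hM) (pow_pos hδ k) h3

theorem bd_dy_Wd {F : ℂ → ℂ → ℂ} {s t₀ r δ M : ℝ} (hδ : 0 < δ) (hF : Hol F (Wd s t₀ r))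
    (hb : Bd F (Wd s t₀ r) M) : Bd (dy F) (Wd (s - δ) t₀ r) (M / δ) := by
  rintro ⟨y, t⟩ ⟨hy, ht⟩
  refine strip_deriv_le hδ (g := fun x => F x t) (fun x hx =>
    (hol_slice_y (isOpen_Wd s t₀ r) hF (y := x) (t := t) ⟨hx, ht⟩).differentiableWithinAt)
    (fun x hx => hb (x, t) ⟨hx, ht⟩) y hy

theorem bd_dt_Wd {F : ℂ → ℂ → ℂ} {s t₀ r M : ℝ} (hr : 0 < r) (hF : Hol F (Wd s t₀ r))
    (hb : Bd F (Wd s t₀ r) M) : Bd (dt F) (Wd s t₀ (r / 2)) (2 * M / r) := by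
  rintro ⟨y, t⟩ ⟨hy, ht⟩
  have hsub : Metric.ball t (r / 2) ⊆ Metric.ball (t₀ : ℂ) r := by
    intro τ hτ
    have h1 : dist τ t < r / 2 := hτ
    have h2 : dist t (t₀ : ℂ) < r / 2 := ht
    have h3 := dist_triangle τ t (t₀ : ℂ)
    show dist τ (t₀ : ℂ) < r
    linarith
  have h := ball_deriv_le (g := fun τ => F y τ) (c := t) (M := M) (half_pos hr) (fun τ hτ =>
    (hol_slice_t (isOpen_Wd s t₀ r) hF (y := y) (t := τ) ⟨hy, hsub hτ⟩).differentiableWithinAt)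
    (fun τ hτ => hb (y, τ) ⟨hy, hsub hτ⟩)
  have h4 : M / (r / 2) = 2 * M / r := by field_simp
  rw [h4] at h
  exact h

/-- mean value inequality for the symmetric difference -/
theorem lh_sym_diff_le {F : ℂ → ℂ → ℂ} {ν s d M : ℝ} (hF : Hol F (Dom ν s d))
    (hb : Bd (dy F) (Dom ν s d) M) {y t : ℂ} (h : (y, t) ∈ Dom (ν + 1 / 2) s d) :
    ‖F (y + t / 2) t - F (y - t / 2) t‖ ≤ M * ‖t‖ := by
  have ht : ‖t‖ < d := h.1
  have h1 : y + t / 2 ∈ hstrip (s - ν * |t.im|) := by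
    have := Dom_shift h (1 / 2) (by rw [abs_of_pos] <;> norm_num)
    have h2 := (lh_mem_Dom_iff.1 this).2
    convert h2 using 1
    push_cast; ring
  have h2 : y - t / 2 ∈ hstrip (s - ν * |t.im|) := by
    have := Dom_shift h (-(1 / 2)) (by rw [abs_neg, abs_of_pos] <;> norm_num)
    have h2 := (lh_mem_Dom_iff.1 this).2
    convert h2 using 1
    push_cast; ring
  have h3 := Convex.norm_image_sub_le_of_norm_deriv_le (f := fun x => F x t) (C := M)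
    (s := hstrip (s - ν * |t.im|))
    (fun x hx => hol_slice_y (isOpen_Dom ν s d) hF (lh_mem_Dom_iff.2 ⟨ht, hx⟩))
    (fun x hx => hb (x, t) (lh_mem_Dom_iff.2 ⟨ht, hx⟩)) (convex_hstrip _) h2 h1
  have h4 : y + t / 2 - (y - t / 2) = t := by ring
  rw [h4] at h3
  exact h3

/-- `|∂F| ≤ sup |F_y|`. -/
theorem bd_dd {F : ℂ → ℂ → ℂ} {ν s d M : ℝ} (hF : Hol F (Dom ν s d)) (hb : Bd (dy F) (Dom ν s d) M) :
    Bd (dd F) (Dom (ν + 1 / 2) s d) M := by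
  rintro ⟨y, t⟩ h
  show ‖dd F y t‖ ≤ M
  by_cases ht : t = 0
  · subst ht
    have h1 : ((y, 0) : ℂ × ℂ) ∈ Dom ν s d := by
      have := Dom_shift h 0 (by norm_num)
      simpa using this
    simpa [dd] using hb (y, 0) h1
  · have h1 := lh_sym_diff_le hF hb h
    have h2 : dd F y t = (F (y + t / 2) t - F (y - t / 2) t) / t := by simp [dd, ht, ds]
    rw [h2, norm_div, div_le_iff₀ (norm_pos_iff.2 ht)]
    exact h1

/-- a bound for `t ≠ 0` extends to `t = 0` by continuity. -/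
theorem bd_of_ne_zero {F : ℂ → ℂ → ℂ} {ν s d M : ℝ} (hF : Hol F (Dom ν s d))
    (hb : ∀ z ∈ Dom ν s d, z.2 ≠ 0 → ‖F z.1 z.2‖ ≤ M) : Bd F (Dom ν s d) M := by
  rintro ⟨y, t⟩ h
  by_cases ht : t = 0
  · subst ht
    have hc : ContinuousAt (fun τ => F y τ) 0 :=
      (hol_slice_t (isOpen_Dom ν s d) hF h).continuousAt
    have h1 : Tendsto (fun τ => ‖F y τ‖) (𝓝[≠] 0) (𝓝 ‖F y 0‖) :=
      (hc.norm.tendsto).mono_left nhdsWithin_le_nhds
    refine le_of_tendsto h1 ?_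
    have h2 : ∀ᶠ τ in 𝓝 (0 : ℂ), (y, τ) ∈ Dom ν s d := by
      have hcont : ContinuousAt (fun τ : ℂ => (y, τ)) 0 := by fun_prop
      exact hcont.eventually ((isOpen_Dom ν s d).mem_nhds h)
    filter_upwards [nhdsWithin_le_nhds h2, self_mem_nhdsWithin] with τ hτ hτ0
    exact hb (y, τ) hτ hτ0
  · exact hb (y, t) h ht

/-- Schwarz lemma in `t`: a function on `𝒟^0(s,d)` vanishing at `t = 0`. -/
theorem bd_schwarz {F : ℂ → ℂ → ℂ} {s d M : ℝ} (hF : Hol F (Dom 0 s d)) (hb : Bd F (Dom 0 s d) M)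
    (h0 : ∀ y ∈ hstrip s, F y 0 = 0) : ∀ z ∈ Dom 0 s d, ‖F z.1 z.2‖ ≤ M * ‖z.2‖ / d := by
  rintro ⟨y, t⟩ h
  have hy : y ∈ hstrip s := by
    have := h.2
    simpa [hstrip] using this
  have hmem : ∀ τ ∈ Metric.ball (0 : ℂ) d, (y, τ) ∈ Dom 0 s d := by
    intro τ hτ
    refine ⟨by simpa using hτ, ?_⟩
    simpa [hstrip] using hy
  have h1 := Complex.dist_le_div_mul_dist_of_mapsTo_ball (f := fun τ => F y τ) (c := 0) (R₁ := d)
    (R₂ := M) (z := t)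
    (fun τ hτ => (hol_slice_t (isOpen_Dom 0 s d) hF (hmem τ hτ)).differentiableWithinAt)
    (fun τ hτ => by
      rw [h0 y hy]
      simpa using hb (y, τ) (hmem τ hτ))
    (by simpa using h.1)
  rw [h0 y hy] at h1
  simp only [dist_zero_right] at h1
  show ‖F y t‖ ≤ M * ‖t‖ / d
  calc ‖F y t‖ ≤ M / d * ‖t‖ := h1
    _ = M * ‖t‖ / d := by ring

/-! ### limits, removable singularities, the difference operator -/

/-- Cauchy estimate for the Fréchet derivative -/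
theorem lh_fderiv_le {f : ℂ × ℂ → ℂ} {w : ℂ × ℂ} {r A : ℝ} (hr : 0 < r)
    (hf : DifferentiableOn ℂ f (Metric.ball w r)) (hA : ∀ z ∈ Metric.ball w r, ‖f z‖ ≤ A) :
    ‖fderiv ℂ f w‖ ≤ A / r := by
  have hA0 : 0 ≤ A := (norm_nonneg _).trans (hA w (Metric.mem_ball_self hr))
  apply ContinuousLinearMap.opNorm_le_bound _ (div_nonneg hA0 hr.le)
  intro v
  by_cases hv : v = 0
  · simp [hv]
  have hv' : 0 < ‖v‖ := norm_pos_iff.2 hv
  have hmaps : ∀ s ∈ Metric.ball (0 : ℂ) (r / ‖v‖), w + s • v ∈ Metric.ball w r := by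
    intro s hs
    rw [mem_ball_zero_iff, lt_div_iff₀ hv'] at hs
    rw [Metric.mem_ball, dist_eq_norm, add_sub_cancel_left, norm_smul]
    exact hs
  have hd : ∀ s, HasDerivAt (fun s : ℂ => w + s • v) v s := fun s => by
    have h1 : HasDerivAt (fun s : ℂ => s • v) ((1 : ℂ) • v) s := (hasDerivAt_id s).smul_const v
    rw [one_smul] at h1
    exact h1.const_add w
  have hφ : DifferentiableOn ℂ (fun s : ℂ => f (w + s • v)) (Metric.ball 0 (r / ‖v‖)) := by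
    intro s hs
    have h1 : DifferentiableAt ℂ f (w + s • v) :=
      hf.differentiableAt (Metric.isOpen_ball.mem_nhds (hmaps s hs))
    exact (DifferentiableAt.comp s h1 (hd s).differentiableAt).differentiableWithinAt
  have h2 := ball_deriv_le (div_pos hr hv') hφ (fun s hs => hA _ (hmaps s hs))
  have h3 : deriv (fun s : ℂ => f (w + s • v)) 0 = fderiv ℂ f w v := by
    have h4 : HasFDerivAt f (fderiv ℂ f w) (w + (0 : ℂ) • v) := by
      rw [zero_smul, add_zero]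
      exact (hf.differentiableAt
        (Metric.isOpen_ball.mem_nhds (Metric.mem_ball_self hr))).hasFDerivAt
    exact (HasFDerivAt.comp_hasDerivAt (f := fun s : ℂ => w + s • v) 0 h4 (hd 0)).deriv
  rw [h3] at h2
  calc ‖fderiv ℂ f w v‖ ≤ A / (r / ‖v‖) := h2
    _ = A / r * ‖v‖ := by field_simp

/-- uniform limits. -/
theorem hol_lim {F : ℕ → ℂ → ℂ → ℂ} {G : ℂ → ℂ → ℂ} {Ω : Set (ℂ × ℂ)} (hΩ : IsOpen Ω)
    (hF : ∀ i, Hol (F i) Ω) {a : ℕ → ℝ} (ha : Tendsto a atTop (𝓝 0))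
    (hb : ∀ i, ∀ z ∈ Ω, ‖F i z.1 z.2 - G z.1 z.2‖ ≤ a i) : Hol G Ω := by
  intro x hx
  apply DifferentiableAt.differentiableWithinAt
  obtain ⟨ε, hε, hball⟩ := Metric.isOpen_iff.1 hΩ x hx
  have hr : 0 < ε / 2 := half_pos hε
  have hsub : ∀ w ∈ Metric.ball x (ε / 2), Metric.ball w (ε / 2) ⊆ Ω := by
    intro w hw z hz
    apply hball
    have h1 : dist z w < ε / 2 := hz
    have h2 : dist w x < ε / 2 := hw
    have h3 := dist_triangle z w x
    show dist z x < ε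
    linarith
  have hsub' : Metric.ball x (ε / 2) ⊆ Ω := fun w hw => hsub w hw (Metric.mem_ball_self hr)
  have hdiff : ∀ i, ∀ w ∈ Metric.ball x (ε / 2),
      DifferentiableAt ℂ (fun z : ℂ × ℂ => F i z.1 z.2) w := fun i w hw =>
    DifferentiableOn.differentiableAt (hF i) (hΩ.mem_nhds (hsub' hw))
  have hcauchy : ∀ i j, ∀ w ∈ Metric.ball x (ε / 2),
      ‖fderiv ℂ (fun z : ℂ × ℂ => F i z.1 z.2) w - fderiv ℂ (fun z : ℂ × ℂ => F j z.1 z.2) w‖ ≤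
        (a i + a j) / (ε / 2) := by
    intro i j w hw
    rw [← fderiv_fun_sub (hdiff i w hw) (hdiff j w hw)]
    apply lh_fderiv_le hr
    · exact (DifferentiableOn.mono (hF i) (hsub w hw)).fun_sub
        (DifferentiableOn.mono (hF j) (hsub w hw))
    · intro z hz
      have h1 := hb i z (hsub w hw hz)
      have h2 := hb j z (hsub w hw hz)
      have h3 : F i z.1 z.2 - F j z.1 z.2 = (F i z.1 z.2 - G z.1 z.2) - (F j z.1 z.2 - G z.1 z.2) := by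
        ring
      rw [h3]
      exact (norm_sub_le _ _).trans (add_le_add h1 h2)
  have hU : UniformCauchySeqOn (fun i => fderiv ℂ (fun z : ℂ × ℂ => F i z.1 z.2)) atTop
      (Metric.ball x (ε / 2)) := by
    rw [Metric.uniformCauchySeqOn_iff]
    intro η hη
    have hη' : 0 < η * (ε / 2) / 2 := by positivity
    obtain ⟨N, hN⟩ := (Metric.tendsto_atTop.1 ha) _ hη'
    refine ⟨N, fun m hm n hn w hw => ?_⟩
    rw [dist_eq_norm]
    refine lt_of_le_of_lt (hcauchy m n w hw) ?_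
    rw [div_lt_iff₀ hr]
    have h1 := hN m hm
    have h2 := hN n hn
    rw [Real.dist_eq, sub_zero] at h1 h2
    have h3 := le_abs_self (a m)
    have h4 := le_abs_self (a n)
    linarith
  have hT : TendstoUniformlyOn (fun i => fderiv ℂ (fun z : ℂ × ℂ => F i z.1 z.2))
      (fun w => limUnder atTop (fun i => fderiv ℂ (fun z : ℂ × ℂ => F i z.1 z.2) w)) atTop
      (Metric.ball x (ε / 2)) :=
    hU.tendstoUniformlyOn_of_tendsto fun w hw => CauchySeq.tendsto_limUnder (hU.cauchySeq hw)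
  have hfg : ∀ w ∈ Metric.ball x (ε / 2),
      Tendsto (fun i => F i w.1 w.2) atTop (𝓝 (G w.1 w.2)) := by
    intro w hw
    rw [tendsto_iff_norm_sub_tendsto_zero]
    exact squeeze_zero (fun _ => norm_nonneg _) (fun i => hb i w (hsub' hw)) ha
  exact (hasFDerivAt_of_tendstoUniformlyOn Metric.isOpen_ball hT
    (fun i w hw => (hdiff i w hw).hasFDerivAt) hfg (Metric.mem_ball_self hr)).differentiableAt

/-- removable singularity along `t = 0`. -/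
theorem hol_removable {F : ℂ → ℂ → ℂ} {Ω : Set (ℂ × ℂ)} (hΩ : IsOpen Ω)
    (hF : Hol F (Ω ∩ {z | z.2 ≠ 0}))
    (hb : ∀ z ∈ Ω, z.2 = 0 → ∃ M : ℝ, ∀ᶠ w in 𝓝 z, w.2 ≠ 0 → ‖F w.1 w.2‖ ≤ M)
    (hl : ∀ z ∈ Ω, z.2 = 0 → Tendsto (fun t => F z.1 t) (𝓝[≠] 0) (𝓝 (F z.1 0))) : Hol F Ω := by
  have hg : AnalyticOnNhd ℂ (fun z : ℂ × ℂ => z.2) Ω := fun z _ => analyticAt_snd
  have hopen' : IsOpen (Ω ∩ {z : ℂ × ℂ | z.2 ≠ 0}) :=
    hΩ.inter (isOpen_ne_fun continuous_snd continuous_const)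
  have ha := SCV.analyticOnNhd_of_differentiableOn hopen' hF
  have hfreq : ∀ x ∈ Ω, ∃ᶠ y in 𝓝 x, (fun z : ℂ × ℂ => z.2) y ≠ 0 := by
    intro x _
    have h1 : ∃ᶠ t in 𝓝 x.2, t ∈ ({0}ᶜ : Set ℂ) :=
      mem_closure_iff_frequently.1 ((dense_compl_singleton (0 : ℂ)) x.2)
    have hcont : Tendsto (fun τ : ℂ => (x.1, τ)) (𝓝 x.2) (𝓝 x) := by
      have : ContinuousAt (fun τ : ℂ => (x.1, τ)) x.2 := by fun_prop
      exact this.tendsto
    exact hcont.frequently h1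
  have hbd : ∀ x ∈ Ω, ∃ C : ℝ, ∀ᶠ y in 𝓝 x, (fun z : ℂ × ℂ => z.2) y ≠ 0 →
      ‖(fun z : ℂ × ℂ => F z.1 z.2) y‖ ≤ C := by
    intro x hx
    by_cases h0 : x.2 = 0
    · exact hb x hx h0
    · refine ⟨‖F x.1 x.2‖ + 1, ?_⟩
      have hc : ContinuousAt (fun z : ℂ × ℂ => F z.1 z.2) x := (ha x ⟨hx, h0⟩).continuousAt
      filter_upwards [hc.norm.eventually (gt_mem_nhds (lt_add_one _))] with w hw _
      exact hw.le
  obtain ⟨H, hH, hHe⟩ := SCV.riemann_extension hΩ hg hfreq (h := fun z : ℂ × ℂ => F z.1 z.2)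
    (fun x hx hx0 => ha x ⟨hx, hx0⟩) hbd
  · have heq : ∀ z ∈ Ω, F z.1 z.2 = H z := by
      rintro ⟨y, t⟩ hz
      by_cases ht : t = 0
      · subst ht
        have h1 := hl (y, 0) hz rfl
        have hcont : ContinuousAt (fun τ : ℂ => (y, τ)) 0 := by fun_prop
        have h2 : Tendsto (fun τ : ℂ => H (y, τ)) (𝓝[≠] 0) (𝓝 (H (y, 0))) :=
          (((hH (y, 0) hz).continuousAt.comp (f := fun τ : ℂ => (y, τ)) hcont).tendsto).mono_left
            nhdsWithin_le_nhds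
        have h3 : ∀ᶠ τ in 𝓝 (0 : ℂ), (y, τ) ∈ Ω := hcont.eventually (hΩ.mem_nhds hz)
        refine tendsto_nhds_unique_of_eventuallyEq h1 h2 ?_
        filter_upwards [nhdsWithin_le_nhds h3, self_mem_nhdsWithin] with τ hτ hτ0
        exact (hHe (y, τ) hτ hτ0).symm
      · exact (hHe (y, t) hz ht).symm
    exact hH.differentiableOn.congr heq

/-- off `t = 0` the difference operator is a composition -/
theorem lh_hol_dd_off {v : ℂ → ℂ → ℂ} {Ω Ω' : Set (ℂ × ℂ)} (hv : Hol v Ω)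
    (h0 : ∀ z ∈ Ω', z.2 ≠ 0) (hp : ∀ z ∈ Ω', (z.1 + z.2 / 2, z.2) ∈ Ω)
    (hm : ∀ z ∈ Ω', (z.1 - z.2 / 2, z.2) ∈ Ω) : Hol (dd v) Ω' := by
  have h1 : Hol (fun y t => v (y + t / 2) t) Ω' :=
    hol_comp (G₁ := fun y t => y + t / 2) (G₂ := fun _ t => t) hv
      (by unfold Hol; fun_prop) (by unfold Hol; fun_prop) hp
  have h2 : Hol (fun y t => v (y - t / 2) t) Ω' :=
    hol_comp (G₁ := fun y t => y - t / 2) (G₂ := fun _ t => t) hv
      (by unfold Hol; fun_prop) (by unfold Hol; fun_prop) hm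
  have h3 : DifferentiableOn ℂ
      (fun z : ℂ × ℂ => (v (z.1 + z.2 / 2) z.2 - v (z.1 - z.2 / 2) z.2) * (z.2)⁻¹) Ω' :=
    (DifferentiableOn.fun_sub h1 h2).fun_mul (differentiableOn_snd.fun_inv h0)
  refine h3.congr ?_
  intro z hz
  simp [dd, h0 z hz, ds, div_eq_mul_inv]

/-- the difference operator, including `t = 0`. -/
theorem hol_dd {v : ℂ → ℂ → ℂ} {ν s d : ℝ} (hv : Hol v (Dom ν s d)) : Hol (dd v) (Dom (ν + 1 / 2) s d) := by
  have hshift : ∀ z ∈ Dom (ν + 1 / 2) s d,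
      (z.1 + z.2 / 2, z.2) ∈ Dom ν s d ∧ (z.1 - z.2 / 2, z.2) ∈ Dom ν s d := by
    rintro ⟨y, t⟩ h
    constructor
    · have := Dom_shift h (1 / 2) (by rw [abs_of_pos] <;> norm_num)
      convert this using 2
      push_cast; ring
    · have := Dom_shift h (-(1 / 2)) (by rw [abs_neg, abs_of_pos] <;> norm_num)
      convert this using 2
      push_cast; ring
  have hzero : ∀ z ∈ Dom (ν + 1 / 2) s d, z.2 = 0 → z ∈ Dom ν s d := by
    rintro ⟨y, t⟩ h ht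
    have ht' : t = 0 := ht
    subst ht'
    simpa using (hshift _ h).1
  apply hol_removable (isOpen_Dom _ s d)
  · exact lh_hol_dd_off hv (fun z hz => hz.2) (fun z hz => (hshift z hz.1).1)
      (fun z hz => (hshift z hz.1).2)
  · -- local bound
    rintro ⟨y₀, t₀⟩ hz ht
    have ht' : t₀ = 0 := ht
    subst ht'
    have hz' := hzero _ hz rfl
    have hO := isOpen_Dom ν s d
    have hc : ContinuousAt (fun z : ℂ × ℂ => dy v z.1 z.2) (y₀, 0) :=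
      (DifferentiableOn.differentiableAt (hol_dy hO hv) (hO.mem_nhds hz')).continuousAt
    have hev : ∀ᶠ z in 𝓝 ((y₀, 0) : ℂ × ℂ), z ∈ Dom ν s d ∧ ‖dy v z.1 z.2‖ < ‖dy v y₀ 0‖ + 1 :=
      (hO.eventually_mem hz').and (hc.norm.eventually (gt_mem_nhds (lt_add_one _)))
    obtain ⟨ρ, hρ, hball⟩ := Metric.eventually_nhds_iff_ball.1 hev
    refine ⟨‖dy v y₀ 0‖ + 1, ?_⟩
    filter_upwards [Metric.ball_mem_nhds ((y₀, 0) : ℂ × ℂ) (half_pos hρ)] with w hw hw0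
    obtain ⟨y, t⟩ := w
    have hw0' : t ≠ 0 := hw0
    rw [← ball_prod_same, Set.mem_prod] at hw
    have hy : dist y y₀ < ρ / 2 := hw.1
    have ht : ‖t‖ < ρ / 2 := by simpa using hw.2
    have hin : ∀ x ∈ Metric.ball y₀ ρ, ((x, t) : ℂ × ℂ) ∈ Metric.ball ((y₀, 0) : ℂ × ℂ) ρ := by
      intro x hx
      rw [← ball_prod_same, Set.mem_prod]
      refine ⟨hx, ?_⟩
      simp only [mem_ball_zero_iff]
      linarith
    have hnt : ‖t / 2‖ < ρ / 4 := by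
      rw [norm_div]
      simp only [Complex.norm_ofNat]
      linarith
    have hp : y + t / 2 ∈ Metric.ball y₀ ρ := by
      rw [Metric.mem_ball, dist_eq_norm]
      have h1 : y + t / 2 - y₀ = (y - y₀) + t / 2 := by ring
      rw [h1]
      have h2 := norm_add_le (y - y₀) (t / 2)
      rw [dist_eq_norm] at hy
      linarith
    have hm : y - t / 2 ∈ Metric.ball y₀ ρ := by
      rw [Metric.mem_ball, dist_eq_norm]
      have h1 : y - t / 2 - y₀ = (y - y₀) - t / 2 := by ring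
      rw [h1]
      have h2 := norm_sub_le (y - y₀) (t / 2)
      rw [dist_eq_norm] at hy
      linarith
    have h3 := Convex.norm_image_sub_le_of_norm_deriv_le (f := fun x => v x t)
      (C := ‖dy v y₀ 0‖ + 1) (s := Metric.ball y₀ ρ)
      (fun x hx => hol_slice_y hO hv (hball _ (hin x hx)).1)
      (fun x hx => (hball _ (hin x hx)).2.le) (convex_ball _ _) hm hp
    have h4 : y + t / 2 - (y - t / 2) = t := by ring
    rw [h4] at h3
    have h5 : dd v y t = (v (y + t / 2) t - v (y - t / 2) t) / t := by simp [dd, hw0', ds]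
    show ‖dd v y t‖ ≤ _
    rw [h5, norm_div, div_le_iff₀ (norm_pos_iff.2 hw0')]
    exact h3
  · -- the limit
    rintro ⟨y, t₀⟩ hz ht
    have ht' : t₀ = 0 := ht
    subst ht'
    have hz' := hzero _ hz rfl
    have hO := isOpen_Dom ν s d
    have e1 : HasDerivAt (fun t : ℂ => y + t / 2) (1 / 2) 0 := by
      have := ((hasDerivAt_id (0 : ℂ)).div_const 2).const_add y
      simpa using this
    have e2 : HasDerivAt (fun t : ℂ => y - t / 2) (-(1 / 2)) 0 := by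
      have := ((hasDerivAt_id (0 : ℂ)).div_const 2).const_sub y
      simpa using this
    have e3 : HasDerivAt (fun t : ℂ => t) 1 0 := hasDerivAt_id 0
    have d1 := hol_chain hO hv e1 e3 (by simpa using hz')
    have d2 := hol_chain hO hv e2 e3 (by simpa using hz')
    have d3 := d1.sub d2
    simp only [zero_div, add_zero, sub_zero] at d3
    have h6 : dy v y 0 * (1 / 2) + dt v y 0 * 1 - (dy v y 0 * -(1 / 2) + dt v y 0 * 1) = dy v y 0 := by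
      ring
    rw [h6, hasDerivAt_iff_tendsto_slope] at d3
    have h7 : dd v y 0 = dy v y 0 := by simp [dd]
    show Tendsto (fun t => dd v y t) (𝓝[≠] 0) (𝓝 (dd v y 0))
    rw [h7]
    refine d3.congr' ?_
    filter_upwards [self_mem_nhdsWithin] with t ht
    have ht0 : t ≠ 0 := ht
    simp [slope, dd, ht0, ds, div_eq_inv_mul]

/-- the difference operator near a real parameter `t₀ ≠ 0`. -/
theorem hol_dd_Wd {v : ℂ → ℂ → ℂ} {s t₀ r δ : ℝ} (hr : r ≤ |t₀|) (hδ : r ≤ 2 * δ) (hv : Hol v (Wd s t₀ r)) :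
    Hol (dd v) (Wd (s - δ) t₀ r) := by
  have him : ∀ t ∈ Metric.ball (t₀ : ℂ) r, |t.im| < r := by
    intro t ht
    have h1 : |(t - t₀).im| ≤ ‖t - t₀‖ := Complex.abs_im_le_norm _
    have h2 : ‖t - t₀‖ < r := by rwa [← dist_eq_norm]
    have h3 : (t - t₀).im = t.im := by simp
    rw [h3] at h1
    linarith
  apply lh_hol_dd_off hv
  · rintro ⟨y, t⟩ ⟨_, ht⟩ h0
    have h0' : t = 0 := h0
    subst h0'
    have h1 : dist (0 : ℂ) (t₀ : ℂ) < r := ht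
    rw [dist_eq_norm, zero_sub, norm_neg, Complex.norm_real, Real.norm_eq_abs] at h1
    linarith
  · rintro ⟨y, t⟩ ⟨hy, ht⟩
    refine ⟨?_, ht⟩
    have hy' : |y.im| < s - δ := hy
    show |(y + t / 2).im| < s
    have h1 : (y + t / 2).im = y.im + t.im / 2 := by simp
    rw [h1]
    have h2 := abs_add_le y.im (t.im / 2)
    have h3 : |t.im / 2| = |t.im| / 2 := by rw [abs_div]; norm_num
    have h4 := him t ht
    linarith
  · rintro ⟨y, t⟩ ⟨hy, ht⟩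
    refine ⟨?_, ht⟩
    have hy' : |y.im| < s - δ := hy
    show |(y - t / 2).im| < s
    have h1 : (y - t / 2).im = y.im - t.im / 2 := by simp
    rw [h1]
    have h2 := abs_sub y.im (t.im / 2)
    have h3 : |t.im / 2| = |t.im| / 2 := by rw [abs_div]; norm_num
    have h4 := him t ht
    linarith


end Claimed.Agent.R269.S3
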