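/-
Row 269, Section 3, UNIT C, leaf package LF-S3-C0: elementary facts on slices and candidates.   Statements: helper228.   Routine (~350 lines).
Uses Defs, FacDefs (Pre), LibHol.    `φ''`, `φ'''` are bounded on `hstrip (s₀/2)` by Cauchy estimates from `B.φ'_le` (`strip_iter_le` for `deriv φ`, `δ = s₀/2`).
`iteratedDeriv j (f - φ) = iteratedDeriv j f - iteratedDeriv j φ` on the strip (both are holomorphic there: `DifferentiableOn.analyticOnNhd`, `iteratedDeriv_sub` needs `ContDiffAt`).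
-/
import Claimed.Agent.R269.S3.FacDefs
import Claimed.Agent.R269.S3.LibHol

set_option autoImplicit false

namespace Claimed.Agent.R269.S3

open Real Complex ComplexConjugate

variable {B : Base} {s s' d d' κ κ' s₁ μ : ℝ} {f V : ℂ → ℂ} {Θ : ℂ → ℂ → ℂ}

theorem fs_hstrip_mono (h : s' ≤ s) : hstrip s' ⊆ hstrip s := fun _ hz => lt_of_lt_of_le hz h

theorem fs_contDiffAt {g : ℂ → ℂ} (hg : DifferentiableOn ℂ g (hstrip s)) {y : ℂ} (hy : y ∈ hstrip s) (n : ℕ) :
    ContDiffAt ℂ n g y :=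
  (hg.analyticAt ((isOpen_hstrip s).mem_nhds hy)).contDiffAt

theorem fs_mem0 {y t : ℂ} : (y, t) ∈ Dom 0 s d ↔ ‖t‖ < d ∧ y ∈ hstrip s := by
  simp only [Dom, hstrip, Set.mem_ofPred_eq, zero_mul, sub_zero]

theorem Pre.half (h : Pre B (2 * s₁) κ) : Pre B s₁ κ := by
  have h1 := h.s₁_pos
  exact ⟨by linarith, by linarith [h.s₁_le], by linarith [h.s₁_le_one], h.κ_pos, h.κ_le_σ, h.κ_le_m⟩

theorem Slice.mono (h : Slice B s κ f) (hs : s' ≤ s) (hκ : κ ≤ κ') : Slice B s' κ' f :=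
  ⟨h.diff.mono (fs_hstrip_mono hs), fun y hy => h.per y (fs_hstrip_mono hs hy),
    fun j hj y hy => (h.small j hj y (fs_hstrip_mono hs hy)).trans hκ⟩

theorem Cand.mono (h : Cand B s d κ Θ) (hs : s' ≤ s) (hd : d' ≤ d) (hκ : κ ≤ κ') : Cand B s' d' κ' Θ := by
  have hsub : Dom 0 s' d' ⊆ Dom 0 s d := Dom_mono le_rfl hs hd
  exact ⟨h.hol.mono hsub,
    ⟨fun z hz => h.sym.per z (hsub hz), fun z hz => h.sym.even z (hsub hz),
      fun z hz => h.sym.real z (hsub hz)⟩,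
    fun y hy => h.zero y (fs_hstrip_mono hs hy),
    fun j hj z hz => (h.small j hj z (hsub hz)).trans hκ⟩

theorem slice_phi (hs : s ≤ B.s₀) (hκ : 0 ≤ κ) : Slice B s κ B.φ :=
  ⟨B.φ_diff.mono (fs_hstrip_mono hs), fun y hy => B.φ_per y (fs_hstrip_mono hs hy),
    fun j _ y _ => by simpa using hκ⟩

theorem cand_phi (hs : s ≤ B.s₀) (hκ : 0 ≤ κ) : Cand B s d κ (fun y _ => B.φ y) := by
  refine ⟨?_, ⟨fun z _ => by simp, fun z _ => by simp, fun z _ => by simp⟩, fun _ _ => rfl,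
    fun j _ z _ => by simpa using hκ⟩
  exact hol_comp₁ (G := fun y _ => y) (B.φ_diff.mono (fs_hstrip_mono hs))
    differentiable_fst.differentiableOn (fun z hz => (fs_mem0.1 hz).2)

theorem Cand.per (hs : s ≤ B.s₀) (h : Cand B s d κ Θ) {y t : ℂ} (hy : y ∈ hstrip s) (ht : ‖t‖ < d) :
    Θ (y + 2 * π) t = Θ y t + 2 * π := by
  have h1 := h.sym.per (y, t) (fs_mem0.2 ⟨ht, hy⟩)
  have h2 := B.φ_per y (fs_hstrip_mono hs hy)
  simp only at h1
  rw [h2] at h1
  linear_combination h1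

theorem Cand.slice (hs : s ≤ B.s₀) (h : Cand B s d κ Θ) {t : ℂ} (ht : ‖t‖ < d) :
    Slice B s κ (fun x => Θ x t) :=
  ⟨fun _ hy => (hol_slice_y (isOpen_Dom _ _ _) h.hol (fs_mem0.2 ⟨ht, hy⟩)).differentiableWithinAt,
    fun _ hy => h.per hs hy ht,
    fun j hj y hy => h.small j hj (y, t) (fs_mem0.2 ⟨ht, hy⟩)⟩

/-- a real-symmetric candidate has real-symmetric slices at real parameters. -/
theorem Cand.slice_real (hs : s ≤ B.s₀) (h : Cand B s d κ Θ) {t : ℝ} (ht : |t| < d) :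
    ∀ y ∈ hstrip s, Θ (conj y) t = conj (Θ y t) := by
  intro y hy
  have h1 := h.sym.real (y, (t : ℂ)) (fs_mem0.2 ⟨by simpa using ht, hy⟩)
  have h2 := B.φ_conj y (fs_hstrip_mono hs hy)
  simp only [Complex.conj_ofReal] at h1
  rw [h2, map_sub] at h1
  linear_combination h1

theorem Slice.add_var (hs : s ≤ B.s₀) (h : Slice B s κ f) (hV : Var s μ V) {e : ℂ} (he : ‖e‖ * μ ≤ κ') :
    Slice B s (κ + κ') (fun x => f x + e * V x) := by
  refine ⟨h.diff.add (hV.diff.const_mul e), fun y hy => ?_, fun j hj y hy => ?_⟩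
  · rw [h.per y hy, hV.per y hy]; ring
  · have hφ := B.φ_diff.mono (fs_hstrip_mono hs)
    have e1 : (fun x => f x + e * V x - B.φ x) = (fun x => (f x - B.φ x) + e * V x) := by
      funext x; ring
    rw [e1, iteratedDeriv_fun_add (f := fun x => f x - B.φ x) (g := fun x => e * V x)
      (fs_contDiffAt (h.diff.sub hφ) hy j)
      (fs_contDiffAt (hV.diff.const_mul e) hy j), iteratedDeriv_const_mul_field]
    refine (norm_add_le _ _).trans (add_le_add (h.small j hj y hy) ?_)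
    rw [norm_mul]
    exact (mul_le_mul_of_nonneg_left (hV.small j hj y hy) (norm_nonneg e)).trans he

/-- sum of a candidate and of a small symmetric correction. -/
theorem Cand.add {Δ : ℂ → ℂ → ℂ} (hs : s ≤ B.s₀) (h : Cand B s d κ Θ) (h1 : Hol Δ (Dom 0 s d))
    (h2 : Sym Δ (Dom 0 s d))
    (h3 : ∀ y ∈ hstrip s, Δ y 0 = 0) (h4 : BdC 3 Δ (Dom 0 s d) κ') :
    Cand B s d (κ + κ') (fun y t => Θ y t + Δ y t) := by
  refine ⟨h.hol.add h1, ⟨fun z hz => ?_, fun z hz => ?_, fun z hz => ?_⟩, fun y hy => ?_,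
    fun j hj z hz => ?_⟩
  · have a1 := h.sym.per z hz
    have a2 := h2.per z hz
    linear_combination a1 + a2
  · have a1 := h.sym.even z hz
    have a2 := h2.even z hz
    linear_combination a1 + a2
  · have a1 := h.sym.real z hz
    have a2 := h2.real z hz
    simp only [map_sub, map_add] at a1 a2 ⊢
    linear_combination a1 + a2
  · rw [h.zero y hy, h3 y hy, add_zero]
  · obtain ⟨y, t⟩ := z
    have hz' := fs_mem0.1 hz
    have hφ := B.φ_diff.mono (fs_hstrip_mono hs)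
    have dΘ : DifferentiableOn ℂ (fun x => Θ x t) (hstrip s) := fun x hx =>
      (hol_slice_y (isOpen_Dom _ _ _) h.hol (fs_mem0.2 ⟨hz'.1, hx⟩)).differentiableWithinAt
    have dΔ : DifferentiableOn ℂ (fun x => Δ x t) (hstrip s) := fun x hx =>
      (hol_slice_y (isOpen_Dom _ _ _) h1 (fs_mem0.2 ⟨hz'.1, hx⟩)).differentiableWithinAt
    have e1 : (fun x => Θ x t + Δ x t - B.φ x) = (fun x => (Θ x t - B.φ x) + Δ x t) := by
      funext x; ring
    simp only
    rw [e1, iteratedDeriv_fun_add (f := fun x => Θ x t - B.φ x) (g := fun x => Δ x t)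
      (fs_contDiffAt (dΘ.sub hφ) hz'.2 j) (fs_contDiffAt dΔ hz'.2 j)]
    exact (norm_add_le _ _).trans (add_le_add (h.small j hj (y, t) hz) (h4 j hj (y, t) hz))

theorem Slice.mem (hp : Pre B s₁ κ) (hs : s ≤ s₁) (h : Slice B s (2 * κ) f) :
    ∀ y ∈ hstrip s, f y ∈ hstrip (3 * B.σ / 8) := by
  intro y hy
  have hs0 : s ≤ B.s₀ := by have := hp.s₁_le; have := hp.s₁_pos; linarith
  have h1 : ‖f y - B.φ y‖ ≤ 2 * κ := by simpa using h.small 0 (by norm_num) y hy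
  have h2 : |(B.φ y).im| < B.σ / 4 := B.φ_maps y (fs_hstrip_mono hs0 hy)
  have h3 : |(f y - B.φ y).im| ≤ 2 * κ := (Complex.abs_im_le_norm _).trans h1
  have h4 : (f y).im = (f y - B.φ y).im + (B.φ y).im := by rw [Complex.sub_im]; ring
  show |(f y).im| < 3 * B.σ / 8
  rw [h4]
  have := hp.κ_le_σ
  have := abs_add_le (f y - B.φ y).im (B.φ y).im
  linarith

theorem Slice.iter_sub (hs : s ≤ B.s₀) (h : Slice B s κ f) (j : ℕ) {y : ℂ} (hy : y ∈ hstrip s) :
    iteratedDeriv j (fun x => f x - B.φ x) y = iteratedDeriv j f y - iteratedDeriv j B.φ y :=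
  iteratedDeriv_fun_sub (fs_contDiffAt h.diff hy j)
    (fs_contDiffAt (B.φ_diff.mono (fs_hstrip_mono hs)) hy j)

theorem Slice.deriv_ge (hp : Pre B s₁ κ) (hs : s ≤ s₁) (h : Slice B s (2 * κ) f) :
    ∀ y ∈ hstrip s, 3 / 4 * B.mφ ≤ ‖deriv f y‖ := by
  intro y hy
  have hs0 : s ≤ B.s₀ := by have := hp.s₁_le; have := hp.s₁_pos; linarith
  have h1 := h.small 1 (by norm_num) y hy
  rw [h.iter_sub hs0 1 hy, iteratedDeriv_one, iteratedDeriv_one] at h1
  have h2 := B.φ'_ge y (fs_hstrip_mono hs0 hy)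
  have h3 : ‖deriv B.φ y‖ ≤ ‖deriv f y‖ + ‖deriv f y - deriv B.φ y‖ := by
    have := norm_sub_le (deriv f y) (deriv f y - deriv B.φ y)
    simpa using this
  have := hp.κ_le_m
  linarith

/-- one constant `L`, depending only on `B`, for the first three derivatives of all `2κ`-slices. -/
theorem slice_C3 (B : Base) : ∃ L : ℝ, 1 ≤ L ∧ ∀ s₁ κ : ℝ, Pre B s₁ κ → ∀ s ≤ s₁, ∀ f, Slice B s (2 * κ) f →
    ∀ y ∈ hstrip s, ‖deriv f y‖ ≤ L ∧ ‖iteratedDeriv 2 f y‖ ≤ L ∧ ‖iteratedDeriv 3 f y‖ ≤ L := by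
  have hs0 := B.s₀_pos
  have hM : 0 ≤ B.Mφ := (norm_nonneg _).trans (B.φ'_le 0 (by show |(0 : ℂ).im| < B.s₀; simpa using hs0))
  have hd' : DifferentiableOn ℂ (deriv B.φ) (hstrip B.s₀) := B.φ_diff.deriv (isOpen_hstrip _)
  have c1 := strip_iter_le (δ := B.s₀ / 2) (by positivity) hd' B.φ'_le 1
  have c2 := strip_iter_le (δ := B.s₀ / 2) (by positivity) hd' B.φ'_le 2
  have hσ := B.σ_pos
  have p1 : 0 ≤ ((1 : ℕ).factorial : ℝ) * B.Mφ / (B.s₀ / 2) ^ 1 := by positivity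
  have p2 : 0 ≤ ((2 : ℕ).factorial : ℝ) * B.Mφ / (B.s₀ / 2) ^ 2 := by positivity
  refine ⟨1 + B.Mφ + ((1 : ℕ).factorial : ℝ) * B.Mφ / (B.s₀ / 2) ^ 1
    + ((2 : ℕ).factorial : ℝ) * B.Mφ / (B.s₀ / 2) ^ 2 + B.σ, by linarith, ?_⟩
  intro s₁ κ hp s hs f h y hy
  have hss : s ≤ B.s₀ := by have := hp.s₁_le; have := hp.s₁_pos; linarith
  have hy2 : y ∈ hstrip (B.s₀ - B.s₀ / 2) := by
    have h1 : |y.im| < s := hy
    show |y.im| < B.s₀ - B.s₀ / 2
    have := hp.s₁_le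
    linarith
  have hκ := hp.κ_le_σ
  have hκ0 := hp.κ_pos
  have tri : ∀ a b : ℂ, ‖a‖ ≤ ‖a - b‖ + ‖b‖ := fun a b => by
    have := norm_add_le (a - b) b
    simpa using this
  have a1 := h.small 1 (by norm_num) y hy
  have a2 := h.small 2 (by norm_num) y hy
  have a3 := h.small 3 (by norm_num) y hy
  rw [h.iter_sub hss _ hy] at a1 a2 a3
  rw [iteratedDeriv_one, iteratedDeriv_one] at a1
  have b1 := B.φ'_le y (fs_hstrip_mono hss hy)
  have b2 := c1 y hy2
  have b3 := c2 y hy2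
  rw [← iteratedDeriv_succ'] at b2 b3
  refine ⟨?_, ?_, ?_⟩
  · have := tri (deriv f y) (deriv B.φ y)
    linarith
  · have := tri (iteratedDeriv 2 f y) (iteratedDeriv 2 B.φ y)
    linarith
  · have := tri (iteratedDeriv 3 f y) (iteratedDeriv 3 B.φ y)
    linarith

/-- consequences of a bound `L` on `f'`, `f''` on the (convex) strip. -/
theorem strip_lip {g : ℂ → ℂ} {L : ℝ} (hg : DifferentiableOn ℂ g (hstrip s)) (hL : ∀ y ∈ hstrip s, ‖deriv g y‖ ≤ L) :
    ∀ y ∈ hstrip s, ∀ y' ∈ hstrip s, ‖g y - g y'‖ ≤ L * ‖y - y'‖ := by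
  intro y hy y' hy'
  exact (convex_hstrip s).norm_image_sub_le_of_norm_deriv_le
    (fun x hx => hg.differentiableAt ((isOpen_hstrip s).mem_nhds hx)) hL hy' hy

theorem strip_second_diff {g : ℂ → ℂ} {L : ℝ} (hg : DifferentiableOn ℂ g (hstrip s))
    (hL : ∀ y ∈ hstrip s, ‖iteratedDeriv 2 g y‖ ≤ L) {y t : ℂ} (h1 : y + t ∈ hstrip s) (h2 : y - t ∈ hstrip s) :
    ‖g (y + t) + g (y - t) - 2 * g y‖ ≤ L * ‖t‖ ^ 2 := by
  have hy : y ∈ hstrip s := by
    have h := (convex_hstrip s) h1 h2 (a := 1 / 2) (b := 1 / 2) (by norm_num) (by norm_num) (by norm_num)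
    have e : (1 / 2 : ℝ) • (y + t) + (1 / 2 : ℝ) • (y - t) = y := by
      simp only [Complex.real_smul]; push_cast; ring
    rwa [e] at h
  have hg' : DifferentiableOn ℂ (deriv g) (hstrip s) := hg.deriv (isOpen_hstrip _)
  have hL' : ∀ x ∈ hstrip s, ‖deriv (deriv g) x‖ ≤ L := fun x hx => by
    have := hL x hx
    rwa [iteratedDeriv_succ, iteratedDeriv_one] at this
  have hlip := strip_lip hg' hL'
  have hconv : Convex ℝ {w : ℂ | w ∈ hstrip s ∧ w + t ∈ hstrip s} := by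
    have c2 : Convex ℝ ((fun w : ℂ => w + t) ⁻¹' hstrip s) := (convex_hstrip s).translate_preimage_left t
    exact (convex_hstrip s).inter c2
  have hder : ∀ w ∈ {w : ℂ | w ∈ hstrip s ∧ w + t ∈ hstrip s},
      HasDerivWithinAt (fun w => g (w + t) - g w) (deriv g (w + t) - deriv g w)
        {w : ℂ | w ∈ hstrip s ∧ w + t ∈ hstrip s} w := by
    intro w hw
    have d1 : HasDerivAt g (deriv g w) w :=
      (hg.differentiableAt ((isOpen_hstrip s).mem_nhds hw.1)).hasDerivAt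
    have d2 : HasDerivAt g (deriv g (w + t)) (w + t) :=
      (hg.differentiableAt ((isOpen_hstrip s).mem_nhds hw.2)).hasDerivAt
    exact ((d2.comp_add_const w t).sub d1).hasDerivWithinAt
  have hbd : ∀ w ∈ {w : ℂ | w ∈ hstrip s ∧ w + t ∈ hstrip s}, ‖deriv g (w + t) - deriv g w‖ ≤ L * ‖t‖ := by
    intro w hw
    have := hlip (w + t) hw.2 w hw.1
    simpa using this
  have hfin := hconv.norm_image_sub_le_of_norm_hasDerivWithin_le hder hbd
    (x := y - t) (y := y) ⟨h2, by simpa using hy⟩ ⟨hy, h1⟩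
  have e1 : g (y + t) - g y - (g (y - t + t) - g (y - t)) = g (y + t) + g (y - t) - 2 * g y := by
    rw [sub_add_cancel]; ring
  rw [e1] at hfin
  have e2 : y - (y - t) = t := by ring
  rw [e2] at hfin
  calc _ ≤ L * ‖t‖ * ‖t‖ := hfin
    _ = L * ‖t‖ ^ 2 := by ring

end Claimed.Agent.R269.S3
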