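/-
Row 269, Section 3, LIBRARY `LibFS` (package LF-S3-LibFS): Fourier coefficients of `2π`-periodic holomorphic functions on strips.
Statements: helper228.  HOST-FREE (Defs.lean, Lib/CA1Sing.lean, LibHol.lean, Mathlib).

HINTS.
* `fc_shift_im` / `fc_decay`: `ca_row_integral_const` (Lib/CA1Sing.lean, sorry-free: the row integrals of a periodic holomorphic
  function do not depend on the row) applied to `g(y) e^{-iny}`:  `fc n g = e^{nτ} (2π)⁻¹ ∫₀^{2π} g(x + iτ) e^{-inx} dx`, `|τ| < s`;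
  so `|fc n g| ≤ M e^{nτ}`; let `τ → ∓ s`.
* real shifts: `Function.Periodic.intervalIntegral_add_eq`.
* `fc_hasSum`: for real `y` Mathlib's `hasSum_fourier_series_of_summable` / `has_pointwise_sum_fourier_series_of_summable` on
  `AddCircle (2π)` (`fourierCoeff_eq_intervalIntegral`, summability from `fc_decay`); for complex `y` apply it to
  `x ↦ g(x + i Im y)` and use `fc_shift`.
* `fc_hol`: differentiation under the integral sign (`hasDerivAt_integral_of_dominated_loc_of_deriv_le`, `intervalIntegral` form), the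
  `t`-derivative is continuous by `hol_dt`, bounded on compact sets.
-/
import Claimed.Agent.R269.S3.LibHol
import Claimed.Agent.R269.Lib.CA1Sing

set_option autoImplicit false

namespace Claimed.Agent.R269.S3

open Real Complex ComplexConjugate Filter Topology

/-! ### elementary facts -/

theorem lfs_add_real_mem {s : ℝ} {y : ℂ} (hy : y ∈ hstrip s) (a : ℝ) : y + a ∈ hstrip s := by
  have hy' : |y.im| < s := hy
  show |(y + a).im| < s
  simpa using hy'

theorem lfs_real_mem {s : ℝ} (hs : 0 < s) (a : ℝ) : (a : ℂ) ∈ hstrip s := by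
  show |(a : ℂ).im| < s
  simpa using hs

theorem lfs_real_add_mem {s : ℝ} {τ : ℂ} (hτ : |τ.im| < s) (a : ℝ) : (a : ℂ) + τ ∈ hstrip s := by
  show |((a : ℂ) + τ).im| < s
  simpa using hτ

theorem lfs_cont_exp (n : ℤ) : Continuous fun x : ℝ => Complex.exp (-(n * x * Complex.I)) := by
  fun_prop

theorem lfs_norm_exp (n : ℤ) (x : ℝ) : ‖Complex.exp (-(n * x * Complex.I))‖ = 1 := by
  have h : (-(n * x * Complex.I) : ℂ) = ((-(n * x) : ℝ) : ℂ) * Complex.I := by push_cast; ring
  rw [h, Complex.norm_exp_ofReal_mul_I]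

theorem lfs_cont_of_diff {g : ℂ → ℂ} {s : ℝ} (hg : DifferentiableOn ℂ g (hstrip s)) {τ : ℂ}
    (hτ : |τ.im| < s) : Continuous fun x : ℝ => g (x + τ) :=
  hg.continuousOn.comp_continuous (by fun_prop) (fun x => lfs_real_add_mem hτ x)

theorem lfs_cont_of_diff₀ {g : ℂ → ℂ} {s : ℝ} (hs : 0 < s) (hg : DifferentiableOn ℂ g (hstrip s)) :
    Continuous fun x : ℝ => g x :=
  hg.continuousOn.comp_continuous (by fun_prop) (fun x => lfs_real_mem hs x)

theorem fc_congr {g₁ g₂ : ℂ → ℂ} (h : ∀ x : ℝ, g₁ x = g₂ x) (n : ℤ) : fc n g₁ = fc n g₂ := by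
  unfold fc
  congr 1
  apply intervalIntegral.integral_congr
  intro x _
  simp only [h x]

theorem fc_add {g₁ g₂ : ℂ → ℂ} (h₁ : Continuous fun x : ℝ => g₁ x) (h₂ : Continuous fun x : ℝ => g₂ x) (n : ℤ) :
    fc n (fun y => g₁ y + g₂ y) = fc n g₁ + fc n g₂ := by
  unfold fc
  have h := intervalIntegral.integral_add (μ := MeasureTheory.volume) (a := 0) (b := 2 * π)
    (f := fun x : ℝ => g₁ x * Complex.exp (-(n * x * Complex.I)))
    (g := fun x : ℝ => g₂ x * Complex.exp (-(n * x * Complex.I)))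
    ((h₁.mul (lfs_cont_exp n)).intervalIntegrable _ _) ((h₂.mul (lfs_cont_exp n)).intervalIntegrable _ _)
  rw [← mul_add, ← h]
  congr 1
  apply intervalIntegral.integral_congr
  intro x _
  simp only [add_mul]

theorem fc_const_mul (a : ℂ) (g : ℂ → ℂ) (n : ℤ) : fc n (fun y => a * g y) = a * fc n g := by
  unfold fc
  have h := intervalIntegral.integral_const_mul (μ := MeasureTheory.volume) (a := 0) (b := 2 * π) a
    (fun x : ℝ => g x * Complex.exp (-(n * x * Complex.I)))
  rw [mul_left_comm a, ← h]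
  congr 1
  apply intervalIntegral.integral_congr
  intro x _
  simp only [mul_assoc]

theorem fc_sum {ι : Type*} (S : Finset ι) (g : ι → ℂ → ℂ) (h : ∀ i ∈ S, Continuous fun x : ℝ => g i x) (n : ℤ) :
    fc n (fun y => ∑ i ∈ S, g i y) = ∑ i ∈ S, fc n (g i) := by
  unfold fc
  have h' := intervalIntegral.integral_finsetSum (μ := MeasureTheory.volume) (a := 0) (b := 2 * π)
    (s := S) (f := fun i => fun x : ℝ => g i x * Complex.exp (-(n * x * Complex.I)))
    (fun i hi => ((h i hi).mul (lfs_cont_exp n)).intervalIntegrable _ _)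
  rw [← Finset.mul_sum, ← h']
  congr 1
  apply intervalIntegral.integral_congr
  intro x _
  simp only [Finset.sum_mul]

theorem norm_fc_le {g : ℂ → ℂ} {M : ℝ} (hb : ∀ x : ℝ, ‖g x‖ ≤ M) (n : ℤ) : ‖fc n g‖ ≤ M := by
  unfold fc
  have h1 : ‖∫ x in (0 : ℝ)..(2 * π), g x * Complex.exp (-(n * x * Complex.I))‖ ≤ M * |2 * π - 0| := by
    apply intervalIntegral.norm_integral_le_of_norm_le_const
    intro x _
    rw [norm_mul, lfs_norm_exp, mul_one]
    exact hb x
  have hpi : (0 : ℝ) < 2 * π := by positivity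
  rw [sub_zero, abs_of_pos hpi] at h1
  rw [norm_mul, Complex.norm_real, Real.norm_eq_abs, abs_of_pos (inv_pos.2 hpi)]
  calc (2 * π)⁻¹ * ‖∫ x in (0 : ℝ)..(2 * π), g x * Complex.exp (-(n * x * Complex.I))‖
      ≤ (2 * π)⁻¹ * (M * (2 * π)) := by gcongr
    _ = M := by field_simp

theorem lfs_mean_eq (g : ℂ → ℂ) : mean g = ((2 * π)⁻¹ : ℝ) * ∫ x in (0 : ℝ)..(2 * π), g x := by
  unfold mean fc
  simp

theorem mean_const (a : ℂ) : mean (fun _ => a) = a := by
  rw [lfs_mean_eq, intervalIntegral.integral_const]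
  have hpi : (π : ℂ) ≠ 0 := by exact_mod_cast Real.pi_ne_zero
  simp only [sub_zero, Complex.real_smul]
  push_cast
  field_simp

theorem fc_exp (n m : ℤ) : fc n (fun y => Complex.exp (m * y * Complex.I)) = if n = m then 1 else 0 := by
  have hpi : (π : ℂ) ≠ 0 := by exact_mod_cast Real.pi_ne_zero
  unfold fc
  have h1 : ∀ x : ℝ, Complex.exp (m * x * Complex.I) * Complex.exp (-(n * x * Complex.I)) =
      Complex.exp ((((m - n : ℤ) : ℂ) * Complex.I) * x) := by
    intro x
    rw [← Complex.exp_add]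
    congr 1
    push_cast; ring
  simp only [h1]
  by_cases hnm : n = m
  · subst hnm
    simp only [sub_self, Int.cast_zero, zero_mul, Complex.exp_zero, if_true]
    rw [intervalIntegral.integral_const]
    simp only [sub_zero, Complex.real_smul]
    push_cast
    field_simp
  · rw [if_neg hnm]
    have hc : (((m - n : ℤ) : ℂ) * Complex.I) ≠ 0 := by
      apply mul_ne_zero _ Complex.I_ne_zero
      exact_mod_cast sub_ne_zero.2 (Ne.symm hnm)
    rw [integral_exp_mul_complex hc]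
    have h2 : Complex.exp ((((m - n : ℤ) : ℂ) * Complex.I) * ((2 * π : ℝ) : ℂ)) = 1 := by
      have : (((m - n : ℤ) : ℂ) * Complex.I) * ((2 * π : ℝ) : ℂ) = ((m - n : ℤ) : ℂ) * (2 * π * Complex.I) := by
        push_cast; ring
      rw [this, Complex.exp_int_mul_two_pi_mul_I]
    rw [h2]
    simp

/-! ### shifts and decay -/

/-- the integral over a period of a periodic holomorphic function does not depend on the row -/
theorem lfs_shift_integral {G : ℂ → ℂ} {s : ℝ} (hG : DifferentiableOn ℂ G (hstrip s))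
    (hp : ∀ y ∈ hstrip s, G (y + 2 * π) = G y) {τ : ℂ} (hτ : |τ.im| < s) :
    ∫ x in (0 : ℝ)..(2 * π), G (x + τ) = ∫ x in (0 : ℝ)..(2 * π), G x := by
  have hs : 0 < s := lt_of_le_of_lt (abs_nonneg _) hτ
  have hper : Function.Periodic (fun x : ℝ => G (x + τ.im * Complex.I)) (2 * π) := by
    intro x
    have hmem : (x : ℂ) + τ.im * Complex.I ∈ hstrip s := by
      show |((x : ℂ) + τ.im * Complex.I).im| < s
      simpa using hτ
    have h := hp _ hmem
    show G (((x + 2 * π : ℝ) : ℂ) + τ.im * Complex.I) = G ((x : ℂ) + τ.im * Complex.I)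
    rw [← h]
    congr 1
    push_cast; ring
  have h1 : ∫ x in (0 : ℝ)..(2 * π), G (x + τ) =
      ∫ x in (0 : ℝ)..(2 * π), (fun x : ℝ => G (x + τ.im * Complex.I)) (x + τ.re) := by
    apply intervalIntegral.integral_congr
    intro x _
    show G (x + τ) = G (((x + τ.re : ℝ) : ℂ) + τ.im * Complex.I)
    congr 1
    conv_lhs => rw [← Complex.re_add_im τ]
    push_cast; ring
  rw [h1, intervalIntegral.integral_comp_add_right (fun x : ℝ => G (x + τ.im * Complex.I)) τ.re]
  have h2 := hper.intervalIntegral_add_eq (0 + τ.re) 0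
  have h3 : 2 * π + τ.re = 0 + τ.re + 2 * π := by ring
  rw [h3, h2, zero_add]
  have h4 := ca_row_integral_const (g := G) (isOpen_hstrip s) (convex_hstrip s)
    (fun y hy x => lfs_add_real_mem hy x) hG hp (c₁ := τ.im) (c₂ := 0)
    (by show |((τ.im : ℂ) * Complex.I).im| < s; simpa using hτ)
    (by show |(((0 : ℝ) : ℂ) * Complex.I).im| < s; simpa using hs)
  rw [h4]
  apply intervalIntegral.integral_congr
  intro x _
  simp

theorem lfs_twist_diff {g : ℂ → ℂ} {s : ℝ} (hg : DifferentiableOn ℂ g (hstrip s)) (n : ℤ) :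
    DifferentiableOn ℂ (fun y => g y * Complex.exp (-(n * y * Complex.I))) (hstrip s) :=
  hg.mul (by fun_prop)

theorem lfs_exp_per (n : ℤ) (y : ℂ) :
    Complex.exp (-(n * (y + 2 * π) * Complex.I)) = Complex.exp (-(n * y * Complex.I)) := by
  have h : (-(n * (y + 2 * π) * Complex.I) : ℂ) = -(n * y * Complex.I) + ((-n : ℤ) : ℂ) * (2 * π * Complex.I) := by
    push_cast; ring
  rw [h, Complex.exp_add, Complex.exp_int_mul_two_pi_mul_I, mul_one]

theorem lfs_twist_per {g : ℂ → ℂ} {s : ℝ} (hp : ∀ y ∈ hstrip s, g (y + 2 * π) = g y) (n : ℤ) :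
    ∀ y ∈ hstrip s, (fun y => g y * Complex.exp (-(n * y * Complex.I))) (y + 2 * π) =
      (fun y => g y * Complex.exp (-(n * y * Complex.I))) y := by
  intro y hy
  show g (y + 2 * π) * Complex.exp (-(n * (y + 2 * π) * Complex.I)) = _
  rw [hp y hy, lfs_exp_per]

/-- complex shifts. -/
theorem fc_shift {g : ℂ → ℂ} {s : ℝ} (hg : DifferentiableOn ℂ g (hstrip s))
    (hp : ∀ y ∈ hstrip s, g (y + 2 * π) = g y) {τ : ℂ} (hτ : |τ.im| < s) (n : ℤ) :
    fc n (fun y => g (y + τ)) = Complex.exp (n * τ * Complex.I) * fc n g := by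
  unfold fc
  have h1 := lfs_shift_integral (lfs_twist_diff hg n) (lfs_twist_per hp n) hτ
  have h2 := intervalIntegral.integral_const_mul (μ := MeasureTheory.volume) (a := 0) (b := 2 * π)
    (Complex.exp (n * τ * Complex.I))
    (fun x : ℝ => g (x + τ) * Complex.exp (-(n * (x + τ) * Complex.I)))
  rw [mul_left_comm (Complex.exp (n * τ * Complex.I)), ← h1, ← h2]
  congr 1
  apply intervalIntegral.integral_congr
  intro x _
  show g (x + τ) * Complex.exp (-(n * x * Complex.I)) =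
    Complex.exp (n * τ * Complex.I) * (g (x + τ) * Complex.exp (-(n * (x + τ) * Complex.I)))
  rw [mul_left_comm, ← Complex.exp_add]
  congr 2
  ring

theorem lfs_decay_aux {g : ℂ → ℂ} {s M : ℝ} (hg : DifferentiableOn ℂ g (hstrip s))
    (hp : ∀ y ∈ hstrip s, g (y + 2 * π) = g y) (hb : ∀ y ∈ hstrip s, ‖g y‖ ≤ M) (n : ℤ) {c : ℝ}
    (hc : |c| < s) : ‖fc n g‖ ≤ M * Real.exp (n * c) := by
  have hτ : |((c : ℂ) * Complex.I).im| < s := by simpa using hc
  have h1 := fc_shift hg hp hτ n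
  have h2 : ‖fc n (fun y => g (y + (c : ℂ) * Complex.I))‖ ≤ M :=
    norm_fc_le (g := fun y => g (y + (c : ℂ) * Complex.I)) (fun x => hb _ (lfs_real_add_mem hτ x)) n
  have h3 : (n * ((c : ℂ) * Complex.I) * Complex.I : ℂ) = ((-(n * c) : ℝ) : ℂ) := by
    push_cast
    linear_combination ((n : ℂ) * c) * Complex.I_sq
  rw [h1, h3, norm_mul, Complex.norm_exp_ofReal] at h2
  have h4 : ‖fc n g‖ = Real.exp (n * c) * (Real.exp (-(n * c)) * ‖fc n g‖) := by
    rw [← mul_assoc, ← Real.exp_add]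
    simp
  rw [h4, mul_comm M]
  gcongr

/-- exponential decay. -/
theorem fc_decay {g : ℂ → ℂ} {s M : ℝ} (hs : 0 < s) (hg : DifferentiableOn ℂ g (hstrip s))
    (hp : ∀ y ∈ hstrip s, g (y + 2 * π) = g y) (hb : ∀ y ∈ hstrip s, ‖g y‖ ≤ M) (n : ℤ) :
    ‖fc n g‖ ≤ M * Real.exp (-(|n| * s)) := by
  have h1 : ∀ c : ℝ, 0 < c → c < s → ‖fc n g‖ ≤ M * Real.exp (-(|n| * c)) := by
    intro c hc0 hcs
    rcases le_total 0 n with hn | hn
    · have h := lfs_decay_aux hg hp hb n (c := -c) (by rwa [abs_neg, abs_of_pos hc0])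
      rw [abs_of_nonneg hn]
      convert h using 3
      ring
    · have h := lfs_decay_aux hg hp hb n (c := c) (by rwa [abs_of_pos hc0])
      rw [abs_of_nonpos hn]
      convert h using 3
      push_cast; ring
  have h2 : Tendsto (fun c : ℝ => M * Real.exp (-(|n| * c))) (𝓝[<] s) (𝓝 (M * Real.exp (-(|n| * s)))) := by
    apply Tendsto.mono_left _ nhdsWithin_le_nhds
    have : Continuous (fun c : ℝ => M * Real.exp (-(|n| * c))) := by fun_prop
    exact this.tendsto s
  refine ge_of_tendsto h2 ?_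
  filter_upwards [Ioo_mem_nhdsLT hs] with c hc
  exact h1 c hc.1 hc.2

theorem lfs_summable_exp {ε : ℝ} (hε : 0 < ε) : Summable fun n : ℤ => Real.exp (-(|n| * ε)) := by
  have h : Summable fun n : ℕ => Real.exp (-ε) ^ n :=
    summable_geometric_of_lt_one (Real.exp_pos _).le (by rw [Real.exp_lt_one_iff]; linarith)
  have e : ∀ n : ℕ, Real.exp (-ε) ^ n = Real.exp (-(n * ε)) := by
    intro n
    rw [← Real.exp_nat_mul]
    congr 1
    ring
  apply Summable.of_nat_of_neg
  · refine h.congr fun n => ?_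
    rw [e]
    simp
  · refine h.congr fun n => ?_
    rw [e]
    simp

/-- Fourier inversion on the strip. -/
theorem fc_hasSum {g : ℂ → ℂ} {s M : ℝ} (hg : DifferentiableOn ℂ g (hstrip s))
    (hp : ∀ y ∈ hstrip s, g (y + 2 * π) = g y) (hb : ∀ y ∈ hstrip s, ‖g y‖ ≤ M) :
    ∀ y ∈ hstrip s, HasSum (fun n : ℤ => fc n g * Complex.exp (n * y * Complex.I)) (g y) := by
  intro y hy
  have hy' : |y.im| < s := hy
  have hs : 0 < s := lt_of_le_of_lt (abs_nonneg _) hy'
  have hM : 0 ≤ M := (norm_nonneg _).trans (hb y hy)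
  have hpi : (0 : ℝ) < 2 * π := by positivity
  have : Fact ((0 : ℝ) < 2 * π) := ⟨hpi⟩
  have hτ : |((y.im : ℂ) * Complex.I).im| < s := by simpa using hy'
  have hper : Function.Periodic (fun x : ℝ => g (x + y.im * Complex.I)) (2 * π) := by
    intro x
    have h := hp _ (lfs_real_add_mem hτ x)
    show g (((x + 2 * π : ℝ) : ℂ) + y.im * Complex.I) = g ((x : ℂ) + y.im * Complex.I)
    rw [← h]
    congr 1
    push_cast; ring
  let F : C(AddCircle (2 * π), ℂ) :=
    ⟨hper.lift, continuous_coinduced_dom.mpr (lfs_cont_of_diff hg hτ)⟩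
  have hF : ∀ x : ℝ, F (x : AddCircle (2 * π)) = g (x + y.im * Complex.I) := fun x => rfl
  have hpiC : (π : ℂ) ≠ 0 := by exact_mod_cast Real.pi_ne_zero
  have hfour : ∀ (n : ℤ) (x : ℝ), (fourier n (x : AddCircle (2 * π)) : ℂ) = Complex.exp (n * x * Complex.I) := by
    intro n x
    rw [fourier_coe_apply]
    congr 1
    push_cast
    field_simp
  have hcoef : ∀ n, fourierCoeff F n = Complex.exp (n * ((y.im : ℂ) * Complex.I) * Complex.I) * fc n g := by
    intro n
    rw [← fc_shift hg hp hτ n, fourierCoeff_eq_intervalIntegral F n 0, zero_add]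
    unfold fc
    rw [Complex.real_smul, one_div]
    congr 1
    apply intervalIntegral.integral_congr
    intro x _
    show (fourier (-n) (x : AddCircle (2 * π)) : ℂ) • F (x : AddCircle (2 * π)) = _
    rw [hF, hfour, smul_eq_mul, mul_comm]
    congr 2
    push_cast; ring
  have hsum : Summable (fourierCoeff F) := by
    have hε : 0 < s - |y.im| := by linarith
    apply Summable.of_norm_bounded ((lfs_summable_exp hε).mul_left M)
    intro n
    rw [hcoef]
    have h3 : (n * ((y.im : ℂ) * Complex.I) * Complex.I : ℂ) = ((-(n * y.im) : ℝ) : ℂ) := by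
      push_cast
      linear_combination ((n : ℂ) * y.im) * Complex.I_sq
    rw [h3, norm_mul, Complex.norm_exp_ofReal]
    have h4 := fc_decay hs hg hp hb n
    have h5 : Real.exp (-(n * y.im)) ≤ Real.exp (|n| * |y.im|) := by
      apply Real.exp_le_exp.2
      have : -((n : ℝ) * y.im) ≤ |(n : ℝ) * y.im| := neg_le_abs _
      rw [abs_mul] at this
      push_cast
      exact this
    calc Real.exp (-(n * y.im)) * ‖fc n g‖
        ≤ Real.exp (|n| * |y.im|) * (M * Real.exp (-(|n| * s))) := by gcongr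
      _ = M * Real.exp (-(|n| * (s - |y.im|))) := by
          rw [mul_left_comm, ← Real.exp_add]
          congr 2
          ring
  have h := has_pointwise_sum_fourier_series_of_summable hsum (y.re : AddCircle (2 * π))
  rw [hF, Complex.re_add_im] at h
  convert h using 2 with n
  rw [hcoef, hfour, smul_eq_mul]
  have h6 : Complex.exp (n * y * Complex.I) =
      Complex.exp (n * ((y.im : ℂ) * Complex.I) * Complex.I) * Complex.exp (n * y.re * Complex.I) := by
    rw [← Complex.exp_add]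
    congr 1
    conv_lhs => rw [← Complex.re_add_im y]
    ring
  rw [h6]
  ring

/-- all Fourier coefficients but the mean vanish ⇒ constant. -/
theorem eq_mean_of_fc_eq_zero {g : ℂ → ℂ} {s M : ℝ} (hg : DifferentiableOn ℂ g (hstrip s))
    (hp : ∀ y ∈ hstrip s, g (y + 2 * π) = g y) (hb : ∀ y ∈ hstrip s, ‖g y‖ ≤ M)
    (h0 : ∀ n : ℤ, n ≠ 0 → fc n g = 0) : ∀ y ∈ hstrip s, g y = mean g := by
  intro y hy
  have h := fc_hasSum hg hp hb y hy
  have h1 : HasSum (fun n : ℤ => fc n g * Complex.exp (n * y * Complex.I))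
      (fc 0 g * Complex.exp (((0 : ℤ) : ℂ) * y * Complex.I)) :=
    hasSum_single 0 (fun n hn => by rw [h0 n hn, zero_mul])
  have h2 := h.unique h1
  rw [h2]
  simp [mean]

/-! ### means -/

/-- the mean of a derivative vanishes. -/
theorem mean_deriv {g : ℂ → ℂ} {s : ℝ} (hs : 0 < s) (hg : DifferentiableOn ℂ g (hstrip s))
    (hp : ∀ y ∈ hstrip s, g (y + 2 * π) = g y) : mean (deriv g) = 0 := by
  rw [lfs_mean_eq]
  have hd : DifferentiableOn ℂ (deriv g) (hstrip s) := hg.deriv (isOpen_hstrip s)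
  have h1 : ∫ x in (0 : ℝ)..(2 * π), deriv g x = g ((2 * π : ℝ) : ℂ) - g ((0 : ℝ) : ℂ) := by
    apply intervalIntegral.integral_eq_sub_of_hasDerivAt (f := fun x : ℝ => g x)
    · intro x _
      have h2 : HasDerivAt g (deriv g x) (x : ℂ) :=
        (hg.differentiableAt ((isOpen_hstrip s).mem_nhds (lfs_real_mem hs x))).hasDerivAt
      exact h2.comp_ofReal
    · exact (lfs_cont_of_diff₀ hs hd).intervalIntegrable _ _
  have h3 := hp 0 (by simpa using lfs_real_mem hs 0)
  rw [h1]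
  push_cast
  rw [zero_add] at h3
  rw [h3, sub_self, mul_zero]

/-- a periodic function is close to its mean if its derivative is small. -/
theorem sub_mean_le {g : ℂ → ℂ} {s M : ℝ} (hs : 0 < s) (hs1 : s ≤ 1) (hg : DifferentiableOn ℂ g (hstrip s))
    (hp : ∀ y ∈ hstrip s, g (y + 2 * π) = g y) (hb : ∀ y ∈ hstrip s, ‖deriv g y‖ ≤ M) :
    ∀ y ∈ hstrip s, ‖g y - mean g‖ ≤ 8 * M := by
  intro y hy
  have hy' : |y.im| < s := hy
  have hM : 0 ≤ M := (norm_nonneg _).trans (hb y hy)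
  have hpi : (0 : ℝ) < 2 * π := by positivity
  have hcont := lfs_cont_of_diff₀ hs hg
  have hper : Function.Periodic (fun x : ℝ => g x) (2 * π) := by
    intro x
    have h := hp _ (lfs_real_mem hs x)
    show g ((x + 2 * π : ℝ) : ℂ) = g (x : ℂ)
    rw [← h]
    congr 1
    push_cast; ring
  have h1 := hper.intervalIntegral_add_eq 0 (y.re - π)
  rw [zero_add] at h1
  have h2 : g y - mean g = ((2 * π)⁻¹ : ℝ) * ∫ x in (y.re - π)..(y.re - π + 2 * π), (g y - g x) := by
    rw [lfs_mean_eq, h1, intervalIntegral.integral_sub (intervalIntegrable_const) (hcont.intervalIntegrable _ _),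
      intervalIntegral.integral_const]
    have hpiC : (π : ℂ) ≠ 0 := by exact_mod_cast Real.pi_ne_zero
    simp only [add_sub_cancel_left, Complex.real_smul]
    push_cast
    field_simp
  have h3 : ‖∫ x in (y.re - π)..(y.re - π + 2 * π), (g y - g x)‖ ≤
      (M * (π + 1)) * |y.re - π + 2 * π - (y.re - π)| := by
    apply intervalIntegral.norm_integral_le_of_norm_le_const
    intro x hx
    rw [Set.uIoc_of_le (by linarith)] at hx
    have h4 := Convex.norm_image_sub_le_of_norm_deriv_le (f := g) (C := M) (s := hstrip s)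
      (fun z hz => hg.differentiableAt ((isOpen_hstrip s).mem_nhds hz)) hb (convex_hstrip s)
      (lfs_real_mem hs x) hy
    refine h4.trans ?_
    gcongr
    have h5 := Complex.norm_le_abs_re_add_abs_im (y - x)
    have h6 : |(y - x).re| ≤ π := by
      simp only [Complex.sub_re, Complex.ofReal_re]
      rw [abs_le]
      constructor <;> linarith [hx.1, hx.2]
    have h7 : |(y - x).im| ≤ 1 := by
      simp only [Complex.sub_im, Complex.ofReal_im, sub_zero]
      linarith
    linarith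
  have h8 : y.re - π + 2 * π - (y.re - π) = 2 * π := by ring
  rw [h8, abs_of_pos hpi] at h3
  rw [h2, norm_mul, Complex.norm_real, Real.norm_eq_abs, abs_of_pos (inv_pos.2 hpi)]
  calc (2 * π)⁻¹ * ‖∫ x in (y.re - π)..(y.re - π + 2 * π), (g y - g x)‖
      ≤ (2 * π)⁻¹ * ((M * (π + 1)) * (2 * π)) := by gcongr
    _ = M * (π + 1) := by field_simp
    _ ≤ 8 * M := by nlinarith [Real.pi_lt_four]

/-! ### holomorphic dependence on a parameter -/

/-- Fourier coefficients depend holomorphically on the parameter. -/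
theorem fc_hol {F : ℂ → ℂ → ℂ} {Ω : Set (ℂ × ℂ)} {U : Set ℂ} (hΩ : IsOpen Ω) (hU : IsOpen U) (hF : Hol F Ω)
    (hm : ∀ x : ℝ, ∀ t ∈ U, ((x : ℂ), t) ∈ Ω) (n : ℤ) :
    DifferentiableOn ℂ (fun t => fc n (fun y => F y t)) U := by
  intro t₀ ht₀
  apply DifferentiableAt.differentiableWithinAt
  unfold fc
  apply DifferentiableAt.const_mul
  have hcontF : ∀ {H : ℂ → ℂ → ℂ}, Hol H Ω → ∀ t ∈ U, Continuous fun x : ℝ => H x t := by
    intro H hH t ht
    exact (DifferentiableOn.continuousOn hH).comp_continuous (f := fun x : ℝ => ((x : ℂ), t))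
      (by fun_prop) (fun x => hm x t ht)
  -- a closed ball around `t₀` inside `U`
  obtain ⟨ε, hε, hball⟩ := Metric.isOpen_iff.1 hU t₀ ht₀
  have hcb : Metric.closedBall t₀ (ε / 2) ⊆ U :=
    (Metric.closedBall_subset_ball (half_lt_self hε)).trans hball
  -- bound of the `t`-derivative on a compact set
  have hK : IsCompact (((fun x : ℝ => (x : ℂ)) '' Set.Icc 0 (2 * π)) ×ˢ Metric.closedBall t₀ (ε / 2)) :=
    (isCompact_Icc.image Complex.continuous_ofReal).prod (isCompact_closedBall _ _)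
  have hKΩ : (((fun x : ℝ => (x : ℂ)) '' Set.Icc 0 (2 * π)) ×ˢ Metric.closedBall t₀ (ε / 2)) ⊆ Ω := by
    rintro ⟨y, t⟩ ⟨⟨x, _, rfl⟩, ht⟩
    exact hm x t (hcb ht)
  obtain ⟨C, hC⟩ := hK.exists_bound_of_continuousOn
    ((DifferentiableOn.continuousOn (hol_dt hΩ hF)).mono hKΩ)
  have key := intervalIntegral.hasDerivAt_integral_of_dominated_loc_of_deriv_le
    (μ := MeasureTheory.volume) (a := 0) (b := 2 * π)
    (F := fun t (x : ℝ) => F x t * Complex.exp (-(n * x * Complex.I)))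
    (F' := fun t (x : ℝ) => dt F x t * Complex.exp (-(n * x * Complex.I)))
    (x₀ := t₀) (s := Metric.closedBall t₀ (ε / 2)) (bound := fun _ => C)
    (Metric.closedBall_mem_nhds t₀ (half_pos hε)) ?_ ?_ ?_ ?_ ?_ ?_
  · exact key.2.differentiableAt
  · filter_upwards [hU.mem_nhds ht₀] with t ht
    exact ((hcontF hF t ht).mul (lfs_cont_exp n)).aestronglyMeasurable
  · exact ((hcontF hF t₀ ht₀).mul (lfs_cont_exp n)).intervalIntegrable _ _
  · exact ((hcontF (hol_dt hΩ hF) t₀ ht₀).mul (lfs_cont_exp n)).aestronglyMeasurable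
  · refine Filter.Eventually.of_forall fun x hx t ht => ?_
    rw [Set.uIoc_of_le (by positivity)] at hx
    rw [norm_mul, lfs_norm_exp, mul_one]
    exact hC ((x : ℂ), t) ⟨⟨x, ⟨hx.1.le, hx.2⟩, rfl⟩, ht⟩
  · exact intervalIntegrable_const
  · refine Filter.Eventually.of_forall fun x _ t ht => ?_
    have h1 : HasDerivAt (fun τ => F x τ) (dt F x t) t :=
      (hol_slice_t hΩ hF (hm x t (hcb ht))).hasDerivAt
    exact h1.mul_const _

/-! ### orbit sums -/

/-- periodicity by `2π l`. -/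
theorem per_nat {g : ℂ → ℂ} {s : ℝ} (hp : ∀ y ∈ hstrip s, g (y + 2 * π) = g y) (l : ℕ) :
    ∀ y ∈ hstrip s, g (y + 2 * π * l) = g y := by
  intro y hy
  induction l with
  | zero => simp
  | succ l ih =>
    have h1 : y + 2 * π * ((l + 1 : ℕ) : ℂ) = (y + ((2 * π * l : ℝ) : ℂ)) + 2 * π := by
      push_cast; ring
    rw [h1, hp _ (lfs_add_real_mem hy _), ← ih]
    congr 1
    push_cast; ring

theorem lfs_q_mul_rat (l q : ℕ) (hq : 0 < q) : (q : ℂ) * ((rat l q : ℝ) : ℂ) = 2 * π * l := by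
  have hq' : (q : ℂ) ≠ 0 := by exact_mod_cast hq.ne'
  unfold rat
  push_cast
  field_simp

/-- the orbit sum at `t₀ = 2π l/q` is `t₀`-periodic. -/
theorem osum_shift {g : ℂ → ℂ} {s : ℝ} (hp : ∀ y ∈ hstrip s, g (y + 2 * π) = g y) (l q : ℕ) (hq : 0 < q) :
    ∀ y ∈ hstrip s, osum q (rat l q) g (y + (rat l q : ℝ)) = osum q (rat l q) g y := by
  intro y hy
  unfold osum
  have h1 : ∀ j : ℕ, g (y + (rat l q : ℝ) + j * ((rat l q : ℝ) : ℂ)) =
      (fun j : ℕ => g (y + j * ((rat l q : ℝ) : ℂ))) (j + 1) := by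
    intro j
    show _ = g (y + ((j + 1 : ℕ) : ℂ) * ((rat l q : ℝ) : ℂ))
    congr 1
    push_cast; ring
  simp only [h1]
  have h2 := Finset.sum_range_succ' (fun j : ℕ => g (y + j * ((rat l q : ℝ) : ℂ))) q
  have h3 := Finset.sum_range_succ (fun j : ℕ => g (y + j * ((rat l q : ℝ) : ℂ))) q
  rw [h3] at h2
  have h4 : g (y + (q : ℂ) * ((rat l q : ℝ) : ℂ)) = g (y + ((0 : ℕ) : ℂ) * ((rat l q : ℝ) : ℂ)) := by
    rw [lfs_q_mul_rat l q hq, per_nat hp l y hy]
    simp
  rw [h4] at h2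
  exact (add_right_cancel h2).symm

theorem mean_osum {g : ℂ → ℂ} {s : ℝ} (hs : 0 < s) (hg : DifferentiableOn ℂ g (hstrip s))
    (hp : ∀ y ∈ hstrip s, g (y + 2 * π) = g y) (q : ℕ) (t₀ : ℝ) : mean (osum q t₀ g) = q * mean g := by
  unfold mean
  have hτ : ∀ j : ℕ, |((j : ℂ) * (t₀ : ℂ)).im| < s := by
    intro j
    have : ((j : ℂ) * (t₀ : ℂ)).im = 0 := by simp
    rw [this, abs_zero]
    exact hs
  have h1 : fc 0 (osum q t₀ g) = ∑ j ∈ Finset.range q, fc 0 (fun y => g (y + j * (t₀ : ℂ))) :=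
    fc_sum (Finset.range q) (fun j y => g (y + j * (t₀ : ℂ)))
      (fun j _ => lfs_cont_of_diff hg (hτ j)) 0
  rw [h1]
  have h2 : ∀ j ∈ Finset.range q, fc 0 (fun y => g (y + j * (t₀ : ℂ))) = fc 0 g := by
    intro j _
    rw [fc_shift hg hp (hτ j) 0]
    simp
  rw [Finset.sum_congr rfl h2]
  simp

theorem lfs_osum_diff {g : ℂ → ℂ} {s : ℝ} (hg : DifferentiableOn ℂ g (hstrip s)) (q : ℕ) (t₀ : ℝ) :
    DifferentiableOn ℂ (osum q t₀ g) (hstrip s) := by
  unfold osum
  apply DifferentiableOn.fun_sum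
  intro j _
  have h1 : DifferentiableOn ℂ (fun y : ℂ => y + j * (t₀ : ℂ)) (hstrip s) := by fun_prop
  refine hg.comp h1 ?_
  intro y hy
  have := lfs_add_real_mem hy (j * t₀)
  simpa using this

theorem lfs_osum_per {g : ℂ → ℂ} {s : ℝ} (hp : ∀ y ∈ hstrip s, g (y + 2 * π) = g y) (q : ℕ) (t₀ : ℝ) :
    ∀ y ∈ hstrip s, osum q t₀ g (y + 2 * π) = osum q t₀ g y := by
  intro y hy
  unfold osum
  apply Finset.sum_congr rfl
  intro j _
  have h1 : y + j * (t₀ : ℂ) ∈ hstrip s := by
    have := lfs_add_real_mem hy (j * t₀)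
    simpa using this
  rw [← hp _ h1]
  congr 1
  ring

/-- a resonant Fourier coefficient is controlled by the orbit sum: `t = 2π j/n`, orbit of length `|n|`. -/
theorem fc_le_of_osum {g : ℂ → ℂ} {s M : ℝ} (hs : 0 < s) (hg : DifferentiableOn ℂ g (hstrip s))
    (hp : ∀ y ∈ hstrip s, g (y + 2 * π) = g y) (n j : ℤ) (hn : n ≠ 0)
    (hb : ∀ y ∈ hstrip s, ‖osum n.natAbs (2 * π * j / n) g y‖ ≤ M) :
    ‖fc n g‖ ≤ M * Real.exp (-(|n| * s)) := by
  have hM : 0 ≤ M := (norm_nonneg _).trans (hb 0 (by simpa using lfs_real_mem hs 0))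
  have h0 := fc_decay hs (lfs_osum_diff hg n.natAbs (2 * π * j / n))
    (lfs_osum_per hp n.natAbs (2 * π * j / n)) hb n
  have hτ : ∀ k : ℕ, |((k : ℂ) * ((2 * π * j / n : ℝ) : ℂ)).im| < s := by
    intro k
    have : ((k : ℂ) * ((2 * π * j / n : ℝ) : ℂ)).im = 0 := by simp
    rw [this, abs_zero]
    exact hs
  have h1 : fc n (osum n.natAbs (2 * π * j / n) g) =
      ∑ k ∈ Finset.range n.natAbs, fc n (fun y => g (y + k * ((2 * π * j / n : ℝ) : ℂ))) :=
    fc_sum (Finset.range n.natAbs) (fun k y => g (y + k * ((2 * π * j / n : ℝ) : ℂ)))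
      (fun k _ => lfs_cont_of_diff hg (hτ k)) n
  have hnC : (n : ℂ) ≠ 0 := by exact_mod_cast hn
  have h2 : ∀ k ∈ Finset.range n.natAbs,
      fc n (fun y => g (y + k * ((2 * π * j / n : ℝ) : ℂ))) = fc n g := by
    intro k _
    rw [fc_shift hg hp (hτ k) n]
    have h3 : (n * ((k : ℂ) * ((2 * π * j / n : ℝ) : ℂ)) * Complex.I : ℂ) =
        ((k * j : ℤ) : ℂ) * (2 * π * Complex.I) := by
      push_cast
      field_simp
    rw [h3, Complex.exp_int_mul_two_pi_mul_I, one_mul]
  rw [h1, Finset.sum_congr rfl h2, Finset.sum_const, Finset.card_range, nsmul_eq_mul, norm_mul] at h0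
  have h4 : (1 : ℝ) ≤ ‖(n.natAbs : ℂ)‖ := by
    rw [Complex.norm_natCast]
    exact_mod_cast Int.natAbs_pos.2 hn
  calc ‖fc n g‖ = 1 * ‖fc n g‖ := (one_mul _).symm
    _ ≤ ‖(n.natAbs : ℂ)‖ * ‖fc n g‖ := by gcongr
    _ ≤ _ := h0

/-- orbit sums for `-t₀` and `t₀` agree. -/
theorem osum_neg {g : ℂ → ℂ} {s : ℝ} (hp : ∀ y ∈ hstrip s, g (y + 2 * π) = g y) (l q : ℕ) (hq : 0 < q) :
    ∀ y ∈ hstrip s, osum q (-(rat l q)) g y = osum q (rat l q) g y := by
  intro y hy
  rw [← osum_shift hp l q hq y hy]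
  unfold osum
  rw [← Finset.sum_range_reflect]
  apply Finset.sum_congr rfl
  intro j hj
  have hj' : j < q := Finset.mem_range.1 hj
  have h1 : y + ((q - 1 - j : ℕ) : ℂ) * ((-(rat l q) : ℝ) : ℂ) ∈ hstrip s := by
    have := lfs_add_real_mem hy (((q - 1 - j : ℕ) : ℝ) * (-(rat l q)))
    simpa using this
  rw [← per_nat hp l _ h1, ← lfs_q_mul_rat l q hq]
  congr 1
  have h2 : ((q - 1 - j : ℕ) : ℂ) = (q : ℂ) - 1 - j := by
    have : q - 1 - j + (1 + j) = q := by omega
    have h3 : (((q - 1 - j + (1 + j) : ℕ)) : ℂ) = (q : ℂ) := by rw [this]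
    push_cast at h3
    linear_combination h3
  rw [h2]
  push_cast
  ring

end Claimed.Agent.R269.S3
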