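/-
Row 269, Section 3, UNIT F: definitions for the Newton step.   Owner: helper228.
Widths `s - jδ`, radii `d (1 - jδ)`.
-/
import Claimed.Agent.R269.S3.Stmt

set_option autoImplicit false

namespace Claimed.Agent.R269.S3

open Real Complex ComplexConjugate

/-- the mean adjustment `λ(t) = - ⟨h/a⟩/⟨1/a⟩` (P1 (3.22)). -/
noncomputable def lamF (a h : ℂ → ℂ → ℂ) (t : ℂ) : ℂ :=
  -(mean (fun x => h x t / a x t)) / mean (fun x => 1 / a x t)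

/-- `b = (h + λ)/a`. -/
noncomputable def bF (a h : ℂ → ℂ → ℂ) (y t : ℂ) : ℂ := (h y t + lamF a h t) / a y t

/-- output of the first division. -/
structure Div1 (B : Base) (Θ : ℂ → ℂ → ℂ) (s d δ ε Ph Pρ : ℝ) (h : ℂ → ℂ → ℂ) : Prop where
  hol : Hol h (Set.univ ×ˢ Metric.ball 0 (d * (1 - 2 * δ)))
  sym : Sym h (Set.univ ×ˢ Metric.ball 0 (d * (1 - 2 * δ)))
  zero : ∀ y, h y 0 = 0
  bd : Bd h (Dom (1 / 2) (s - 3 * δ) (d * (1 - 2 * δ))) (Ph * ε)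
  res : Bd (fun y t => dd h y t + E B Θ y t) (Dom 1 (s - 3 * δ) (d * (1 - 2 * δ))) (Pρ * ε ^ 2)

/-- properties of `b = bF (A B Θ) h`. -/
structure Mid2 (B : Base) (Θ : ℂ → ℂ → ℂ) (s d δ ε Ph : ℝ) (h : ℂ → ℂ → ℂ) : Prop where
  hol : Hol (bF (A B Θ) h) (Dom (1 / 2) (s - 3 * δ) (d * (1 - 2 * δ)))
  sym : Sym (bF (A B Θ) h) (Dom (1 / 2) (s - 3 * δ) (d * (1 - 2 * δ)))
  zero : ∀ y ∈ hstrip (s - 3 * δ), bF (A B Θ) h y 0 = 0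
  mean0 : ∀ t : ℂ, ‖t‖ < d * (1 - 2 * δ) → mean (fun y => bF (A B Θ) h y t) = 0
  bd : Bd (bF (A B Θ) h) (Dom (1 / 2) (s - 3 * δ) (d * (1 - 2 * δ))) (15 * Ph * ε)
  lam_bd : ∀ t : ℂ, ‖t‖ < d * (1 - 2 * δ) → ‖lamF (A B Θ) h t‖ ≤ 2 * Ph * ε

/-- output of the second division. -/
structure Div2 (B : Base) (Θ : ℂ → ℂ → ℂ) (s d δ ε Pv Pw : ℝ) (h v : ℂ → ℂ → ℂ) : Prop where
  hol : Hol v (Set.univ ×ˢ Metric.ball 0 (d * (1 - 4 * δ)))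
  sym : Sym v (Set.univ ×ˢ Metric.ball 0 (d * (1 - 4 * δ)))
  zero : ∀ y, v y 0 = 0
  bd : Bd v (Dom 0 (s - 15 * δ) (d * (1 - 4 * δ))) (Pv * ε)
  res : Bd (fun y t => dd v y t - bF (A B Θ) h y t) (Dom (1 / 2) (s - 15 * δ) (d * (1 - 4 * δ)))
    (Pw * ε ^ 2)

/-- a bound for all orbit sums of `F` at the rational parameters `2π l/q < d'`, `q ≤ N`. -/
def OsumBd (F : ℂ → ℂ → ℂ) (N : ℕ) (s' d' η : ℝ) : Prop :=
  ∀ l q : ℕ, 0 < l → 0 < q → q ≤ N → rat l q < d' →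
    ∀ y ∈ hstrip s', ‖osum q (rat l q) (fun x => F x (rat l q : ℝ)) y‖ ≤ η

end Claimed.Agent.R269.S3
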