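/-
Row 269, Section 3, UNIT F: proofs of the steps N0, N1a.   Owner: helper228.
-/
import Claimed.Agent.R269.S3.NewtonDefs
import Claimed.Agent.R269.S3.FacSlice
import Claimed.Agent.R269.S3.LibFS
import Claimed.Agent.R269.S3.Basic

set_option autoImplicit false

namespace Claimed.Agent.R269.S3

open Real Complex ComplexConjugate

variable {B : Base} {s₁ κ K : ℝ} {s d δ ε : ℝ} {N : ℕ} {Θ : ℂ → ℂ → ℂ}

theorem rat_pos {l q : ℕ} (hl : 0 < l) (hq : 0 < q) : 0 < rat l q := by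
  unfold rat
  have : (0 : ℝ) < l := by exact_mod_cast hl
  have : (0 : ℝ) < q := by exact_mod_cast hq
  positivity

/-- a point with a real parameter lies in the slanted domain. -/
theorem mem_Dom_real {ν S D : ℝ} {y : ℂ} {t : ℝ} (hy : y ∈ hstrip S) (ht : |t| < D) :
    (y, (t : ℂ)) ∈ Dom ν S D := by
  refine ⟨?_, ?_⟩
  · simpa using ht
  · have : |y.im| < S := hy
    simpa using this

theorem add_real_mem_hstrip {S : ℝ} {y : ℂ} (hy : y ∈ hstrip S) (a : ℝ) : y + (a : ℂ) ∈ hstrip S := by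
  have : |y.im| < S := hy
  show |(y + (a : ℂ)).im| < S
  simpa using this

theorem add_nat_mul_real_mem_hstrip {S : ℝ} {y : ℂ} (hy : y ∈ hstrip S) (k : ℕ) (a : ℝ) :
    y + (k : ℂ) * (a : ℂ) ∈ hstrip S := by
  have := add_real_mem_hstrip hy ((k : ℝ) * a)
  simpa using this

theorem osum_congr {q : ℕ} {t₀ S : ℝ} {g₁ g₂ : ℂ → ℂ} (h : ∀ y ∈ hstrip S, g₁ y = g₂ y) :
    ∀ y ∈ hstrip S, osum q t₀ g₁ y = osum q t₀ g₂ y := by
  intro y hy
  unfold osum
  exact Finset.sum_congr rfl fun k _ => h _ (add_nat_mul_real_mem_hstrip hy k t₀)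

/-- N0: from orbit sums to the resonant Fourier coefficients (all signs of `n`, `j`). -/
theorem newton_nodes_pf {F : ℂ → ℂ → ℂ} {ν S D s' d' η : ℝ} (hs' : 0 < s') (hs'S : s' ≤ S)
    (hd' : d' ≤ D) (hF : Hol F (Dom ν S D)) (hsym : Sym F (Dom ν S D)) (hb : OsumBd F N s' d' η) :
    ∀ n : ℤ, n ≠ 0 → |n| ≤ N → ∀ j : ℤ, j ≠ 0 → |2 * π * j / n| < d' →
      ‖fc n (fun y => F y ((2 * π * j / n : ℝ) : ℂ))‖ ≤ η * Real.exp (-(|n| * s')) := by
  intro n hn hnN j hj ht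
  obtain ⟨t, htdef⟩ : ∃ t : ℝ, t = 2 * π * j / n := ⟨_, rfl⟩
  rw [← htdef] at ht ⊢
  have hmem : ∀ y ∈ hstrip s', ∀ τ : ℝ, |τ| < d' → (y, (τ : ℂ)) ∈ Dom ν S D := fun y hy τ hτ =>
    mem_Dom_real (hstrip_mono hs'S hy) (lt_of_lt_of_le hτ hd')
  have hg : ∀ τ : ℝ, |τ| < d' → DifferentiableOn ℂ (fun y => F y (τ : ℂ)) (hstrip s') := fun τ hτ y hy =>
    (hol_slice_y (isOpen_Dom ν S D) hF (hmem y hy τ hτ)).differentiableWithinAt
  have hp : ∀ τ : ℝ, |τ| < d' → ∀ y ∈ hstrip s', F (y + 2 * π) (τ : ℂ) = F y (τ : ℂ) := fun τ hτ y hy =>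
    hsym.per _ (hmem y hy τ hτ)
  have hl : 0 < j.natAbs := Int.natAbs_pos.2 hj
  have hq : 0 < n.natAbs := Int.natAbs_pos.2 hn
  have hqN : n.natAbs ≤ N := by
    have : ((n.natAbs : ℤ)) ≤ N := by rw [Int.natCast_natAbs]; exact hnN
    exact_mod_cast this
  have habs : |t| = rat j.natAbs n.natAbs := by
    rw [htdef]
    unfold rat
    rw [abs_div, abs_mul, abs_mul, abs_of_pos pi_pos, Nat.cast_natAbs, Nat.cast_natAbs, Int.cast_abs,
      Int.cast_abs]
    norm_num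
  have hrat : rat j.natAbs n.natAbs < d' := habs ▸ ht
  have hratabs : |rat j.natAbs n.natAbs| < d' := by
    rw [abs_of_pos (rat_pos hl hq)]; exact hrat
  have key := hb j.natAbs n.natAbs hl hq hqN hrat
  refine fc_le_of_osum hs' (hg t ht) (hp t ht) n j hn ?_
  rw [← htdef]
  intro y hy
  rcases le_total 0 t with h0 | h0
  · have : t = rat j.natAbs n.natAbs := by rw [← habs, abs_of_nonneg h0]
    rw [this]
    exact key y hy
  · have : t = -rat j.natAbs n.natAbs := by rw [← habs, abs_of_nonpos h0]; ring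
    rw [this, osum_neg (hp _ (by rw [abs_neg]; exact hratabs)) j.natAbs n.natAbs hq y hy]
    have e1 : ∀ x ∈ hstrip s', F x ((-rat j.natAbs n.natAbs : ℝ) : ℂ) = F x (rat j.natAbs n.natAbs : ℝ) := by
      intro x hx
      have := hsym.even _ (hmem x hx _ hratabs)
      simpa using this
    rw [osum_congr e1 y hy]
    exact key y hy

/-- N1a: orbit sums of `E`. -/
theorem newton_osumE_pf (hG : Good B s₁ κ K) {CD : ℝ} {bD : ℕ} (hCD : 0 ≤ CD) (hD : RatSumC B s₁ κ CD bD)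
    (hS : Step B s₁ κ s d δ ε N Θ) (hsm : CD * QQ N δ ^ bD * ε ≤ 1) :
    OsumBd (E B Θ) N (s - 2 * δ) d (CD * QQ N δ ^ bD * ε ^ 2) := by
  intro l q hl hq hqN hrat y hy
  have hδ := hS.δ_pos
  have hε := hS.ε_pos
  have hs0 : s ≤ B.s₀ := by
    have h1 := hS.s_le
    have h2 := hG.s₁_le
    have h3 := hG.s₁_pos
    linarith
  have hpos := rat_pos hl hq
  have hne : ((rat l q : ℝ) : ℂ) ≠ 0 := by exact_mod_cast hpos.ne'
  have habs : |rat l q| < d := by rw [abs_of_pos hpos]; exact hrat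
  have hnorm : ‖((rat l q : ℝ) : ℂ)‖ < d := by simpa using habs
  have hEq : (fun x => E B Θ x (rat l q : ℝ)) = Es B (fun x => Θ x (rat l q : ℝ)) (rat l q : ℝ) := by
    funext x
    simp only [E, if_neg hne]
  have hX : (q : ℝ) + δ⁻¹ ≤ QQ N δ := by
    have : (q : ℝ) ≤ N := by exact_mod_cast hqN
    unfold QQ
    linarith
  have hX0 : 0 ≤ (q : ℝ) + δ⁻¹ := by
    have : 0 < δ⁻¹ := inv_pos.2 hδ
    positivity
  have hpow : ((q : ℝ) + δ⁻¹) ^ bD ≤ QQ N δ ^ bD := pow_le_pow_left₀ hX0 hX bD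
  rw [hEq]
  refine (hD s δ ε (fun x => Θ x (rat l q : ℝ)) l q hS.s_le hδ (by have := hS.δ_lt; linarith)
    (hS.cand.slice hs0 hnorm) (Cand.slice_real hs0 hS.cand habs) hl hq
    (by have h1 := hS.d_lt; have h2 := hS.s_le; have h3 := hS.d_pos; linarith) hε.le ?_ ?_ y hy).trans ?_
  · intro x hx
    have := hS.err _ (mem_Dom_real (ν := 1) hx habs)
    simpa only [E, if_neg hne] using this
  · refine le_trans ?_ hsm
    gcongr
  · gcongr

end Claimed.Agent.R269.S3
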