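/-
Row 269, Section 3, UNIT F: proofs of the steps N1 (first division) and N4 (second division).   Owner: helper228.
-/
import Claimed.Agent.R269.S3.NewtonN0

set_option autoImplicit false

namespace Claimed.Agent.R269.S3

open Real Complex ComplexConjugate

variable {B : Base} {s₁ κ K : ℝ} {s d δ ε : ℝ} {N : ℕ} {Θ : ℂ → ℂ → ℂ}

theorem Sym.neg {F : ℂ → ℂ → ℂ} {Ω : Set (ℂ × ℂ)} (h : Sym F Ω) : Sym (fun y t => -F y t) Ω :=
  ⟨fun z hz => by show -F _ _ = -F _ _; rw [h.per z hz],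
    fun z hz => by show -F _ _ = -F _ _; rw [h.even z hz],
    fun z hz => by show -F _ _ = conj (-F _ _); rw [h.real z hz, map_neg]⟩

theorem OsumBd.neg {F : ℂ → ℂ → ℂ} {s' d' η : ℝ} (h : OsumBd F N s' d' η) :
    OsumBd (fun y t => -F y t) N s' d' η := by
  intro l q hl hq hqN hr y hy
  have := h l q hl hq hqN hr y hy
  unfold osum at this ⊢
  rw [Finset.sum_neg_distrib, norm_neg]
  exact this

theorem OsumBd.mono {F : ℂ → ℂ → ℂ} {s' s'' d' d'' η : ℝ} (h : OsumBd F N s' d' η) (hs : s'' ≤ s')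
    (hd : d'' ≤ d') : OsumBd F N s'' d'' η :=
  fun l q hl hq hqN hr y hy => h l q hl hq hqN (lt_of_lt_of_le hr hd) y (hstrip_mono hs hy)

theorem Step.s_le_s₀ (hG : Good B s₁ κ K) (hS : Step B s₁ κ s d δ ε N Θ) : s ≤ B.s₀ := by
  have h1 := hS.s_le
  have h2 := hG.s₁_le
  have h3 := hG.s₁_pos
  linarith

theorem Step.d_le_s₁ (hS : Step B s₁ κ s d δ ε N Θ) : d ≤ s₁ := by
  have h1 := hS.s_le
  have h2 := hS.d_lt
  have h3 := hS.d_pos
  linarith

theorem Step.cand2 (hG : Good B s₁ κ K) (hS : Step B s₁ κ s d δ ε N Θ) : Cand B s d (2 * κ) Θ :=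
  hS.cand.mono le_rfl le_rfl (by have := hG.κ_pos; linarith)

theorem Step.mean_E (hG : Good B s₁ κ K) (hS : Step B s₁ κ s d δ ε N Θ) :
    ∀ t : ℂ, ‖t‖ < d → mean (fun y => E B Θ y t) = 0 := by
  intro t ht
  by_cases h0 : t = 0
  · subst h0
    simp only [E, if_true]
    exact mean_const 0
  · have e1 : (fun y => E B Θ y t) = Es B (fun x => Θ x t) t := by
      funext y
      simp only [E, if_neg h0]
    rw [e1]
    refine hG.Es_mean s hS.s_le _ ((hS.cand2 hG).slice (hS.s_le_s₀ hG) ht) t h0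
      (lt_of_lt_of_le ht hS.d_le_s₁) ?_
    have h1 := Complex.abs_im_le_norm t
    have h2 := hS.d_lt
    have h3 := hS.d_pos
    linarith

/-- N1: the first division. -/
theorem newton_div1_pf (hG : Good B s₁ κ K) {CE PE : ℝ} {bE : ℕ} (hCE : 0 ≤ CE) (hE : DivisionC CE bE)
    (hS : Step B s₁ κ s d δ ε N Θ) (hPE : 0 ≤ PE) (hsm : PE * ε ≤ 1)
    (hos : OsumBd (E B Θ) N (s - 2 * δ) d (PE * ε ^ 2)) :
    ∃ h, Div1 B Θ s d δ ε (2 * CE * QQ N δ ^ bE) (CE * QQ N δ ^ bE * (PE + 1)) h := by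
  have hδ := hS.δ_pos
  have hε := hS.ε_pos
  have hd := hS.d_pos
  have hδs := hS.δ_lt
  have hds := hS.d_lt
  have hs1 : s ≤ 1 := hS.s_le.trans hG.s₁_le_one
  have hEhol := hG.E_hol s hS.s_le d hS.d_le_s₁ Θ (hS.cand2 hG)
  have hEsym := hG.E_sym s hS.s_le d hS.d_le_s₁ Θ (hS.cand2 hG)
  have hFhol : Hol (fun y t => -E B Θ y t) (Dom 1 s d) := DifferentiableOn.neg hEhol
  have hFsym : Sym (fun y t => -E B Θ y t) (Dom 1 s d) := hEsym.neg
  have hFbd : Bd (fun y t => -E B Θ y t) (Dom 1 s d) ε := fun z hz => by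
    simp only [norm_neg]; exact hS.err z hz
  have hmean : ∀ t : ℂ, ‖t‖ < d → mean (fun y => -E B Θ y t) = 0 := by
    intro t ht
    have e1 : (fun y => -E B Θ y t) = fun y => (-1 : ℂ) * E B Θ y t := by funext y; ring
    rw [e1]
    unfold mean
    rw [fc_const_mul]
    have := hS.mean_E hG t ht
    unfold mean at this
    rw [this, mul_zero]
  have hdd : d * (1 - δ) ≤ d := by nlinarith
  have hnodes := newton_nodes_pf (N := N) (ν := 1) (S := s) (D := d) (s' := s - 2 * δ) (d' := d * (1 - δ))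
    (η := PE * ε ^ 2) (by linarith) (by linarith) hdd hFhol hFsym ((hos.neg).mono le_rfl hdd)
  obtain ⟨H, a1, a2, a3, a4, a5, a6, a7⟩ := hE 1 s (s - 2 * δ) d (d * (1 - δ)) δ (δ * d) ε (PE * ε ^ 2) N
    (fun y t => -E B Θ y t) (Or.inr rfl) hδ (by linarith) hd (by linarith) (by linarith) (by linarith) le_rfl
    (by nlinarith) (by nlinarith) hS.N_pos hε.le (by positivity) hFhol hFsym.per hFbd hmean hnodes
  have er : d * (1 - δ) - δ * d = d * (1 - 2 * δ) := by ring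
  have es : s - 2 * δ - δ = s - 3 * δ := by ring
  have eν : (1 : ℝ) - 1 / 2 = 1 / 2 := by norm_num
  rw [er] at a1 a3 a4 a5 a6
  rw [es] at a4 a5
  rw [eν] at a4
  have hQ : 0 ≤ QQ N δ ^ bE := by
    have := one_le_QQ N hδ
    positivity
  have hεε : PE * ε ^ 2 ≤ ε := by
    have : PE * ε ^ 2 = (PE * ε) * ε := by ring
    rw [this]
    exact mul_le_of_le_one_left hε.le hsm
  refine ⟨H, a1, a6 hFsym, a7 (fun y _ => by simp [E]), a4.mono subset_rfl ?_, ?_⟩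
  · calc CE * QQ N δ ^ bE * (ε + PE * ε ^ 2) ≤ CE * QQ N δ ^ bE * (ε + ε) := by gcongr
      _ = 2 * CE * QQ N δ ^ bE * ε := by ring
  · intro z hz
    have h1 := a5 z hz
    simp only [sub_neg_eq_add] at h1
    refine h1.trans ?_
    have h2 : ε * Real.exp (-(N * δ)) ≤ ε * ε := mul_le_mul_of_nonneg_left hS.tail hε.le
    calc CE * QQ N δ ^ bE * (PE * ε ^ 2 + ε * Real.exp (-(N * δ)))
        ≤ CE * QQ N δ ^ bE * (PE * ε ^ 2 + ε * ε) := by gcongr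
      _ = CE * QQ N δ ^ bE * (PE + 1) * ε ^ 2 := by ring

/-- N4: the second division. -/
theorem newton_div2_pf (hG : Good B s₁ κ K) {CE : ℝ} {bE : ℕ} (hCE : 0 ≤ CE) (hE : DivisionC CE bE)
    (hS : Step B s₁ κ s d δ ε N Θ) {Ph η₂ : ℝ} (hPh : 0 ≤ Ph) {h : ℂ → ℂ → ℂ} (hm : Mid2 B Θ s d δ ε Ph h)
    (hη : 0 ≤ η₂) (hη1 : η₂ * ε ≤ 1)
    (hos : OsumBd (bF (A B Θ) h) N (s - 14 * δ) (d * (1 - 3 * δ)) (η₂ * ε ^ 2)) :
    ∃ v, Div2 B Θ s d δ ε (CE * QQ N δ ^ bE * (15 * Ph + 1)) (CE * QQ N δ ^ bE * (η₂ + 15 * Ph)) h v := by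
  have hδ := hS.δ_pos
  have hε := hS.ε_pos
  have hd := hS.d_pos
  have hδs := hS.δ_lt
  have hds := hS.d_lt
  have hs1 : s ≤ 1 := hS.s_le.trans hG.s₁_le_one
  have hdd : d * (1 - 3 * δ) ≤ d * (1 - 2 * δ) := by nlinarith
  have hd2 : d * (1 - 2 * δ) ≤ d := by nlinarith
  have hnodes := newton_nodes_pf (N := N) (ν := 1 / 2) (S := s - 3 * δ) (D := d * (1 - 2 * δ))
    (s' := s - 14 * δ) (d' := d * (1 - 3 * δ)) (η := η₂ * ε ^ 2) (by linarith) (by linarith) hdd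
    hm.hol hm.sym hos
  obtain ⟨H, a1, a2, a3, a4, a5, a6, a7⟩ := hE (1 / 2) (s - 3 * δ) (s - 14 * δ) (d * (1 - 2 * δ))
    (d * (1 - 3 * δ)) δ (δ * d) (15 * Ph * ε) (η₂ * ε ^ 2) N (bF (A B Θ) h) (Or.inl rfl) hδ (by linarith)
    (by nlinarith) (by linarith) (by linarith) (by linarith) (by nlinarith) (by nlinarith) (by nlinarith) hS.N_pos
    (by positivity) (by positivity) hm.hol hm.sym.per hm.bd hm.mean0 hnodes
  have er : d * (1 - 3 * δ) - δ * d = d * (1 - 4 * δ) := by ring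
  have es : s - 14 * δ - δ = s - 15 * δ := by ring
  have eν : (1 : ℝ) / 2 - 1 / 2 = 0 := by norm_num
  rw [er] at a1 a3 a4 a5 a6
  rw [es] at a4 a5
  rw [eν] at a4
  have hQ : 0 ≤ QQ N δ ^ bE := by
    have := one_le_QQ N hδ
    positivity
  have hεε : η₂ * ε ^ 2 ≤ ε := by
    have : η₂ * ε ^ 2 = (η₂ * ε) * ε := by ring
    rw [this]
    exact mul_le_of_le_one_left hε.le hη1
  refine ⟨H, a1, a6 hm.sym, a7 hm.zero, a4.mono subset_rfl ?_, a5.mono subset_rfl ?_⟩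
  · calc CE * QQ N δ ^ bE * (15 * Ph * ε + η₂ * ε ^ 2) ≤ CE * QQ N δ ^ bE * (15 * Ph * ε + ε) := by gcongr
      _ = CE * QQ N δ ^ bE * (15 * Ph + 1) * ε := by ring
  · have h2 : 15 * Ph * ε * Real.exp (-(N * δ)) ≤ 15 * Ph * ε * ε :=
      mul_le_mul_of_nonneg_left hS.tail (by positivity)
    calc CE * QQ N δ ^ bE * (η₂ * ε ^ 2 + 15 * Ph * ε * Real.exp (-(N * δ)))
        ≤ CE * QQ N δ ^ bE * (η₂ * ε ^ 2 + 15 * Ph * ε * ε) := by gcongr
      _ = CE * QQ N δ ^ bE * (η₂ + 15 * Ph) * ε ^ 2 := by ring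

end Claimed.Agent.R269.S3
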