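/-
Row 269, Section 3, UNIT F: proof of the step N2 (mean adjustment).   Owner: helper228.
-/
import Claimed.Agent.R269.S3.NewtonN1

set_option autoImplicit false

namespace Claimed.Agent.R269.S3

open Real Complex ComplexConjugate

variable {B : Base} {s₁ κ K : ℝ} {s d δ ε : ℝ} {N : ℕ} {Θ : ℂ → ℂ → ℂ}

theorem Hol.add {F G : ℂ → ℂ → ℂ} {Ω : Set (ℂ × ℂ)} (hF : Hol F Ω) (hG : Hol G Ω) :
    Hol (fun y t => F y t + G y t) Ω := DifferentiableOn.add hF hG

theorem Hol.sub {F G : ℂ → ℂ → ℂ} {Ω : Set (ℂ × ℂ)} (hF : Hol F Ω) (hG : Hol G Ω) :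
    Hol (fun y t => F y t - G y t) Ω := DifferentiableOn.sub hF hG

theorem Hol.mul {F G : ℂ → ℂ → ℂ} {Ω : Set (ℂ × ℂ)} (hF : Hol F Ω) (hG : Hol G Ω) :
    Hol (fun y t => F y t * G y t) Ω := DifferentiableOn.mul hF hG

theorem Hol.neg {F : ℂ → ℂ → ℂ} {Ω : Set (ℂ × ℂ)} (hF : Hol F Ω) :
    Hol (fun y t => -F y t) Ω := DifferentiableOn.neg hF

theorem hol_const (c : ℂ) (Ω : Set (ℂ × ℂ)) : Hol (fun _ _ => c) Ω := differentiableOn_const c

theorem hol_fst (Ω : Set (ℂ × ℂ)) : Hol (fun y _ => y) Ω := differentiableOn_fst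

theorem hol_snd (Ω : Set (ℂ × ℂ)) : Hol (fun _ t => t) Ω := differentiableOn_snd

theorem Hol.div {F G : ℂ → ℂ → ℂ} {Ω : Set (ℂ × ℂ)} (hF : Hol F Ω) (hG : Hol G Ω)
    (h0 : ∀ z ∈ Ω, G z.1 z.2 ≠ 0) : Hol (fun y t => F y t / G y t) Ω := by
  have h1 : DifferentiableOn ℂ (fun z : ℂ × ℂ => (G z.1 z.2)⁻¹) Ω := DifferentiableOn.inv hG h0
  have h2 : DifferentiableOn ℂ (fun z : ℂ × ℂ => F z.1 z.2 * (G z.1 z.2)⁻¹) Ω := DifferentiableOn.mul hF h1
  unfold Hol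
  simpa only [div_eq_mul_inv] using h2

theorem close_facts {a : ℂ} (h : ‖4 * a - 1‖ ≤ 1 / 10) :
    a ≠ 0 ∧ ‖1 / a‖ ≤ 40 / 9 ∧ ‖1 / a - 4‖ ≤ 4 / 9 ∧ ‖a‖ ≤ 11 / 40 := by
  have h1 : 9 / 10 ≤ ‖4 * a‖ := by
    have := norm_sub_norm_le (1 : ℂ) (1 - 4 * a)
    have e1 : (1 : ℂ) - (1 - 4 * a) = 4 * a := by ring
    have e2 : ‖(1 : ℂ) - 4 * a‖ = ‖4 * a - 1‖ := norm_sub_rev _ _
    rw [e1, e2] at this
    simp only [norm_one] at this
    linarith
  have h1' : ‖4 * a‖ ≤ 11 / 10 := by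
    have := norm_add_le (4 * a - 1) (1 : ℂ)
    simp only [sub_add_cancel, norm_one] at this
    linarith
  have h2 : ‖4 * a‖ = 4 * ‖a‖ := by simp
  have h3 : 9 / 40 ≤ ‖a‖ := by linarith
  have hpos : 0 < ‖a‖ := by linarith
  have ha : a ≠ 0 := norm_pos_iff.1 hpos
  refine ⟨ha, ?_, ?_, by linarith⟩
  · rw [norm_div, norm_one, div_le_iff₀ hpos]
    linarith
  · have e : 1 / a - 4 = -(4 * a - 1) / a := by field_simp; ring
    rw [e, norm_div, norm_neg, div_le_iff₀ hpos]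
    linarith

theorem Step.A_close (hG : Good B s₁ κ K) (hS : Step B s₁ κ s d δ ε N Θ) :
    ∀ z ∈ Dom (1 / 2) s d, ‖4 * A B Θ z.1 z.2 - 1‖ ≤ 1 / 10 := by
  intro z hz
  by_cases h0 : z.2 = 0
  · simp only [A, if_pos h0]
    norm_num
  · simp only [A, if_neg h0]
    refine hG.As_close s hS.s_le _ ((hS.cand2 hG).slice (hS.s_le_s₀ hG) hz.1) z.2 z.1 h0
      (lt_of_lt_of_le hz.1 hS.d_le_s₁) ?_
    have := hz.2
    linarith

theorem hol_cont_real {F : ℂ → ℂ → ℂ} {Ω : Set (ℂ × ℂ)} (hΩ : IsOpen Ω) (hF : Hol F Ω) {t : ℂ}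
    (hm : ∀ x : ℝ, ((x : ℂ), t) ∈ Ω) : Continuous fun x : ℝ => F x t := by
  rw [continuous_iff_continuousAt]
  intro x
  have h1 : ContinuousAt (fun z : ℂ × ℂ => F z.1 z.2) ((x : ℂ), t) :=
    hF.continuousOn.continuousAt (hΩ.mem_nhds (hm x))
  have h2 : ContinuousAt (fun x : ℝ => ((x : ℂ), t)) x := by fun_prop
  exact ContinuousAt.comp (f := fun x : ℝ => ((x : ℂ), t)) (g := fun z : ℂ × ℂ => F z.1 z.2) h1 h2

theorem mean_add {g₁ g₂ : ℂ → ℂ} (h₁ : Continuous fun x : ℝ => g₁ x) (h₂ : Continuous fun x : ℝ => g₂ x) :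
    mean (fun y => g₁ y + g₂ y) = mean g₁ + mean g₂ := fc_add h₁ h₂ 0

theorem mean_const_mul (a : ℂ) (g : ℂ → ℂ) : mean (fun y => a * g y) = a * mean g := fc_const_mul a g 0

theorem mean_conj (g : ℂ → ℂ) : mean (fun y => conj (g y)) = conj (mean g) := by
  unfold mean fc
  simp only [Int.cast_zero, zero_mul, neg_zero, Complex.exp_zero, mul_one, map_mul]
  congr 1
  · simp [Complex.conj_ofReal, map_ofNat]
  · simp only [intervalIntegral, map_sub]
    rw [integral_conj, integral_conj]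

/-- N2: the mean adjustment. -/
theorem newton_mid_pf (hG : Good B s₁ κ K) (hS : Step B s₁ κ s d δ ε N Θ) {Ph Pρ : ℝ} (hPh : 0 ≤ Ph)
    {h : ℂ → ℂ → ℂ} (hh : Div1 B Θ s d δ ε Ph Pρ h) : Mid2 B Θ s d δ ε Ph h := by
  have hδ := hS.δ_pos
  have hε := hS.ε_pos
  have hd := hS.d_pos
  have hδs := hS.δ_lt
  have hds := hS.d_lt
  have hd2 : d * (1 - 2 * δ) ≤ d := by nlinarith
  obtain ⟨Ω, hΩdef⟩ : ∃ Ω, Ω = Dom (1 / 2) (s - 3 * δ) (d * (1 - 2 * δ)) := ⟨_, rfl⟩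
  obtain ⟨a, hadef⟩ : ∃ a, a = A B Θ := ⟨_, rfl⟩
  have hΩo : IsOpen Ω := hΩdef ▸ isOpen_Dom _ _ _
  have hsub : Ω ⊆ Dom (1 / 2) s d := hΩdef ▸ Dom_mono le_rfl (by linarith) hd2
  have hsubU : Ω ⊆ Set.univ ×ˢ Metric.ball (0 : ℂ) (d * (1 - 2 * δ)) := by
    intro z hz
    rw [hΩdef] at hz
    exact ⟨Set.mem_univ _, by simpa using hz.1⟩
  have haHol : Hol a Ω := hadef ▸ (hG.A_hol s hS.s_le d hS.d_le_s₁ Θ (hS.cand2 hG)).mono hsub
  have haSym : Sym a Ω := hadef ▸ (hG.A_sym s hS.s_le d hS.d_le_s₁ Θ (hS.cand2 hG)).mono hsub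
  have hac : ∀ z ∈ Ω, a z.1 z.2 ≠ 0 ∧ ‖1 / a z.1 z.2‖ ≤ 40 / 9 ∧ ‖1 / a z.1 z.2 - 4‖ ≤ 4 / 9 ∧
      ‖a z.1 z.2‖ ≤ 11 / 40 := fun z hz => close_facts (hadef ▸ hS.A_close hG z (hsub hz))
  have hhHol : Hol h Ω := hh.hol.mono hsubU
  have hhSym : Sym h Ω := hh.sym.mono hsubU
  have hhbd : Bd h Ω (Ph * ε) := hΩdef ▸ hh.bd
  -- real points
  have hreal : ∀ t : ℂ, ‖t‖ < d * (1 - 2 * δ) → ∀ x : ℝ, ((x : ℂ), t) ∈ Ω := by
    intro t ht x
    rw [hΩdef]
    refine ⟨ht, ?_⟩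
    have h1 := Complex.abs_im_le_norm t
    simp only [Complex.ofReal_im, abs_zero]
    nlinarith
  -- the two quotients
  have hq1 : Hol (fun y t => h y t / a y t) Ω := hhHol.div haHol fun z hz => (hac z hz).1
  have hq2 : Hol (fun y t => 1 / a y t) Ω := (hol_const 1 Ω).div haHol fun z hz => (hac z hz).1
  have hc1 : ∀ t : ℂ, ‖t‖ < d * (1 - 2 * δ) → Continuous fun x : ℝ => h x t / a x t := fun t ht =>
    hol_cont_real hΩo hq1 (hreal t ht)
  have hc2 : ∀ t : ℂ, ‖t‖ < d * (1 - 2 * δ) → Continuous fun x : ℝ => 1 / a x t := fun t ht =>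
    hol_cont_real hΩo hq2 (hreal t ht)
  -- the mean of `1/a`
  have hm2 : ∀ t : ℂ, ‖t‖ < d * (1 - 2 * δ) → ‖mean (fun x => 1 / a x t) - 4‖ ≤ 4 / 9 := by
    intro t ht
    have e1 : mean (fun x => 1 / a x t + (-4 : ℂ)) = mean (fun x => 1 / a x t) + mean (fun _ => (-4 : ℂ)) :=
      mean_add (hc2 t ht) continuous_const
    rw [mean_const] at e1
    have e2 : mean (fun x => 1 / a x t) - 4 = mean (fun x => 1 / a x t + (-4 : ℂ)) := by rw [e1]; ring
    rw [e2]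
    refine norm_fc_le (fun x => ?_) 0
    have := (hac _ (hreal t ht x)).2.2.1
    simpa [sub_eq_add_neg] using this
  have hm2' : ∀ t : ℂ, ‖t‖ < d * (1 - 2 * δ) → 32 / 9 ≤ ‖mean (fun x => 1 / a x t)‖ := by
    intro t ht
    have h1 := hm2 t ht
    have h2 := norm_sub_norm_le (4 : ℂ) (4 - mean (fun x => 1 / a x t))
    have e1 : (4 : ℂ) - (4 - mean (fun x => 1 / a x t)) = mean (fun x => 1 / a x t) := by ring
    rw [e1, norm_sub_rev] at h2
    have e3 : ‖(4 : ℂ)‖ = 4 := by simp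
    rw [e3] at h2
    linarith
  have hm2ne : ∀ t : ℂ, ‖t‖ < d * (1 - 2 * δ) → mean (fun x => 1 / a x t) ≠ 0 := fun t ht h0 => by
    have := hm2' t ht
    rw [h0, norm_zero] at this
    linarith
  have hm1 : ∀ t : ℂ, ‖t‖ < d * (1 - 2 * δ) → ‖mean (fun x => h x t / a x t)‖ ≤ 40 / 9 * (Ph * ε) := by
    intro t ht
    refine norm_fc_le (fun x => ?_) 0
    have h1 := (hac _ (hreal t ht x)).2.1
    have h2 := hhbd _ (hreal t ht x)
    have e : h x t / a x t = (1 / a x t) * h x t := by ring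
    rw [e, norm_mul]
    exact mul_le_mul h1 h2 (norm_nonneg _) (by norm_num)
  have hlam : ∀ t : ℂ, ‖t‖ < d * (1 - 2 * δ) → ‖lamF a h t‖ ≤ 5 / 4 * (Ph * ε) := by
    intro t ht
    unfold lamF
    rw [norm_div, norm_neg, div_le_iff₀ (by have := hm2' t ht; linarith)]
    have h1 := hm1 t ht
    have h2 := hm2' t ht
    have h3 : 0 ≤ Ph * ε := by positivity
    nlinarith
  -- holomorphy of `λ`
  have hballo : IsOpen (Metric.ball (0 : ℂ) (d * (1 - 2 * δ))) := Metric.isOpen_ball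
  have hmemb : ∀ t : ℂ, t ∈ Metric.ball (0 : ℂ) (d * (1 - 2 * δ)) ↔ ‖t‖ < d * (1 - 2 * δ) := fun t => by
    simp
  have hlamd : DifferentiableOn ℂ (lamF a h) (Metric.ball (0 : ℂ) (d * (1 - 2 * δ))) := by
    have d1 := fc_hol hΩo hballo hq1 (fun x t ht => hreal t ((hmemb t).1 ht) x) 0
    have d2 := fc_hol hΩo hballo hq2 (fun x t ht => hreal t ((hmemb t).1 ht) x) 0
    exact DifferentiableOn.div d1.neg d2 fun t ht => hm2ne t ((hmemb t).1 ht)
  have hlamH : Hol (fun _ t => lamF a h t) Ω :=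
    hol_comp₁ (G := fun _ t => t) hlamd differentiableOn_snd fun z hz => (hsubU hz).2
  have hbHol : Hol (bF a h) Ω := (hhHol.add hlamH).div haHol fun z hz => (hac z hz).1
  -- symmetric domain
  have hΩneg : ∀ z ∈ Ω, (z.1, -z.2) ∈ Ω := by
    intro z hz
    rw [hΩdef] at hz ⊢
    exact ⟨by simpa using hz.1, by simpa using hz.2⟩
  have hΩconj : ∀ z ∈ Ω, (conj z.1, conj z.2) ∈ Ω := by
    intro z hz
    rw [hΩdef] at hz ⊢
    exact ⟨by simpa using hz.1, by simpa using hz.2⟩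
  have hlam_even : ∀ t : ℂ, ‖t‖ < d * (1 - 2 * δ) → lamF a h (-t) = lamF a h t := by
    intro t ht
    unfold lamF mean
    rw [fc_congr (g₁ := fun x => h x (-t) / a x (-t)) (g₂ := fun x => h x t / a x t) (fun x => by
        rw [hhSym.even _ (hreal t ht x), haSym.even _ (hreal t ht x)]) 0,
      fc_congr (g₁ := fun x => 1 / a x (-t)) (g₂ := fun x => 1 / a x t) (fun x => by
        rw [haSym.even _ (hreal t ht x)]) 0]
  have hlam_real : ∀ t : ℂ, ‖t‖ < d * (1 - 2 * δ) → lamF a h (conj t) = conj (lamF a h t) := by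
    intro t ht
    have e1 : mean (fun x => h x (conj t) / a x (conj t)) = conj (mean (fun x => h x t / a x t)) := by
      rw [← mean_conj]
      refine fc_congr (fun x => ?_) 0
      have h1 := hhSym.real _ (hreal t ht x)
      have h2 := haSym.real _ (hreal t ht x)
      simp only [Complex.conj_ofReal] at h1 h2
      rw [h1, h2, map_div₀]
    have e2 : mean (fun x => 1 / a x (conj t)) = conj (mean (fun x => 1 / a x t)) := by
      rw [← mean_conj]
      refine fc_congr (fun x => ?_) 0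
      have h2 := haSym.real _ (hreal t ht x)
      simp only [Complex.conj_ofReal] at h2
      rw [h2, map_div₀, map_one]
    unfold lamF
    rw [e1, e2, map_div₀, map_neg]
  have hnorm : ∀ z ∈ Ω, ‖z.2‖ < d * (1 - 2 * δ) := fun z hz => (hmemb _).1 (hsubU hz).2
  have hbSym : Sym (bF a h) Ω := by
    refine ⟨fun z hz => ?_, fun z hz => ?_, fun z hz => ?_⟩
    · unfold bF
      rw [hhSym.per z hz, haSym.per z hz]
    · unfold bF
      rw [hhSym.even z hz, haSym.even z hz, hlam_even _ (hnorm z hz)]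
    · unfold bF
      rw [hhSym.real z hz, haSym.real z hz, hlam_real _ (hnorm z hz), map_div₀, map_add]
  have hd2pos : 0 < d * (1 - 2 * δ) := by
    have : s ≤ 1 := hS.s_le.trans hG.s₁_le_one
    have : 0 < 1 - 2 * δ := by linarith
    positivity
  have hlam0 : lamF a h 0 = 0 := by
    unfold lamF
    have : (fun x => h x 0 / a x 0) = fun _ => (0 : ℂ) := by
      funext x
      rw [hh.zero x, zero_div]
    rw [this, mean_const]
    simp
  have r3 : ∀ y : ℂ, bF a h y 0 = 0 := by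
    intro y
    unfold bF
    rw [hh.zero y, hlam0]
    simp
  have r4 : ∀ t : ℂ, ‖t‖ < d * (1 - 2 * δ) → mean (fun y => bF a h y t) = 0 := by
    intro t ht
    have e : (fun y => bF a h y t) = fun y => h y t / a y t + lamF a h t * (1 / a y t) := by
      funext y
      unfold bF
      ring
    rw [e, mean_add (hc1 t ht) ((hc2 t ht).const_smul (lamF a h t) |>.congr fun x => by simp),
      mean_const_mul]
    unfold lamF
    have hne := hm2ne t ht
    generalize mean (fun x => 1 / a x t) = m2 at hne ⊢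
    generalize mean (fun x => h x t / a x t) = m1
    field_simp
    ring
  have r5 : Bd (bF a h) Ω (15 * Ph * ε) := by
    intro z hz
    unfold bF
    have h1 := (hac z hz).2.1
    have h2 := hhbd z hz
    have h3 := hlam _ (hnorm z hz)
    have e : (h z.1 z.2 + lamF a h z.2) / a z.1 z.2 = (1 / a z.1 z.2) * (h z.1 z.2 + lamF a h z.2) := by ring
    rw [e, norm_mul]
    have h4 : ‖h z.1 z.2 + lamF a h z.2‖ ≤ 9 / 4 * (Ph * ε) := (norm_add_le _ _).trans (by linarith)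
    have h5 : 0 ≤ Ph * ε := by positivity
    calc ‖1 / a z.1 z.2‖ * ‖h z.1 z.2 + lamF a h z.2‖ ≤ 40 / 9 * (9 / 4 * (Ph * ε)) :=
          mul_le_mul h1 h4 (norm_nonneg _) (by norm_num)
      _ ≤ 15 * Ph * ε := by nlinarith
  have r6 : ∀ t : ℂ, ‖t‖ < d * (1 - 2 * δ) → ‖lamF a h t‖ ≤ 2 * Ph * ε := by
    intro t ht
    have h5 : 0 ≤ Ph * ε := by positivity
    exact (hlam t ht).trans (by nlinarith)
  subst hadef hΩdef
  exact ⟨hbHol, hbSym, fun y _ => r3 y, r4, r5, r6⟩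

end Claimed.Agent.R269.S3
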