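/-
Row 269, Section 3: symmetries and bounds of the derivatives of candidates.   Owner: helper228.
-/
import Claimed.Agent.R269.S3.NewtonN2

set_option autoImplicit false

namespace Claimed.Agent.R269.S3

open Real Complex ComplexConjugate Filter Topology

variable {B : Base} {s d κ : ℝ} {Θ : ℂ → ℂ → ℂ}

theorem ev_fst {Ω : Set (ℂ × ℂ)} (hΩ : IsOpen Ω) {y t : ℂ} (h : (y, t) ∈ Ω) : ∀ᶠ x in 𝓝 y, (x, t) ∈ Ω := by
  have hc : ContinuousAt (fun x : ℂ => (x, t)) y := by fun_prop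
  exact hc.eventually (hΩ.mem_nhds h)

theorem ev_snd {Ω : Set (ℂ × ℂ)} (hΩ : IsOpen Ω) {y t : ℂ} (h : (y, t) ∈ Ω) : ∀ᶠ τ in 𝓝 t, (y, τ) ∈ Ω := by
  have hc : ContinuousAt (fun τ : ℂ => (y, τ)) t := by fun_prop
  exact hc.eventually (hΩ.mem_nhds h)

theorem dy_per {F : ℂ → ℂ → ℂ} {Ω : Set (ℂ × ℂ)} (hΩ : IsOpen Ω) {c : ℂ}
    (h : ∀ z ∈ Ω, F (z.1 + 2 * π) z.2 = F z.1 z.2 + c) : Per (dy F) Ω := by
  rintro ⟨y, t⟩ hz
  show deriv (fun x => F x t) (y + 2 * π) = deriv (fun x => F x t) y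
  rw [← deriv_comp_add_const (fun x => F x t) (2 * π) y]
  have e : (fun x => F (x + 2 * π) t) =ᶠ[𝓝 y] fun x => F x t + c := by
    filter_upwards [ev_fst hΩ hz] with x hx
    exact h (x, t) hx
  rw [e.deriv_eq, deriv_add_const]

theorem dt_per {F : ℂ → ℂ → ℂ} {Ω : Set (ℂ × ℂ)} (hΩ : IsOpen Ω) {c : ℂ}
    (h : ∀ z ∈ Ω, F (z.1 + 2 * π) z.2 = F z.1 z.2 + c) : Per (dt F) Ω := by
  rintro ⟨y, t⟩ hz
  show deriv (fun τ => F (y + 2 * π) τ) t = deriv (fun τ => F y τ) t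
  have e : (fun τ => F (y + 2 * π) τ) =ᶠ[𝓝 t] fun τ => F y τ + c := by
    filter_upwards [ev_snd hΩ hz] with τ hτ
    exact h (y, τ) hτ
  rw [e.deriv_eq, deriv_add_const]

theorem dy_even {F : ℂ → ℂ → ℂ} {Ω : Set (ℂ × ℂ)} (hΩ : IsOpen Ω)
    (h : ∀ z ∈ Ω, F z.1 (-z.2) = F z.1 z.2) : ∀ z ∈ Ω, dy F z.1 (-z.2) = dy F z.1 z.2 := by
  rintro ⟨y, t⟩ hz
  show deriv (fun x => F x (-t)) y = deriv (fun x => F x t) y
  have e : (fun x => F x (-t)) =ᶠ[𝓝 y] fun x => F x t := by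
    filter_upwards [ev_fst hΩ hz] with x hx
    exact h (x, t) hx
  exact e.deriv_eq

theorem dy_real {F : ℂ → ℂ → ℂ} {Ω : Set (ℂ × ℂ)} (hΩ : IsOpen Ω)
    (h : ∀ z ∈ Ω, F (conj z.1) (conj z.2) = conj (F z.1 z.2)) :
    ∀ z ∈ Ω, dy F (conj z.1) (conj z.2) = conj (dy F z.1 z.2) := by
  rintro ⟨y, t⟩ hz
  show deriv (fun x => F x (conj t)) (conj y) = conj (deriv (fun x => F x t) y)
  have hc : ContinuousAt (fun x : ℂ => conj x) (conj y) := Complex.continuous_conj.continuousAt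
  have e : (fun x => F x (conj t)) =ᶠ[𝓝 (conj y)] (conj ∘ (fun x => F x t) ∘ conj) := by
    have h1 : ∀ᶠ x in 𝓝 (conj y), (conj x, t) ∈ Ω := by
      have h2 := ev_fst hΩ hz
      have h3 : Tendsto (fun x : ℂ => conj x) (𝓝 (conj y)) (𝓝 y) := by
        have := hc.tendsto
        simpa using this
      exact h3.eventually h2
    filter_upwards [h1] with x hx
    have := h (conj x, t) hx
    simp only [Complex.conj_conj] at this
    simp [Function.comp, this]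
  rw [e.deriv_eq, deriv_conj_conj]
  simp

theorem Sym.dy {F : ℂ → ℂ → ℂ} {Ω : Set (ℂ × ℂ)} (hΩ : IsOpen Ω) (h : Sym F Ω) : Sym (dy F) Ω :=
  ⟨dy_per hΩ (c := 0) (fun z hz => by rw [h.per z hz, add_zero]), dy_even hΩ h.even, dy_real hΩ h.real⟩

theorem Sym.mul {F G : ℂ → ℂ → ℂ} {Ω : Set (ℂ × ℂ)} (hF : Sym F Ω) (hG : Sym G Ω) :
    Sym (fun y t => F y t * G y t) Ω :=
  ⟨fun z hz => by simp only [hF.per z hz, hG.per z hz], fun z hz => by simp only [hF.even z hz, hG.even z hz],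
    fun z hz => by simp only [hF.real z hz, hG.real z hz, map_mul]⟩

theorem mem_hstrip_of_Dom0 {z : ℂ × ℂ} (hz : z ∈ Dom 0 s d) : z.1 ∈ hstrip s := by
  have := hz.2
  simpa [hstrip] using this

theorem mem_Dom0 {y t : ℂ} (hy : y ∈ hstrip s) (ht : ‖t‖ < d) : (y, t) ∈ Dom 0 s d :=
  ⟨ht, by simpa [hstrip] using hy⟩

theorem Cand.per' (hs : s ≤ B.s₀) (h : Cand B s d κ Θ) :
    ∀ z ∈ Dom 0 s d, Θ (z.1 + 2 * π) z.2 = Θ z.1 z.2 + 2 * π := by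
  intro z hz
  have h1 := h.sym.per z hz
  have h2 := B.φ_per z.1 (hstrip_mono hs (mem_hstrip_of_Dom0 hz))
  rw [h2] at h1
  linear_combination h1

theorem Cand.even' (h : Cand B s d κ Θ) : ∀ z ∈ Dom 0 s d, Θ z.1 (-z.2) = Θ z.1 z.2 := by
  intro z hz
  have h1 := h.sym.even z hz
  linear_combination h1

theorem Cand.real' (hs : s ≤ B.s₀) (h : Cand B s d κ Θ) :
    ∀ z ∈ Dom 0 s d, Θ (conj z.1) (conj z.2) = conj (Θ z.1 z.2) := by
  intro z hz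
  have h1 := h.sym.real z hz
  have h2 := B.φ_conj z.1 (hstrip_mono hs (mem_hstrip_of_Dom0 hz))
  simp only [map_sub] at h1
  rw [h2] at h1
  linear_combination h1

theorem Cand.dy_sym (hs : s ≤ B.s₀) (h : Cand B s d κ Θ) : Sym (dy Θ) (Dom 0 s d) :=
  ⟨dy_per (isOpen_Dom 0 s d) (h.per' hs), dy_even (isOpen_Dom 0 s d) h.even',
    dy_real (isOpen_Dom 0 s d) (h.real' hs)⟩

theorem Cand.dy_sub (hs : s ≤ B.s₀) (h : Cand B s d κ Θ) :
    ∀ z ∈ Dom 0 s d, ‖dy Θ z.1 z.2 - deriv B.φ z.1‖ ≤ κ := by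
  rintro ⟨y, t⟩ hz
  have h1 := h.small 1 (by norm_num) (y, t) hz
  rw [iteratedDeriv_one] at h1
  have hy : y ∈ hstrip s := mem_hstrip_of_Dom0 hz
  have d1 : DifferentiableAt ℂ (fun x => Θ x t) y := hol_slice_y (isOpen_Dom 0 s d) h.hol hz
  have d2 : DifferentiableAt ℂ B.φ y :=
    (B.φ_diff y (hstrip_mono hs hy)).differentiableAt ((isOpen_hstrip _).mem_nhds (hstrip_mono hs hy))
  have e : deriv (fun x => Θ x t - B.φ x) y = dy Θ y t - deriv B.φ y := deriv_fun_sub d1 d2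
  simpa [e] using h1

theorem Cand.dy_ge (hs : s ≤ B.s₀) (h : Cand B s d κ Θ) :
    ∀ z ∈ Dom 0 s d, B.mφ - κ ≤ ‖dy Θ z.1 z.2‖ := by
  intro z hz
  have h1 := h.dy_sub hs z hz
  have h2 := B.φ'_ge z.1 (hstrip_mono hs (mem_hstrip_of_Dom0 hz))
  have h3 := norm_sub_norm_le (deriv B.φ z.1) (deriv B.φ z.1 - dy Θ z.1 z.2)
  have e : deriv B.φ z.1 - (deriv B.φ z.1 - dy Θ z.1 z.2) = dy Θ z.1 z.2 := by ring
  rw [e, norm_sub_rev] at h3
  linarith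

theorem Cand.dy_le (hs : s ≤ B.s₀) (h : Cand B s d κ Θ) :
    ∀ z ∈ Dom 0 s d, ‖dy Θ z.1 z.2‖ ≤ B.Mφ + κ := by
  intro z hz
  have h1 := h.dy_sub hs z hz
  have h2 := B.φ'_le z.1 (hstrip_mono hs (mem_hstrip_of_Dom0 hz))
  have h3 := norm_add_le (dy Θ z.1 z.2 - deriv B.φ z.1) (deriv B.φ z.1)
  rw [sub_add_cancel] at h3
  linarith

theorem Cand.bd0 (h : Cand B s d κ Θ) : ∀ z ∈ Dom 0 s d, ‖Θ z.1 z.2 - B.φ z.1‖ ≤ κ := by
  intro z hz
  have h1 := h.small 0 (by norm_num) z hz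
  simpa using h1

/-- Cauchy estimate in `t` at relative distance `ϑ` from the boundary. -/
theorem Cand.dt_le (h : Cand B s d κ Θ) {ρ : ℝ} (hρ : 0 < ρ) {y t : ℂ} (hy : y ∈ hstrip s)
    (ht : ‖t‖ + ρ ≤ d) : ‖dt Θ y t‖ ≤ κ / ρ := by
  have hsub : ∀ τ ∈ Metric.ball t ρ, (y, τ) ∈ Dom 0 s d := by
    intro τ hτ
    refine mem_Dom0 hy ?_
    have h1 : ‖τ - t‖ < ρ := by simpa [dist_eq_norm] using hτ
    have h2 := norm_add_le (τ - t) t
    rw [sub_add_cancel] at h2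
    linarith
  have h1 := ball_deriv_le (g := fun τ => Θ y τ - B.φ y) (c := t) (M := κ) hρ
    (fun τ hτ => ((hol_slice_t (isOpen_Dom 0 s d) h.hol (hsub τ hτ)).sub_const _).differentiableWithinAt)
    (fun τ hτ => h.bd0 (y, τ) (hsub τ hτ))
  have e : deriv (fun τ => Θ y τ - B.φ y) t = dt Θ y t := deriv_sub_const _
  rwa [e] at h1

theorem dd_per {F : ℂ → ℂ → ℂ} {D : ℝ} (h : Per F (Set.univ ×ˢ Metric.ball (0 : ℂ) D)) :
    Per (dd F) (Set.univ ×ˢ Metric.ball (0 : ℂ) D) := by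
  rintro ⟨y, t⟩ hz
  have hΩ : IsOpen (Set.univ ×ˢ Metric.ball (0 : ℂ) D : Set (ℂ × ℂ)) := isOpen_univ.prod Metric.isOpen_ball
  show dd F (y + 2 * π) t = dd F y t
  by_cases ht : t = 0
  · subst ht
    simp only [dd, if_true]
    exact dy_per hΩ (c := 0) (fun z hz => by rw [h z hz, add_zero]) (y, 0) hz
  · simp only [dd, if_neg ht, ds]
    have e1 : y + 2 * π + t / 2 = (y + t / 2) + 2 * π := by ring
    have e2 : y + 2 * π - t / 2 = (y - t / 2) + 2 * π := by ring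
    rw [e1, e2, h (y + t / 2, t) ⟨Set.mem_univ _, hz.2⟩, h (y - t / 2, t) ⟨Set.mem_univ _, hz.2⟩]

end Claimed.Agent.R269.S3
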