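/-
Row 269, Section 3, UNIT I (package BP-S3-I): exact solution ⇒ the structure `Glance` (P1 l.752-815, only what `Glance` asks for).   Statement + plan: helper228.
Uses Glance.lean, S3/Defs.lean, S3/Stmt.lean (StCollar), Gen, LibHol, LibFS.

CHOICES.  `G.hc = B.hc`, `G.σ = B.σ`, `G.c = B.c`, `G.s := s/8`, `G.r₁ := min d (s/8) / 2`, `G.Θ := Θ`,
   `G.p y t := pInC hc (Θ y t) (Θ (y + t) t)`,   `G.A t := Bf 0 t`   with
   `Bf y t := S12 hc (Θ y t) (Θ (y+t) t) * ((dy Θ (y+t) t + dt Θ (y+t) t) * dy Θ y t - dy Θ (y+t) t * dt Θ y t)`.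
All points `(y,t)`, `(y ± t, t)`, `(y + 2t, t)` with `|Im y| < s/2`, `|t| < s/8` are in `𝒟⁰(s,d)`, resp. `𝒟¹(s,d)`.   `Θ y t ∈ hstrip (σ/4 + κ) ⊆ hstrip (3σ/8)`.
FIELDS.
 * `Θ_diff`, `p_diff`: `Sol.hol`, `hol_comp`, `hol_pInC`.     `Θ_per`, `Θ_even`, `Θ_conj`: `Sol.sym` and `B.φ_per`, `B.φ_conj`.     `p_per`, `p_conj`: `pInC_per`, `pInC_conj`.
 * `refl_in`: definition.   `refl_out`: `p (y+t) t = pInC (Θ(y+t)) (Θ(y+2t)) = pOutC (Θ y) (Θ (y+t))` is `Sol.stat` at the vertex `(y+t, t)`.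
 * `p_even`: `p y (-t) = pInC (Θ y t) (Θ (y-t) t) = pOutC (Θ (y-t) t) (Θ y t)` (`pOutC_swap`, evenness of `Θ`) `= pInC (Θ y t) (Θ (y+t) t)` by `Sol.stat` at `(y,t)`.
 * `φ'_pos`, `normalised`: `Θ(·,0) = φ` on the strip (`Sol.zero`), `B.φ'_pos`, `B.normal`;  `rad_pos`: `B.rad_pos`.
 * `area`.  (i) chain rule (`hol_chain`): `p_y = P₁ Θ_y + P₂ Θ⁺_y`, `p_t = P₁ Θ_t + P₂ (Θ⁺_y + Θ⁺_t)` with `P₁, P₂` the partial derivatives of `pInC`, `P₂ = -S12` (`hasDerivAt_pInC_right`),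
     `Θ⁺ = Θ(y+t,t)`;  so  `p_y Θ_t - p_t Θ_y = Bf y t`  (the `P₁` terms cancel).
   (ii) INVARIANCE `Bf (y+t) t = Bf y t`: put `p⁻ y t := pOutC hc (Θ (y-t) t) (Θ y t)`; by `Sol.stat`, `p⁻ = p` on an open set, so `p⁻_y Θ_t - p⁻_t Θ_y = Bf y t`; the chain rule for `p⁻`
     (`hasDerivAt_pOutC_left`: first partial derivative `= S12`) gives `p⁻_y Θ_t - p⁻_t Θ_y = Bf (y-t) t`.
   (iii) `Bf` is holomorphic on `hstrip (s/2) × ball 0 (2 r₁)` (`hol_dy`, `hol_dt`, `hol_S12`), periodic in `y`, bounded on smaller sets.   By (ii) and `fc_shift`: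
     `(e^{int} - 1) fc n (Bf · t) = 0`.   `t ↦ fc n (Bf · t)` is holomorphic (`fc_hol`), it vanishes where `e^{int} ≠ 1`, i.e. off a discrete set, hence everywhere (continuity), `n ≠ 0`.
     `eq_mean_of_fc_eq_zero`: `Bf y t = mean (Bf · t) = Bf 0 t`.
 * `A_diff`: (iii).    `A_deriv`: `Bf 0 t = S(t) · T(t)`, `S(t) = S12 hc (Θ 0 t) (Θ t t)`, `S(0) = 0`, `S'(0) = rad hc (φ 0) φ'(0)/4`  (`S12 = rad(ψ) sin(d)/2`, `d = (Θ t t - Θ 0 t)/2`, `d'(0) = Θ_y(0,0)/2`),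
     `T(0) = φ'(0)²`;  so `A'(0) = rad hc (φ 0) φ'(0)³/4 = c/4`.
-/
import Claimed.Agent.R269.S3.Stmt
import Claimed.Agent.R269.S3.Gen
import Claimed.Agent.R269.S3.LibFS

set_option autoImplicit false

namespace Claimed.Agent.R269.S3

open Real Complex ComplexConjugate Filter Topology

/-! ### general lemmas -/

theorem s3i_mem_hstrip {a : ℝ} {y : ℂ} : y ∈ hstrip a ↔ |y.im| < a := Iff.rfl

theorem s3i_add_real_mem {a : ℝ} {y : ℂ} (r : ℝ) (hy : y ∈ hstrip a) : y + (r : ℂ) ∈ hstrip a := by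
  rw [s3i_mem_hstrip] at hy ⊢
  simpa using hy

theorem s3i_add_two_pi_mem {a : ℝ} {y : ℂ} (hy : y ∈ hstrip a) : y + 2 * π ∈ hstrip a := by
  have := s3i_add_real_mem (2 * π) hy
  simpa using this

theorem s3i_per_int {g : ℂ → ℂ} {a : ℝ} (hp : ∀ y ∈ hstrip a, g (y + 2 * π) = g y) (n : ℤ) :
    ∀ y ∈ hstrip a, g (y + 2 * π * n) = g y := by
  induction n using Int.induction_on with
  | zero => intro y _; simp
  | succ k ih =>
    intro y hy
    have h1 : y + 2 * π * ((k : ℤ) + 1 : ℤ) = (y + 2 * π * (k : ℤ)) + 2 * π := by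
      push_cast; ring
    have h2 : y + 2 * π * (k : ℤ) ∈ hstrip a := by
      have := s3i_add_real_mem (2 * π * k) hy
      simpa using this
    rw [h1, hp _ h2, ih y hy]
  | pred k ih =>
    intro y hy
    have h2 : y + 2 * π * ((-(k : ℤ) - 1 : ℤ) : ℂ) ∈ hstrip a := by
      have := s3i_add_real_mem (2 * π * (-(k : ℝ) - 1)) hy
      simpa using this
    have h1 : (y + 2 * π * ((-(k : ℤ) - 1 : ℤ) : ℂ)) + 2 * π = y + 2 * π * ((-(k : ℤ) : ℤ) : ℂ) := by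
      push_cast; ring
    rw [← hp _ h2, h1, ih y hy]

/-- a continuous periodic function is bounded on smaller strips. -/
theorem s3i_bdd_of_per {g : ℂ → ℂ} {a a' : ℝ} (ha : a' < a) (hg : ContinuousOn g (hstrip a))
    (hp : ∀ y ∈ hstrip a, g (y + 2 * π) = g y) : ∃ M : ℝ, ∀ y ∈ hstrip a', ‖g y‖ ≤ M := by
  have hK : IsCompact (Set.Icc (0 : ℝ) (2 * π) ×ℂ Set.Icc (-a') a') :=
    isCompact_Icc.reProdIm isCompact_Icc
  have hsub : (Set.Icc (0 : ℝ) (2 * π) ×ℂ Set.Icc (-a') a') ⊆ hstrip a := by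
    intro y hy
    rw [Complex.mem_reProdIm] at hy
    rw [s3i_mem_hstrip]
    exact lt_of_le_of_lt (abs_le.2 hy.2) ha
  obtain ⟨M, hM⟩ := hK.exists_bound_of_continuousOn (hg.mono hsub)
  refine ⟨M, fun y hy => ?_⟩
  have hy' : |y.im| < a' := hy
  have hya : y ∈ hstrip a := lt_trans hy' ha
  have hpi : 0 < 2 * π := by positivity
  have h1 := s3i_per_int hp (-⌊y.re / (2 * π)⌋) y hya
  rw [← h1]
  apply hM
  rw [Complex.mem_reProdIm]
  have hre : (y + 2 * π * ((-⌊y.re / (2 * π)⌋ : ℤ) : ℂ)).re = y.re - 2 * π * ⌊y.re / (2 * π)⌋ := by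
    have : y + 2 * π * ((-⌊y.re / (2 * π)⌋ : ℤ) : ℂ) = y + ((-(2 * π * ⌊y.re / (2 * π)⌋) : ℝ) : ℂ) := by
      push_cast; ring
    rw [this, Complex.add_re, Complex.ofReal_re]; ring
  have him : (y + 2 * π * ((-⌊y.re / (2 * π)⌋ : ℤ) : ℂ)).im = y.im := by
    have : y + 2 * π * ((-⌊y.re / (2 * π)⌋ : ℤ) : ℂ) = y + ((-(2 * π * ⌊y.re / (2 * π)⌋) : ℝ) : ℂ) := by
      push_cast; ring
    rw [this, Complex.add_im, Complex.ofReal_im, add_zero]
  rw [hre, him]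
  have hf1 := Int.floor_le (y.re / (2 * π))
  have hf2 := Int.lt_floor_add_one (y.re / (2 * π))
  rw [le_div_iff₀ hpi] at hf1
  rw [div_lt_iff₀ hpi] at hf2
  refine ⟨⟨by linarith, by linarith⟩, abs_le.1 hy'.le⟩

/-- `(e^{int} - 1) c(t) = 0`, `c` continuous, `n ≠ 0` ⇒ `c = 0`. -/
theorem s3i_zero_of_mul {c : ℂ → ℂ} {r : ℝ} (hc : ContinuousOn c (Metric.ball 0 r)) {n : ℤ}
    (hn : n ≠ 0) (h : ∀ t ∈ Metric.ball (0 : ℂ) r, (Complex.exp (n * t * Complex.I) - 1) * c t = 0) :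
    ∀ t ∈ Metric.ball (0 : ℂ) r, c t = 0 := by
  intro t₀ ht₀
  have hd : ∀ t : ℂ, HasDerivAt (fun t : ℂ => Complex.exp (n * t * Complex.I) - 1)
      (Complex.exp (n * t * Complex.I) * (n * Complex.I)) t := by
    intro t
    have h1 : HasDerivAt (fun t : ℂ => (n : ℂ) * t * Complex.I) (n * Complex.I) t := by
      have := ((hasDerivAt_id t).const_mul (n : ℂ)).mul_const Complex.I
      simpa using this
    exact (h1.cexp).sub_const 1
  have han : AnalyticAt ℂ (fun t : ℂ => Complex.exp (n * t * Complex.I) - 1) t₀ := by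
    have : Differentiable ℂ (fun t : ℂ => Complex.exp (n * t * Complex.I) - 1) :=
      fun t => (hd t).differentiableAt
    exact this.analyticAt t₀
  rcases han.eventually_eq_zero_or_eventually_ne_zero with h0 | h0
  · exfalso
    have h1 : HasDerivAt (fun t : ℂ => Complex.exp (n * t * Complex.I) - 1) 0 t₀ :=
      (hasDerivAt_const t₀ (0 : ℂ)).congr_of_eventuallyEq h0
    have h2 := (hd t₀).unique h1
    have h3 : (n : ℂ) ≠ 0 := by exact_mod_cast hn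
    exact (mul_ne_zero (Complex.exp_ne_zero _) (mul_ne_zero h3 Complex.I_ne_zero)) h2
  · have hball : ∀ᶠ t in 𝓝[≠] t₀, t ∈ Metric.ball (0 : ℂ) r :=
      nhdsWithin_le_nhds (Metric.isOpen_ball.mem_nhds ht₀)
    have hz : ∀ᶠ t in 𝓝[≠] t₀, c t = 0 := by
      filter_upwards [h0, hball] with t h1 h2
      exact (mul_eq_zero.1 (h t h2)).resolve_left h1
    have hcont : Tendsto c (𝓝[≠] t₀) (𝓝 (c t₀)) :=
      ((hc.continuousAt (Metric.isOpen_ball.mem_nhds ht₀)).tendsto).mono_left nhdsWithin_le_nhds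
    have hzero : Tendsto c (𝓝[≠] t₀) (𝓝 0) :=
      (tendsto_const_nhds).congr' (hz.mono fun t ht => ht.symm)
    exact tendsto_nhds_unique hcont hzero

/-! ### the context -/

/-- the hypotheses of `StCollar`. -/
structure S3iCtx where
  B : Base
  s : ℝ
  d : ℝ
  κ : ℝ
  Θ : ℂ → ℂ → ℂ
  d_pos : 0 < d
  d_lt : 2 * d < s
  s_le : s ≤ B.s₀
  κ_le : 8 * κ ≤ B.σ
  sol : Sol B s d κ Θ

namespace S3iCtx

variable (C : S3iCtx)

/-- the parameter radius of the working domain. -/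
noncomputable def ρ : ℝ := min C.d (C.s / 8)

/-- the working domain `hstrip (s/2) × ball 0 ρ`. -/
def W : Set (ℂ × ℂ) := hstrip (C.s / 2) ×ˢ Metric.ball (0 : ℂ) C.ρ

theorem s_pos : 0 < C.s := by have := C.d_pos; have := C.d_lt; linarith

theorem ρ_pos : 0 < C.ρ := lt_min C.d_pos (by have := C.s_pos; linarith)

theorem ρ_le_d : C.ρ ≤ C.d := min_le_left _ _

theorem ρ_le_s : C.ρ ≤ C.s / 8 := min_le_right _ _

theorem isOpen_W : IsOpen C.W := (isOpen_hstrip _).prod Metric.isOpen_ball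

theorem mem_W {y t : ℂ} : (y, t) ∈ C.W ↔ |y.im| < C.s / 2 ∧ ‖t‖ < C.ρ := by
  simp [W, hstrip, Set.mem_prod]

theorem mem0 {y t : ℂ} (hy : |y.im| < C.s) (ht : ‖t‖ < C.d) : (y, t) ∈ Dom 0 C.s C.d := by
  simp only [Dom, Set.mem_ofPred_eq, zero_mul, sub_zero]
  exact ⟨ht, hy⟩

theorem mem1 {y t : ℂ} (hy : |y.im| + |t.im| < C.s) (ht : ‖t‖ < C.d) : (y, t) ∈ Dom 1 C.s C.d := by
  simp only [Dom, Set.mem_ofPred_eq, one_mul]
  exact ⟨ht, by linarith⟩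

theorem im_lt {t : ℂ} (ht : ‖t‖ < C.ρ) : |t.im| < C.s / 8 :=
  lt_of_le_of_lt (Complex.abs_im_le_norm t) (lt_of_lt_of_le ht C.ρ_le_s)

theorem im_add_lt {y t : ℂ} {a : ℝ} (hy : |y.im| < a) (ht : ‖t‖ < C.ρ) : |(y + t).im| < a + C.s / 8 := by
  rw [Complex.add_im]
  exact lt_of_le_of_lt (abs_add_le _ _) (add_lt_add hy (C.im_lt ht))

theorem im_sub_lt {y t : ℂ} {a : ℝ} (hy : |y.im| < a) (ht : ‖t‖ < C.ρ) : |(y - t).im| < a + C.s / 8 := by
  rw [Complex.sub_im]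
  exact lt_of_le_of_lt (abs_sub _ _) (add_lt_add hy (C.im_lt ht))

theorem κ_nonneg : 0 ≤ C.κ := by
  have h := C.sol.small (0, 0) (C.mem0 (by simpa using C.s_pos) (by simpa using C.d_pos))
  exact le_trans (norm_nonneg _) h

/-- values of `Θ` lie in `hstrip (3σ/8)`. -/
theorem Θ_strip {y t : ℂ} (hy : |y.im| < C.s) (ht : ‖t‖ < C.d) : C.Θ y t ∈ hstrip (3 * C.B.σ / 8) := by
  have h1 : ‖C.Θ y t - C.B.φ y‖ ≤ C.κ := C.sol.small (y, t) (C.mem0 hy ht)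
  have h2 : |(C.B.φ y).im| < C.B.σ / 4 := C.B.φ_maps y (lt_of_lt_of_le hy C.s_le)
  have h3 : |(C.Θ y t - C.B.φ y).im| ≤ C.κ := le_trans (Complex.abs_im_le_norm _) h1
  rw [s3i_mem_hstrip]
  have h4 : (C.Θ y t).im = (C.Θ y t - C.B.φ y).im + (C.B.φ y).im := by
    rw [Complex.sub_im]; ring
  rw [h4]
  have := C.κ_le
  calc |(C.Θ y t - C.B.φ y).im + (C.B.φ y).im| ≤ |(C.Θ y t - C.B.φ y).im| + |(C.B.φ y).im| :=
        abs_add_le _ _
    _ < 3 * C.B.σ / 8 := by linarith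

theorem mid {u v : ℂ} (hu : u ∈ hstrip (3 * C.B.σ / 8)) (hv : v ∈ hstrip (3 * C.B.σ / 8)) :
    (u + v) / 2 ∈ hstrip C.B.σ := by
  rw [s3i_mem_hstrip] at hu hv ⊢
  have h1 : ((u + v) / 2).im = (u.im + v.im) / 2 := by
    rw [show (u + v) / 2 = ((1 / 2 : ℝ) : ℂ) * (u + v) by push_cast; ring, Complex.im_ofReal_mul, Complex.add_im]; ring
  rw [h1, abs_div, abs_two]
  have := abs_add_le u.im v.im
  have := C.B.σ_pos
  rw [div_lt_iff₀ (by norm_num)]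
  linarith

theorem Θ_per {y t : ℂ} (hy : |y.im| < C.s) (ht : ‖t‖ < C.d) : C.Θ (y + 2 * π) t = C.Θ y t + 2 * π := by
  have h1 := C.sol.sym.per (y, t) (C.mem0 hy ht)
  have h2 := C.B.φ_per y (lt_of_lt_of_le hy C.s_le)
  simp only at h1
  rw [h2] at h1
  linear_combination h1

theorem Θ_even {y t : ℂ} (hy : |y.im| < C.s) (ht : ‖t‖ < C.d) : C.Θ y (-t) = C.Θ y t := by
  have h1 := C.sol.sym.even (y, t) (C.mem0 hy ht)
  simp only at h1
  linear_combination h1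

theorem Θ_conj {y t : ℂ} (hy : |y.im| < C.s) (ht : ‖t‖ < C.d) :
    C.Θ (conj y) (conj t) = conj (C.Θ y t) := by
  have h1 := C.sol.sym.real (y, t) (C.mem0 hy ht)
  have h2 := C.B.φ_conj y (lt_of_lt_of_le hy C.s_le)
  simp only at h1
  rw [h2, map_sub] at h1
  linear_combination h1

theorem stat {y t : ℂ} (hy : |y.im| + |t.im| < C.s) (ht : ‖t‖ < C.d) :
    pOutC C.B.hc (C.Θ (y - t) t) (C.Θ y t) = pInC C.B.hc (C.Θ y t) (C.Θ (y + t) t) := by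
  have h1 := C.sol.stat (y, t) (C.mem1 hy ht)
  simp only [Rs] at h1
  exact sub_eq_zero.1 h1

/-! ### the functions -/

/-- `p = pIn(Θ, Θ⁺)`. -/
noncomputable def p (y t : ℂ) : ℂ := pInC C.B.hc (C.Θ y t) (C.Θ (y + t) t)

/-- `p⁻ = pOut(Θ⁻, Θ)`. -/
noncomputable def pm (y t : ℂ) : ℂ := pOutC C.B.hc (C.Θ (y - t) t) (C.Θ y t)

noncomputable def Sf (y t : ℂ) : ℂ := S12 C.B.hc (C.Θ y t) (C.Θ (y + t) t)

noncomputable def Tf (y t : ℂ) : ℂ :=
  (dy C.Θ (y + t) t + dt C.Θ (y + t) t) * dy C.Θ y t - dy C.Θ (y + t) t * dt C.Θ y t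

/-- the area coefficient. -/
noncomputable def Bf (y t : ℂ) : ℂ := C.Sf y t * C.Tf y t

theorem W_sub : C.W ⊆ Dom 0 C.s C.d := by
  rintro ⟨y, t⟩ h
  rw [C.mem_W] at h
  exact C.mem0 (by have := C.s_pos; linarith [h.1]) (lt_of_lt_of_le h.2 C.ρ_le_d)

theorem W_add {y t : ℂ} (h : (y, t) ∈ C.W) : |(y + t).im| < C.s ∧ ‖t‖ < C.d := by
  rw [C.mem_W] at h
  refine ⟨?_, lt_of_lt_of_le h.2 C.ρ_le_d⟩
  have := C.im_add_lt h.1 h.2
  have := C.s_pos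
  linarith

theorem W_sub' {y t : ℂ} (h : (y, t) ∈ C.W) : |(y - t).im| < C.s ∧ ‖t‖ < C.d := by
  rw [C.mem_W] at h
  refine ⟨?_, lt_of_lt_of_le h.2 C.ρ_le_d⟩
  have := C.im_sub_lt h.1 h.2
  have := C.s_pos
  linarith

theorem W_self {y t : ℂ} (h : (y, t) ∈ C.W) : |y.im| < C.s ∧ ‖t‖ < C.d := by
  rw [C.mem_W] at h
  exact ⟨by have := C.s_pos; linarith [h.1], lt_of_lt_of_le h.2 C.ρ_le_d⟩

theorem W_stat {y t : ℂ} (h : (y, t) ∈ C.W) : |y.im| + |t.im| < C.s := by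
  rw [C.mem_W] at h
  have := C.im_lt h.2
  have := C.s_pos
  linarith [h.1]

theorem hol_add {F : ℂ → ℂ → ℂ} (hF : Hol F (Dom 0 C.s C.d)) : Hol (fun y t => F (y + t) t) C.W :=
  hol_comp (G₁ := fun y t => y + t) (G₂ := fun _ t => t) hF
    (differentiable_fst.add differentiable_snd).differentiableOn differentiable_snd.differentiableOn
    (fun _ hz => C.mem0 (C.W_add hz).1 (C.W_add hz).2)

theorem hol_sub {F : ℂ → ℂ → ℂ} (hF : Hol F (Dom 0 C.s C.d)) : Hol (fun y t => F (y - t) t) C.W :=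
  hol_comp (G₁ := fun y t => y - t) (G₂ := fun _ t => t) hF
    (differentiable_fst.sub differentiable_snd).differentiableOn differentiable_snd.differentiableOn
    (fun _ hz => C.mem0 (C.W_sub' hz).1 (C.W_sub' hz).2)

theorem mid_p {y t : ℂ} (h : (y, t) ∈ C.W) : (C.Θ y t + C.Θ (y + t) t) / 2 ∈ hstrip C.B.σ :=
  C.mid (C.Θ_strip (C.W_self h).1 (C.W_self h).2) (C.Θ_strip (C.W_add h).1 (C.W_add h).2)

theorem mid_m {y t : ℂ} (h : (y, t) ∈ C.W) : (C.Θ (y - t) t + C.Θ y t) / 2 ∈ hstrip C.B.σ :=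
  C.mid (C.Θ_strip (C.W_sub' h).1 (C.W_sub' h).2) (C.Θ_strip (C.W_self h).1 (C.W_self h).2)

theorem hol_p : Hol C.p C.W :=
  hol_comp (F := pInC C.B.hc) (G₁ := C.Θ) (G₂ := fun y t => C.Θ (y + t) t) (hol_pInC C.B.hc_diff)
    (C.sol.hol.mono C.W_sub) (C.hol_add C.sol.hol) (fun _ hz => C.mid_p hz)

theorem hol_Sf : Hol C.Sf C.W :=
  hol_comp (F := S12 C.B.hc) (G₁ := C.Θ) (G₂ := fun y t => C.Θ (y + t) t) (hol_S12 C.B.hc_diff)
    (C.sol.hol.mono C.W_sub) (C.hol_add C.sol.hol) (fun _ hz => C.mid_p hz)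

theorem hol_Tf : Hol C.Tf C.W := by
  have h1 : Hol (dy C.Θ) (Dom 0 C.s C.d) := hol_dy (isOpen_Dom _ _ _) C.sol.hol
  have h2 : Hol (dt C.Θ) (Dom 0 C.s C.d) := hol_dt (isOpen_Dom _ _ _) C.sol.hol
  exact (((C.hol_add h1).add (C.hol_add h2)).mul (h1.mono C.W_sub)).sub
    ((C.hol_add h1).mul (h2.mono C.W_sub))

theorem hol_Bf : Hol C.Bf C.W := C.hol_Sf.mul C.hol_Tf

/-! ### derivatives -/

theorem hasDerivAt_Θ_y {y t : ℂ} (hy : |y.im| < C.s) (ht : ‖t‖ < C.d) :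
    HasDerivAt (fun x => C.Θ x t) (dy C.Θ y t) y :=
  (hol_slice_y (isOpen_Dom _ _ _) C.sol.hol (C.mem0 hy ht)).hasDerivAt

theorem hasDerivAt_Θ_t {y t : ℂ} (hy : |y.im| < C.s) (ht : ‖t‖ < C.d) :
    HasDerivAt (fun τ => C.Θ y τ) (dt C.Θ y t) t :=
  (hol_slice_t (isOpen_Dom _ _ _) C.sol.hol (C.mem0 hy ht)).hasDerivAt

theorem hasDerivAt_Θp_y {y t : ℂ} (hy : |(y + t).im| < C.s) (ht : ‖t‖ < C.d) :
    HasDerivAt (fun x => C.Θ (x + t) t) (dy C.Θ (y + t) t) y :=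
  (C.hasDerivAt_Θ_y hy ht).comp_add_const y t

theorem hasDerivAt_Θm_y {y t : ℂ} (hy : |(y - t).im| < C.s) (ht : ‖t‖ < C.d) :
    HasDerivAt (fun x => C.Θ (x - t) t) (dy C.Θ (y - t) t) y :=
  (C.hasDerivAt_Θ_y hy ht).comp_sub_const y t

theorem hasDerivAt_Θp_t {y t : ℂ} (hy : |(y + t).im| < C.s) (ht : ‖t‖ < C.d) :
    HasDerivAt (fun τ => C.Θ (y + τ) τ) (dy C.Θ (y + t) t + dt C.Θ (y + t) t) t := by
  have h := hol_chain (isOpen_Dom _ _ _) C.sol.hol (g₁ := fun τ => y + τ) (g₂ := fun τ => τ)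
    ((hasDerivAt_id t).const_add y) (hasDerivAt_id t) (C.mem0 hy ht)
  simpa using h

theorem hasDerivAt_Θm_t {y t : ℂ} (hy : |(y - t).im| < C.s) (ht : ‖t‖ < C.d) :
    HasDerivAt (fun τ => C.Θ (y - τ) τ) (-dy C.Θ (y - t) t + dt C.Θ (y - t) t) t := by
  have h := hol_chain (isOpen_Dom _ _ _) C.sol.hol (g₁ := fun τ => y - τ) (g₂ := fun τ => τ)
    ((hasDerivAt_id t).const_sub y) (hasDerivAt_id t) (C.mem0 hy ht)
  simpa using h

theorem area_p {y t : ℂ} (h : (y, t) ∈ C.W) :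
    deriv (fun y' => C.p y' t) y * dt C.Θ y t - deriv (fun t' => C.p y t') t * dy C.Θ y t
      = C.Bf y t := by
  have hs := C.W_self h
  have ha := C.W_add h
  have h1 := hol_chain (isOpen_Mid _) (hol_pInC C.B.hc_diff) (C.hasDerivAt_Θ_y hs.1 hs.2)
    (C.hasDerivAt_Θp_y ha.1 ha.2) (C.mid_p h)
  have h2 := hol_chain (isOpen_Mid _) (hol_pInC C.B.hc_diff) (C.hasDerivAt_Θ_t hs.1 hs.2)
    (C.hasDerivAt_Θp_t ha.1 ha.2) (C.mid_p h)
  have h3 : dt (pInC C.B.hc) (C.Θ y t) (C.Θ (y + t) t) = -S12 C.B.hc (C.Θ y t) (C.Θ (y + t) t) :=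
    (hasDerivAt_pInC_right C.B.hc_diff (C.mid_p h)).deriv
  have e1 : deriv (fun y' => C.p y' t) y = _ := h1.deriv
  have e2 : deriv (fun t' => C.p y t') t = _ := h2.deriv
  rw [e1, e2, h3]
  simp only [Bf, Sf, Tf]
  ring

theorem area_pm {y t : ℂ} (h : (y, t) ∈ C.W) :
    deriv (fun y' => C.pm y' t) y * dt C.Θ y t - deriv (fun t' => C.pm y t') t * dy C.Θ y t
      = C.Bf (y - t) t := by
  have hs := C.W_self h
  have ha := C.W_sub' h
  have h1 := hol_chain (isOpen_Mid _) (hol_pOutC C.B.hc_diff) (C.hasDerivAt_Θm_y ha.1 ha.2)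
    (C.hasDerivAt_Θ_y hs.1 hs.2) (C.mid_m h)
  have h2 := hol_chain (isOpen_Mid _) (hol_pOutC C.B.hc_diff) (C.hasDerivAt_Θm_t ha.1 ha.2)
    (C.hasDerivAt_Θ_t hs.1 hs.2) (C.mid_m h)
  have h3 : dy (pOutC C.B.hc) (C.Θ (y - t) t) (C.Θ y t) = S12 C.B.hc (C.Θ (y - t) t) (C.Θ y t) :=
    (hasDerivAt_pOutC_left C.B.hc_diff (C.mid_m h)).deriv
  have e1 : deriv (fun y' => C.pm y' t) y = _ := h1.deriv
  have e2 : deriv (fun t' => C.pm y t') t = _ := h2.deriv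
  rw [e1, e2, h3]
  simp only [Bf, Sf, Tf, sub_add_cancel]
  ring

theorem pm_eq_p {y t : ℂ} (h : (y, t) ∈ C.W) : C.pm y t = C.p y t :=
  C.stat (C.W_stat h) (C.W_self h).2

/-- invariance of the area coefficient under the billiard map. -/
theorem Bf_inv {y t : ℂ} (h : (y, t) ∈ C.W) : C.Bf (y - t) t = C.Bf y t := by
  rw [← C.area_p h, ← C.area_pm h]
  have hW : C.W ∈ 𝓝 (y, t) := C.isOpen_W.mem_nhds h
  have e1 : (fun y' => C.pm y' t) =ᶠ[𝓝 y] fun y' => C.p y' t := by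
    have hc : ContinuousAt (fun y' : ℂ => (y', t)) y := by fun_prop
    filter_upwards [hc.preimage_mem_nhds hW] with y' hy'
    exact C.pm_eq_p hy'
  have e2 : (fun t' => C.pm y t') =ᶠ[𝓝 t] fun t' => C.p y t' := by
    have hc : ContinuousAt (fun t' : ℂ => (y, t')) t := by fun_prop
    filter_upwards [hc.preimage_mem_nhds hW] with t' ht'
    exact C.pm_eq_p ht'
  rw [e1.deriv_eq, e2.deriv_eq]

/-! ### periodicity -/

theorem dy_per {y t : ℂ} (hy : |y.im| < C.s) (ht : ‖t‖ < C.d) :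
    dy C.Θ (y + 2 * π) t = dy C.Θ y t := by
  have e : (fun x => C.Θ (x + 2 * π) t) =ᶠ[𝓝 y] fun x => C.Θ x t + 2 * π := by
    filter_upwards [(isOpen_hstrip C.s).mem_nhds (show y ∈ hstrip C.s from hy)] with x hx
    exact C.Θ_per hx ht
  calc dy C.Θ (y + 2 * π) t = deriv (fun x => C.Θ (x + 2 * π) t) y :=
        (deriv_comp_add_const (fun x => C.Θ x t) (2 * π) y).symm
    _ = deriv (fun x => C.Θ x t + 2 * π) y := e.deriv_eq
    _ = dy C.Θ y t := deriv_add_const _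

theorem dt_per {y t : ℂ} (hy : |y.im| < C.s) (ht : ‖t‖ < C.d) :
    dt C.Θ (y + 2 * π) t = dt C.Θ y t := by
  have e : (fun τ => C.Θ (y + 2 * π) τ) =ᶠ[𝓝 t] fun τ => C.Θ y τ + 2 * π := by
    filter_upwards [Metric.isOpen_ball.mem_nhds
      (show t ∈ Metric.ball (0 : ℂ) C.d from by simpa using ht)] with τ hτ
    exact C.Θ_per hy (by simpa using hτ)
  calc dt C.Θ (y + 2 * π) t = deriv (fun τ => C.Θ y τ + 2 * π) t := e.deriv_eq
    _ = dt C.Θ y t := deriv_add_const _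

theorem Bf_per {y t : ℂ} (h : (y, t) ∈ C.W) : C.Bf (y + 2 * π) t = C.Bf y t := by
  have hs := C.W_self h
  have ha := C.W_add h
  have e : y + 2 * π + t = y + t + 2 * π := by ring
  simp only [Bf, Sf, Tf, e]
  rw [C.Θ_per hs.1 hs.2, C.Θ_per ha.1 ha.2, C.dy_per hs.1 hs.2, C.dy_per ha.1 ha.2,
    C.dt_per hs.1 hs.2, C.dt_per ha.1 ha.2, S12_per C.B.hc_diff C.B.hc_per (C.mid_p h)]

/-! ### the Fourier argument -/

theorem diff_Bf_y {t : ℂ} (ht : ‖t‖ < C.ρ) :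
    DifferentiableOn ℂ (fun y => C.Bf y t) (hstrip (C.s / 2)) := fun _ hy =>
  (hol_slice_y C.isOpen_W C.hol_Bf (C.mem_W.2 ⟨hy, ht⟩)).differentiableWithinAt

theorem per_Bf_y {t : ℂ} (ht : ‖t‖ < C.ρ) :
    ∀ y ∈ hstrip (C.s / 2), C.Bf (y + 2 * π) t = C.Bf y t := fun _ hy =>
  C.Bf_per (C.mem_W.2 ⟨hy, ht⟩)

theorem fc_Bf_mul {t : ℂ} (ht : ‖t‖ < C.ρ) (n : ℤ) :
    (Complex.exp (n * t * Complex.I) - 1) * fc n (fun y => C.Bf y t) = 0 := by
  have him : |t.im| < C.s / 2 := by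
    have := C.im_lt ht
    have := C.s_pos
    linarith
  have h1 := fc_shift (C.diff_Bf_y ht) (C.per_Bf_y ht) him n
  have h2 : fc n (fun y => C.Bf (y + t) t) = fc n (fun y => C.Bf y t) := by
    refine fc_congr (fun x => ?_) n
    have hm : ((x : ℂ) + t, t) ∈ C.W := by
      refine C.mem_W.2 ⟨?_, ht⟩
      simpa using him
    have := C.Bf_inv hm
    rw [add_sub_cancel_right] at this
    exact this.symm
  rw [h2] at h1
  rw [sub_mul, one_mul, ← h1, sub_self]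

theorem fc_Bf_zero {n : ℤ} (hn : n ≠ 0) :
    ∀ t ∈ Metric.ball (0 : ℂ) C.ρ, fc n (fun y => C.Bf y t) = 0 := by
  refine s3i_zero_of_mul (c := fun t => fc n (fun y => C.Bf y t)) ?_ hn ?_
  · refine (fc_hol C.isOpen_W Metric.isOpen_ball C.hol_Bf (fun x t ht => ?_) n).continuousOn
    refine C.mem_W.2 ⟨?_, by simpa using ht⟩
    have := C.s_pos
    simpa using this
  · intro t ht
    exact C.fc_Bf_mul (by simpa using ht) n

theorem Bf_const {y t : ℂ} (hy : |y.im| < C.s / 4) (ht : ‖t‖ < C.ρ) : C.Bf y t = C.Bf 0 t := by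
  have hlt : C.s / 4 < C.s / 2 := by have := C.s_pos; linarith
  have hsub : hstrip (C.s / 4) ⊆ hstrip (C.s / 2) := fun z hz => lt_trans hz hlt
  obtain ⟨M, hM⟩ := s3i_bdd_of_per hlt (C.diff_Bf_y ht).continuousOn (C.per_Bf_y ht)
  have h := eq_mean_of_fc_eq_zero ((C.diff_Bf_y ht).mono hsub)
    (fun z hz => C.per_Bf_y ht z (hsub hz)) hM
    (fun n hn => C.fc_Bf_zero hn t (by simpa using ht))
  have h0 : (0 : ℂ) ∈ hstrip (C.s / 4) := by
    have := C.s_pos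
    rw [s3i_mem_hstrip]
    simpa using this
  rw [h y hy, h 0 h0]

/-! ### the derivative of the area coefficient at `0` -/

theorem zero_mem_W : ((0 : ℂ), (0 : ℂ)) ∈ C.W := by
  refine C.mem_W.2 ⟨?_, by simpa using C.ρ_pos⟩
  have := C.s_pos
  simpa using this

theorem deriv_Θ_zero {y : ℂ} (hy : |y.im| < C.s) : deriv (fun x => C.Θ x 0) y = deriv C.B.φ y := by
  have e : (fun x => C.Θ x 0) =ᶠ[𝓝 y] C.B.φ := by
    filter_upwards [(isOpen_hstrip C.s).mem_nhds (show y ∈ hstrip C.s from hy)] with x hx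
    exact C.sol.zero x hx
  exact e.deriv_eq

theorem hasDerivAt_Sf : HasDerivAt (fun t => C.Sf 0 t)
    (rad C.B.hc (C.B.φ 0) * deriv C.B.φ 0 / 4) 0 := by
  have hs := C.W_self C.zero_mem_W
  have ha := C.W_add C.zero_mem_W
  have h1 := C.hasDerivAt_Θ_t hs.1 hs.2
  have h2 := C.hasDerivAt_Θp_t ha.1 ha.2
  have hΘ0 : C.Θ 0 0 = C.B.φ 0 := C.sol.zero 0 hs.1
  have hdy : dy C.Θ 0 0 = deriv C.B.φ 0 := C.deriv_Θ_zero hs.1
  have hm := (h1.add h2).div_const 2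
  have hδ := (h2.sub h1).div_const 2
  have hφ : C.B.φ 0 ∈ hstrip C.B.σ := by
    have h3 : |(C.B.φ 0).im| < C.B.σ / 4 := C.B.φ_maps 0 (lt_of_lt_of_le hs.1 C.s_le)
    have := C.B.σ_pos
    rw [s3i_mem_hstrip]; linarith
  have hrad : DifferentiableAt ℂ (rad C.B.hc) ((C.Θ 0 0 + C.Θ (0 + 0) 0) / 2) := by
    rw [add_zero, hΘ0, ← two_mul, mul_div_cancel_left₀ _ (two_ne_zero)]
    exact (diff_rad C.B.hc_diff).differentiableAt ((isOpen_hstrip _).mem_nhds hφ)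
  have hR := hrad.hasDerivAt.comp (0 : ℂ) hm
  have hsin := hδ.csin
  have hprod := (hR.mul hsin).div_const 2
  refine hprod.congr_deriv ?_
  simp only [Function.comp, add_zero, sub_self, zero_div, Complex.sin_zero, Complex.cos_zero, hΘ0,
    hdy, Pi.add_apply, Pi.sub_apply]
  rw [← two_mul, mul_div_cancel_left₀ _ (two_ne_zero)]
  ring

theorem deriv_A : deriv (fun t => C.Bf 0 t) 0 = C.B.c / 4 := by
  have hs := C.W_self C.zero_mem_W
  have hT : DifferentiableAt ℂ (fun t => C.Tf 0 t) 0 := hol_slice_t C.isOpen_W C.hol_Tf C.zero_mem_W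
  have h := C.hasDerivAt_Sf.mul hT.hasDerivAt
  have hS0 : C.Sf 0 0 = 0 := by simp [Sf, S12]
  have hdy : dy C.Θ 0 0 = deriv C.B.φ 0 := C.deriv_Θ_zero hs.1
  have hT0 : C.Tf 0 0 = deriv C.B.φ 0 ^ 2 := by
    simp only [Tf, add_zero, hdy]; ring
  have hn := C.B.normal 0 (lt_of_lt_of_le hs.1 C.s_le)
  have e : deriv (fun t => C.Bf 0 t) 0 = _ := h.deriv
  rw [e, hS0, hT0, ← hn]
  ring

/-! ### assembly -/

/-- the parameter radius of the collar. -/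
noncomputable def r₁ : ℝ := C.ρ / 2

theorem r₁_pos : 0 < C.r₁ := half_pos C.ρ_pos

theorem r₁_lt_ρ : C.r₁ < C.ρ := half_lt_self C.ρ_pos

theorem mem_of {y t : ℂ} (hy : y ∈ hstrip (2 * (C.s / 8))) (ht : t ∈ Metric.ball (0 : ℂ) C.r₁) :
    |y.im| < C.s / 4 ∧ ‖t‖ < C.ρ := by
  rw [s3i_mem_hstrip] at hy
  rw [mem_ball_zero_iff] at ht
  exact ⟨by linarith, lt_trans ht C.r₁_lt_ρ⟩

theorem mem_W_of {y t : ℂ} (hy : y ∈ hstrip (2 * (C.s / 8))) (ht : t ∈ Metric.ball (0 : ℂ) C.r₁) :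
    (y, t) ∈ C.W := by
  have h := C.mem_of hy ht
  have := C.s_pos
  exact C.mem_W.2 ⟨by linarith [h.1], h.2⟩

theorem sub_W : hstrip (2 * (C.s / 8)) ×ˢ Metric.ball (0 : ℂ) C.r₁ ⊆ C.W := by
  rintro ⟨y, t⟩ ⟨hy, ht⟩
  exact C.mem_W_of hy ht

theorem p_per {y t : ℂ} (h : (y, t) ∈ C.W) : C.p (y + 2 * π) t = C.p y t := by
  have hs := C.W_self h
  have ha := C.W_add h
  have e : y + 2 * π + t = y + t + 2 * π := by ring
  simp only [p, e]
  rw [C.Θ_per hs.1 hs.2, C.Θ_per ha.1 ha.2, pInC_per C.B.hc_diff C.B.hc_per (C.mid_p h)]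

theorem p_even {y t : ℂ} (h : (y, t) ∈ C.W) : C.p y (-t) = C.p y t := by
  have hs := C.W_self h
  have hm := C.W_sub' h
  simp only [p]
  rw [← sub_eq_add_neg, C.Θ_even hs.1 hs.2, C.Θ_even hm.1 hm.2, ← pOutC_swap]
  exact C.stat (C.W_stat h) hs.2

theorem p_conj {y t : ℂ} (h : (y, t) ∈ C.W) : C.p (conj y) (conj t) = conj (C.p y t) := by
  have hs := C.W_self h
  have ha := C.W_add h
  simp only [p]
  rw [← map_add, C.Θ_conj hs.1 hs.2, C.Θ_conj ha.1 ha.2, pInC_conj C.B.hc_diff C.B.hc_conj (C.mid_p h)]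

theorem refl_out {y t : ℂ} (hy : |y.im| < C.s / 8) (ht : ‖t‖ < C.ρ) :
    C.p (y + t) t = pOutC C.B.hc (C.Θ y t) (C.Θ (y + t) t) := by
  have h1 := C.im_add_lt hy ht
  have h2 := C.im_lt ht
  have h3 := C.s_pos
  have h := C.stat (y := y + t) (t := t) (by linarith) (lt_of_lt_of_le ht C.ρ_le_d)
  rw [add_sub_cancel_right] at h
  exact h.symm

/-- the collar. -/
noncomputable def glance : Glance where
  hc := C.B.hc
  σ := C.B.σ
  σ_pos := C.B.σ_pos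
  hc_diff := C.B.hc_diff
  hc_per := C.B.hc_per
  hc_conj := C.B.hc_conj
  rad_pos := C.B.rad_pos
  c := C.B.c
  c_pos := C.B.c_pos
  s := C.s / 8
  r₁ := C.r₁
  r₁_pos := C.r₁_pos
  r₁_lt := lt_of_lt_of_le C.r₁_lt_ρ C.ρ_le_s
  Θ := C.Θ
  p := C.p
  Θ_diff := (C.sol.hol.mono C.W_sub).mono C.sub_W
  p_diff := C.hol_p.mono C.sub_W
  Θ_mem := fun y hy t ht => by
    have h := C.W_self (C.mem_W_of hy ht)
    have h1 : |(C.Θ y t).im| < 3 * C.B.σ / 8 := C.Θ_strip h.1 h.2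
    have := C.B.σ_pos
    rw [s3i_mem_hstrip]; linarith
  Θ_per := fun y hy t ht => by
    have h := C.W_self (C.mem_W_of hy ht)
    exact C.Θ_per h.1 h.2
  p_per := fun y hy t ht => C.p_per (C.mem_W_of hy ht)
  Θ_even := fun y hy t ht => by
    have h := C.W_self (C.mem_W_of hy ht)
    exact C.Θ_even h.1 h.2
  p_even := fun y hy t ht => C.p_even (C.mem_W_of hy ht)
  Θ_conj := fun y hy t ht => by
    have h := C.W_self (C.mem_W_of hy ht)
    exact C.Θ_conj h.1 h.2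
  p_conj := fun y hy t ht => C.p_conj (C.mem_W_of hy ht)
  refl_in := fun _ _ _ _ => rfl
  refl_out := fun y hy t ht => by
    rw [mem_ball_zero_iff] at ht
    exact C.refl_out hy (lt_trans ht C.r₁_lt_ρ)
  φ'_pos := fun x => by
    rw [C.deriv_Θ_zero (by simpa using C.s_pos)]
    exact C.B.φ'_pos x
  normalised := fun x => by
    have hx : |((x : ℂ)).im| < C.s := by simpa using C.s_pos
    rw [C.deriv_Θ_zero hx, C.sol.zero x hx]
    exact C.B.normal x (lt_of_lt_of_le hx C.s_le)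
  A := fun t => C.Bf 0 t
  A_diff := fun t ht => by
    rw [mem_ball_zero_iff] at ht
    refine (hol_slice_t C.isOpen_W C.hol_Bf (C.mem_W.2 ⟨?_, lt_trans ht C.r₁_lt_ρ⟩)).differentiableWithinAt
    have := C.s_pos
    simpa using this
  A_deriv := C.deriv_A
  area := fun y hy t ht => by
    have h := C.mem_of hy ht
    rw [← C.Bf_const h.1 h.2]
    exact C.area_p (C.mem_W_of hy ht)

end S3iCtx

/-- **Unit I.** -/
theorem collar_main : StCollar := fun B s d κ Θ hd hds hs hκ hsol =>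
  ⟨S3iCtx.glance ⟨B, s, d, κ, Θ, hd, hds, hs, hκ, hsol⟩, rfl⟩

end Claimed.Agent.R269.S3
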