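/-
Row 269, Section 3, UNIT K (package BP-S3-K): the SECOND COMPATIBILITY CONDITION, abstract form.   Statement + plan: helper228.
HOST-FREE: only S3/Defs.lean (dd, dy, dt, Hol, Bd, Per, Wd, mean, osum, rat), S3/Stmt.lean (StCompat), LibHol, LibFS.  No paper reading
(this argument is NOT in the paper; it replaces P1 l.330-435 and l.585-625).

NOTATION.  `t₀ = rat l q = 2π l/q > 0`;  `W_σ = Wd σ t₀ r = hstrip σ × ball t₀ r`;  on `W` we have `|t| ≥ t₀/2`, `|Im t| < r ≤ δ`.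
For `u : ℂ → ℂ`:  `Σu (y) = osum q t₀ u y = ∑_{j<q} u(y + j t₀)`.   `Σu` is `t₀`-periodic (`osum_shift`), since `q t₀ = 2π l`.
Unless said otherwise all functions are evaluated at `t = t₀`; all shifts are then REAL.   `X := P + q + 1/δ + 1/r`;  "`O(·)`" = `≤ C X^b ·`.
   `β(y,t) := a(y,t) (∂z(y,t) + 1/t)`   (holomorphic on `W_{s-δ}`),        `1/t₀ ≤ q`.

IDENTITIES (each a small lemma; `k` holomorphic on `W_σ`, periodic):
 (I0) telescoping:   `Σ(∂k) = 0`.                       [`∑_j (k(y+(j+1/2)t₀) - k(y+(j-1/2)t₀)) = k(y+(q-1/2)t₀) - k(y - t₀/2) = 0`]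
 (I3) `(Σk)'(y - t₀/2) = t₀ · ∑_{j<q} (∂k)_t (y + j t₀, t₀)`.
      Proof: differentiate `t · ∂k(y',t) = k(y' + t/2, t) - k(y' - t/2, t)` in `t` at `t₀` (`hol_chain`):
        `∂k(y',t₀) + t₀ (∂k)_t(y',t₀) = ½ [k_y(y'+t₀/2) + k_y(y'-t₀/2)] + k_t(y'+t₀/2) - k_t(y'-t₀/2)`;
      sum over `y' = y + j t₀`; use (I0) on the left, `t₀`-periodicity of `Σ(k_y)`, `Σ(k_t)` on the right.
 (I4) Abel:  `∑_{j<q} j · ∂k(y + j t₀) = (1/t₀) [ q k(y - t₀/2) - (Σk)(y - t₀/2) ]`.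
 (I5) cyclic summation by parts:  `∑_j z(y + j t₀) ∂h(y + j t₀) = - ∑_j (h ∂z)(y + (j + 1/2) t₀) = - Σ(h ∂z)(y + t₀/2)`.

STEP 1 (`β` is nearly constant).  By hypothesis (area identity) `ψ := ∂β = E_t + 3E/t - (E z)_y` on `W_{s-2δ}`.  Cauchy estimates
 (`bd_dt_Wd`, `bd_dy_Wd`): `|ψ| ≤ ε (2/r + 6q + P/δ) =: ε P₁` on `hstrip (s-3δ) × ball t₀ (r/2)`, hence `|ψ_t(y,t₀)| ≤ 2 ε P₁/r`.
 (I3) for `k = β`:  `|(Σβ)'| ≤ t₀ q · 2 ε P₁/r`.     (I4) for `k = β`:  `|β - Σβ/q| ≤ t₀ q ε P₁`.     `sub_mean_le` for `Σβ/q`, whose mean is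
 `β₀ := mean β(·,t₀)` (`mean_osum`).   Result: `|β - β₀| ≤ ε P₂` on `hstrip (s-3δ)`.
STEP 2 (size of `β₀`).  `t₀ β/a = 1 + t₀ ∂z`, `mean (∂z) = 0` (`fc_shift` with `n = 0`), so `t₀ mean(β/a) = 1`; `|1/a| ≤ 40/9`.  Hence
 `|t₀ β₀| (40/9) ≥ 1 - 5 ε P₂ ≥ 9/10`, so `|t₀ β₀| ≥ 1/5`, and `|t₀ β| ≥ 1/10` if `ε P₂ ≤ 1/10`.
 Consequently `|1/(t₀β) - 1/(t₀β₀)| ≤ 50 ε P₂`.
STEP 3 (the key identity).  (I3) for `k = h`, with `∂h = -E - ρ` near `t₀` (so `(∂h)_t = -E_t - ρ_t`), the area identity for `E_t`, (I0) for `β`: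
   `(Σh)'(y - t₀/2) = 3 ΣE(y) - t₀ (Σ(E z))'(y) - t₀ Σ(ρ_t)(y)`,
 and  `Σ(E z)(y) = -Σ(z ∂h)(y) - Σ(zρ)(y) = Σ(h ∂z)(y + t₀/2) - Σ(zρ)(y)`  by (I5).  Since `Σ(h∂z)` is `t₀`-periodic,
   `(Σ[h (1 + t₀ ∂z)])'(y - t₀/2) = 3 ΣE(y) + t₀ (Σ(zρ))'(y) - t₀ Σ(ρ_t)(y) = O(ε²)`.
 `sub_mean_le`:   `u := h (1 + t₀ ∂z) = h t₀ β / a`  satisfies  `|Σu - mean(Σu)| = O(ε²)` on `hstrip (s - 4δ)` (say).
STEP 4 (conclusion).  `h/a = u/(t₀β)`, `1/a = (1 + t₀∂z)/(t₀β)`, `Σ(∂z) = 0`: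
   `Σ[(h+λ)/a] = (Σu + λ q)/(t₀β₀) + Σ[(u + λ(1 + t₀∂z)) (1/(t₀β) - 1/(t₀β₀))] = K₀ + Err(y)`,
 `K₀ := (mean(Σu) + λ q)/(t₀β₀)` a constant, `|Err| = O(ε²)` (`|u| ≤ Pε (1 + 4P)`, `|λ| ≤ Pε`, `|1 + t₀∂z| ≤ 1 + 4P`, `|1/(t₀β₀)| ≤ 5`).
 The mean of the left side is `q · mean((h+λ)/a) = 0`, so `|K₀| = |mean Err| = O(ε²)`.   QED.
The losses of width: at most `5δ` are needed; the statement allows `10δ`.
-/
import Claimed.Agent.R269.S3.Stmt
import Claimed.Agent.R269.S3.LibFS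

set_option autoImplicit false

namespace Claimed.Agent.R269.S3

open Real Complex ComplexConjugate

/-! ### basic facts on `rat l q` and on real shifts -/

theorem ck_rat_pos {l q : ℕ} (hl : 0 < l) (hq : 0 < q) : 0 < rat l q := by
  unfold rat; positivity

theorem ck_q_mul_rat (l q : ℕ) (hq : 0 < q) : (q : ℂ) * ((rat l q : ℝ) : ℂ) = 2 * π * l := by
  have : (q : ℂ) ≠ 0 := by exact_mod_cast hq.ne'
  unfold rat; push_cast; field_simp

theorem ck_inv_rat_le {l q : ℕ} (hl : 0 < l) (hq : 0 < q) : (rat l q)⁻¹ ≤ q := by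
  have hq' : (0 : ℝ) < q := by exact_mod_cast hq
  have hl' : (1 : ℝ) ≤ l := by exact_mod_cast hl
  have h1 : (q : ℝ)⁻¹ ≤ rat l q := by
    unfold rat
    rw [inv_eq_one_div, div_le_div_iff_of_pos_right hq']
    have := Real.pi_gt_three
    nlinarith
  calc (rat l q)⁻¹ ≤ ((q : ℝ)⁻¹)⁻¹ := inv_anti₀ (by positivity) h1
    _ = q := inv_inv _

theorem ck_mem_add {σ : ℝ} {y : ℂ} (hy : y ∈ hstrip σ) {c : ℂ} (hc : c.im = 0) : y + c ∈ hstrip σ := by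
  unfold hstrip at *
  simp only [Set.mem_ofPred_eq, Complex.add_im, hc, add_zero] at *
  exact hy

theorem ck_mem_sub {σ : ℝ} {y : ℂ} (hy : y ∈ hstrip σ) {c : ℂ} (hc : c.im = 0) : y - c ∈ hstrip σ := by
  unfold hstrip at *
  simp only [Set.mem_ofPred_eq, Complex.sub_im, hc, sub_zero] at *
  exact hy

theorem ck_im_half (T : ℝ) : ((T : ℂ) / 2).im = 0 := by simp

theorem ck_im_mul (j : ℕ) (T : ℝ) : ((j : ℂ) * (T : ℂ)).im = 0 := by simp

theorem ck_hstrip_mono {σ σ' : ℝ} (h : σ ≤ σ') : hstrip σ ⊆ hstrip σ' := by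
  intro y hy
  unfold hstrip at *
  exact lt_of_lt_of_le hy h

/-- periodicity along a full orbit. -/
theorem ck_orbit_per {g : ℂ → ℂ} {σ : ℝ} (hp : ∀ y ∈ hstrip σ, g (y + 2 * π) = g y) (l q : ℕ) (hq : 0 < q)
    {y : ℂ} (hy : y ∈ hstrip σ) : g (y + q * ((rat l q : ℝ) : ℂ)) = g y := by
  rw [ck_q_mul_rat l q hq]; exact per_nat hp l y hy

/-! ### finite summations along the orbit -/

theorem ck_ds_orbit (g : ℂ → ℂ) (T y : ℂ) (j : ℕ) :
    ds T g (y + j * T) = (g (y - T / 2 + ((j + 1 : ℕ) : ℂ) * T) - g (y - T / 2 + j * T)) / T := by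
  unfold ds
  congr 2 <;> congr 1 <;> push_cast <;> ring

/-- (I0) telescoping. -/
theorem ck_osum_ds {g : ℂ → ℂ} {σ : ℝ} (hp : ∀ y ∈ hstrip σ, g (y + 2 * π) = g y) (l q : ℕ) (hq : 0 < q)
    {y : ℂ} (hy : y ∈ hstrip σ) : osum q (rat l q) (ds ((rat l q : ℝ) : ℂ) g) y = 0 := by
  unfold osum
  simp_rw [ck_ds_orbit]
  rw [← Finset.sum_div,
    Finset.sum_range_sub (fun j : ℕ => g (y - ((rat l q : ℝ) : ℂ) / 2 + (j : ℂ) * ((rat l q : ℝ) : ℂ)))]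
  rw [ck_orbit_per hp l q hq (ck_mem_sub hy (ck_im_half _))]
  simp

/-- Abel summation, abstract. -/
theorem ck_abel (K : ℕ → ℂ) (q : ℕ) :
    ∑ j ∈ Finset.range q, (j : ℂ) * (K (j + 1) - K j) = q * K q - ∑ j ∈ Finset.range q, K (j + 1) := by
  induction q with
  | zero => simp
  | succ n ih =>
    rw [Finset.sum_range_succ, Finset.sum_range_succ, ih]
    push_cast
    ring

/-- cyclic shift of a sum. -/
theorem ck_cyc (K : ℕ → ℂ) (q : ℕ) (h : K q = K 0) :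
    ∑ j ∈ Finset.range q, K (j + 1) = ∑ j ∈ Finset.range q, K j := by
  have h1 := Finset.sum_range_succ' K q
  have h2 := Finset.sum_range_succ K q
  rw [h1, h] at h2
  exact add_right_cancel h2

/-- (I4) Abel. -/
theorem ck_osum_abel {g : ℂ → ℂ} {σ : ℝ} (hp : ∀ y ∈ hstrip σ, g (y + 2 * π) = g y) (l q : ℕ) (hq : 0 < q)
    {y : ℂ} (hy : y ∈ hstrip σ) :
    ∑ j ∈ Finset.range q, (j : ℂ) * ds ((rat l q : ℝ) : ℂ) g (y + j * ((rat l q : ℝ) : ℂ))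
      = (q * g (y - ((rat l q : ℝ) : ℂ) / 2) - osum q (rat l q) g (y - ((rat l q : ℝ) : ℂ) / 2))
          / ((rat l q : ℝ) : ℂ) := by
  simp_rw [ck_ds_orbit, mul_div_assoc']
  rw [← Finset.sum_div,
    ck_abel (fun j : ℕ => g (y - ((rat l q : ℝ) : ℂ) / 2 + (j : ℂ) * ((rat l q : ℝ) : ℂ))) q]
  have hy' := ck_mem_sub hy (ck_im_half (rat l q))
  have h1 := ck_orbit_per hp l q hq hy'
  congr 1
  rw [h1]
  congr 1
  unfold osum
  exact ck_cyc (fun j : ℕ => g (y - ((rat l q : ℝ) : ℂ) / 2 + (j : ℂ) * ((rat l q : ℝ) : ℂ))) q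
    (by simpa using h1)

/-- (I5) cyclic summation by parts. -/
theorem ck_osum_parts {z h : ℂ → ℂ} {σ : ℝ} (hz : ∀ y ∈ hstrip σ, z (y + 2 * π) = z y)
    (hh : ∀ y ∈ hstrip σ, h (y + 2 * π) = h y) (l q : ℕ) (hq : 0 < q) {y : ℂ} (hy : y ∈ hstrip σ) :
    osum q (rat l q) (fun x => z x * ds ((rat l q : ℝ) : ℂ) h x) y
      = - osum q (rat l q) (fun x => h x * ds ((rat l q : ℝ) : ℂ) z x) (y + ((rat l q : ℝ) : ℂ) / 2) := by
  obtain ⟨T, hT⟩ : ∃ T : ℂ, T = ((rat l q : ℝ) : ℂ) := ⟨_, rfl⟩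
  have hy' := ck_mem_sub hy (ck_im_half (rat l q))
  have h1 := ck_orbit_per hh l q hq hy'
  have h2 := ck_orbit_per hz l q hq hy
  unfold osum
  rw [← hT] at *
  rw [eq_neg_iff_add_eq_zero, ← Finset.sum_add_distrib]
  have e : ∀ j : ℕ, z (y + j * T) * ds T h (y + j * T) + h (y + T / 2 + j * T) * ds T z (y + T / 2 + j * T)
      = ((fun i : ℕ => z (y + i * T) * h (y - T / 2 + i * T)) (j + 1)
          - (fun i : ℕ => z (y + i * T) * h (y - T / 2 + i * T)) j) / T := by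
    intro j
    unfold ds
    have e1 : y + j * T + T / 2 = y - T / 2 + ((j + 1 : ℕ) : ℂ) * T := by push_cast; ring
    have e2 : y + j * T - T / 2 = y - T / 2 + j * T := by ring
    have e3 : y + T / 2 + j * T = y - T / 2 + ((j + 1 : ℕ) : ℂ) * T := by push_cast; ring
    have e4 : y - T / 2 + ((j + 1 : ℕ) : ℂ) * T + T / 2 = y + ((j + 1 : ℕ) : ℂ) * T := by ring
    have e5 : y - T / 2 + ((j + 1 : ℕ) : ℂ) * T - T / 2 = y + j * T := by push_cast; ring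
    rw [e1, e2, e3, e4, e5]
    ring
  simp_rw [e]
  rw [← Finset.sum_div, Finset.sum_range_sub (fun i : ℕ => z (y + i * T) * h (y - T / 2 + i * T))]
  simp only [Nat.cast_zero, zero_mul, add_zero]
  rw [h1, h2]
  simp

/-! ### orbit sums of holomorphic functions -/

theorem ck_diffAt {g : ℂ → ℂ} {σ : ℝ} (hg : DifferentiableOn ℂ g (hstrip σ)) {y : ℂ} (hy : y ∈ hstrip σ) :
    DifferentiableAt ℂ g y :=
  (hg y hy).differentiableAt ((isOpen_hstrip σ).mem_nhds hy)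

/-- derivative of an orbit sum. -/
theorem ck_hasDerivAt_osum {g : ℂ → ℂ} {σ : ℝ} (hg : DifferentiableOn ℂ g (hstrip σ)) (q : ℕ) (T : ℝ) {y : ℂ}
    (hy : y ∈ hstrip σ) : HasDerivAt (osum q T g) (osum q T (deriv g) y) y := by
  have h : HasDerivAt (fun y => ∑ j ∈ Finset.range q, g (y + j * (T : ℂ)))
      (∑ j ∈ Finset.range q, deriv g (y + j * (T : ℂ))) y := by
    refine HasDerivAt.fun_sum fun j _ => ?_
    exact (ck_diffAt hg (ck_mem_add hy (ck_im_mul j T))).hasDerivAt.comp_add_const y _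
  exact h

theorem ck_deriv_osum {g : ℂ → ℂ} {σ : ℝ} (hg : DifferentiableOn ℂ g (hstrip σ)) (q : ℕ) (T : ℝ) {y : ℂ}
    (hy : y ∈ hstrip σ) : deriv (osum q T g) y = osum q T (deriv g) y :=
  (ck_hasDerivAt_osum hg q T hy).deriv

theorem ck_diff_osum {g : ℂ → ℂ} {σ : ℝ} (hg : DifferentiableOn ℂ g (hstrip σ)) (q : ℕ) (T : ℝ) :
    DifferentiableOn ℂ (osum q T g) (hstrip σ) :=
  fun _ hy => (ck_hasDerivAt_osum hg q T hy).differentiableAt.differentiableWithinAt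

theorem ck_per_osum {g : ℂ → ℂ} {σ : ℝ} (hp : ∀ y ∈ hstrip σ, g (y + 2 * π) = g y) (q : ℕ) (T : ℝ) :
    ∀ y ∈ hstrip σ, osum q T g (y + 2 * π) = osum q T g y := by
  intro y hy
  unfold osum
  refine Finset.sum_congr rfl fun j _ => ?_
  rw [← hp _ (ck_mem_add hy (ck_im_mul j T))]
  congr 1
  ring

theorem ck_norm_osum_le {g : ℂ → ℂ} {σ M : ℝ} (hb : ∀ y ∈ hstrip σ, ‖g y‖ ≤ M) (q : ℕ) (T : ℝ) :
    ∀ y ∈ hstrip σ, ‖osum q T g y‖ ≤ q * M := by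
  intro y hy
  unfold osum
  calc ‖∑ j ∈ Finset.range q, g (y + j * (T : ℂ))‖ ≤ ∑ j ∈ Finset.range q, ‖g (y + j * (T : ℂ))‖ :=
        norm_sum_le _ _
    _ ≤ ∑ _j ∈ Finset.range q, M := Finset.sum_le_sum fun j _ => hb _ (ck_mem_add hy (ck_im_mul j T))
    _ = q * M := by simp

/-- the derivative of a periodic function is periodic. -/
theorem ck_per_deriv {g : ℂ → ℂ} {σ : ℝ} (hp : ∀ y ∈ hstrip σ, g (y + 2 * π) = g y) :
    ∀ y ∈ hstrip σ, deriv g (y + 2 * π) = deriv g y := by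
  intro y hy
  have h1 : (fun x => g (x + 2 * π)) =ᶠ[nhds y] g := by
    filter_upwards [(isOpen_hstrip σ).mem_nhds hy] with x hx using hp x hx
  rw [← h1.deriv_eq, deriv_comp_add_const]

/-! ### membership in `Wd` -/

theorem ck_mem_Wd {σ T r : ℝ} (hr : 0 < r) {y : ℂ} (hy : y ∈ hstrip σ) : (y, (T : ℂ)) ∈ Wd σ T r :=
  ⟨hy, Metric.mem_ball_self hr⟩

theorem ck_Wd_mono {σ σ' T r r' : ℝ} (h : σ ≤ σ') (hr : r ≤ r') : Wd σ T r ⊆ Wd σ' T r' :=
  Set.prod_mono (ck_hstrip_mono h) (Metric.ball_subset_ball hr)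

theorem ck_slice_diff {k : ℂ → ℂ → ℂ} {σ T r : ℝ} (hr : 0 < r) (hk : Hol k (Wd σ T r)) :
    DifferentiableOn ℂ (fun x => k x T) (hstrip σ) :=
  fun _ hy => (hol_slice_y (isOpen_Wd σ T r) hk (ck_mem_Wd hr hy)).differentiableWithinAt

theorem ck_slice_per {k : ℂ → ℂ → ℂ} {σ T r : ℝ} (hr : 0 < r) (hp : Per k (Wd σ T r)) :
    ∀ y ∈ hstrip σ, (fun x => k x T) (y + 2 * π) = (fun x => k x T) y :=
  fun y hy => hp (y, (T : ℂ)) (ck_mem_Wd hr hy)

theorem ck_per_dt {k : ℂ → ℂ → ℂ} {σ T r : ℝ} (hr : 0 < r) (hp : Per k (Wd σ T r)) :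
    ∀ y ∈ hstrip σ, (fun x => dt k x T) (y + 2 * π) = (fun x => dt k x T) y := by
  intro y hy
  have h1 : (fun τ => k (y + 2 * π) τ) =ᶠ[nhds (T : ℂ)] fun τ => k y τ := by
    filter_upwards [Metric.ball_mem_nhds (T : ℂ) hr] with τ hτ using hp (y, τ) ⟨hy, hτ⟩
  exact h1.deriv_eq

/-- pointwise form of (I3). -/
theorem ck_I3_pt {k : ℂ → ℂ → ℂ} {σ T r : ℝ} (hT : T ≠ 0) (hr : 0 < r) (hk : Hol k (Wd σ T r)) {y : ℂ}
    (hy : y ∈ hstrip σ) :
    (T : ℂ) * dt (dd k) y T = (dy k (y + (T : ℂ) / 2) T + dy k (y - (T : ℂ) / 2) T) / 2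
      + (T : ℂ) * ds T (fun x => dt k x T) y - ds T (fun x => k x T) y := by
  have hT' : (T : ℂ) ≠ 0 := by exact_mod_cast hT
  have hΩ := isOpen_Wd σ T r
  have hp := ck_mem_Wd (T := T) hr (ck_mem_add hy (ck_im_half T))
  have hm := ck_mem_Wd (T := T) hr (ck_mem_sub hy (ck_im_half T))
  have g1 : HasDerivAt (fun t : ℂ => y + t / 2) (1 / 2) (T : ℂ) := by
    simpa using ((hasDerivAt_id (T : ℂ)).div_const 2).const_add y
  have g2 : HasDerivAt (fun t : ℂ => y - t / 2) (-(1 / 2)) (T : ℂ) := by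
    simpa using ((hasDerivAt_id (T : ℂ)).div_const 2).const_sub y
  have g3 : HasDerivAt (fun t : ℂ => t) 1 (T : ℂ) := hasDerivAt_id _
  have n1 := hol_chain hΩ hk g1 g3 hp
  have n2 := hol_chain hΩ hk g2 g3 hm
  have hq := (n1.sub n2).div g3 hT'
  have he : (fun t => dd k y t) =ᶠ[nhds (T : ℂ)] fun t => (k (y + t / 2) t - k (y - t / 2) t) / t := by
    filter_upwards [isOpen_ne.mem_nhds hT'] with t ht
    unfold dd ds
    rw [if_neg ht]
  have hd : dt (dd k) y T = _ := (hq.congr_of_eventuallyEq he).deriv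
  simp only [Pi.sub_apply] at hd
  rw [hd]
  unfold ds
  field_simp
  ring

/-! ### algebra of orbit sums -/

theorem ck_osum_add (q : ℕ) (T : ℝ) (g₁ g₂ : ℂ → ℂ) (y : ℂ) :
    osum q T (fun x => g₁ x + g₂ x) y = osum q T g₁ y + osum q T g₂ y := Finset.sum_add_distrib

theorem ck_osum_sub (q : ℕ) (T : ℝ) (g₁ g₂ : ℂ → ℂ) (y : ℂ) :
    osum q T (fun x => g₁ x - g₂ x) y = osum q T g₁ y - osum q T g₂ y := Finset.sum_sub_distrib _ _

theorem ck_osum_neg (q : ℕ) (T : ℝ) (g : ℂ → ℂ) (y : ℂ) :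
    osum q T (fun x => - g x) y = - osum q T g y := Finset.sum_neg_distrib _

theorem ck_osum_mul_left (q : ℕ) (T : ℝ) (c : ℂ) (g : ℂ → ℂ) (y : ℂ) :
    osum q T (fun x => c * g x) y = c * osum q T g y := (Finset.mul_sum _ _ _).symm

theorem ck_osum_div_right (q : ℕ) (T : ℝ) (c : ℂ) (g : ℂ → ℂ) (y : ℂ) :
    osum q T (fun x => g x / c) y = osum q T g y / c := (Finset.sum_div _ _ _).symm

theorem ck_osum_const (q : ℕ) (T : ℝ) (c : ℂ) (y : ℂ) : osum q T (fun _ => c) y = q * c := by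
  unfold osum; simp

theorem ck_osum_congr {σ : ℝ} {g₁ g₂ : ℂ → ℂ} (h : ∀ x ∈ hstrip σ, g₁ x = g₂ x) (q : ℕ) (T : ℝ) {y : ℂ}
    (hy : y ∈ hstrip σ) : osum q T g₁ y = osum q T g₂ y :=
  Finset.sum_congr rfl fun j _ => h _ (ck_mem_add hy (ck_im_mul j T))

theorem ck_osum_comp_add (q : ℕ) (T : ℝ) (g : ℂ → ℂ) (c y : ℂ) :
    osum q T (fun x => g (x + c)) y = osum q T g (y + c) :=
  Finset.sum_congr rfl fun j _ => by
    show g (y + j * (T : ℂ) + c) = g (y + c + j * (T : ℂ))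
    congr 1; ring

theorem ck_osum_comp_sub (q : ℕ) (T : ℝ) (g : ℂ → ℂ) (c y : ℂ) :
    osum q T (fun x => g (x - c)) y = osum q T g (y - c) :=
  Finset.sum_congr rfl fun j _ => by
    show g (y + j * (T : ℂ) - c) = g (y - c + j * (T : ℂ))
    congr 1; ring

/-- shift by half a step in both directions. -/
theorem ck_osum_half {g : ℂ → ℂ} {σ : ℝ} (hp : ∀ y ∈ hstrip σ, g (y + 2 * π) = g y) (l q : ℕ) (hq : 0 < q)
    {y : ℂ} (hy : y ∈ hstrip σ) :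
    osum q (rat l q) g (y + ((rat l q : ℝ) : ℂ) / 2) = osum q (rat l q) g (y - ((rat l q : ℝ) : ℂ) / 2) := by
  rw [← osum_shift hp l q hq _ (ck_mem_sub hy (ck_im_half (rat l q)))]
  congr 1
  ring

/-- (I3). -/
theorem ck_I3 {k : ℂ → ℂ → ℂ} {σ r : ℝ} {l q : ℕ} (hl : 0 < l) (hq : 0 < q) (hr : 0 < r)
    (hk : Hol k (Wd σ (rat l q) r)) (hp : Per k (Wd σ (rat l q) r)) {y : ℂ} (hy : y ∈ hstrip σ) :
    ((rat l q : ℝ) : ℂ) * osum q (rat l q) (fun x => dt (dd k) x (rat l q : ℝ)) y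
      = deriv (osum q (rat l q) (fun x => k x (rat l q : ℝ))) (y - ((rat l q : ℝ) : ℂ) / 2) := by
  have hT : rat l q ≠ 0 := (ck_rat_pos hl hq).ne'
  have hk0 := ck_slice_diff hr hk
  have hp0 := ck_slice_per hr hp
  have hpy := ck_per_deriv (g := fun x => k x (rat l q : ℝ)) hp0
  have hpt := ck_per_dt hr hp
  rw [ck_deriv_osum hk0 q _ (ck_mem_sub hy (ck_im_half _)), ← ck_osum_mul_left,
    ck_osum_congr (fun x hx => ck_I3_pt hT hr hk hx) q _ hy, ck_osum_sub, ck_osum_add, ck_osum_div_right,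
    ck_osum_add, ck_osum_mul_left, ck_osum_ds hpt l q hq hy, ck_osum_ds hp0 l q hq hy]
  have e1 : osum q (rat l q) (fun x => dy k (x + ((rat l q : ℝ) : ℂ) / 2) (rat l q : ℝ)) y
      = osum q (rat l q) (deriv fun x => k x (rat l q : ℝ)) (y - ((rat l q : ℝ) : ℂ) / 2) := by
    rw [← ck_osum_half hpy l q hq hy]
    exact ck_osum_comp_add q _ (deriv fun x => k x (rat l q : ℝ)) _ y
  have e2 : osum q (rat l q) (fun x => dy k (x - ((rat l q : ℝ) : ℂ) / 2) (rat l q : ℝ)) y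
      = osum q (rat l q) (deriv fun x => k x (rat l q : ℝ)) (y - ((rat l q : ℝ) : ℂ) / 2) :=
    ck_osum_comp_sub q _ (deriv fun x => k x (rat l q : ℝ)) _ y
  rw [e1, e2]
  ring

/-- `β = a (∂z + 1/t)`. -/
noncomputable def ckB (a z : ℂ → ℂ → ℂ) (y t : ℂ) : ℂ := a y t * (dd z y t + 1 / t)

/-- the hypotheses of `StCompat`. -/
structure CkHyp (s δ r ε P : ℝ) (l q : ℕ) (Ef h ρ a z : ℂ → ℂ → ℂ) (lam : ℂ) : Prop where
  δ_pos : 0 < δ
  δ_lt : 10 * δ < s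
  s_le : s ≤ 1
  l_pos : 0 < l
  q_pos : 0 < q
  T_le : rat l q ≤ 1
  r_pos : 0 < r
  r_le : r ≤ δ
  r_le_T : 2 * r ≤ rat l q
  P_ge : 1 ≤ P
  ε_nn : 0 ≤ ε
  holE : Hol Ef (Wd s (rat l q) r)
  holh : Hol h (Wd s (rat l q) r)
  holρ : Hol ρ (Wd s (rat l q) r)
  hola : Hol a (Wd s (rat l q) r)
  holz : Hol z (Wd s (rat l q) r)
  perE : Per Ef (Wd s (rat l q) r)
  perh : Per h (Wd s (rat l q) r)
  perρ : Per ρ (Wd s (rat l q) r)
  pera : Per a (Wd s (rat l q) r)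
  perz : Per z (Wd s (rat l q) r)
  bdE : Bd Ef (Wd s (rat l q) r) ε
  bdh : Bd h (Wd s (rat l q) r) (P * ε)
  bdρ : Bd ρ (Wd s (rat l q) r) (P * ε ^ 2)
  bdz : Bd z (Wd s (rat l q) r) P
  a_close : ∀ w ∈ Wd s (rat l q) r, ‖4 * a w.1 w.2 - 1‖ ≤ 1 / 10
  eq_h : ∀ w ∈ Wd (s - δ) (rat l q) r, dd h w.1 w.2 = -Ef w.1 w.2 - ρ w.1 w.2
  area : ∀ w ∈ Wd (s - 2 * δ) (rat l q) r,
    dt Ef w.1 w.2 = -3 * Ef w.1 w.2 / w.2 + dy (fun y t => Ef y t * z y t) w.1 w.2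
      + dd (ckB a z) w.1 w.2
  sumE : ∀ y ∈ hstrip s, ‖osum q (rat l q) (fun x => Ef x (rat l q : ℝ)) y‖ ≤ P * ε ^ 2
  lam_le : ‖lam‖ ≤ P * ε
  mean0 : mean (fun x => (h x (rat l q : ℝ) + lam) / a x (rat l q : ℝ)) = 0

/-- parameters near `T`. -/
theorem ck_ball {T r : ℝ} (hr : 2 * r ≤ T) {t : ℂ} (ht : t ∈ Metric.ball (T : ℂ) r) :
    t ≠ 0 ∧ T / 2 ≤ ‖t‖ ∧ |t.im| < r := by
  rw [Metric.mem_ball, dist_eq_norm] at ht
  have hr0 : 0 < r := lt_of_le_of_lt (norm_nonneg _) ht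
  have h1 : ‖(T : ℂ)‖ ≤ ‖t‖ + ‖t - T‖ := by
    have := norm_sub_le t (t - T)
    simpa using this
  have h2 : ‖(T : ℂ)‖ = T := by
    rw [Complex.norm_real, Real.norm_of_nonneg (by linarith)]
  have h3 : T / 2 ≤ ‖t‖ := by rw [h2] at h1; linarith
  refine ⟨?_, h3, ?_⟩
  · intro h0
    rw [h0, norm_zero] at h3
    linarith
  · have h4 : |(t - T).im| ≤ ‖t - T‖ := Complex.abs_im_le_norm _
    simp only [Complex.sub_im, Complex.ofReal_im, sub_zero] at h4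
    linarith

/-- half steps stay in the larger domain. -/
theorem ck_Wd_shift {σ δ T r : ℝ} (hr : 2 * r ≤ T) (hδ : r ≤ 2 * δ) {w : ℂ × ℂ} (hw : w ∈ Wd (σ - δ) T r) :
    (w.1 + w.2 / 2, w.2) ∈ Wd σ T r ∧ (w.1 - w.2 / 2, w.2) ∈ Wd σ T r := by
  obtain ⟨h1, h2⟩ := hw
  obtain ⟨-, -, h3⟩ := ck_ball hr h2
  have h4 : |w.1.im| < σ - δ := h1
  have h5 : (w.2 / 2).im = w.2.im / 2 := by simp
  refine ⟨⟨?_, h2⟩, ⟨?_, h2⟩⟩
  · show |(w.1 + w.2 / 2).im| < σ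
    rw [Complex.add_im, h5]
    have := abs_add_le w.1.im (w.2.im / 2)
    rw [abs_div, abs_two] at this
    linarith
  · show |(w.1 - w.2 / 2).im| < σ
    rw [Complex.sub_im, h5]
    have := abs_sub w.1.im (w.2.im / 2)
    rw [abs_div, abs_two] at this
    linarith

theorem ck_dd_eq {v : ℂ → ℂ → ℂ} {y t : ℂ} (ht : t ≠ 0) : dd v y t = (v (y + t / 2) t - v (y - t / 2) t) / t := by
  unfold dd ds
  rw [if_neg ht]

theorem ck_dd_T {v : ℂ → ℂ → ℂ} {T : ℝ} (hT : T ≠ 0) (y : ℂ) : dd v y T = ds T (fun x => v x T) y := by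
  have hT' : (T : ℂ) ≠ 0 := by exact_mod_cast hT
  unfold dd
  rw [if_neg hT']

/-- `∂` of a periodic function is periodic. -/
theorem ck_per_dd {v : ℂ → ℂ → ℂ} {σ δ T r : ℝ} (hr : 2 * r ≤ T) (hδ : r ≤ 2 * δ) (hp : Per v (Wd σ T r)) :
    Per (dd v) (Wd (σ - δ) T r) := by
  intro w hw
  obtain ⟨h1, h2⟩ := ck_Wd_shift hr hδ hw
  obtain ⟨ht, -, -⟩ := ck_ball hr hw.2
  rw [ck_dd_eq ht, ck_dd_eq ht]
  have e1 := hp _ h1
  have e2 := hp _ h2
  simp only at e1 e2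
  rw [← e1, ← e2]
  congr 2 <;> congr 1 <;> ring

/-- the constant of the bound of `ψ = ∂β`. -/
noncomputable def ckP1 (r δ P : ℝ) (q : ℕ) : ℝ := 2 / r + 6 * q + P / δ

/-- the constant of the bound of `β - β₀`. -/
noncomputable def ckP2 (r δ P : ℝ) (q : ℕ) : ℝ := ckP1 r δ P q * (q + 16 / r)

/-- `v = 1 + t₀ ∂z` at `t = t₀`. -/
noncomputable def ckV (z : ℂ → ℂ → ℂ) (T : ℝ) (y : ℂ) : ℂ := 1 + (T : ℂ) * ds T (fun x => z x T) y

theorem ck_real_mem {σ : ℝ} (hσ : 0 < σ) (x : ℝ) : (x : ℂ) ∈ hstrip σ := by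
  show |(x : ℂ).im| < σ
  simpa using hσ

theorem ck_cont_real {g : ℂ → ℂ} {σ : ℝ} (hσ : 0 < σ) (hg : DifferentiableOn ℂ g (hstrip σ)) {c : ℂ}
    (hc : c.im = 0) : Continuous fun x : ℝ => g (x + c) :=
  hg.continuousOn.comp_continuous (by fun_prop) fun x => ck_mem_add (ck_real_mem hσ x) hc

theorem ck_cont_real0 {g : ℂ → ℂ} {σ : ℝ} (hσ : 0 < σ) (hg : DifferentiableOn ℂ g (hstrip σ)) :
    Continuous fun x : ℝ => g x :=
  hg.continuousOn.comp_continuous (by fun_prop) fun x => ck_real_mem hσ x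

theorem ck_mean_shift {g : ℂ → ℂ} {σ : ℝ} (hσ : 0 < σ) (hg : DifferentiableOn ℂ g (hstrip σ))
    (hp : ∀ y ∈ hstrip σ, g (y + 2 * π) = g y) {c : ℂ} (hc : c.im = 0) :
    mean (fun y => g (y + c)) = mean g := by
  unfold mean
  rw [fc_shift hg hp (by rw [hc]; simpa using hσ)]
  simp

namespace CkHyp

variable {s δ r ε P : ℝ} {l q : ℕ} {Ef h ρ a z : ℂ → ℂ → ℂ} {lam : ℂ}

section
variable (H : CkHyp s δ r ε P l q Ef h ρ a z lam)
include H

theorem T_pos : 0 < rat l q := ck_rat_pos H.l_pos H.q_pos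

theorem T_ne : rat l q ≠ 0 := H.T_pos.ne'

theorem T_ne' : ((rat l q : ℝ) : ℂ) ≠ 0 := by exact_mod_cast H.T_ne

theorem q_ge : (1 : ℝ) ≤ q := by exact_mod_cast H.q_pos

theorem holB : Hol (ckB a z) (Wd (s - δ) (rat l q) r) := by
  have h1 : Hol (dd z) (Wd (s - δ) (rat l q) r) :=
    hol_dd_Wd (by rw [abs_of_pos H.T_pos]; linarith [H.r_le_T, H.r_pos]) (by linarith [H.r_le, H.δ_pos]) H.holz
  have h2 : DifferentiableOn ℂ (fun w : ℂ × ℂ => 1 / w.2) (Wd (s - δ) (rat l q) r) := by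
    simp only [one_div]
    refine DifferentiableOn.inv differentiableOn_snd ?_
    intro w hw
    exact (ck_ball H.r_le_T hw.2).1
  exact (H.hola.mono (ck_Wd_mono (by linarith [H.δ_pos]) le_rfl)).mul (h1.add h2)

theorem perB : Per (ckB a z) (Wd (s - δ) (rat l q) r) := by
  intro w hw
  have h1 := ck_per_dd H.r_le_T (by linarith [H.r_le, H.δ_pos]) H.perz w hw
  have h2 := H.pera w (ck_Wd_mono (by linarith [H.δ_pos]) le_rfl hw)
  unfold ckB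
  rw [h1, h2]

theorem holψ : Hol (dd (ckB a z)) (Wd (s - 2 * δ) (rat l q) r) := by
  have h1 : Hol (dd (ckB a z)) (Wd (s - δ - δ) (rat l q) r) :=
    hol_dd_Wd (by rw [abs_of_pos H.T_pos]; linarith [H.r_le_T, H.r_pos]) (by linarith [H.r_le, H.δ_pos]) H.holB
  have e : s - δ - δ = s - 2 * δ := by ring
  rwa [e] at h1

theorem P1_nn : 0 ≤ ckP1 r δ P q := by
  have := H.r_pos; have := H.δ_pos; have := H.P_ge
  unfold ckP1; positivity

theorem bdψ : Bd (dd (ckB a z)) (Wd (s - 2 * δ) (rat l q) (r / 2)) (ε * ckP1 r δ P q) := by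
  intro w hw
  have hδ := H.δ_pos
  have hr := H.r_pos
  have hw1 : w ∈ Wd (s - 2 * δ) (rat l q) r := ck_Wd_mono le_rfl (by linarith) hw
  have hw2 : w ∈ Wd s (rat l q) (r / 2) := ck_Wd_mono (by linarith) le_rfl hw
  have hw3 : w ∈ Wd (s - δ) (rat l q) r := ck_Wd_mono (by linarith) (by linarith) hw
  have hw4 : w ∈ Wd s (rat l q) r := ck_Wd_mono (by linarith) (by linarith) hw
  obtain ⟨ht0, ht1, -⟩ := ck_ball H.r_le_T hw1.2
  have e : dd (ckB a z) w.1 w.2 = dt Ef w.1 w.2 + 3 * Ef w.1 w.2 / w.2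
      - dy (fun y t => Ef y t * z y t) w.1 w.2 := by
    rw [H.area w hw1]; ring
  have n1 : ‖dt Ef w.1 w.2‖ ≤ 2 * ε / r := bd_dt_Wd hr H.holE H.bdE w hw2
  have holEz : Hol (fun y t => Ef y t * z y t) (Wd s (rat l q) r) := H.holE.mul H.holz
  have bdEz : Bd (fun y t => Ef y t * z y t) (Wd s (rat l q) r) (ε * P) := by
    intro w hw
    rw [norm_mul]
    exact mul_le_mul (H.bdE w hw) (H.bdz w hw) (norm_nonneg _) H.ε_nn
  have n3 : ‖dy (fun y t => Ef y t * z y t) w.1 w.2‖ ≤ ε * P / δ := bd_dy_Wd hδ holEz bdEz w hw3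
  have n2 : ‖3 * Ef w.1 w.2 / w.2‖ ≤ 6 * q * ε := by
    rw [norm_div, norm_mul, div_le_iff₀ (norm_pos_iff.2 ht0)]
    have h1 : ‖Ef w.1 w.2‖ ≤ ε := H.bdE w hw4
    have h2 : (1 : ℝ) ≤ q * rat l q := by
      have := ck_inv_rat_le H.l_pos H.q_pos
      rw [inv_le_iff_one_le_mul₀ H.T_pos] at this
      exact this
    have h3 : ‖(3 : ℂ)‖ = 3 := by simp
    rw [h3]
    have h4 : ε ≤ ε * (q * rat l q) := le_mul_of_one_le_right H.ε_nn h2
    have h5 : 6 * (q : ℝ) * ε * (rat l q / 2) ≤ 6 * q * ε * ‖w.2‖ :=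
      mul_le_mul_of_nonneg_left ht1 (by have := H.ε_nn; positivity)
    nlinarith
  rw [e]
  calc _ ≤ ‖dt Ef w.1 w.2 + 3 * Ef w.1 w.2 / w.2‖ + ‖dy (fun y t => Ef y t * z y t) w.1 w.2‖ :=
        norm_sub_le _ _
    _ ≤ ‖dt Ef w.1 w.2‖ + ‖3 * Ef w.1 w.2 / w.2‖ + ‖dy (fun y t => Ef y t * z y t) w.1 w.2‖ :=
        add_le_add_left (norm_add_le _ _) _
    _ ≤ 2 * ε / r + 6 * q * ε + ε * P / δ := add_le_add (add_le_add n1 n2) n3
    _ = ε * ckP1 r δ P q := by unfold ckP1; ring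

theorem bdψT : ∀ y ∈ hstrip (s - 2 * δ), ‖ds ((rat l q : ℝ) : ℂ) (fun x => ckB a z x (rat l q : ℝ)) y‖
    ≤ ε * ckP1 r δ P q := by
  intro y hy
  rw [← ck_dd_T H.T_ne]
  exact H.bdψ (y, _) (ck_mem_Wd (by linarith [H.r_pos]) hy)

theorem bd_dtψ : ∀ y ∈ hstrip (s - 2 * δ), ‖dt (dd (ckB a z)) y (rat l q : ℝ)‖
    ≤ ε * ckP1 r δ P q / (r / 2) := by
  intro y hy
  have hr := H.r_pos
  refine ball_deriv_le (g := fun t => dd (ckB a z) y t) (by linarith) ?_ ?_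
  · intro t ht
    exact (hol_slice_t (isOpen_Wd _ _ _) H.holψ
      (⟨hy, Metric.ball_subset_ball (by linarith) ht⟩ : (y, t) ∈ Wd (s - 2 * δ) (rat l q) r)).differentiableWithinAt
  · intro t ht
    exact H.bdψ (y, t) ⟨hy, ht⟩

theorem bd_deriv_SB : ∀ y ∈ hstrip (s - 2 * δ),
    ‖deriv (osum q (rat l q) (fun x => ckB a z x (rat l q : ℝ))) y‖
      ≤ rat l q * (q * (ε * ckP1 r δ P q / (r / 2))) := by
  intro y hy
  have hy1 : y + ((rat l q : ℝ) : ℂ) / 2 ∈ hstrip (s - 2 * δ) := ck_mem_add hy (ck_im_half _)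
  have hy2 : y + ((rat l q : ℝ) : ℂ) / 2 ∈ hstrip (s - δ) := ck_hstrip_mono (by linarith [H.δ_pos]) hy1
  have h1 := ck_I3 H.l_pos H.q_pos H.r_pos H.holB H.perB hy2
  rw [add_sub_cancel_right] at h1
  rw [← h1, norm_mul, Complex.norm_real, Real.norm_of_nonneg H.T_pos.le]
  exact mul_le_mul_of_nonneg_left (ck_norm_osum_le H.bd_dtψ q _ _ hy1) H.T_pos.le

theorem bd_abel : ∀ y ∈ hstrip (s - 2 * δ),
    ‖q * ckB a z y (rat l q : ℝ) - osum q (rat l q) (fun x => ckB a z x (rat l q : ℝ)) y‖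
      ≤ rat l q * (q * (q * (ε * ckP1 r δ P q))) := by
  intro y hy
  have hy1 : y + ((rat l q : ℝ) : ℂ) / 2 ∈ hstrip (s - 2 * δ) := ck_mem_add hy (ck_im_half _)
  have hy2 : y + ((rat l q : ℝ) : ℂ) / 2 ∈ hstrip (s - δ) := ck_hstrip_mono (by linarith [H.δ_pos]) hy1
  have h1 := ck_osum_abel (g := fun x => ckB a z x (rat l q : ℝ)) (ck_slice_per H.r_pos H.perB) l q H.q_pos hy2
  rw [add_sub_cancel_right, eq_div_iff H.T_ne'] at h1
  rw [← h1, norm_mul, Complex.norm_real, Real.norm_of_nonneg H.T_pos.le, mul_comm]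
  refine mul_le_mul_of_nonneg_left ?_ H.T_pos.le
  have hb : 0 ≤ ε * ckP1 r δ P q := mul_nonneg H.ε_nn H.P1_nn
  calc _ ≤ ∑ j ∈ Finset.range q, ‖(j : ℂ) * ds ((rat l q : ℝ) : ℂ) (fun x => ckB a z x (rat l q : ℝ))
          (y + ((rat l q : ℝ) : ℂ) / 2 + j * ((rat l q : ℝ) : ℂ))‖ := norm_sum_le _ _
    _ ≤ ∑ _j ∈ Finset.range q, (q : ℝ) * (ε * ckP1 r δ P q) := by
        refine Finset.sum_le_sum fun j hj => ?_
        rw [norm_mul, Complex.norm_natCast]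
        refine mul_le_mul ?_ (H.bdψT _ (ck_mem_add hy1 (ck_im_mul j _))) (norm_nonneg _) (Nat.cast_nonneg _)
        exact_mod_cast (Finset.mem_range.1 hj).le
    _ = q * (q * (ε * ckP1 r δ P q)) := by simp

/-- **Step 1.** `β` is nearly constant. -/
theorem step1 : ∀ y ∈ hstrip (s - 2 * δ),
    ‖ckB a z y (rat l q : ℝ) - mean (fun x => ckB a z x (rat l q : ℝ))‖ ≤ ε * ckP2 r δ P q := by
  intro y hy
  have hδ := H.δ_pos
  have hσ : 0 < s - 2 * δ := by linarith [H.δ_lt]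
  have hσ' : 0 < s - δ := by linarith [H.δ_lt]
  have hB0 := ck_slice_diff H.r_pos H.holB
  have hBp := ck_slice_per H.r_pos H.perB
  have hmono : hstrip (s - 2 * δ) ⊆ hstrip (s - δ) := ck_hstrip_mono (by linarith)
  have h1 := sub_mean_le hσ (by linarith [H.s_le]) ((ck_diff_osum hB0 q (rat l q)).mono hmono)
    (fun y hy => ck_per_osum (g := fun x => ckB a z x (rat l q : ℝ)) hBp q (rat l q) y (hmono hy))
    H.bd_deriv_SB y hy
  rw [mean_osum hσ' hB0 hBp] at h1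
  have h2 := H.bd_abel y hy
  have hq := H.q_ge
  have hq0 : (0 : ℝ) < q := by linarith
  have h3 : (q : ℝ) * ‖ckB a z y (rat l q : ℝ) - mean (fun x => ckB a z x (rat l q : ℝ))‖
      ≤ q * (ε * ckP2 r δ P q) := by
    have e : (q : ℝ) * ‖ckB a z y (rat l q : ℝ) - mean (fun x => ckB a z x (rat l q : ℝ))‖
        = ‖(q * ckB a z y (rat l q : ℝ) - osum q (rat l q) (fun x => ckB a z x (rat l q : ℝ)) y)
          + (osum q (rat l q) (fun x => ckB a z x (rat l q : ℝ)) y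
            - q * mean (fun x => ckB a z x (rat l q : ℝ)))‖ := by
      rw [sub_add_sub_cancel, ← mul_sub, norm_mul, Complex.norm_natCast]
    rw [e]
    refine (norm_add_le _ _).trans ((add_le_add h2 h1).trans ?_)
    have hb : 0 ≤ ε * ckP1 r δ P q := mul_nonneg H.ε_nn H.P1_nn
    have hr := H.r_pos
    have e2 : rat l q * (q * (q * (ε * ckP1 r δ P q))) + 8 * (rat l q * (q * (ε * ckP1 r δ P q / (r / 2))))
        = rat l q * (q * (ε * ckP2 r δ P q)) := by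
      unfold ckP2; field_simp; ring
    rw [e2]
    have hb2 : 0 ≤ (q : ℝ) * (ε * ckP2 r δ P q) := by
      have h5 := H.ε_nn
      have h6 := H.P1_nn
      unfold ckP2; positivity
    calc rat l q * (q * (ε * ckP2 r δ P q)) ≤ 1 * (q * (ε * ckP2 r δ P q)) :=
          mul_le_mul_of_nonneg_right H.T_le hb2
      _ = _ := one_mul _
  exact le_of_mul_le_mul_left h3 hq0

theorem s_pos : 0 < s := by linarith [H.δ_lt, H.δ_pos]

theorem TB_eq (y : ℂ) : ((rat l q : ℝ) : ℂ) * ckB a z y (rat l q : ℝ) = a y (rat l q : ℝ) * ckV z (rat l q) y := by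
  have hT := H.T_ne'
  unfold ckB ckV
  rw [ck_dd_T H.T_ne]
  field_simp
  ring

theorem V_eq (y : ℂ) : ckV z (rat l q) y
    = 1 + (z (y + ((rat l q : ℝ) : ℂ) / 2) (rat l q : ℝ) - z (y - ((rat l q : ℝ) : ℂ) / 2) (rat l q : ℝ)) := by
  have hT := H.T_ne'
  unfold ckV ds
  field_simp

theorem mean_V : mean (ckV z (rat l q)) = 1 := by
  have hz0 := ck_slice_diff H.r_pos H.holz
  have hzp := ck_slice_per H.r_pos H.perz
  have hs := H.s_pos
  have i1 : (((rat l q : ℝ) : ℂ) / 2).im = 0 := ck_im_half _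
  have i2 : (-(((rat l q : ℝ) : ℂ) / 2)).im = 0 := by simp
  have c1 := ck_cont_real hs hz0 i1
  have c2 := ck_cont_real hs hz0 i2
  obtain ⟨A, hA⟩ : ∃ A : ℂ → ℂ, A = fun y => z (y + ((rat l q : ℝ) : ℂ) / 2) (rat l q : ℝ) := ⟨_, rfl⟩
  obtain ⟨B, hB⟩ : ∃ B : ℂ → ℂ, B = fun y => z (y + -(((rat l q : ℝ) : ℂ) / 2)) (rat l q : ℝ) := ⟨_, rfl⟩
  have c1' : Continuous fun x : ℝ => A x := by rw [hA]; exact c1
  have c2' : Continuous fun x : ℝ => B x := by rw [hB]; exact c2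
  have e : mean (ckV z (rat l q)) = mean (fun y => (1 : ℂ) + (A y + -1 * B y)) := by
    refine fc_congr (fun x => ?_) 0
    rw [H.V_eq, hA, hB]
    ring_nf
  have s1 : fc 0 (fun y => (1 : ℂ) + (A y + -1 * B y)) = fc 0 (fun _ => (1 : ℂ)) + fc 0 (fun y => A y + -1 * B y) :=
    fc_add (g₁ := fun _ => 1) (g₂ := fun y => A y + -1 * B y) continuous_const
      (c1'.add (continuous_const.mul c2')) 0
  have s2 : fc 0 (fun y => A y + -1 * B y) = fc 0 A + fc 0 (fun y => -1 * B y) :=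
    fc_add (g₁ := A) (g₂ := fun y => -1 * B y) c1' (continuous_const.mul c2') 0
  have s3 : fc 0 (fun y => -1 * B y) = -1 * fc 0 B := fc_const_mul (-1) B 0
  have m1 : mean A = mean (fun x => z x (rat l q : ℝ)) := by
    rw [hA]; exact ck_mean_shift (g := fun x => z x (rat l q : ℝ)) hs hz0 hzp i1
  have m2 : mean B = mean (fun x => z x (rat l q : ℝ)) := by
    rw [hB]; exact ck_mean_shift (g := fun x => z x (rat l q : ℝ)) hs hz0 hzp i2
  have m3 := mean_const 1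
  rw [e]
  unfold mean at *
  rw [s1, s2, s3, m1, m2, m3]
  ring

theorem a_ge : ∀ y ∈ hstrip s, 9 / 40 ≤ ‖a y (rat l q : ℝ)‖ := by
  intro y hy
  have h1 := H.a_close (y, _) (ck_mem_Wd H.r_pos hy)
  simp only at h1
  have h2 : ‖(1 : ℂ)‖ ≤ ‖4 * a y (rat l q : ℝ)‖ + ‖4 * a y (rat l q : ℝ) - 1‖ := by
    have := norm_sub_le (4 * a y (rat l q : ℝ)) (4 * a y (rat l q : ℝ) - 1)
    simpa using this
  rw [norm_one, norm_mul] at h2
  have h3 : ‖(4 : ℂ)‖ = 4 := by simp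
  rw [h3] at h2
  linarith

theorem a_ne : ∀ y ∈ hstrip s, a y (rat l q : ℝ) ≠ 0 := by
  intro y hy h0
  have := H.a_ge y hy
  rw [h0, norm_zero] at this
  linarith

/-- `|t₀ β - t₀ β₀| ≤ ε P₂`. -/
theorem TB_sub : ∀ y ∈ hstrip (s - 2 * δ),
    ‖((rat l q : ℝ) : ℂ) * ckB a z y (rat l q : ℝ)
      - ((rat l q : ℝ) : ℂ) * mean (fun x => ckB a z x (rat l q : ℝ))‖ ≤ ε * ckP2 r δ P q := by
  intro y hy
  rw [← mul_sub, norm_mul, Complex.norm_real, Real.norm_of_nonneg H.T_pos.le]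
  calc _ ≤ 1 * ‖ckB a z y (rat l q : ℝ) - mean (fun x => ckB a z x (rat l q : ℝ))‖ :=
        mul_le_mul_of_nonneg_right H.T_le (norm_nonneg _)
    _ ≤ _ := by rw [one_mul]; exact H.step1 y hy

/-- **Step 2.** size of `β₀`. -/
theorem step2 (hsm : ε * ckP2 r δ P q ≤ 1 / 50) :
    1 / 5 ≤ ‖((rat l q : ℝ) : ℂ) * mean (fun x => ckB a z x (rat l q : ℝ))‖ := by
  by_contra hlt
  rw [not_le] at hlt
  have hσ : 0 < s - 2 * δ := by linarith [H.δ_lt, H.δ_pos]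
  have hb : ∀ x : ℝ, ‖ckV z (rat l q) x‖ ≤ 44 / 45 := by
    intro x
    have hx := ck_real_mem hσ x
    have hx' := ck_real_mem H.s_pos x
    have h1 := H.TB_sub x hx
    have h2 := H.a_ge x hx'
    have h3 : ‖((rat l q : ℝ) : ℂ) * ckB a z x (rat l q : ℝ)‖ ≤ 11 / 50 := by
      have := norm_sub_le (((rat l q : ℝ) : ℂ) * ckB a z x (rat l q : ℝ)
        - ((rat l q : ℝ) : ℂ) * mean (fun x => ckB a z x (rat l q : ℝ)))
        (-(((rat l q : ℝ) : ℂ) * mean (fun x => ckB a z x (rat l q : ℝ))))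
      rw [norm_neg, sub_neg_eq_add, sub_add_cancel] at this
      linarith
    rw [H.TB_eq, norm_mul] at h3
    have h4 : 0 ≤ ‖ckV z (rat l q) x‖ := norm_nonneg _
    nlinarith
  have h5 := norm_fc_le hb 0
  have h6 := H.mean_V
  unfold mean at h6
  rw [h6, norm_one] at h5
  norm_num at h5

theorem TB_ge (hsm : ε * ckP2 r δ P q ≤ 1 / 50) : ∀ y ∈ hstrip (s - 2 * δ),
    9 / 50 ≤ ‖((rat l q : ℝ) : ℂ) * ckB a z y (rat l q : ℝ)‖ := by
  intro y hy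
  have h1 := H.TB_sub y hy
  have h2 := H.step2 hsm
  have := norm_sub_le (((rat l q : ℝ) : ℂ) * ckB a z y (rat l q : ℝ))
    (((rat l q : ℝ) : ℂ) * ckB a z y (rat l q : ℝ)
        - ((rat l q : ℝ) : ℂ) * mean (fun x => ckB a z x (rat l q : ℝ)))
  rw [sub_sub_cancel] at this
  linarith

/-- the difference of the inverses. -/
theorem inv_sub (hsm : ε * ckP2 r δ P q ≤ 1 / 50) : ∀ y ∈ hstrip (s - 2 * δ),
    ‖(((rat l q : ℝ) : ℂ) * ckB a z y (rat l q : ℝ))⁻¹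
      - (((rat l q : ℝ) : ℂ) * mean (fun x => ckB a z x (rat l q : ℝ)))⁻¹‖ ≤ 50 * (ε * ckP2 r δ P q) := by
  intro y hy
  have h1 := H.TB_sub y hy
  have h2 := H.step2 hsm
  have h3 := H.TB_ge hsm y hy
  have n1 : ((rat l q : ℝ) : ℂ) * ckB a z y (rat l q : ℝ) ≠ 0 := by
    intro h0; rw [h0, norm_zero] at h3; linarith
  have n2 : ((rat l q : ℝ) : ℂ) * mean (fun x => ckB a z x (rat l q : ℝ)) ≠ 0 := by
    intro h0; rw [h0, norm_zero] at h2; linarith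
  rw [inv_sub_inv n1 n2, norm_div, norm_mul, norm_sub_rev, div_le_iff₀ (by positivity)]
  have h4 : 0 ≤ ε * ckP2 r δ P q := le_trans (norm_nonneg _) h1
  have h5 : (9 / 50 : ℝ) * (1 / 5) ≤ ‖((rat l q : ℝ) : ℂ) * ckB a z y (rat l q : ℝ)‖
      * ‖((rat l q : ℝ) : ℂ) * mean (fun x => ckB a z x (rat l q : ℝ))‖ :=
    mul_le_mul h3 h2 (by norm_num) (norm_nonneg _)
  have h6 := mul_le_mul_of_nonneg_left h5 (by positivity : 0 ≤ 50 * (ε * ckP2 r δ P q))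
  linarith

end

end CkHyp

/-- `ds` with a real step preserves holomorphy on a strip. -/
theorem ck_diff_ds {g : ℂ → ℂ} {σ : ℝ} (hg : DifferentiableOn ℂ g (hstrip σ)) (T : ℝ) :
    DifferentiableOn ℂ (ds (T : ℂ) g) (hstrip σ) := by
  intro y hy
  have h1 : DifferentiableAt ℂ (fun x => g (x + (T : ℂ) / 2)) y :=
    ((ck_diffAt hg (ck_mem_add hy (ck_im_half T))).hasDerivAt.comp_add_const y _).differentiableAt
  have h2 : DifferentiableAt ℂ (fun x => g (x - (T : ℂ) / 2)) y :=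
    ((ck_diffAt hg (ck_mem_sub hy (ck_im_half T))).hasDerivAt.comp_sub_const y _).differentiableAt
  exact ((h1.sub h2).div_const _).differentiableWithinAt

theorem ck_per_ds {g : ℂ → ℂ} {σ : ℝ} (hp : ∀ y ∈ hstrip σ, g (y + 2 * π) = g y) (T : ℝ) :
    ∀ y ∈ hstrip σ, ds (T : ℂ) g (y + 2 * π) = ds (T : ℂ) g y := by
  intro y hy
  unfold ds
  rw [← hp _ (ck_mem_add hy (ck_im_half T)), ← hp _ (ck_mem_sub hy (ck_im_half T))]
  congr 2 <;> congr 1 <;> ring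

/-- the constant of the bound of `(Σu)'`. -/
noncomputable def ckP3 (r δ P : ℝ) (q : ℕ) : ℝ := 3 * P + q * (P * P / δ) + q * (P / r)

/-- the final constant. -/
noncomputable def ckP4 (r δ P : ℝ) (q : ℕ) : ℝ :=
  40 * ckP3 r δ P q + 100 * (q * (P * (1 + 2 * P))) * ckP2 r δ P q

namespace CkHyp

variable {s δ r ε P : ℝ} {l q : ℕ} {Ef h ρ a z : ℂ → ℂ → ℂ} {lam : ℂ}

section
variable (H : CkHyp s δ r ε P l q Ef h ρ a z lam)
include H

/-- (3b) -/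
theorem dt_ddh : ∀ x ∈ hstrip (s - δ),
    dt (dd h) x (rat l q : ℝ) = - dt Ef x (rat l q : ℝ) - dt ρ x (rat l q : ℝ) := by
  intro x hx
  have hx' : x ∈ hstrip s := ck_hstrip_mono (by linarith [H.δ_pos]) hx
  have he : (fun t => dd h x t) =ᶠ[nhds ((rat l q : ℝ) : ℂ)] fun t => - Ef x t - ρ x t := by
    filter_upwards [Metric.ball_mem_nhds ((rat l q : ℝ) : ℂ) H.r_pos] with t ht using H.eq_h (x, t) ⟨hx, ht⟩
  have d1 := (hol_slice_t (isOpen_Wd _ _ _) H.holE (ck_mem_Wd H.r_pos hx')).hasDerivAt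
  have d2 := (hol_slice_t (isOpen_Wd _ _ _) H.holρ (ck_mem_Wd H.r_pos hx')).hasDerivAt
  exact (d1.neg.sub d2 |>.congr_of_eventuallyEq he).deriv

/-- (3d) -/
theorem T_dt_ddh : ∀ x ∈ hstrip (s - 2 * δ),
    ((rat l q : ℝ) : ℂ) * dt (dd h) x (rat l q : ℝ) = 3 * Ef x (rat l q : ℝ)
      - ((rat l q : ℝ) : ℂ) * deriv (fun x => Ef x (rat l q : ℝ) * z x (rat l q : ℝ)) x
      - ((rat l q : ℝ) : ℂ) * ds ((rat l q : ℝ) : ℂ) (fun x => ckB a z x (rat l q : ℝ)) x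
      - ((rat l q : ℝ) : ℂ) * dt ρ x (rat l q : ℝ) := by
  intro x hx
  have hT := H.T_ne'
  have h1 := H.area (x, _) (ck_mem_Wd H.r_pos hx)
  simp only at h1
  rw [H.dt_ddh x (ck_hstrip_mono (by linarith [H.δ_pos]) hx), h1, ck_dd_T H.T_ne]
  have e : dy (fun y t => Ef y t * z y t) x (rat l q : ℝ)
      = deriv (fun x => Ef x (rat l q : ℝ) * z x (rat l q : ℝ)) x := rfl
  rw [e]
  field_simp
  ring

/-- (3e) -/
theorem deriv_Sh : ∀ y ∈ hstrip (s - 2 * δ),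
    deriv (osum q (rat l q) (fun x => h x (rat l q : ℝ))) (y - ((rat l q : ℝ) : ℂ) / 2)
      = 3 * osum q (rat l q) (fun x => Ef x (rat l q : ℝ)) y
        - ((rat l q : ℝ) : ℂ) * osum q (rat l q)
            (deriv (fun x => Ef x (rat l q : ℝ) * z x (rat l q : ℝ))) y
        - ((rat l q : ℝ) : ℂ) * osum q (rat l q) (fun x => dt ρ x (rat l q : ℝ)) y := by
  intro y hy
  have hδ := H.δ_pos
  have hy' : y ∈ hstrip s := ck_hstrip_mono (by linarith) hy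
  have hy1 : y ∈ hstrip (s - δ) := ck_hstrip_mono (by linarith) hy
  rw [← ck_I3 H.l_pos H.q_pos H.r_pos H.holh H.perh hy', ← ck_osum_mul_left,
    ck_osum_congr H.T_dt_ddh q _ hy, ck_osum_sub, ck_osum_sub, ck_osum_sub, ck_osum_mul_left,
    ck_osum_mul_left, ck_osum_mul_left, ck_osum_mul_left,
    ck_osum_ds (g := fun x => ckB a z x (rat l q : ℝ)) (ck_slice_per H.r_pos H.perB) l q H.q_pos hy1]
  ring

/-- (3g) -/
theorem S_Ez : ∀ y ∈ hstrip (s - δ),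
    osum q (rat l q) (fun x => Ef x (rat l q : ℝ) * z x (rat l q : ℝ)) y
      = osum q (rat l q) (fun x => h x (rat l q : ℝ) * ds ((rat l q : ℝ) : ℂ) (fun x => z x (rat l q : ℝ)) x)
          (y + ((rat l q : ℝ) : ℂ) / 2)
        - osum q (rat l q) (fun x => z x (rat l q : ℝ) * ρ x (rat l q : ℝ)) y := by
  intro y hy
  have hy' : y ∈ hstrip s := ck_hstrip_mono (by linarith [H.δ_pos]) hy
  have e : ∀ x ∈ hstrip (s - δ), Ef x (rat l q : ℝ) * z x (rat l q : ℝ)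
      = - (z x (rat l q : ℝ) * ds ((rat l q : ℝ) : ℂ) (fun x => h x (rat l q : ℝ)) x)
        - z x (rat l q : ℝ) * ρ x (rat l q : ℝ) := by
    intro x hx
    have h1 := H.eq_h (x, _) (ck_mem_Wd H.r_pos hx)
    simp only at h1
    rw [ck_dd_T H.T_ne] at h1
    rw [h1]
    ring
  rw [ck_osum_congr e q _ hy, ck_osum_sub, ck_osum_neg,
    ck_osum_parts (z := fun x => z x (rat l q : ℝ)) (h := fun x => h x (rat l q : ℝ))
      (ck_slice_per H.r_pos H.perz) (ck_slice_per H.r_pos H.perh) l q H.q_pos hy', neg_neg]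

theorem diff_w : DifferentiableOn ℂ
    (fun x => h x (rat l q : ℝ) * ds ((rat l q : ℝ) : ℂ) (fun x => z x (rat l q : ℝ)) x) (hstrip s) :=
  (ck_slice_diff H.r_pos H.holh).mul (ck_diff_ds (ck_slice_diff H.r_pos H.holz) _)

theorem per_w : ∀ y ∈ hstrip s,
    (fun x => h x (rat l q : ℝ) * ds ((rat l q : ℝ) : ℂ) (fun x => z x (rat l q : ℝ)) x) (y + 2 * π)
      = (fun x => h x (rat l q : ℝ) * ds ((rat l q : ℝ) : ℂ) (fun x => z x (rat l q : ℝ)) x) y := by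
  intro y hy
  have h1 := ck_slice_per H.r_pos H.perh y hy
  have h2 := ck_per_ds (g := fun x => z x (rat l q : ℝ)) (ck_slice_per H.r_pos H.perz) (rat l q) y hy
  simp only at h1 h2 ⊢
  rw [h1, h2]

theorem diff_zρ : DifferentiableOn ℂ (fun x => z x (rat l q : ℝ) * ρ x (rat l q : ℝ)) (hstrip s) :=
  (ck_slice_diff H.r_pos H.holz).mul (ck_slice_diff H.r_pos H.holρ)

theorem diff_Ez : DifferentiableOn ℂ (fun x => Ef x (rat l q : ℝ) * z x (rat l q : ℝ)) (hstrip s) :=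
  (ck_slice_diff H.r_pos H.holE).mul (ck_slice_diff H.r_pos H.holz)

/-- (3h), (3i) -/
theorem S_deriv_Ez : ∀ y ∈ hstrip (s - δ),
    osum q (rat l q) (deriv (fun x => Ef x (rat l q : ℝ) * z x (rat l q : ℝ))) y
      = osum q (rat l q)
          (deriv (fun x => h x (rat l q : ℝ) * ds ((rat l q : ℝ) : ℂ) (fun x => z x (rat l q : ℝ)) x))
          (y - ((rat l q : ℝ) : ℂ) / 2)
        - osum q (rat l q) (deriv (fun x => z x (rat l q : ℝ) * ρ x (rat l q : ℝ))) y := by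
  intro y hy
  have hy' : y ∈ hstrip s := ck_hstrip_mono (by linarith [H.δ_pos]) hy
  have he : osum q (rat l q) (fun x => Ef x (rat l q : ℝ) * z x (rat l q : ℝ)) =ᶠ[nhds y] fun y =>
      osum q (rat l q) (fun x => h x (rat l q : ℝ) * ds ((rat l q : ℝ) : ℂ) (fun x => z x (rat l q : ℝ)) x)
          (y + ((rat l q : ℝ) : ℂ) / 2)
        - osum q (rat l q) (fun x => z x (rat l q : ℝ) * ρ x (rat l q : ℝ)) y := by
    filter_upwards [(isOpen_hstrip (s - δ)).mem_nhds hy] with x hx using H.S_Ez x hx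
  have d1 := (ck_hasDerivAt_osum H.diff_w q (rat l q) (ck_mem_add hy' (ck_im_half (rat l q)))).comp_add_const y
    (((rat l q : ℝ) : ℂ) / 2)
  have d2 := ck_hasDerivAt_osum H.diff_zρ q (rat l q) hy'
  have d3 := ck_hasDerivAt_osum H.diff_Ez q (rat l q) hy'
  have e := d3.unique ((d1.sub d2).congr_of_eventuallyEq he)
  rw [e, ck_osum_half (ck_per_deriv H.per_w) l q H.q_pos hy']

omit H in
/-- `u = h (1 + t₀ ∂z)`. -/
theorem u_eq (x : ℂ) : h x (rat l q : ℝ) * ckV z (rat l q) x = h x (rat l q : ℝ)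
    + ((rat l q : ℝ) : ℂ) * (h x (rat l q : ℝ) * ds ((rat l q : ℝ) : ℂ) (fun x => z x (rat l q : ℝ)) x) := by
  unfold ckV; ring

theorem diff_V : DifferentiableOn ℂ (ckV z (rat l q)) (hstrip s) :=
  (differentiableOn_const _).add ((differentiableOn_const _).mul (ck_diff_ds (ck_slice_diff H.r_pos H.holz) _))

theorem per_V : ∀ y ∈ hstrip s, ckV z (rat l q) (y + 2 * π) = ckV z (rat l q) y := by
  intro y hy
  unfold ckV
  rw [ck_per_ds (g := fun x => z x (rat l q : ℝ)) (ck_slice_per H.r_pos H.perz) (rat l q) y hy]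

theorem diff_u : DifferentiableOn ℂ (fun x => h x (rat l q : ℝ) * ckV z (rat l q) x) (hstrip s) :=
  (ck_slice_diff H.r_pos H.holh).mul H.diff_V

theorem per_u : ∀ y ∈ hstrip s, (fun x => h x (rat l q : ℝ) * ckV z (rat l q) x) (y + 2 * π)
    = (fun x => h x (rat l q : ℝ) * ckV z (rat l q) x) y := by
  intro y hy
  have h1 := ck_slice_per H.r_pos H.perh y hy
  simp only at h1 ⊢
  rw [h1, H.per_V y hy]

/-- (3j) -/
theorem deriv_Su : ∀ y ∈ hstrip s,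
    deriv (osum q (rat l q) (fun x => h x (rat l q : ℝ) * ckV z (rat l q) x)) y
      = deriv (osum q (rat l q) (fun x => h x (rat l q : ℝ))) y
        + ((rat l q : ℝ) : ℂ) * osum q (rat l q)
          (deriv (fun x => h x (rat l q : ℝ) * ds ((rat l q : ℝ) : ℂ) (fun x => z x (rat l q : ℝ)) x)) y := by
  intro y hy
  have e : osum q (rat l q) (fun x => h x (rat l q : ℝ) * ckV z (rat l q) x) = fun y =>
      osum q (rat l q) (fun x => h x (rat l q : ℝ)) y + ((rat l q : ℝ) : ℂ) * osum q (rat l q)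
        (fun x => h x (rat l q : ℝ) * ds ((rat l q : ℝ) : ℂ) (fun x => z x (rat l q : ℝ)) x) y := by
    funext y
    simp_rw [u_eq]
    rw [ck_osum_add, ck_osum_mul_left]
  have d1 := ck_hasDerivAt_osum (ck_slice_diff H.r_pos H.holh) q (rat l q) hy
  have d2 := ck_hasDerivAt_osum H.diff_w q (rat l q) hy
  have d3 : HasDerivAt (fun y =>
      osum q (rat l q) (fun x => h x (rat l q : ℝ)) y + ((rat l q : ℝ) : ℂ) * osum q (rat l q)
        (fun x => h x (rat l q : ℝ) * ds ((rat l q : ℝ) : ℂ) (fun x => z x (rat l q : ℝ)) x) y) _ y :=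
    d1.add (d2.const_mul _)
  rw [e, d3.deriv, d1.deriv]

/-- **Step 3**, the key identity. -/
theorem key : ∀ y ∈ hstrip (s - 2 * δ),
    deriv (osum q (rat l q) (fun x => h x (rat l q : ℝ) * ckV z (rat l q) x)) (y - ((rat l q : ℝ) : ℂ) / 2)
      = 3 * osum q (rat l q) (fun x => Ef x (rat l q : ℝ)) y
        + ((rat l q : ℝ) : ℂ) * osum q (rat l q) (deriv (fun x => z x (rat l q : ℝ) * ρ x (rat l q : ℝ))) y
        - ((rat l q : ℝ) : ℂ) * osum q (rat l q) (fun x => dt ρ x (rat l q : ℝ)) y := by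
  intro y hy
  have hδ := H.δ_pos
  have hy' : y ∈ hstrip s := ck_hstrip_mono (by linarith) hy
  have hy1 : y ∈ hstrip (s - δ) := ck_hstrip_mono (by linarith) hy
  rw [H.deriv_Su _ (ck_mem_sub hy' (ck_im_half _)), H.deriv_Sh y hy, H.S_deriv_Ez y hy1]
  ring

theorem P3_nn : 0 ≤ ckP3 r δ P q := by
  have := H.r_pos; have := H.δ_pos; have := H.P_ge
  unfold ckP3; positivity

theorem bd_deriv_Su : ∀ y ∈ hstrip (s - 2 * δ),
    ‖deriv (osum q (rat l q) (fun x => h x (rat l q : ℝ) * ckV z (rat l q) x)) y‖ ≤ ε ^ 2 * ckP3 r δ P q := by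
  intro y hy
  have hδ := H.δ_pos
  have hr := H.r_pos
  have hP : 0 ≤ P := by linarith [H.P_ge]
  have hy0 : y + ((rat l q : ℝ) : ℂ) / 2 ∈ hstrip (s - 2 * δ) := ck_mem_add hy (ck_im_half _)
  have hy1 : y + ((rat l q : ℝ) : ℂ) / 2 ∈ hstrip (s - δ) := ck_hstrip_mono (by linarith) hy0
  have hy2 : y + ((rat l q : ℝ) : ℂ) / 2 ∈ hstrip s := ck_hstrip_mono (by linarith) hy0
  have hk := H.key _ hy0
  rw [add_sub_cancel_right] at hk
  have n1 := H.sumE _ hy2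
  have bzρ : ∀ x ∈ hstrip s, ‖(fun x => z x (rat l q : ℝ) * ρ x (rat l q : ℝ)) x‖ ≤ P * (P * ε ^ 2) := by
    intro x hx
    simp only
    rw [norm_mul]
    exact mul_le_mul (H.bdz (x, _) (ck_mem_Wd hr hx)) (H.bdρ (x, _) (ck_mem_Wd hr hx)) (norm_nonneg _) hP
  have n2 := ck_norm_osum_le (strip_deriv_le hδ H.diff_zρ bzρ) q (rat l q) _ hy1
  have bρt : ∀ x ∈ hstrip s, ‖(fun x => dt ρ x (rat l q : ℝ)) x‖ ≤ P * ε ^ 2 / r := by
    intro x hx
    refine ball_deriv_le (g := fun t => ρ x t) hr ?_ ?_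
    · intro t ht
      exact (hol_slice_t (isOpen_Wd _ _ _) H.holρ
        (⟨hx, ht⟩ : (x, t) ∈ Wd s (rat l q) r)).differentiableWithinAt
    · intro t ht
      exact H.bdρ (x, t) ⟨hx, ht⟩
  have n3 := ck_norm_osum_le bρt q (rat l q) _ hy2
  have hTn : ‖((rat l q : ℝ) : ℂ)‖ ≤ 1 := by
    rw [Complex.norm_real, Real.norm_of_nonneg H.T_pos.le]; exact H.T_le
  have m2 : ‖((rat l q : ℝ) : ℂ) * osum q (rat l q) (deriv (fun x => z x (rat l q : ℝ) * ρ x (rat l q : ℝ)))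
      (y + ((rat l q : ℝ) : ℂ) / 2)‖ ≤ q * (P * (P * ε ^ 2) / δ) := by
    rw [norm_mul]
    calc _ ≤ 1 * _ := mul_le_mul_of_nonneg_right hTn (norm_nonneg _)
      _ ≤ _ := by rw [one_mul]; exact n2
  have m3 : ‖((rat l q : ℝ) : ℂ) * osum q (rat l q) (fun x => dt ρ x (rat l q : ℝ))
      (y + ((rat l q : ℝ) : ℂ) / 2)‖ ≤ q * (P * ε ^ 2 / r) := by
    rw [norm_mul]
    calc _ ≤ 1 * _ := mul_le_mul_of_nonneg_right hTn (norm_nonneg _)
      _ ≤ _ := by rw [one_mul]; exact n3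
  have m1 : ‖3 * osum q (rat l q) (fun x => Ef x (rat l q : ℝ)) (y + ((rat l q : ℝ) : ℂ) / 2)‖
      ≤ 3 * (P * ε ^ 2) := by
    rw [norm_mul]
    have h3 : ‖(3 : ℂ)‖ = 3 := by simp
    rw [h3]
    linarith
  rw [hk]
  calc _ ≤ _ + _ := norm_sub_le _ _
    _ ≤ (_ + _) + _ := add_le_add_left (norm_add_le _ _) _
    _ ≤ 3 * (P * ε ^ 2) + q * (P * (P * ε ^ 2) / δ) + q * (P * ε ^ 2 / r) := add_le_add (add_le_add m1 m2) m3
    _ = ε ^ 2 * ckP3 r δ P q := by unfold ckP3; ring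

/-- **Step 3.** -/
theorem step3 : ∀ y ∈ hstrip (s - 2 * δ),
    ‖osum q (rat l q) (fun x => h x (rat l q : ℝ) * ckV z (rat l q) x) y
      - mean (osum q (rat l q) (fun x => h x (rat l q : ℝ) * ckV z (rat l q) x))‖
      ≤ 8 * (ε ^ 2 * ckP3 r δ P q) := by
  have hδ := H.δ_pos
  have hσ : 0 < s - 2 * δ := by linarith [H.δ_lt]
  have hmono : hstrip (s - 2 * δ) ⊆ hstrip s := ck_hstrip_mono (by linarith)
  exact sub_mean_le hσ (by linarith [H.s_le]) ((ck_diff_osum H.diff_u q (rat l q)).mono hmono)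
    (fun y hy => ck_per_osum (g := fun x => h x (rat l q : ℝ) * ckV z (rat l q) x) H.per_u q (rat l q) y
      (hmono hy)) H.bd_deriv_Su

theorem V_le : ∀ y ∈ hstrip s, ‖ckV z (rat l q) y‖ ≤ 1 + 2 * P := by
  intro y hy
  rw [H.V_eq]
  have h1 := H.bdz (y + ((rat l q : ℝ) : ℂ) / 2, _) (ck_mem_Wd H.r_pos (ck_mem_add hy (ck_im_half _)))
  have h2 := H.bdz (y - ((rat l q : ℝ) : ℂ) / 2, _) (ck_mem_Wd H.r_pos (ck_mem_sub hy (ck_im_half _)))
  simp only at h1 h2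
  calc _ ≤ ‖(1 : ℂ)‖ + _ := norm_add_le _ _
    _ ≤ ‖(1 : ℂ)‖ + (_ + _) := add_le_add_right (norm_sub_le _ _) _
    _ ≤ 1 + 2 * P := by rw [norm_one]; linarith

theorem S_V : ∀ y ∈ hstrip s, osum q (rat l q) (ckV z (rat l q)) y = q := by
  intro y hy
  have e : ckV z (rat l q) = fun x => (fun _ => (1 : ℂ)) x
      + ((rat l q : ℝ) : ℂ) * ds ((rat l q : ℝ) : ℂ) (fun x => z x (rat l q : ℝ)) x := rfl
  rw [e, ck_osum_add, ck_osum_const, ck_osum_mul_left,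
    ck_osum_ds (g := fun x => z x (rat l q : ℝ)) (ck_slice_per H.r_pos H.perz) l q H.q_pos hy]
  ring

theorem quot_eq (hsm : ε * ckP2 r δ P q ≤ 1 / 50) : ∀ x ∈ hstrip (s - 2 * δ),
    (h x (rat l q : ℝ) + lam) / a x (rat l q : ℝ)
      = (h x (rat l q : ℝ) * ckV z (rat l q) x + lam * ckV z (rat l q) x)
        * (((rat l q : ℝ) : ℂ) * ckB a z x (rat l q : ℝ))⁻¹ := by
  intro x hx
  have hx' : x ∈ hstrip s := ck_hstrip_mono (by linarith [H.δ_pos]) hx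
  have h3 := H.TB_ge hsm x hx
  have n1 : ((rat l q : ℝ) : ℂ) * ckB a z x (rat l q : ℝ) ≠ 0 := by
    intro h0; rw [h0, norm_zero] at h3; linarith
  rw [H.TB_eq] at n1 ⊢
  have ha := left_ne_zero_of_mul n1
  have hv := right_ne_zero_of_mul n1
  field_simp

theorem P2_nn : 0 ≤ ckP2 r δ P q := by
  have := H.r_pos; have := H.P1_nn
  unfold ckP2; positivity

theorem S_sub (hsm : ε * ckP2 r δ P q ≤ 1 / 50) : ∀ y ∈ hstrip (s - 2 * δ),
    ‖osum q (rat l q) (fun x => (h x (rat l q : ℝ) + lam) / a x (rat l q : ℝ)) y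
      - (mean (osum q (rat l q) (fun x => h x (rat l q : ℝ) * ckV z (rat l q) x)) + lam * q)
        * (((rat l q : ℝ) : ℂ) * mean (fun x => ckB a z x (rat l q : ℝ)))⁻¹‖ ≤ ε ^ 2 * ckP4 r δ P q := by
  intro y hy
  have hδ := H.δ_pos
  have hP : 0 ≤ P := by linarith [H.P_ge]
  have hε := H.ε_nn
  have hy' : y ∈ hstrip s := ck_hstrip_mono (by linarith) hy
  obtain ⟨c₀, hc₀⟩ : ∃ c₀ : ℂ, c₀ = (((rat l q : ℝ) : ℂ) * mean (fun x => ckB a z x (rat l q : ℝ)))⁻¹ := ⟨_, rfl⟩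
  obtain ⟨m, hm⟩ : ∃ m : ℂ, m = mean (osum q (rat l q) (fun x => h x (rat l q : ℝ) * ckV z (rat l q) x)) :=
    ⟨_, rfl⟩
  rw [← hc₀, ← hm]
  have hc5 : ‖c₀‖ ≤ 5 := by
    have h2 := H.step2 hsm
    rw [hc₀, norm_inv]
    calc _ ≤ (1 / 5 : ℝ)⁻¹ := inv_anti₀ (by norm_num) h2
      _ = 5 := by norm_num
  have e : ∀ x ∈ hstrip (s - 2 * δ), (h x (rat l q : ℝ) + lam) / a x (rat l q : ℝ)
      = c₀ * (h x (rat l q : ℝ) * ckV z (rat l q) x + lam * ckV z (rat l q) x)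
        + (h x (rat l q : ℝ) * ckV z (rat l q) x + lam * ckV z (rat l q) x)
          * ((((rat l q : ℝ) : ℂ) * ckB a z x (rat l q : ℝ))⁻¹ - c₀) := by
    intro x hx
    rw [H.quot_eq hsm x hx]
    ring
  rw [ck_osum_congr e q _ hy, ck_osum_add, ck_osum_mul_left, ck_osum_add, ck_osum_mul_left, H.S_V y hy']
  have bD : ∀ x ∈ hstrip (s - 2 * δ), ‖(fun x => (h x (rat l q : ℝ) * ckV z (rat l q) x + lam * ckV z (rat l q) x)
          * ((((rat l q : ℝ) : ℂ) * ckB a z x (rat l q : ℝ))⁻¹ - c₀)) x‖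
      ≤ (2 * (P * ε * (1 + 2 * P))) * (50 * (ε * ckP2 r δ P q)) := by
    intro x hx
    have hx' : x ∈ hstrip s := ck_hstrip_mono (by linarith) hx
    simp only
    rw [norm_mul]
    have hV := H.V_le x hx'
    have hh := H.bdh (x, _) (ck_mem_Wd H.r_pos hx')
    simp only at hh
    have b1 : ‖h x (rat l q : ℝ) * ckV z (rat l q) x + lam * ckV z (rat l q) x‖
        ≤ 2 * (P * ε * (1 + 2 * P)) := by
      calc _ ≤ ‖h x (rat l q : ℝ) * ckV z (rat l q) x‖ + ‖lam * ckV z (rat l q) x‖ := norm_add_le _ _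
        _ ≤ P * ε * (1 + 2 * P) + P * ε * (1 + 2 * P) := by
            rw [norm_mul, norm_mul]
            exact add_le_add (mul_le_mul hh hV (norm_nonneg _) (by positivity))
              (mul_le_mul H.lam_le hV (norm_nonneg _) (by positivity))
        _ = _ := by ring
    have b2 := H.inv_sub hsm x hx
    rw [← hc₀] at b2
    exact mul_le_mul b1 b2 (norm_nonneg _) (by positivity)
  have n2 := ck_norm_osum_le bD q (rat l q) y hy
  have n1 := H.step3 y hy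
  rw [← hm] at n1
  have e2 : c₀ * (osum q (rat l q) (fun x => h x (rat l q : ℝ) * ckV z (rat l q) x) y + lam * q)
      + osum q (rat l q) (fun x => (h x (rat l q : ℝ) * ckV z (rat l q) x + lam * ckV z (rat l q) x)
          * ((((rat l q : ℝ) : ℂ) * ckB a z x (rat l q : ℝ))⁻¹ - c₀)) y - (m + lam * q) * c₀
      = (osum q (rat l q) (fun x => h x (rat l q : ℝ) * ckV z (rat l q) x) y - m) * c₀
        + osum q (rat l q) (fun x => (h x (rat l q : ℝ) * ckV z (rat l q) x + lam * ckV z (rat l q) x)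
          * ((((rat l q : ℝ) : ℂ) * ckB a z x (rat l q : ℝ))⁻¹ - c₀)) y := by ring
  rw [e2]
  have hb3 : 0 ≤ 8 * (ε ^ 2 * ckP3 r δ P q) := by have := H.P3_nn; positivity
  calc _ ≤ _ + _ := norm_add_le _ _
    _ ≤ 8 * (ε ^ 2 * ckP3 r δ P q) * 5 + q * ((2 * (P * ε * (1 + 2 * P))) * (50 * (ε * ckP2 r δ P q))) := by
        rw [norm_mul]
        exact add_le_add (mul_le_mul n1 hc5 (norm_nonneg _) hb3) n2
    _ = ε ^ 2 * ckP4 r δ P q := by unfold ckP4; ring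

theorem diff_g : DifferentiableOn ℂ (fun x => (h x (rat l q : ℝ) + lam) / a x (rat l q : ℝ)) (hstrip s) :=
  ((ck_slice_diff H.r_pos H.holh).add_const _).div (ck_slice_diff H.r_pos H.hola) H.a_ne

theorem per_g : ∀ y ∈ hstrip s, (fun x => (h x (rat l q : ℝ) + lam) / a x (rat l q : ℝ)) (y + 2 * π)
    = (fun x => (h x (rat l q : ℝ) + lam) / a x (rat l q : ℝ)) y := by
  intro y hy
  have h1 := ck_slice_per H.r_pos H.perh y hy
  have h2 := ck_slice_per H.r_pos H.pera y hy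
  simp only at h1 h2 ⊢
  rw [h1, h2]

/-- **Step 4.** -/
theorem step4 (hsm : ε * ckP2 r δ P q ≤ 1 / 50) : ∀ y ∈ hstrip (s - 2 * δ),
    ‖osum q (rat l q) (fun x => (h x (rat l q : ℝ) + lam) / a x (rat l q : ℝ)) y‖
      ≤ 2 * (ε ^ 2 * ckP4 r δ P q) := by
  intro y hy
  have hσ : 0 < s - 2 * δ := by linarith [H.δ_lt, H.δ_pos]
  obtain ⟨K₀, hK₀⟩ : ∃ K₀ : ℂ, K₀ = (mean (osum q (rat l q) (fun x => h x (rat l q : ℝ) * ckV z (rat l q) x))
      + lam * q) * (((rat l q : ℝ) : ℂ) * mean (fun x => ckB a z x (rat l q : ℝ)))⁻¹ := ⟨_, rfl⟩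
  have hS := H.S_sub hsm
  rw [← hK₀] at hS
  have m0 : mean (osum q (rat l q) (fun x => (h x (rat l q : ℝ) + lam) / a x (rat l q : ℝ))) = 0 := by
    rw [mean_osum H.s_pos H.diff_g H.per_g, H.mean0, mul_zero]
  have c1 : Continuous fun x : ℝ => osum q (rat l q) (fun x => (h x (rat l q : ℝ) + lam) / a x (rat l q : ℝ)) x :=
    ck_cont_real0 H.s_pos (ck_diff_osum H.diff_g q (rat l q))
  have m1 : fc 0 (fun y => osum q (rat l q) (fun x => (h x (rat l q : ℝ) + lam) / a x (rat l q : ℝ)) y + -K₀)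
      = -K₀ := by
    have h1 := fc_add (g₁ := osum q (rat l q) (fun x => (h x (rat l q : ℝ) + lam) / a x (rat l q : ℝ)))
      (g₂ := fun _ => -K₀) c1 continuous_const 0
    have h2 := mean_const (-K₀)
    unfold mean at m0 h2
    rw [h1, m0, h2, zero_add]
  have hK : ‖K₀‖ ≤ ε ^ 2 * ckP4 r δ P q := by
    rw [← norm_neg, ← m1]
    refine norm_fc_le (fun x => ?_) 0
    rw [← sub_eq_add_neg]
    exact hS x (ck_real_mem hσ x)
  have h3 := hS y hy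
  have h4 := norm_sub_le (osum q (rat l q) (fun x => (h x (rat l q : ℝ) + lam) / a x (rat l q : ℝ)) y - K₀) (-K₀)
  rw [sub_neg_eq_add, sub_add_cancel, norm_neg] at h4
  linarith

end

end CkHyp

/-- the constants are polynomial in `X = P + q + 1/δ + 1/r`. -/
theorem ck_consts {r δ P : ℝ} {q : ℕ} (hr : 0 < r) (hδ : 0 < δ) (hP : 1 ≤ P) :
    ckP2 r δ P q ≤ 153 * (P + q + δ⁻¹ + r⁻¹) ^ 3 ∧ ckP4 r δ P q ≤ 46100 * (P + q + δ⁻¹ + r⁻¹) ^ 6 := by
  obtain ⟨X, hX⟩ : ∃ X : ℝ, X = P + q + δ⁻¹ + r⁻¹ := ⟨_, rfl⟩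
  rw [← hX]
  have hq0 : (0 : ℝ) ≤ q := Nat.cast_nonneg _
  have hd0 : 0 < δ⁻¹ := inv_pos.2 hδ
  have he0 : 0 < r⁻¹ := inv_pos.2 hr
  have hP0 : 0 ≤ P := by linarith
  have X1 : 1 ≤ X := by linarith
  have X0 : 0 ≤ X := by linarith
  have hPX : P ≤ X := by linarith
  have hqX : (q : ℝ) ≤ X := by linarith
  have hdX : δ⁻¹ ≤ X := by linarith
  have heX : r⁻¹ ≤ X := by linarith
  have p2 : X ≤ X ^ 2 := by nlinarith
  have p3 : X ^ 2 ≤ X ^ 3 := by nlinarith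
  have p4 : X ^ 3 ≤ X ^ 4 := by nlinarith [pow_nonneg X0 3]
  have p6 : X ^ 4 ≤ X ^ 6 := by nlinarith [pow_nonneg X0 4]
  have h1 : ckP1 r δ P q ≤ 9 * X ^ 2 := by
    unfold ckP1
    rw [div_eq_mul_inv, div_eq_mul_inv]
    calc 2 * r⁻¹ + 6 * q + P * δ⁻¹ ≤ 2 * X + 6 * X + X * X := by gcongr
      _ ≤ 9 * X ^ 2 := by nlinarith
  have h10 : 0 ≤ ckP1 r δ P q := by unfold ckP1; positivity
  have h2 : ckP2 r δ P q ≤ 153 * X ^ 3 := by
    unfold ckP2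
    rw [div_eq_mul_inv]
    calc ckP1 r δ P q * (q + 16 * r⁻¹) ≤ (9 * X ^ 2) * (X + 16 * X) := by gcongr
      _ = 153 * X ^ 3 := by ring
  have h20 : 0 ≤ ckP2 r δ P q := by unfold ckP2; positivity
  have h3 : ckP3 r δ P q ≤ 5 * X ^ 4 := by
    unfold ckP3
    rw [div_eq_mul_inv, div_eq_mul_inv]
    calc 3 * P + q * (P * P * δ⁻¹) + q * (P * r⁻¹) ≤ 3 * X + X * (X * X * X) + X * (X * X) := by gcongr
      _ ≤ 5 * X ^ 4 := by nlinarith
  refine ⟨h2, ?_⟩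
  unfold ckP4
  calc 40 * ckP3 r δ P q + 100 * (q * (P * (1 + 2 * P))) * ckP2 r δ P q
      ≤ 40 * (5 * X ^ 4) + 100 * (X * (X * (X + 2 * X))) * (153 * X ^ 3) := by gcongr
    _ = 200 * X ^ 4 + 45900 * X ^ 6 := by ring
    _ ≤ 46100 * X ^ 6 := by linarith

/-- **Unit K.** -/
theorem compat_main : StCompat := by
  refine ⟨92200, 6, ?_⟩
  intro s δ r ε P l q Ef h ρ a z lam h1 h2 h3 h4 h5 h6 h7 h8 h9 h10 h11 a1 a2 a3 a4 a5 b1 b2 b3 b4 b5
    c1 c2 c3 c4 c5 d1 d2 d3 d4 d5 hsmall y hy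
  have H : CkHyp s δ r ε P l q Ef h ρ a z lam :=
    ⟨h1, h2, h3, h4, h5, h6, h7, h8, h9, h10, h11, a1, a2, a3, a4, a5, b1, b2, b3, b4, b5,
      c1, c2, c3, c4, c5, d1, d2, d3, d4, d5⟩
  obtain ⟨k2, k4⟩ := ck_consts (q := q) h7 h1 h10
  obtain ⟨X, hX⟩ : ∃ X : ℝ, X = P + q + δ⁻¹ + r⁻¹ := ⟨_, rfl⟩
  rw [← hX] at k2 k4 hsmall ⊢
  have X1 : 1 ≤ X := by
    have : (0 : ℝ) ≤ q := Nat.cast_nonneg _
    have := inv_pos.2 h1
    have := inv_pos.2 h7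
    linarith
  have X0 : 0 ≤ X := by linarith
  have p36 : X ^ 3 ≤ X ^ 6 := pow_le_pow_right₀ X1 (by norm_num)
  have hsm : ε * ckP2 r δ P q ≤ 1 / 50 := by
    have e1 : ε * ckP2 r δ P q ≤ ε * (153 * X ^ 6) :=
      mul_le_mul_of_nonneg_left (k2.trans (by linarith)) h11
    linarith
  have hy' : y ∈ hstrip (s - 2 * δ) := ck_hstrip_mono (by linarith) hy
  refine (H.step4 hsm y hy').trans ?_
  have e2 : ε ^ 2 * ckP4 r δ P q ≤ ε ^ 2 * (46100 * X ^ 6) := mul_le_mul_of_nonneg_left k4 (by positivity)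
  linarith

end Claimed.Agent.R269.S3
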