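/-
Row 269, Section 3, UNIT H: numerical lemmas for the convergence of the Newton scheme.   Owner: helper228.
-/
import Claimed.Agent.R269.S3.Basic

set_option autoImplicit false

namespace Claimed.Agent.R269.S3

open Real Filter Topology

/-- `x^n e^{-x/2} → 0`. -/
theorem tendsto_pow_mul_exp_half (n : ℕ) : Tendsto (fun x : ℝ => x ^ n * Real.exp (-(x / 2))) atTop (𝓝 0) := by
  have h1 := Real.tendsto_pow_mul_exp_neg_atTop_nhds_zero n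
  have h2 : Tendsto (fun x : ℝ => x / 2) atTop atTop := tendsto_id.atTop_div_const (by norm_num)
  have h3 := (h1.comp h2).const_mul ((2 : ℝ) ^ n)
  simp only [mul_zero] at h3
  refine h3.congr fun x => ?_
  simp only [Function.comp]
  rw [div_pow]
  field_simp

/-- the master inequality. -/
theorem conv_master (C c₁ κ : ℝ) (b : ℕ) (hκ : 0 < κ) :
    ∃ a : ℝ, 1 ≤ a ∧ ∀ x : ℝ, a ≤ x →
      C * (c₁ * x ^ 3) ^ b * Real.exp (-(x / 2)) ≤ 1 ∧ 2 * x ^ 2 * Real.exp (-(x / 2)) ≤ κ := by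
  have h1 : Tendsto (fun x : ℝ => C * (c₁ * x ^ 3) ^ b * Real.exp (-(x / 2))) atTop (𝓝 0) := by
    have := (tendsto_pow_mul_exp_half (3 * b)).const_mul (C * c₁ ^ b)
    simp only [mul_zero] at this
    refine this.congr fun x => ?_
    rw [mul_pow, ← pow_mul]
    ring
  have h2 : Tendsto (fun x : ℝ => 2 * x ^ 2 * Real.exp (-(x / 2))) atTop (𝓝 0) := by
    have := (tendsto_pow_mul_exp_half 2).const_mul 2
    simp only [mul_zero] at this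
    refine this.congr fun x => ?_
    ring
  have e1 := h1.eventually_le_const (show (0 : ℝ) < 1 by norm_num)
  have e2 := h2.eventually_le_const hκ
  obtain ⟨a, ha⟩ := Filter.eventually_atTop.1 ((e1.and e2).and (eventually_ge_atTop (1 : ℝ)))
  exact ⟨max a 1, le_max_right _ _, fun x hx => (ha x ((le_max_left _ _).trans hx)).1⟩

/-- the choice of the truncation order. -/
theorem conv_trunc {δ₀ x δ : ℝ} (hδ₀ : 0 < δ₀) (hx : 1 ≤ x) (hδ : 0 < δ) (hδx : δ⁻¹ ≤ x ^ 2 / δ₀) :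
    1 ≤ ⌈x / δ⌉₊ ∧ Real.exp (-((⌈x / δ⌉₊ : ℝ) * δ)) ≤ Real.exp (-x) ∧
      QQ ⌈x / δ⌉₊ δ ≤ (2 + 2 / δ₀) * x ^ 3 := by
  have hxδ : 0 < x / δ := by positivity
  refine ⟨Nat.one_le_ceil_iff.2 hxδ, ?_, ?_⟩
  · apply Real.exp_le_exp.2
    have h1 : x / δ ≤ ⌈x / δ⌉₊ := Nat.le_ceil _
    have h2 : x ≤ ⌈x / δ⌉₊ * δ := by rwa [div_le_iff₀ hδ] at h1
    linarith
  · have h1 : (⌈x / δ⌉₊ : ℝ) < x / δ + 1 := Nat.ceil_lt_add_one hxδ.le
    unfold QQ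
    have h2 : x / δ = x * δ⁻¹ := div_eq_mul_inv _ _
    have h3 : x * δ⁻¹ ≤ x * (x ^ 2 / δ₀) := mul_le_mul_of_nonneg_left hδx (by linarith)
    have h4 : x ^ 2 ≤ x ^ 3 := pow_le_pow_right₀ hx (by norm_num)
    have h5 : (1 : ℝ) ≤ x ^ 3 := one_le_pow₀ hx
    have h6 : x ^ 2 / δ₀ ≤ x ^ 3 / δ₀ := div_le_div_of_nonneg_right h4 hδ₀.le
    have h7 : x * (x ^ 2 / δ₀) = x ^ 3 / δ₀ := by ring
    have h8 : (2 + 2 / δ₀) * x ^ 3 = 2 * x ^ 3 + 2 * (x ^ 3 / δ₀) := by ring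
    rw [h8]
    linarith

/-- `2^i ≤ (a (3/2)^i)²`. -/
theorem two_pow_le_sq {a : ℝ} (ha : 1 ≤ a) (i : ℕ) : (2 : ℝ) ^ i ≤ (a * (3 / 2) ^ i) ^ 2 := by
  have h1 : (2 : ℝ) ^ i ≤ (9 / 4) ^ i := pow_le_pow_left₀ (by norm_num) (by norm_num) i
  have h2 : ((3 : ℝ) / 2) ^ i * (3 / 2) ^ i = (9 / 4) ^ i := by rw [← mul_pow]; norm_num
  have h3 : (a * (3 / 2) ^ i) ^ 2 = a ^ 2 * (9 / 4) ^ i := by rw [← h2]; ring
  rw [h3]
  have h4 : (1 : ℝ) ≤ a ^ 2 := one_le_pow₀ ha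
  have h5 : (0 : ℝ) ≤ (9 / 4) ^ i := by positivity
  nlinarith

end Claimed.Agent.R269.S3
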