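/-
Row 269, Section 3, UNIT H: the parameter sequences and the induction step.   Owner: helper228.
-/
import Claimed.Agent.R269.S3.ConvNum
import Claimed.Agent.R269.S3.CandLib

set_option autoImplicit false

namespace Claimed.Agent.R269.S3

open Real Complex ComplexConjugate

/-- widths. -/
noncomputable def sI (s₁ : ℝ) (i : ℕ) : ℝ := s₁ - s₁ / 10 * (1 - (1 / 2) ^ i)

/-- losses. -/
noncomputable def δI (s₁ : ℝ) (i : ℕ) : ℝ := s₁ / 400 * (1 / 2) ^ i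

/-- parameter radii. -/
noncomputable def dI (s₁ d₀ : ℝ) : ℕ → ℝ
  | 0 => d₀
  | i + 1 => dI s₁ d₀ i * (1 - 20 * δI s₁ i)

/-- minus the logarithms of the errors. -/
noncomputable def xI (a : ℝ) (i : ℕ) : ℝ := a * (3 / 2) ^ i

/-- sizes of the candidates. -/
noncomputable def κI (κ : ℝ) (i : ℕ) : ℝ := κ * (1 - (1 / 2) ^ i)

theorem half_pow_pos (i : ℕ) : (0 : ℝ) < (1 / 2) ^ i := by positivity

theorem half_pow_le_one (i : ℕ) : ((1 : ℝ) / 2) ^ i ≤ 1 := pow_le_one₀ (by norm_num) (by norm_num)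

theorem sI_succ (s₁ : ℝ) (i : ℕ) : sI s₁ (i + 1) = sI s₁ i - 20 * δI s₁ i := by
  unfold sI δI
  rw [pow_succ]
  ring

theorem sI_le {s₁ : ℝ} (h : 0 < s₁) (i : ℕ) : sI s₁ i ≤ s₁ := by
  unfold sI
  have := half_pow_le_one i
  nlinarith

theorem sI_ge {s₁ : ℝ} (h : 0 < s₁) (i : ℕ) : 9 / 10 * s₁ ≤ sI s₁ i := by
  unfold sI
  have := half_pow_pos i
  nlinarith

theorem δI_pos {s₁ : ℝ} (h : 0 < s₁) (i : ℕ) : 0 < δI s₁ i := by
  unfold δI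
  have := half_pow_pos i
  positivity

theorem δI_le {s₁ : ℝ} (h : 0 < s₁) (i : ℕ) : δI s₁ i ≤ s₁ / 400 := by
  unfold δI
  have := half_pow_le_one i
  nlinarith

theorem dI_bounds {s₁ d₀ : ℝ} (h : 0 < s₁) (h1 : s₁ ≤ 1) (hd : 0 < d₀) (i : ℕ) :
    d₀ * (1 - s₁ / 10 * (1 - (1 / 2) ^ i)) ≤ dI s₁ d₀ i ∧ dI s₁ d₀ i ≤ d₀ := by
  induction i with
  | zero => simp [dI]
  | succ i ih =>
    obtain ⟨ih1, ih2⟩ := ih
    have hp := half_pow_pos i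
    have hp1 := half_pow_le_one i
    have hδ := δI_pos h i
    have hδ' := δI_le h i
    have e : 20 * δI s₁ i = s₁ / 10 * ((1 / 2) ^ i - (1 / 2) ^ (i + 1)) := by
      unfold δI
      rw [pow_succ]
      ring
    have hpos : 0 ≤ 1 - 20 * δI s₁ i := by linarith
    have hσ : 0 ≤ s₁ / 10 * (1 - (1 / 2) ^ i) := by
      have : 0 ≤ 1 - ((1 : ℝ) / 2) ^ i := by linarith
      positivity
    have hdi : 0 ≤ dI s₁ d₀ i := by
      refine le_trans ?_ ih1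
      have : s₁ / 10 * (1 - (1 / 2) ^ i) ≤ 1 := by nlinarith
      have : 0 ≤ 1 - s₁ / 10 * (1 - (1 / 2) ^ i) := by linarith
      positivity
    constructor
    · show _ ≤ dI s₁ d₀ i * (1 - 20 * δI s₁ i)
      calc d₀ * (1 - s₁ / 10 * (1 - (1 / 2) ^ (i + 1)))
          = d₀ * (1 - s₁ / 10 * (1 - (1 / 2) ^ i) - 20 * δI s₁ i) := by rw [e]; ring
        _ ≤ d₀ * ((1 - s₁ / 10 * (1 - (1 / 2) ^ i)) * (1 - 20 * δI s₁ i)) := by
            apply mul_le_mul_of_nonneg_left _ hd.le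
            nlinarith
        _ = d₀ * (1 - s₁ / 10 * (1 - (1 / 2) ^ i)) * (1 - 20 * δI s₁ i) := by ring
        _ ≤ dI s₁ d₀ i * (1 - 20 * δI s₁ i) := mul_le_mul_of_nonneg_right ih1 hpos
    · show dI s₁ d₀ i * (1 - 20 * δI s₁ i) ≤ d₀
      nlinarith

theorem dI_ge {s₁ d₀ : ℝ} (h : 0 < s₁) (h1 : s₁ ≤ 1) (hd : 0 < d₀) (i : ℕ) : 9 / 10 * d₀ ≤ dI s₁ d₀ i := by
  refine le_trans ?_ (dI_bounds h h1 hd i).1
  have hp := half_pow_pos i
  have : s₁ / 10 * (1 - (1 / 2) ^ i) ≤ 1 / 10 := by nlinarith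
  nlinarith

theorem xI_ge {a : ℝ} (ha : 1 ≤ a) (i : ℕ) : a ≤ xI a i := by
  unfold xI
  have : (1 : ℝ) ≤ (3 / 2) ^ i := one_le_pow₀ (by norm_num)
  nlinarith

theorem xI_succ (a : ℝ) (i : ℕ) : xI a (i + 1) = 3 / 2 * xI a i := by
  unfold xI
  rw [pow_succ]
  ring

theorem κI_succ (κ : ℝ) (i : ℕ) : κI κ (i + 1) = κI κ i + κ * (1 / 2) ^ (i + 1) := by
  unfold κI
  rw [pow_succ]
  ring

theorem κI_le {κ : ℝ} (h : 0 < κ) (i : ℕ) : κI κ i ≤ κ := by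
  unfold κI
  have := half_pow_pos i
  nlinarith

/-- the invariant of the iteration. -/
def Inv (B : Base) (s₁ κ d₀ a : ℝ) (i : ℕ) (Θ : ℂ → ℂ → ℂ) : Prop :=
  Cand B (sI s₁ i) (dI s₁ d₀ i) (κI κ i) Θ ∧
    Bd (E B Θ) (Dom 1 (sI s₁ i) (dI s₁ d₀ i)) (Real.exp (-xI a i))

variable {B : Base} {s₁ κ K : ℝ}

/-- the start. -/
theorem inv_zero (hG : Good B s₁ κ K) {d₀ a : ℝ} (hd₀ : d₀ ≤ s₁ / 4) (hKd : K * d₀ ≤ Real.exp (-a)) :
    Inv B s₁ κ d₀ a 0 (fun y _ => B.φ y) := by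
  have hs := hG.s₁_pos
  have hs0 : s₁ ≤ B.s₀ := by have := hG.s₁_le; linarith
  have e1 : sI s₁ 0 = s₁ := by simp [sI]
  have e2 : κI κ 0 = 0 := by simp [κI]
  have e3 : xI a 0 = a := by simp [xI]
  unfold Inv
  rw [e1, e2, e3]
  refine ⟨cand_phi hs0 le_rfl, ?_⟩
  rintro ⟨y, t⟩ hz
  show ‖E B (fun y _ => B.φ y) y t‖ ≤ _
  by_cases ht : t = 0
  · simp only [E, if_pos ht, norm_zero]
    positivity
  · simp only [E, if_neg ht]
    have htd : ‖t‖ < d₀ := hz.1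
    have hy : |y.im| < s₁ - 1 * |t.im| := hz.2
    have h1 := hG.Es_phi t y ht (by linarith) (by linarith)
    have hK := hG.K_ge
    refine h1.trans (le_trans ?_ hKd)
    exact mul_le_mul_of_nonneg_left htd.le (by linarith)

/-- the induction step. -/
theorem inv_succ (hG : Good B s₁ κ K) {C : ℝ} {b : ℕ} (hC : 0 ≤ C) (hN : NewtonC B s₁ κ C b) {d₀ a : ℝ}
    (hd₀ : 0 < d₀) (hd₀' : d₀ ≤ s₁ / 4) (ha : 1 ≤ a)
    (hm : ∀ x : ℝ, a ≤ x → C * ((2 + 2 / (s₁ / 400)) * x ^ 3) ^ b * Real.exp (-(x / 2)) ≤ 1 ∧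
      2 * x ^ 2 * Real.exp (-(x / 2)) ≤ κ)
    (i : ℕ) (Θ : ℂ → ℂ → ℂ) (hI : Inv B s₁ κ d₀ a i Θ) :
    ∃ Δ : ℂ → ℂ → ℂ, Inv B s₁ κ d₀ a (i + 1) (fun y t => Θ y t + Δ y t) ∧
      Bd Δ (Dom 0 (sI s₁ (i + 1)) (dI s₁ d₀ (i + 1))) (κ * (1 / 2) ^ (i + 1)) := by
  obtain ⟨hc, he⟩ := hI
  have hs := hG.s₁_pos
  have hs1 := hG.s₁_le_one
  have hκ := hG.κ_pos
  have hs0 : s₁ ≤ B.s₀ := by have := hG.s₁_le; linarith
  obtain ⟨x, hx⟩ : ∃ x, x = xI a i := ⟨_, rfl⟩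
  obtain ⟨δ, hδdef⟩ : ∃ δ, δ = δI s₁ i := ⟨_, rfl⟩
  obtain ⟨s, hsdef⟩ : ∃ s, s = sI s₁ i := ⟨_, rfl⟩
  obtain ⟨d, hddef⟩ : ∃ d, d = dI s₁ d₀ i := ⟨_, rfl⟩
  have hxa : a ≤ x := hx ▸ xI_ge ha i
  have hx1 : 1 ≤ x := ha.trans hxa
  have hδ : 0 < δ := hδdef ▸ δI_pos hs i
  have hδle : δ ≤ s₁ / 400 := hδdef ▸ δI_le hs i
  have hsle : s ≤ s₁ := hsdef ▸ sI_le hs i
  have hsge : 9 / 10 * s₁ ≤ s := hsdef ▸ sI_ge hs i
  have hdge : 9 / 10 * d₀ ≤ d := hddef ▸ dI_ge hs hs1 hd₀ i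
  have hdle : d ≤ d₀ := hddef ▸ (dI_bounds hs hs1 hd₀ i).2
  have hδx : δ⁻¹ ≤ x ^ 2 / (s₁ / 400) := by
    have e : δ⁻¹ = 2 ^ i / (s₁ / 400) := by
      rw [hδdef]
      unfold δI
      rw [one_div, inv_pow]
      field_simp
    rw [e, hx]
    exact div_le_div_of_nonneg_right (two_pow_le_sq ha i) (by positivity)
  obtain ⟨n1, n2, n3⟩ := conv_trunc (δ₀ := s₁ / 400) (by positivity) hx1 hδ hδx
  obtain ⟨N, hNdef⟩ : ∃ N, N = ⌈x / δ⌉₊ := ⟨_, rfl⟩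
  rw [← hNdef] at n1 n2 n3
  obtain ⟨m1, m2⟩ := hm x hxa
  have hQ1 := one_le_QQ N hδ
  have hQb : QQ N δ ^ b ≤ ((2 + 2 / (s₁ / 400)) * x ^ 3) ^ b := pow_le_pow_left₀ (by linarith) n3 b
  have hcost : C * QQ N δ ^ b * Real.exp (-(x / 2)) ≤ 1 := by
    refine le_trans ?_ m1
    gcongr
  have hee : Real.exp (-x) = Real.exp (-(x / 2)) * Real.exp (-(x / 2)) := by
    rw [← Real.exp_add]
    congr 1
    ring
  have hehalf : Real.exp (-(x / 2)) ≤ 1 := Real.exp_le_one_iff.2 (by linarith)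
  have hepos : 0 < Real.exp (-(x / 2)) := Real.exp_pos _
  have hCQ : 0 ≤ C * QQ N δ ^ b := by positivity
  rw [← hx, ← hsdef, ← hddef] at he
  rw [← hsdef, ← hddef] at hc
  have hStep : Step B s₁ κ s d δ (Real.exp (-x)) N Θ :=
    { s_le := hsle
      d_pos := by linarith
      d_lt := by linarith
      δ_pos := hδ
      δ_lt := by linarith
      cand := hc.mono le_rfl le_rfl (κI_le hκ i)
      ε_pos := Real.exp_pos _
      ε_lt := Real.exp_lt_one_iff.2 (by linarith)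
      err := he
      N_pos := n1
      tail := n2 }
  have hsm : C * QQ N δ ^ b * Real.exp (-x) ≤ 1 := by
    rw [hee, ← mul_assoc]
    exact (mul_le_of_le_one_right (by positivity) hehalf).trans hcost
  obtain ⟨Δ, r1, r2, r3, r4, r5⟩ := hN s d δ (Real.exp (-x)) N Θ hStep hsm
  have es : sI s₁ (i + 1) = s - 20 * δ := by rw [sI_succ, hsdef, hδdef]
  have ed : dI s₁ d₀ (i + 1) = d * (1 - 20 * δ) := by rw [hddef, hδdef]; rfl
  have hsize : C * QQ N δ ^ b * Real.exp (-x) ≤ κ * (1 / 2) ^ (i + 1) := by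
    have e1 : C * QQ N δ ^ b * Real.exp (-x) ≤ Real.exp (-(x / 2)) := by
      rw [hee, ← mul_assoc]
      exact mul_le_of_le_one_left hepos.le hcost
    refine e1.trans ?_
    have e2 : (2 : ℝ) ^ (i + 1) ≤ 2 * x ^ 2 := by
      rw [pow_succ, hx]
      have := two_pow_le_sq ha i
      unfold xI
      linarith
    have e3 : (2 : ℝ) ^ (i + 1) * Real.exp (-(x / 2)) ≤ κ :=
      (mul_le_mul_of_nonneg_right e2 hepos.le).trans m2
    have e4 : ((1 : ℝ) / 2) ^ (i + 1) = ((2 : ℝ) ^ (i + 1))⁻¹ := by rw [one_div, inv_pow]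
    rw [e4, ← div_eq_mul_inv, le_div_iff₀ (by positivity)]
    linarith
  refine ⟨Δ, ⟨?_, ?_⟩, ?_⟩
  · rw [es, ed, κI_succ]
    have hd' : d * (1 - 20 * δ) ≤ d := by nlinarith
    exact ((hc.mono (by linarith) hd' le_rfl).add (by linarith) r1 r2 r3 r4).mono le_rfl le_rfl
      (by linarith)
  · rw [es, ed, xI_succ, ← hx]
    refine r5.mono subset_rfl ?_
    have e1 : Real.exp (-(3 / 2 * x)) = Real.exp (-(x / 2)) * Real.exp (-x) := by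
      rw [← Real.exp_add]
      congr 1
      ring
    have e2 : C * QQ N δ ^ b * Real.exp (-x) ^ 2
        = (C * QQ N δ ^ b * Real.exp (-(x / 2))) * (Real.exp (-(x / 2)) * Real.exp (-x)) := by
      rw [sq]
      nth_rewrite 1 [hee]
      ring
    rw [e1, e2]
    exact mul_le_of_le_one_left (by positivity) hcost
  · rw [es, ed]
    intro z hz
    have := r4 0 (by norm_num) z hz
    simp only [iteratedDeriv_zero] at this
    exact this.trans hsize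

end Claimed.Agent.R269.S3
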