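/-
Row 269, Section 3, UNIT H: the limit of the Newton iterates is an exact solution.   Owner: helper228.
-/
import Claimed.Agent.R269.S3.ConvStep
import Claimed.Agent.R269.S3.Gen

set_option autoImplicit false

namespace Claimed.Agent.R269.S3

open Real Complex ComplexConjugate Filter Topology

variable {B : Base} {s₁ κ K : ℝ}

/-- continuity of the stationarity defect in the three angles. -/
theorem Rs_tendsto {h : ℂ → ℂ} {σ : ℝ} (hd : DifferentiableOn ℂ h (hstrip σ)) {u v w : ℕ → ℂ} {u₀ v₀ w₀ : ℂ}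
    (hu : Tendsto u atTop (𝓝 u₀)) (hv : Tendsto v atTop (𝓝 v₀)) (hw : Tendsto w atTop (𝓝 w₀))
    (h1 : (u₀ + v₀) / 2 ∈ hstrip σ) (h2 : (v₀ + w₀) / 2 ∈ hstrip σ) :
    Tendsto (fun i => pOutC h (u i) (v i) - pInC h (v i) (w i)) atTop
      (𝓝 (pOutC h u₀ v₀ - pInC h v₀ w₀)) := by
  have d1 : DifferentiableOn ℂ (fun z : ℂ × ℂ => pOutC h z.1 z.2) (Mid σ) := hol_pOutC hd
  have d2 : DifferentiableOn ℂ (fun z : ℂ × ℂ => pInC h z.1 z.2) (Mid σ) := hol_pInC hd
  have m1 : ((u₀, v₀) : ℂ × ℂ) ∈ Mid σ := h1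
  have m2 : ((v₀, w₀) : ℂ × ℂ) ∈ Mid σ := h2
  have c1 : ContinuousAt (fun z : ℂ × ℂ => pOutC h z.1 z.2) (u₀, v₀) :=
    d1.continuousOn.continuousAt ((isOpen_Mid σ).mem_nhds m1)
  have c2 : ContinuousAt (fun z : ℂ × ℂ => pInC h z.1 z.2) (v₀, w₀) :=
    d2.continuousOn.continuousAt ((isOpen_Mid σ).mem_nhds m2)
  have t1 : Tendsto (fun i => (u i, v i)) atTop (𝓝 (u₀, v₀)) := hu.prodMk_nhds hv
  have t2 : Tendsto (fun i => (v i, w i)) atTop (𝓝 (v₀, w₀)) := hv.prodMk_nhds hw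
  have a1 : Tendsto (fun i => pOutC h (u i) (v i)) atTop (𝓝 (pOutC h u₀ v₀)) := by
    have := c1.tendsto.comp t1
    exact this
  have a2 : Tendsto (fun i => pInC h (v i) (w i)) atTop (𝓝 (pInC h v₀ w₀)) := by
    have := c2.tendsto.comp t2
    exact this
  exact Filter.Tendsto.sub a1 a2

/-- the midpoint of two points of a strip. -/
theorem mid_mem_hstrip {σ : ℝ} {u v : ℂ} (hu : u ∈ hstrip σ) (hv : v ∈ hstrip σ) : (u + v) / 2 ∈ hstrip σ := by
  have h1 : |u.im| < σ := hu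
  have h2 : |v.im| < σ := hv
  show |((u + v) / 2).im| < σ
  have e : ((u + v) / 2).im = (u.im + v.im) / 2 := by simp
  rw [e, abs_lt]
  rw [abs_lt] at h1 h2
  constructor <;> linarith

set_option maxHeartbeats 1600000 in
/-- the limit. -/
theorem conv_limit (hG : Good B s₁ κ K) {d₀ a : ℝ} (hd₀ : 0 < d₀) (hd₀' : d₀ ≤ s₁ / 4) (ha : 1 ≤ a)
    (T : ℕ → ℂ → ℂ → ℂ) (hT : ∀ i, Inv B s₁ κ d₀ a i (T i))
    (hstep : ∀ i, ∀ z ∈ Dom 0 (sI s₁ (i + 1)) (dI s₁ d₀ (i + 1)),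
      ‖T (i + 1) z.1 z.2 - T i z.1 z.2‖ ≤ κ * (1 / 2) ^ (i + 1)) :
    ∃ Θ, Sol B (s₁ / 2) (d₀ / 2) κ Θ := by
  have hs := hG.s₁_pos
  have hs1 := hG.s₁_le_one
  have hκ := hG.κ_pos
  have hs0 : s₁ ≤ B.s₀ := by have := hG.s₁_le; linarith
  obtain ⟨Ω, hΩdef⟩ : ∃ Ω, Ω = Dom 0 (s₁ / 2) (d₀ / 2) := ⟨_, rfl⟩
  have hΩo : IsOpen Ω := hΩdef ▸ isOpen_Dom _ _ _
  have hsub : ∀ i, Ω ⊆ Dom 0 (sI s₁ i) (dI s₁ d₀ i) := fun i => hΩdef ▸
    Dom_mono le_rfl (by have := sI_ge hs i; linarith) (by have := dI_ge hs hs1 hd₀ i; linarith)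
  -- pointwise convergence
  have hu : ∀ z ∈ Ω, ∀ n, dist (T n z.1 z.2) (T (n + 1) z.1 z.2) ≤ κ / 2 * (1 / 2) ^ n := by
    intro z hz n
    rw [dist_comm, dist_eq_norm]
    refine (hstep n z (hsub _ hz)).trans (le_of_eq ?_)
    rw [pow_succ]
    ring
  have hcau : ∀ z ∈ Ω, CauchySeq fun n => T n z.1 z.2 := fun z hz =>
    cauchySeq_of_le_geometric (1 / 2) (κ / 2) (by norm_num) (hu z hz)
  obtain ⟨G, hGdef⟩ : ∃ G : ℂ → ℂ → ℂ, G = fun y t => limUnder atTop fun n => T n y t := ⟨_, rfl⟩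
  have hlim : ∀ z ∈ Ω, Tendsto (fun n => T n z.1 z.2) atTop (𝓝 (G z.1 z.2)) := by
    intro z hz
    rw [hGdef]
    exact CauchySeq.tendsto_limUnder (hcau z hz)
  have hrate : ∀ i, ∀ z ∈ Ω, ‖T i z.1 z.2 - G z.1 z.2‖ ≤ κ * (1 / 2) ^ i := by
    intro i z hz
    have := dist_le_of_le_geometric_of_tendsto (1 / 2) (κ / 2) (by norm_num) (hu z hz) (hlim z hz) i
    rw [dist_eq_norm] at this
    refine this.trans (le_of_eq ?_)
    ring
  have ha0 : Tendsto (fun i : ℕ => κ * ((1 : ℝ) / 2) ^ i) atTop (𝓝 0) := by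
    have := (tendsto_pow_atTop_nhds_zero_of_lt_one (r := (1 : ℝ) / 2) (by norm_num) (by norm_num)).const_mul κ
    simpa using this
  have hmemΩ : ∀ {y t : ℂ}, y ∈ hstrip (s₁ / 2) → ‖t‖ < d₀ / 2 → (y, t) ∈ Ω := fun hy ht =>
    hΩdef ▸ mem_Dom0 hy ht
  have hΩy : ∀ z ∈ Ω, z.1 ∈ hstrip (s₁ / 2) := fun z hz => mem_hstrip_of_Dom0 (hΩdef ▸ hz)
  have hΩt : ∀ z ∈ Ω, ‖z.2‖ < d₀ / 2 := fun z hz => (hΩdef ▸ hz : z ∈ Dom 0 (s₁ / 2) (d₀ / 2)).1
  have hsI0 : ∀ i, sI s₁ i ≤ B.s₀ := fun i => (sI_le hs i).trans hs0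
  refine ⟨G, ?_, ⟨?_, ?_, ?_⟩, ?_, ?_, ?_⟩
  · -- holomorphy
    rw [← hΩdef]
    exact hol_lim hΩo (fun i => (hT i).1.hol.mono (hsub i)) ha0 hrate
  · -- periodicity
    rw [← hΩdef]
    intro z hz
    have hz' : (z.1 + 2 * π, z.2) ∈ Ω := by
      refine hmemΩ ?_ (hΩt z hz)
      have := add_real_mem_hstrip (hΩy z hz) (2 * π)
      simpa using this
    have l1 : Tendsto (fun n => T n (z.1 + 2 * π) z.2) atTop (𝓝 (G (z.1 + 2 * π) z.2)) := hlim _ hz'
    have l2 := (hlim z hz).add_const (2 * (π : ℂ))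
    have e : (fun n => T n (z.1 + 2 * π) z.2) = fun n => T n z.1 z.2 + 2 * π := by
      funext n
      exact (hT n).1.per' (hsI0 n) z (hsub n hz)
    rw [e] at l1
    have := tendsto_nhds_unique l1 l2
    show G (z.1 + 2 * π) z.2 - B.φ (z.1 + 2 * π) = G z.1 z.2 - B.φ z.1
    rw [this, B.φ_per z.1 (hstrip_mono (by linarith) (hΩy z hz))]
    ring
  · -- evenness
    rw [← hΩdef]
    intro z hz
    have hz' : (z.1, -z.2) ∈ Ω := hmemΩ (hΩy z hz) (by simpa using hΩt z hz)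
    have l1 : Tendsto (fun n => T n z.1 (-z.2)) atTop (𝓝 (G z.1 (-z.2))) := hlim _ hz'
    have l2 := hlim z hz
    have e : (fun n => T n z.1 (-z.2)) = fun n => T n z.1 z.2 := by
      funext n
      exact (hT n).1.even' z (hsub n hz)
    rw [e] at l1
    show G z.1 (-z.2) - B.φ z.1 = G z.1 z.2 - B.φ z.1
    rw [tendsto_nhds_unique l1 l2]
  · -- reality
    rw [← hΩdef]
    intro z hz
    have hz' : (conj z.1, conj z.2) ∈ Ω := by
      refine hmemΩ ?_ (by simpa using hΩt z hz)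
      have : |z.1.im| < s₁ / 2 := hΩy z hz
      show |(conj z.1).im| < s₁ / 2
      simpa using this
    have l1 : Tendsto (fun n => T n (conj z.1) (conj z.2)) atTop (𝓝 (G (conj z.1) (conj z.2))) := hlim _ hz'
    have l2 : Tendsto (fun n => conj (T n z.1 z.2)) atTop (𝓝 (conj (G z.1 z.2))) :=
      (Complex.continuous_conj.tendsto _).comp (hlim z hz)
    have e : (fun n => T n (conj z.1) (conj z.2)) = fun n => conj (T n z.1 z.2) := by
      funext n
      exact (hT n).1.real' (hsI0 n) z (hsub n hz)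
    rw [e] at l1
    show G (conj z.1) (conj z.2) - B.φ (conj z.1) = conj (G z.1 z.2 - B.φ z.1)
    rw [map_sub, tendsto_nhds_unique l1 l2, B.φ_conj z.1 (hstrip_mono (by linarith) (hΩy z hz))]
  · -- the value at `t = 0`
    intro y hy
    have hz : ((y, 0) : ℂ × ℂ) ∈ Ω := hmemΩ hy (by simpa using half_pos hd₀)
    have l1 : Tendsto (fun n => T n y 0) atTop (𝓝 (G y 0)) := hlim _ hz
    have e : (fun n => T n y 0) = fun _ => B.φ y := by
      funext n
      exact (hT n).1.zero y (mem_hstrip_of_Dom0 (hsub n hz))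
    rw [e] at l1
    exact (tendsto_nhds_unique l1 tendsto_const_nhds)
  · -- smallness
    rw [← hΩdef]
    intro z hz
    have l1 : Tendsto (fun n => ‖T n z.1 z.2 - B.φ z.1‖) atTop (𝓝 ‖G z.1 z.2 - B.φ z.1‖) :=
      ((hlim z hz).sub_const _).norm
    exact le_of_tendsto' l1 fun n => ((hT n).1.bd0 z (hsub n hz)).trans (κI_le hκ n)
  · -- stationarity
    rintro ⟨y, t⟩ hz
    show Rs B.hc (fun x => G x t) t y = 0
    have htd : ‖t‖ < d₀ / 2 := hz.1
    have hy1 : |y.im| < s₁ / 2 - 1 * |t.im| := hz.2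
    have hy : y ∈ hstrip (s₁ / 2) := by
      show |y.im| < s₁ / 2
      have := abs_nonneg t.im
      linarith
    have hyp : y + t ∈ hstrip (s₁ / 2) := by
      show |(y + t).im| < s₁ / 2
      have := abs_add_le y.im t.im
      simp only [Complex.add_im]
      linarith
    have hym : y - t ∈ hstrip (s₁ / 2) := by
      show |(y - t).im| < s₁ / 2
      have := abs_sub y.im t.im
      simp only [Complex.sub_im]
      linarith
    by_cases ht : t = 0
    · subst ht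
      simp [Rs, pOutC_self, pInC_self]
    -- the three values lie in a strip where `hc` is holomorphic
    have hval : ∀ x ∈ hstrip (s₁ / 2), G x t ∈ hstrip B.σ := by
      intro x hx
      have hzx : (x, t) ∈ Ω := hmemΩ hx htd
      have l1 : Tendsto (fun n => ‖T n x t - B.φ x‖) atTop (𝓝 ‖G x t - B.φ x‖) :=
        ((hlim _ hzx).sub_const _).norm
      have b1 : ‖G x t - B.φ x‖ ≤ κ :=
        le_of_tendsto' l1 fun n => ((hT n).1.bd0 _ (hsub n hzx)).trans (κI_le hκ n)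
      have b2 : |(B.φ x).im| < B.σ / 4 := B.φ_maps x (hstrip_mono (by linarith) hx)
      have b3 : |(G x t - B.φ x).im| ≤ ‖G x t - B.φ x‖ := Complex.abs_im_le_norm _
      have b4 : (G x t).im = (G x t - B.φ x).im + (B.φ x).im := by simp
      show |(G x t).im| < B.σ
      rw [b4]
      have := abs_add_le (G x t - B.φ x).im (B.φ x).im
      have := hG.κ_le_σ
      have := B.σ_pos
      linarith
    have lR := Rs_tendsto B.hc_diff (hlim _ (hmemΩ hym htd)) (hlim _ (hmemΩ hy htd)) (hlim _ (hmemΩ hyp htd))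
      (mid_mem_hstrip (hval _ hym) (hval _ hy)) (mid_mem_hstrip (hval _ hy) (hval _ hyp))
    simp only at lR
    -- the defects of the iterates tend to zero
    have hm7 : 0 < B.mφ - κ := by have := hG.κ_le_m; linarith
    have hbound : ∀ n, ‖pOutC B.hc (T n (y - t) t) (T n y t) - pInC B.hc (T n y t) (T n (y + t) t)‖
        ≤ Real.exp (-xI a n) * (B.c * ‖t‖ ^ 3 / (B.mφ - κ)) := by
      intro n
      have hzn : ((y, t) : ℂ × ℂ) ∈ Dom 1 (sI s₁ n) (dI s₁ d₀ n) :=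
        Dom_mono le_rfl (by have := sI_ge hs n; linarith) (by have := dI_ge hs hs1 hd₀ n; linarith) hz
      have e1 := (hT n).2 _ hzn
      simp only [E, if_neg ht, Es, Rs] at e1
      have e2 := ((hT n).1.mono le_rfl le_rfl (κI_le hκ n)).dy_ge (hsI0 n) _ (hsub n (hmemΩ hy htd))
      simp only [dy] at e2
      generalize pOutC B.hc (T n (y - t) t) (T n y t) - pInC B.hc (T n y t) (T n (y + t) t) = R at e1 ⊢
      generalize deriv (fun x => T n x t) y = D at e1 e2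
      have hc := B.c_pos
      have htn : 0 < ‖t‖ := norm_pos_iff.2 ht
      rw [norm_div, norm_mul, norm_mul, norm_pow, Complex.norm_real, Real.norm_eq_abs, abs_of_pos hc,
        div_le_iff₀ (by positivity)] at e1
      have hD : 0 < ‖D‖ := lt_of_lt_of_le hm7 e2
      have e3 : (B.mφ - κ) * ‖R‖ ≤ Real.exp (-xI a n) * (B.c * ‖t‖ ^ 3) :=
        (mul_le_mul_of_nonneg_right e2 (norm_nonneg _)).trans e1
      rw [← mul_div_assoc, le_div_iff₀ hm7]
      linarith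
    have hx0 : Tendsto (fun n => Real.exp (-xI a n) * (B.c * ‖t‖ ^ 3 / (B.mφ - κ))) atTop (𝓝 0) := by
      have h1 : Tendsto (fun n => xI a n) atTop atTop := by
        unfold xI
        exact (tendsto_pow_atTop_atTop_of_one_lt (by norm_num : (1 : ℝ) < 3 / 2)).const_mul_atTop
          (by linarith)
      have h2 : Tendsto (fun n => Real.exp (-xI a n)) atTop (𝓝 0) :=
        Real.tendsto_exp_neg_atTop_nhds_zero.comp h1
      simpa using h2.mul_const (B.c * ‖t‖ ^ 3 / (B.mφ - κ))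
    have l0 := squeeze_zero_norm hbound hx0
    exact tendsto_nhds_unique lR l0

end Claimed.Agent.R269.S3
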