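/-
Row 269, Section 3, UNIT C, leaf packages LF-S3-C1 (`fac_Es_bd`) and LF-S3-C2 (`fac_As_est`): the two uniform bounds.   Statements + plans: helper228.
Uses Gen (`gen_bounds`, partial derivatives), FacSlice (`slice_C3`, `Slice.mem`, `strip_lip`, `strip_second_diff`).   ~300 lines each.

C1.  Fix a `2κ`-slice `f` on `hstrip s`, `t ≠ 0`, `|Im y| + |Im t| < s`.   `θ = f y`, `β₊ = f(y+t) - f y`, `β₋ = f(y-t) - f y`, `g(β) := -pInC h θ (θ + β)`.   By `pOutC_swap`: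
     `Rs h f t y = pInC h θ (θ+β₋) - pInC h θ (θ+β₊) = g(β₊) - g(β₋)`,      `g'(β) = S12 h θ (θ+β) = rad h (θ + β/2) sin(β/2)/2`   (`hasDerivAt_pInC_right`).
   `|β_±| ≤ L|t|`,  `|β₊ + β₋| ≤ L|t|²`.    All midpoints `θ + β/2`, `β` in the convex hull of `{±β₊, ±β₋}`, lie in `hstrip (3σ/4)` (imaginary part `≤ 2 · 3σ/8`).
   (a) `|g(β₊) - g(-β₋)| ≤ |β₊ + β₋| sup|g'| ≤ L|t|² · C (L|t|)`          (mean value inequality on the segment; `|S12 h u v| ≤ C |v - u|`);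
   (b) `G(β) := g(β) - g(-β)`, `G 0 = 0`, `G'(β) = (1/2) sin(β/2) [rad h (θ+β/2) - rad h (θ-β/2)]`, `|G'(β)| ≤ C' |β|²`, so `|G(β₋)| ≤ C' |β₋|³`.
   Hence `|Rs| ≤ C'' |t|³` and `|Es| = |f'||Rs|/(c|t|³) ≤ L C''/c`.     (`‖t‖ < s₁ ≤ 1` keeps `|β| ≤ L`: use `gen_bounds` with `R = 2L`; any constant depending only on `B` is fine.)
C2.  `4 As - 1 = (2 rad h ψ · sin d · f'₋ f'₊ / t - c)/c`,  `ψ = (f(y-t/2) + f(y+t/2))/2`, `d = (f(y+t/2) - f(y-t/2))/2`, `f'_± = f'(y ± t/2)`;   `c = rad h (φ y) φ'(y)³` (`B.normal`).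
   `|rad h ψ - rad h (φ y)| ≤ C (2κ + L|t|)`;   `|2 sin d/t - φ'(y)| ≤ |2d/t - f'(y)| + 2κ + 2|sin d - d|/|t| ≤ L|t| + 2κ + L³|t|²`;   `|f'_± - φ'(y)| ≤ 2κ + L|t|`.
   A product of four factors, each within `C(κ + |t|)` of `(rad h (φ y), φ', φ', φ')`, all bounded by a constant.
-/
import Claimed.Agent.R269.S3.FacSlice
import Claimed.Agent.R269.S3.Gen

set_option autoImplicit false

namespace Claimed.Agent.R269.S3

open Real Complex ComplexConjugate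

/-- the symmetric convex set of increments used in C1. -/
def facD (τ ρ : ℝ) (θ : ℂ) : Set ℂ := {β | θ + β / 2 ∈ hstrip τ ∧ θ - β / 2 ∈ hstrip τ ∧ ‖β‖ ≤ ρ}

theorem fac_convex_D (τ ρ : ℝ) (θ : ℂ) : Convex ℝ (facD τ ρ θ) := by
  intro x hx y hy a b ha hb hab
  have hb' : (b : ℂ) = 1 - a := by
    have : (a : ℂ) + b = 1 := by exact_mod_cast hab
    linear_combination this
  refine ⟨?_, ?_, ?_⟩
  · have h := convex_hstrip τ hx.1 hy.1 ha hb hab
    have e : a • (θ + x / 2) + b • (θ + y / 2) = θ + (a • x + b • y) / 2 := by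
      simp only [Complex.real_smul, hb']; ring
    rwa [e] at h
  · have h := convex_hstrip τ hx.2.1 hy.2.1 ha hb hab
    have e : a • (θ - x / 2) + b • (θ - y / 2) = θ - (a • x + b • y) / 2 := by
      simp only [Complex.real_smul, hb']; ring
    rwa [e] at h
  · have h := convex_closedBall (0 : ℂ) ρ (x := x) (y := y) (by simpa using hx.2.2)
      (by simpa using hy.2.2) ha hb hab
    simpa using h

theorem fac_neg_mem_D {τ ρ : ℝ} {θ β : ℂ} (h : β ∈ facD τ ρ θ) : -β ∈ facD τ ρ θ := by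
  refine ⟨?_, ?_, by simpa using h.2.2⟩
  · have : θ + -β / 2 = θ - β / 2 := by ring
    rw [this]; exact h.2.1
  · have : θ - -β / 2 = θ + β / 2 := by ring
    rw [this]; exact h.1

theorem fac_hasDerivAt_g {h : ℂ → ℂ} {σ : ℝ} (hd : DifferentiableOn ℂ h (hstrip σ)) {θ β : ℂ}
    (hm : θ + β / 2 ∈ hstrip σ) :
    HasDerivAt (fun x => pInC h θ (θ + x)) (-(rad h (θ + β / 2) * Complex.sin (β / 2) / 2)) β := by
  have e1 : (θ + (θ + β)) / 2 = θ + β / 2 := by ring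
  have e2 : (θ + β - θ) / 2 = β / 2 := by ring
  have h1 := hasDerivAt_pInC_right hd (u := θ) (v := θ + β) (by rw [e1]; exact hm)
  have h2 := h1.comp_const_add θ β
  simp only [S12, e1, e2] at h2
  exact h2

/-- the core estimate of C1. -/
theorem fac_core {h : ℂ → ℂ} {σ C ρ : ℝ} (hσ : 0 < σ) (hd : DifferentiableOn ℂ h (hstrip σ))
    (hC : ∀ z ∈ hstrip (7 * σ / 8), ‖rad h z‖ ≤ C ∧ ‖deriv (rad h) z‖ ≤ C)
    {θ a b : ℂ} (ha : a ∈ facD (7 * σ / 8) ρ θ) (hb : b ∈ facD (7 * σ / 8) ρ θ) :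
    ‖pInC h θ (θ + b) - pInC h θ (θ + a)‖
      ≤ C * Real.exp (ρ / 2) * ρ / 4 * ‖a + b‖ + C * Real.exp (ρ / 2) * ρ ^ 3 / 4 := by
  have hsub : hstrip (7 * σ / 8) ⊆ hstrip σ := fs_hstrip_mono (by linarith)
  have hρ : 0 ≤ ρ := (norm_nonneg _).trans ha.2.2
  have hC0 : 0 ≤ C := (norm_nonneg _).trans (hC _ ha.1).1
  have hconv := fac_convex_D (7 * σ / 8) ρ θ
  have hsin : ∀ β ∈ facD (7 * σ / 8) ρ θ, ‖Complex.sin (β / 2)‖ ≤ Real.exp (ρ / 2) * (ρ / 2) := by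
    intro β hβ
    have h1 : ‖β / 2‖ ≤ ρ / 2 := by
      rw [norm_div]
      have h4 : ‖(2 : ℂ)‖ = 2 := by simp
      rw [h4]; linarith [hβ.2.2]
    exact (gen_norm_sin_le_mul (β / 2)).trans
      (mul_le_mul (Real.exp_le_exp.2 h1) h1 (norm_nonneg _) (Real.exp_pos _).le)
  -- (a)
  have hA : ‖pInC h θ (θ + a) - pInC h θ (θ + -b)‖ ≤ C * (Real.exp (ρ / 2) * (ρ / 2)) / 2 * ‖a - -b‖ := by
    refine hconv.norm_image_sub_le_of_norm_hasDerivWithin_le (f := fun x => pInC h θ (θ + x))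
      (fun β hβ => (fac_hasDerivAt_g hd (hsub hβ.1)).hasDerivWithinAt) (fun β hβ => ?_)
      (fac_neg_mem_D hb) ha
    rw [norm_neg, norm_div, norm_mul]
    have h4 : ‖(2 : ℂ)‖ = 2 := by simp
    rw [h4]
    exact div_le_div_of_nonneg_right (mul_le_mul (hC _ hβ.1).1 (hsin β hβ) (norm_nonneg _) hC0)
      (by norm_num)
  -- (b)
  have hradlip := strip_lip (diff_rad hd |>.mono hsub) (fun z hz => (hC z hz).2)
  have hB : ‖(pInC h θ (θ + b) - pInC h θ (θ + -b)) - (pInC h θ (θ + 0) - pInC h θ (θ + -0))‖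
      ≤ C * ρ * (Real.exp (ρ / 2) * (ρ / 2)) / 2 * ‖b - 0‖ := by
    refine hconv.norm_image_sub_le_of_norm_hasDerivWithin_le
      (f := fun x => pInC h θ (θ + x) - pInC h θ (θ + -x))
      (f' := fun β => -((rad h (θ + β / 2) - rad h (θ - β / 2)) * Complex.sin (β / 2) / 2))
      (fun β hβ => ?_) (fun β hβ => ?_) (x := 0) (y := b) ?_ hb
    · have h1 := fac_hasDerivAt_g hd (hsub hβ.1)
      have h2 := fac_hasDerivAt_g hd (θ := θ) (β := -β) (by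
        have : θ + -β / 2 = θ - β / 2 := by ring
        rw [this]; exact hsub hβ.2.1)
      have h3 := h2.scomp β (hasDerivAt_neg β)
      refine ((h1.sub h3).congr_deriv ?_).hasDerivWithinAt
      have e1 : θ + -(β / 2) = θ - β / 2 := by ring
      have e2 : -β / 2 = -(β / 2) := by ring
      simp only [e2, e1, Complex.sin_neg, smul_eq_mul]
      ring
    · rw [norm_neg, norm_div, norm_mul]
      have h4 : ‖(2 : ℂ)‖ = 2 := by simp
      rw [h4]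
      have h5 := hradlip _ hβ.1 _ hβ.2.1
      have e : θ + β / 2 - (θ - β / 2) = β := by ring
      rw [e] at h5
      have h6 : ‖rad h (θ + β / 2) - rad h (θ - β / 2)‖ ≤ C * ρ :=
        h5.trans (mul_le_mul_of_nonneg_left hβ.2.2 hC0)
      exact div_le_div_of_nonneg_right
        (mul_le_mul h6 (hsin β hβ) (norm_nonneg _) (by positivity)) (by norm_num)
    · have h0 := hconv ha (fac_neg_mem_D ha) (a := 1 / 2) (b := 1 / 2) (by norm_num) (by norm_num)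
        (by norm_num)
      simpa using h0
  simp only [neg_zero, sub_self, sub_zero] at hB
  have e : pInC h θ (θ + b) - pInC h θ (θ + a)
      = (pInC h θ (θ + b) - pInC h θ (θ + -b)) - (pInC h θ (θ + a) - pInC h θ (θ + -b)) := by ring
  rw [e]
  refine (norm_sub_le _ _).trans ?_
  have e2 : a - -b = a + b := by ring
  rw [e2] at hA
  have hb2 : C * ρ * (Real.exp (ρ / 2) * (ρ / 2)) / 2 * ‖b‖ ≤ C * ρ * (Real.exp (ρ / 2) * (ρ / 2)) / 2 * ρ :=
    mul_le_mul_of_nonneg_left hb.2.2 (by positivity)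
  calc _ ≤ C * ρ * (Real.exp (ρ / 2) * (ρ / 2)) / 2 * ρ + C * (Real.exp (ρ / 2) * (ρ / 2)) / 2 * ‖a + b‖ :=
        add_le_add (hB.trans hb2) hA
    _ = _ := by ring

theorem fac_mem_D {σ ρ : ℝ} (hσ : 0 < σ) {u v : ℂ} (hu : u ∈ hstrip (3 * σ / 8)) (hv : v ∈ hstrip (3 * σ / 8))
    (hρ : ‖v - u‖ ≤ ρ) : v - u ∈ facD (7 * σ / 8) ρ u := by
  have hu' : |u.im| < 3 * σ / 8 := hu
  have hv' : |v.im| < 3 * σ / 8 := hv
  have him : ∀ w : ℂ, (w / 2).im = w.im / 2 := fun w => by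
    rw [show w / 2 = ((1 / 2 : ℝ) : ℂ) * w by push_cast; ring, Complex.im_ofReal_mul]; ring
  rw [abs_lt] at hu' hv'
  refine ⟨?_, ?_, hρ⟩
  · show |(u + (v - u) / 2).im| < 7 * σ / 8
    rw [Complex.add_im, him, Complex.sub_im, abs_lt]
    constructor <;> linarith [hu'.1, hu'.2, hv'.1, hv'.2]
  · show |(u - (v - u) / 2).im| < 7 * σ / 8
    rw [Complex.sub_im, him, Complex.sub_im, abs_lt]
    constructor <;> linarith [hu'.1, hu'.2, hv'.1, hv'.2]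

theorem fac_strip_pts {s : ℝ} {y t : ℂ} (h : |y.im| + |t.im| < s) :
    y ∈ hstrip s ∧ y + t ∈ hstrip s ∧ y - t ∈ hstrip s := by
  refine ⟨?_, ?_, ?_⟩
  · show |y.im| < s
    have := abs_nonneg t.im
    linarith
  · show |(y + t).im| < s
    rw [Complex.add_im]
    have := abs_add_le y.im t.im
    linarith
  · show |(y - t).im| < s
    rw [Complex.sub_im]
    have := abs_sub y.im t.im
    linarith

/-- LEAF LF-S3-C1. -/
theorem fac_Es_bd (B : Base) : ∃ K₀ : ℝ, 1 ≤ K₀ ∧ ∀ s₁ κ : ℝ, Pre B s₁ κ → FEsBd B s₁ κ K₀ := by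
  obtain ⟨L, hL1, hL⟩ := slice_C3 B
  obtain ⟨C, hC1, hCrad, -⟩ := gen_bounds B.σ_pos B.hc_diff B.hc_bdd 0
  have hc := B.c_pos
  have hL0 : 0 ≤ L := by linarith
  have hC0 : 0 ≤ C := by linarith
  refine ⟨1 + L * (C * Real.exp (L / 2) * (L ^ 2 + L ^ 3) / 4) / B.c, ?_, ?_⟩
  · have : 0 ≤ L * (C * Real.exp (L / 2) * (L ^ 2 + L ^ 3) / 4) / B.c := by positivity
    linarith
  intro s₁ κ hp s hs f hf t y ht0 ht hyt
  obtain ⟨hy, hyp, hym⟩ := fac_strip_pts hyt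
  have hmem := hf.mem hp hs
  have hder : ∀ x ∈ hstrip s, ‖deriv f x‖ ≤ L := fun x hx => (hL s₁ κ hp s hs f hf x hx).1
  have hder2 : ∀ x ∈ hstrip s, ‖iteratedDeriv 2 f x‖ ≤ L := fun x hx => (hL s₁ κ hp s hs f hf x hx).2.1
  have hlip := strip_lip hf.diff hder
  have htn : 0 < ‖t‖ := norm_pos_iff.2 ht0
  have ht1 : ‖t‖ ≤ 1 := by have := hp.s₁_le_one; linarith
  have ha : ‖f (y + t) - f y‖ ≤ L * ‖t‖ := by
    have := hlip _ hyp _ hy
    simpa using this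
  have hb : ‖f (y - t) - f y‖ ≤ L * ‖t‖ := by
    have := hlip _ hym _ hy
    simpa using this
  have hab : ‖(f (y + t) - f y) + (f (y - t) - f y)‖ ≤ L * ‖t‖ ^ 2 := by
    have := strip_second_diff hf.diff hder2 hyp hym
    have e : (f (y + t) - f y) + (f (y - t) - f y) = f (y + t) + f (y - t) - 2 * f y := by ring
    rwa [e]
  have hcore := fac_core B.σ_pos B.hc_diff hCrad
    (fac_mem_D B.σ_pos (hmem y hy) (hmem _ hyp) ha) (fac_mem_D B.σ_pos (hmem y hy) (hmem _ hym) hb)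
  rw [add_sub_cancel, add_sub_cancel] at hcore
  have hRs : Rs B.hc f t y = pInC B.hc (f y) (f (y - t)) - pInC B.hc (f y) (f (y + t)) := by
    simp only [Rs, pOutC_swap]
  have hρ : L * ‖t‖ ≤ L := by nlinarith
  have hexp : Real.exp (L * ‖t‖ / 2) ≤ Real.exp (L / 2) := Real.exp_le_exp.2 (by linarith)
  have hE0 : 0 < Real.exp (L * ‖t‖ / 2) := Real.exp_pos _
  have hbound : ‖Rs B.hc f t y‖ ≤ C * Real.exp (L / 2) * (L ^ 2 + L ^ 3) / 4 * ‖t‖ ^ 3 := by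
    rw [hRs]
    refine hcore.trans ?_
    have h1 : C * Real.exp (L * ‖t‖ / 2) * (L * ‖t‖) / 4 * ‖f (y + t) - f y + (f (y - t) - f y)‖
        ≤ C * Real.exp (L / 2) * (L * ‖t‖) / 4 * (L * ‖t‖ ^ 2) := by
      refine mul_le_mul ?_ hab (norm_nonneg _) (by positivity)
      have : C * Real.exp (L * ‖t‖ / 2) ≤ C * Real.exp (L / 2) := mul_le_mul_of_nonneg_left hexp hC0
      have h2 : 0 ≤ L * ‖t‖ := by positivity
      nlinarith
    have h2 : C * Real.exp (L * ‖t‖ / 2) * (L * ‖t‖) ^ 3 / 4 ≤ C * Real.exp (L / 2) * (L * ‖t‖) ^ 3 / 4 := by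
      have : C * Real.exp (L * ‖t‖ / 2) ≤ C * Real.exp (L / 2) := mul_le_mul_of_nonneg_left hexp hC0
      have h3 : 0 ≤ (L * ‖t‖) ^ 3 := by positivity
      nlinarith
    calc _ ≤ C * Real.exp (L / 2) * (L * ‖t‖) / 4 * (L * ‖t‖ ^ 2) + C * Real.exp (L / 2) * (L * ‖t‖) ^ 3 / 4 :=
          add_le_add h1 h2
      _ = _ := by ring
  have hEs : ‖Es B f t y‖ = ‖deriv f y‖ * ‖Rs B.hc f t y‖ / (B.c * ‖t‖ ^ 3) := by
    simp only [Es]
    rw [norm_div, norm_mul, norm_mul, norm_pow, Complex.norm_real, Real.norm_eq_abs, abs_of_pos hc]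
  rw [hEs, div_le_iff₀ (by positivity)]
  have h3 : ‖deriv f y‖ * ‖Rs B.hc f t y‖ ≤ L * (C * Real.exp (L / 2) * (L ^ 2 + L ^ 3) / 4 * ‖t‖ ^ 3) :=
    mul_le_mul (hder y hy) hbound (norm_nonneg _) hL0
  refine h3.trans ?_
  have h4 : (1 + L * (C * Real.exp (L / 2) * (L ^ 2 + L ^ 3) / 4) / B.c) * (B.c * ‖t‖ ^ 3)
      = B.c * ‖t‖ ^ 3 + L * (C * Real.exp (L / 2) * (L ^ 2 + L ^ 3) / 4 * ‖t‖ ^ 3) := by
    field_simp
  rw [h4]
  have : 0 ≤ B.c * ‖t‖ ^ 3 := by positivity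
  linarith

/-! ### C2 -/

theorem fac_norm_cos_sub_one_le (w : ℂ) : ‖Complex.cos w - 1‖ ≤ Real.exp ‖w‖ * ‖w‖ := by
  have h := (convex_closedBall (0 : ℂ) ‖w‖).norm_image_sub_le_of_norm_hasDerivWithin_le
    (f := Complex.cos) (f' := fun x => -Complex.sin x) (C := Real.exp ‖w‖)
    (fun x _ => (Complex.hasDerivAt_cos x).hasDerivWithinAt)
    (fun x hx => by
      rw [norm_neg]
      exact (gen_norm_sin_le x).trans (Real.exp_le_exp.2 (by simpa using hx)))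
    (x := 0) (y := w) (by simp) (by simp)
  simpa using h

theorem fac_norm_sin_sub_le (w : ℂ) : ‖Complex.sin w - w‖ ≤ Real.exp ‖w‖ * ‖w‖ ^ 2 := by
  have h := (convex_closedBall (0 : ℂ) ‖w‖).norm_image_sub_le_of_norm_hasDerivWithin_le
    (f := fun x => Complex.sin x - x) (f' := fun x => Complex.cos x - 1) (C := Real.exp ‖w‖ * ‖w‖)
    (fun x _ => ((Complex.hasDerivAt_sin x).sub (hasDerivAt_id x)).hasDerivWithinAt)
    (fun x hx => by
      have hx' : ‖x‖ ≤ ‖w‖ := by simpa using hx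
      exact (fac_norm_cos_sub_one_le x).trans
        (mul_le_mul (Real.exp_le_exp.2 hx') hx' (norm_nonneg _) (Real.exp_pos _).le))
    (x := 0) (y := w) (by simp) (by simp)
  have e : Real.exp ‖w‖ * ‖w‖ * ‖w - 0‖ = Real.exp ‖w‖ * ‖w‖ ^ 2 := by rw [sub_zero]; ring
  rw [e] at h
  simpa using h

/-- a product of four factors. -/
theorem fac_prod4 {P1 P2 P3 P4 Q1 Q2 Q3 Q4 : ℂ} {C L δ : ℝ} (hP1 : ‖P1‖ ≤ C) (hQ1 : ‖Q1‖ ≤ C)
    (hP3 : ‖P3‖ ≤ L) (hP4 : ‖P4‖ ≤ L) (hQ2 : ‖Q2‖ ≤ L) (hQ3 : ‖Q3‖ ≤ L)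
    (h1 : ‖P1 - Q1‖ ≤ δ) (h2 : ‖P2 - Q2‖ ≤ δ) (h3 : ‖P3 - Q3‖ ≤ δ) (h4 : ‖P4 - Q4‖ ≤ δ) :
    ‖P1 * P2 * P3 * P4 - Q1 * Q2 * Q3 * Q4‖ ≤ δ * (3 * C * L ^ 2 + L ^ 3) := by
  have hC : 0 ≤ C := (norm_nonneg _).trans hP1
  have hL : 0 ≤ L := (norm_nonneg _).trans hP3
  have hδ : 0 ≤ δ := (norm_nonneg _).trans h1
  have e : P1 * P2 * P3 * P4 - Q1 * Q2 * Q3 * Q4
      = (P2 - Q2) * (P1 * (P3 * P4)) + (P1 - Q1) * (Q2 * (P3 * P4)) + (P3 - Q3) * (Q1 * (Q2 * P4))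
        + (P4 - Q4) * (Q1 * (Q2 * Q3)) := by ring
  rw [e]
  have m2 : ∀ {a b : ℂ} {x y : ℝ}, ‖a‖ ≤ x → ‖b‖ ≤ y → 0 ≤ x → ‖a * b‖ ≤ x * y := by
    intro a b x y ha hb hx
    rw [norm_mul]
    exact mul_le_mul ha hb (norm_nonneg _) hx
  have t1 := m2 h2 (m2 hP1 (m2 hP3 hP4 hL) hC) hδ
  have t2 := m2 h1 (m2 hQ2 (m2 hP3 hP4 hL) hL) hδ
  have t3 := m2 h3 (m2 hQ1 (m2 hQ2 hP4 hL) hC) hδ
  have t4 := m2 h4 (m2 hQ1 (m2 hQ2 hQ3 hL) hC) hδ
  calc _ ≤ δ * (C * (L * L)) + δ * (L * (L * L)) + δ * (C * (L * L)) + δ * (C * (L * L)) :=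
        (norm_add_le _ _).trans (add_le_add ((norm_add_le _ _).trans (add_le_add
          ((norm_add_le _ _).trans (add_le_add t1 t2)) t3)) t4)
    _ = _ := by ring

theorem fac_strip_half {s : ℝ} {y t : ℂ} (h : |y.im| + |t.im| / 2 < s) :
    y ∈ hstrip s ∧ y + t / 2 ∈ hstrip s ∧ y - t / 2 ∈ hstrip s := by
  have him : (t / 2).im = t.im / 2 := by
    rw [show t / 2 = ((1 / 2 : ℝ) : ℂ) * t by push_cast; ring, Complex.im_ofReal_mul]; ring
  have h2 : |(t / 2).im| = |t.im| / 2 := by rw [him, abs_div, abs_two]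
  exact fac_strip_pts (by rw [h2]; exact h)

/-- symmetric difference quotient. -/
theorem fac_sym_diff {g : ℂ → ℂ} {s L : ℝ} (hg : DifferentiableOn ℂ g (hstrip s))
    (hL : ∀ y ∈ hstrip s, ‖iteratedDeriv 2 g y‖ ≤ L) {y r : ℂ} (hy : y ∈ hstrip s) (h1 : y + r ∈ hstrip s)
    (h2 : y - r ∈ hstrip s) : ‖g (y + r) - g (y - r) - 2 * r * deriv g y‖ ≤ 2 * L * ‖r‖ ^ 2 := by
  have hg' : DifferentiableOn ℂ (deriv g) (hstrip s) := hg.deriv (isOpen_hstrip _)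
  have hL' : ∀ x ∈ hstrip s, ‖deriv (deriv g) x‖ ≤ L := fun x hx => by
    have := hL x hx
    rwa [iteratedDeriv_succ, iteratedDeriv_one] at this
  have hlip := strip_lip hg' hL'
  have hL0 : 0 ≤ L := (norm_nonneg _).trans (hL y hy)
  have hconv : Convex ℝ (hstrip s ∩ Metric.closedBall y ‖r‖) :=
    (convex_hstrip s).inter (convex_closedBall _ _)
  have h := hconv.norm_image_sub_le_of_norm_hasDerivWithin_le
    (f := fun w => g w - deriv g y * w) (f' := fun w => deriv g w - deriv g y) (C := L * ‖r‖)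
    (fun w hw => (((hg.differentiableAt ((isOpen_hstrip s).mem_nhds hw.1)).hasDerivAt).sub
      ((hasDerivAt_id w).const_mul (deriv g y) |>.congr_deriv (mul_one _))).hasDerivWithinAt)
    (fun w hw => (hlip w hw.1 y hy).trans (mul_le_mul_of_nonneg_left
      (by simpa [dist_eq_norm] using hw.2) hL0))
    (x := y - r) (y := y + r) ⟨h2, by simp⟩ ⟨h1, by simp⟩
  have e1 : g (y + r) - deriv g y * (y + r) - (g (y - r) - deriv g y * (y - r))
      = g (y + r) - g (y - r) - 2 * r * deriv g y := by ring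
  have e2 : y + r - (y - r) = 2 * r := by ring
  rw [e1, e2, norm_mul] at h
  have h4 : ‖(2 : ℂ)‖ = 2 := by simp
  rw [h4] at h
  calc _ ≤ L * ‖r‖ * (2 * ‖r‖) := h
    _ = _ := by ring

/-- LEAF LF-S3-C2. -/
theorem fac_As_est (B : Base) : ∃ CA : ℝ, 1 ≤ CA ∧ ∀ s₁ κ : ℝ, Pre B s₁ κ →
    ∀ s ≤ s₁, ∀ f, Slice B s (2 * κ) f → ∀ t y : ℂ, t ≠ 0 → ‖t‖ < s₁ →
      |y.im| + |t.im| / 2 < s → ‖4 * As B f t y - 1‖ ≤ CA * (κ + ‖t‖) := by
  obtain ⟨L, hL1, hL⟩ := slice_C3 B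
  obtain ⟨C, hC1, hCrad, -⟩ := gen_bounds B.σ_pos B.hc_diff B.hc_bdd 0
  have hc := B.c_pos
  have hσ := B.σ_pos
  have hL0 : 0 ≤ L := by linarith
  have hC0 : 0 ≤ C := by linarith
  obtain ⟨D, hD⟩ : ∃ D : ℝ, D = 2 + C * (L + 2) + Real.exp (L / 2) * L ^ 2 + L := ⟨_, rfl⟩
  have hD0 : 0 ≤ D := by rw [hD]; positivity
  refine ⟨1 + D * (3 * C * L ^ 2 + L ^ 3) / B.c, ?_, ?_⟩
  · have : 0 ≤ D * (3 * C * L ^ 2 + L ^ 3) / B.c := by positivity
    linarith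
  intro s₁ κ hp s hs f hf t y ht0 ht hyt
  obtain ⟨hy, hyp, hym⟩ := fac_strip_half hyt
  have hs0 : s ≤ B.s₀ := by have := hp.s₁_le; have := hp.s₁_pos; linarith
  have hκ := hp.κ_pos
  have hmem := hf.mem hp hs
  have hder : ∀ x ∈ hstrip s, ‖deriv f x‖ ≤ L := fun x hx => (hL s₁ κ hp s hs f hf x hx).1
  have hder2 : ∀ x ∈ hstrip s, ‖iteratedDeriv 2 f x‖ ≤ L := fun x hx => (hL s₁ κ hp s hs f hf x hx).2.1
  have hlip := strip_lip hf.diff hder
  have hlip' := strip_lip (hf.diff.deriv (isOpen_hstrip _)) (fun x hx => by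
    have := hder2 x hx
    rwa [iteratedDeriv_succ, iteratedDeriv_one] at this)
  have htn : 0 < ‖t‖ := norm_pos_iff.2 ht0
  have ht1 : ‖t‖ ≤ 1 := by have := hp.s₁_le_one; linarith
  have h4 : ‖(2 : ℂ)‖ = 2 := by simp
  have hr : ‖t / 2‖ = ‖t‖ / 2 := by rw [norm_div, h4]
  -- closeness to `φ`
  have k0 : ‖f y - B.φ y‖ ≤ 2 * κ := by simpa using hf.small 0 (by norm_num) y hy
  have k1 : ‖deriv f y - deriv B.φ y‖ ≤ 2 * κ := by
    have := hf.small 1 (by norm_num) y hy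
    rwa [hf.iter_sub hs0 1 hy, iteratedDeriv_one, iteratedDeriv_one] at this
  have hφL : ‖deriv B.φ y‖ ≤ L :=
    (hL s₁ κ hp s hs B.φ (slice_phi hs0 (by linarith)) y hy).1
  -- increments
  have a1 : ‖f (y + t / 2) - f y‖ ≤ L * (‖t‖ / 2) := by
    have := hlip _ hyp _ hy
    rw [add_sub_cancel_left, hr] at this
    exact this
  have a2 : ‖f (y - t / 2) - f y‖ ≤ L * (‖t‖ / 2) := by
    have := hlip _ hym _ hy
    rw [sub_sub_cancel_left, norm_neg, hr] at this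
    exact this
  have a3 : ‖(f (y + t / 2) - f (y - t / 2)) / 2‖ ≤ L * ‖t‖ / 2 := by
    have := hlip _ hyp _ hym
    have e : y + t / 2 - (y - t / 2) = t := by ring
    rw [e] at this
    rw [norm_div, h4]
    linarith
  -- the four differences
  have hψ : (f (y - t / 2) + f (y + t / 2)) / 2 ∈ hstrip (7 * B.σ / 8) := by
    have h1 : |(f (y - t / 2)).im| < 3 * B.σ / 8 := hmem _ hym
    have h2 : |(f (y + t / 2)).im| < 3 * B.σ / 8 := hmem _ hyp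
    have him : ∀ w : ℂ, (w / 2).im = w.im / 2 := fun w => by
      rw [show w / 2 = ((1 / 2 : ℝ) : ℂ) * w by push_cast; ring, Complex.im_ofReal_mul]; ring
    show |((f (y - t / 2) + f (y + t / 2)) / 2).im| < 7 * B.σ / 8
    rw [him, Complex.add_im]
    rw [abs_lt] at h1 h2 ⊢
    constructor <;> linarith [h1.1, h1.2, h2.1, h2.2]
  have hφy : B.φ y ∈ hstrip (7 * B.σ / 8) := by
    have h1 : |(B.φ y).im| < B.σ / 4 := B.φ_maps y (fs_hstrip_mono hs0 hy)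
    show |(B.φ y).im| < 7 * B.σ / 8
    linarith
  have hsub : hstrip (7 * B.σ / 8) ⊆ hstrip B.σ := fs_hstrip_mono (by linarith)
  have hradlip := strip_lip ((diff_rad B.hc_diff).mono hsub) (fun z hz => (hCrad z hz).2)
  have hε : 0 < κ + ‖t‖ := by linarith
  have d1 : ‖rad B.hc ((f (y - t / 2) + f (y + t / 2)) / 2) - rad B.hc (B.φ y)‖ ≤ D * (κ + ‖t‖) := by
    refine (hradlip _ hψ _ hφy).trans ?_
    have e : (f (y - t / 2) + f (y + t / 2)) / 2 - B.φ y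
        = (f (y - t / 2) - f y) / 2 + (f (y + t / 2) - f y) / 2 + (f y - B.φ y) := by ring
    have h1 : ‖(f (y - t / 2) + f (y + t / 2)) / 2 - B.φ y‖ ≤ L * (‖t‖ / 2) + 2 * κ := by
      rw [e]
      refine (norm_add_le _ _).trans (add_le_add ((norm_add_le _ _).trans ?_) k0)
      rw [norm_div, norm_div, h4]
      linarith
    refine (mul_le_mul_of_nonneg_left h1 hC0).trans ?_
    rw [hD]
    have p1 : 0 ≤ C * L * κ := by positivity
    have p2 : 0 ≤ C * L * ‖t‖ := by positivity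
    have p3 : 0 ≤ C * ‖t‖ := by positivity
    have p4 : 0 ≤ Real.exp (L / 2) * L ^ 2 * (κ + ‖t‖) := by positivity
    have p5 : 0 ≤ L * (κ + ‖t‖) := by positivity
    nlinarith
  have d34 : ∀ x ∈ hstrip s, ‖x - y‖ ≤ ‖t‖ / 2 → ‖deriv f x - deriv B.φ y‖ ≤ D * (κ + ‖t‖) := by
    intro x hx hxy
    have e : deriv f x - deriv B.φ y = (deriv f x - deriv f y) + (deriv f y - deriv B.φ y) := by ring
    rw [e]
    refine (norm_add_le _ _).trans ((add_le_add ((hlip' x hx y hy).trans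
      (mul_le_mul_of_nonneg_left hxy hL0)) k1).trans ?_)
    rw [hD]
    have p1 : 0 ≤ C * (L + 2) * (κ + ‖t‖) := by positivity
    have p4 : 0 ≤ Real.exp (L / 2) * L ^ 2 * (κ + ‖t‖) := by positivity
    have p5 : 0 ≤ L * κ := by positivity
    have p6 : 0 ≤ L * ‖t‖ := by positivity
    nlinarith
  have d2 : ‖2 * Complex.sin ((f (y + t / 2) - f (y - t / 2)) / 2) / t - deriv B.φ y‖ ≤ D * (κ + ‖t‖) := by
    obtain ⟨dd', hdd⟩ : ∃ dd' : ℂ, dd' = (f (y + t / 2) - f (y - t / 2)) / 2 := ⟨_, rfl⟩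
    rw [← hdd] at a3 ⊢
    have e : 2 * Complex.sin dd' / t - deriv B.φ y
        = 2 * (Complex.sin dd' - dd') / t + (2 * dd' - t * deriv f y) / t
          + (deriv f y - deriv B.φ y) := by
      field_simp
      ring
    have s1 : ‖2 * (Complex.sin dd' - dd') / t‖ ≤ Real.exp (L / 2) * L ^ 2 * ‖t‖ / 2 := by
      rw [norm_div, norm_mul, h4, div_le_iff₀ htn]
      have h1 := fac_norm_sin_sub_le dd'
      have h2 : Real.exp ‖dd'‖ ≤ Real.exp (L / 2) := Real.exp_le_exp.2 (by nlinarith)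
      have h3 : ‖dd'‖ ^ 2 ≤ (L * ‖t‖ / 2) ^ 2 := pow_le_pow_left₀ (norm_nonneg _) a3 2
      have h5 : Real.exp ‖dd'‖ * ‖dd'‖ ^ 2 ≤ Real.exp (L / 2) * (L * ‖t‖ / 2) ^ 2 :=
        mul_le_mul h2 h3 (by positivity) (Real.exp_pos _).le
      calc 2 * ‖Complex.sin dd' - dd'‖ ≤ 2 * (Real.exp (L / 2) * (L * ‖t‖ / 2) ^ 2) := by linarith
        _ = Real.exp (L / 2) * L ^ 2 * ‖t‖ / 2 * ‖t‖ := by ring
    have s2 : ‖(2 * dd' - t * deriv f y) / t‖ ≤ L * ‖t‖ / 2 := by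
      rw [norm_div, div_le_iff₀ htn]
      have h1 := fac_sym_diff hf.diff hder2 hy hyp hym
      have e2 : f (y + t / 2) - f (y - t / 2) - 2 * (t / 2) * deriv f y = 2 * dd' - t * deriv f y := by
        rw [hdd]; ring
      rw [e2, hr] at h1
      calc _ ≤ 2 * L * (‖t‖ / 2) ^ 2 := h1
        _ = L * ‖t‖ / 2 * ‖t‖ := by ring
    rw [e]
    refine (norm_add_le _ _).trans ((add_le_add ((norm_add_le _ _).trans (add_le_add s1 s2)) k1).trans ?_)
    rw [hD]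
    have p1 : 0 ≤ C * (L + 2) * (κ + ‖t‖) := by positivity
    have p4 : 0 ≤ Real.exp (L / 2) * L ^ 2 * κ := by positivity
    have p4' : 0 ≤ Real.exp (L / 2) * L ^ 2 * ‖t‖ := by positivity
    have p5 : 0 ≤ L * κ := by positivity
    have p6 : 0 ≤ L * ‖t‖ := by positivity
    nlinarith
  have d3 := d34 _ hym (by rw [sub_sub_cancel_left, norm_neg, hr])
  have d4 := d34 _ hyp (by rw [add_sub_cancel_left, hr])
  have hprod := fac_prod4 (hCrad _ hψ).1 (hCrad _ hφy).1 (hder _ hym) (hder _ hyp) hφL hφL d1 d2 d3 d4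
  have hn := B.normal y (fs_hstrip_mono hs0 hy)
  have hcC : (B.c : ℂ) ≠ 0 := by exact_mod_cast hc.ne'
  have e : 4 * As B f t y - 1
      = (rad B.hc ((f (y - t / 2) + f (y + t / 2)) / 2)
          * (2 * Complex.sin ((f (y + t / 2) - f (y - t / 2)) / 2) / t) * deriv f (y - t / 2)
          * deriv f (y + t / 2)
        - rad B.hc (B.φ y) * deriv B.φ y * deriv B.φ y * deriv B.φ y) / B.c := by
    have hn' : rad B.hc (B.φ y) * deriv B.φ y * deriv B.φ y * deriv B.φ y = B.c := by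
      rw [← hn]; ring
    rw [hn']
    simp only [As, S12]
    field_simp
    ring
  rw [e, norm_div, Complex.norm_real, Real.norm_eq_abs, abs_of_pos hc, div_le_iff₀ hc]
  refine hprod.trans ?_
  have e2 : (1 + D * (3 * C * L ^ 2 + L ^ 3) / B.c) * (κ + ‖t‖) * B.c
      = B.c * (κ + ‖t‖) + D * (κ + ‖t‖) * (3 * C * L ^ 2 + L ^ 3) := by
    field_simp
  rw [e2]
  have : 0 ≤ B.c * (κ + ‖t‖) := by positivity
  linarith

end Claimed.Agent.R269.S3
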