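/-
Row 269, Section 3, UNIT C, leaf package LF-S3-C10 (`fac_symp`): the area identity.   Statement + plan: helper228.   Uses Area, FacSlice, LibHol.   ~350 lines.

Fix a `2κ`-candidate `Θ` on `𝒟⁰(s,d)` and `(y,t) ∈ 𝒟¹(s,d)`, `t ≠ 0`.    `𝓡 := pO h Θ - pI h Θ` (so `Rs h (Θ(·,t)) t y = 𝓡 y t`, `Rs_eq_pO_sub_pI`);   near `(y,t)`:  `E B Θ = dy Θ · 𝓡/(c t³)`.   `dy Θ ≠ 0` (`Slice.deriv_ge`).
 (a) `area_in`, `area_out`:     `Θ_y 𝓡_t - Θ_t 𝓡_y = Bf h Θ y t - Bf h Θ (y-t) t`.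
 (b) for `t ≠ 0`, with `β y t := A B Θ y t (dd (zz Θ) y t + 1/t)`:     `Bf h Θ y t = c t² β(y + t/2, t)`
     [`A(y+t/2,t) = S12 h Θ Θ⁺ · Θ_y Θ⁺_y/(c t)`,  `dd (zz Θ) (y+t/2) t = (z⁺ - z)/t`,  `z Θ_y = Θ_t`];   so  `Bf y t - Bf (y-t) t = c t² (β(y+t/2,t) - β(y-t/2,t)) = c t³ dd β y t`.
 (c) product rule (all factors holomorphic near `(y,t)`: `hol_dy`, `hol_dt`, `hol_pI`, `hol_pO`):
       `dt E = (Θ_{yt} 𝓡 + Θ_y 𝓡_t)/(c t³) - 3E/t`,        `E · zz Θ = Θ_t 𝓡/(c t³)` near `(y,t)`,  so  `dy (E zz) = (Θ_{ty} 𝓡 + Θ_t 𝓡_y)/(c t³)`;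
     `Θ_{yt} = Θ_{ty}` (`hol_dy_dt_comm`).     Subtract:  `dt E + 3E/t - dy (E zz) = (Θ_y 𝓡_t - Θ_t 𝓡_y)/(c t³) = dd β`.
 NOTE: `dt (E B Θ)`, `dy (fun y t => E B Θ y t * zz Θ y t)` are `deriv`s of functions which agree near the point with the explicit expressions (`t ≠ 0` is an open condition): `Filter.EventuallyEq.deriv_eq`.
-/
import Claimed.Agent.R269.S3.FacSlice
import Claimed.Agent.R269.S3.Area

set_option autoImplicit false

namespace Claimed.Agent.R269.S3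

open Real Complex ComplexConjugate

/-- real multiples of `t` as shifts. -/
theorem fsy_shift {s d : ℝ} {y t : ℂ} (h : (y, t) ∈ Dom 1 s d) (a : ℝ) (ha : |a| ≤ 1) :
    (y + a * t, t) ∈ Dom 0 s d := by
  obtain ⟨h1, h2⟩ := h
  refine ⟨h1, ?_⟩
  simp only [one_mul, zero_mul, sub_zero] at h2 ⊢
  have e : (y + a * t).im = y.im + a * t.im := by simp
  rw [e]
  have h3 := abs_add_le y.im (a * t.im)
  rw [abs_mul] at h3
  have h4 : |a| * |t.im| ≤ 1 * |t.im| := mul_le_mul_of_nonneg_right ha (abs_nonneg _)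
  linarith

/-- the data of a candidate which are used in the area identity. -/
structure FsyData (B : Base) (s d : ℝ) (Θ : ℂ → ℂ → ℂ) : Prop where
  hol : Hol Θ (Dom 0 s d)
  mem : ∀ z ∈ Dom 0 s d, Θ z.1 z.2 ∈ hstrip B.σ
  ne : ∀ z ∈ Dom 0 s d, dy Θ z.1 z.2 ≠ 0

theorem fsy_data {B : Base} {s₁ κ s d : ℝ} {Θ : ℂ → ℂ → ℂ} (hp : Pre B s₁ κ) (hs : s ≤ s₁)
    (hc : Cand B s d (2 * κ) Θ) : FsyData B s d Θ := by
  have hs0 : s ≤ B.s₀ := by linarith [hp.s₁_le, hp.s₁_pos]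
  have hsl : ∀ z ∈ Dom 0 s d, Slice B s (2 * κ) (fun x => Θ x z.2) ∧ z.1 ∈ hstrip s := by
    intro z hz
    refine ⟨hc.slice hs0 hz.1, ?_⟩
    have h2 : |z.1.im| < s - 0 * |z.2.im| := hz.2
    show |z.1.im| < s
    linarith
  refine ⟨hc.hol, ?_, ?_⟩
  · intro z hz
    obtain ⟨h1, h2⟩ := hsl z hz
    have h3 : |(Θ z.1 z.2).im| < 3 * B.σ / 8 := h1.mem hp hs z.1 h2
    have hσ := B.σ_pos
    show |(Θ z.1 z.2).im| < B.σ
    linarith
  · intro z hz h0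
    obtain ⟨h1, h2⟩ := hsl z hz
    have h3 := h1.deriv_ge hp hs z.1 h2
    have e : deriv (fun x => Θ x z.2) z.1 = 0 := h0
    rw [e, norm_zero] at h3
    have := B.mφ_pos
    linarith

/-- the residual for `t ≠ 0`. -/
theorem fsy_E_eq (B : Base) (Θ : ℂ → ℂ → ℂ) (y : ℂ) {t : ℂ} (ht : t ≠ 0) :
    E B Θ y t = dy Θ y t * (pO B.hc Θ y t - pI B.hc Θ y t) / (B.c * t ^ 3) := by
  unfold E
  rw [if_neg ht]
  rfl

/-- (b): the coefficient `β` at the midpoint. -/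
theorem fsy_beta {B : Base} {s d : ℝ} {Θ : ℂ → ℂ → ℂ} (D : FsyData B s d Θ) {x t : ℂ}
    (h1 : (x, t) ∈ Dom 0 s d) (h2 : (x + t, t) ∈ Dom 0 s d) (ht : t ≠ 0) :
    A B Θ (x + t / 2) t * (dd (zz Θ) (x + t / 2) t + 1 / t) = Bf B.hc Θ x t / (B.c * t ^ 2) := by
  have n1 : dy Θ x t ≠ 0 := D.ne _ h1
  have n2 : dy Θ (x + t) t ≠ 0 := D.ne _ h2
  have hc : (B.c : ℂ) ≠ 0 := by exact_mod_cast B.c_pos.ne'
  have e1 : x + t / 2 - t / 2 = x := by ring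
  have e2 : x + t / 2 + t / 2 = x + t := by ring
  unfold A dd
  rw [if_neg ht, if_neg ht]
  unfold As ds zz Bf
  rw [e1, e2]
  change S12 B.hc (Θ x t) (Θ (x + t) t) * dy Θ x t * dy Θ (x + t) t / (B.c * t)
      * ((dt Θ (x + t) t / dy Θ (x + t) t - dt Θ x t / dy Θ x t) / t + 1 / t) = _
  field_simp
  ring

/-- (c1): the `t`-derivative of the residual. -/
theorem fsy_dt_E {B : Base} {s d : ℝ} {Θ : ℂ → ℂ → ℂ} (D : FsyData B s d Θ) {y t : ℂ}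
    (h : (y, t) ∈ Dom 1 s d) (ht : t ≠ 0) :
    dt (E B Θ) y t = (dt (dy Θ) y t * (pO B.hc Θ y t - pI B.hc Θ y t)
        + dy Θ y t * (dt (pO B.hc Θ) y t - dt (pI B.hc Θ) y t)) / (B.c * t ^ 3)
      - 3 * E B Θ y t / t := by
  have hc : (B.c : ℂ) ≠ 0 := by exact_mod_cast B.c_pos.ne'
  have h0 : (y, t) ∈ Dom 0 s d := Dom_mono (by norm_num) le_rfl le_rfl h
  have d1 : HasDerivAt (fun τ => dy Θ y τ) (dt (dy Θ) y t) t :=
    (hol_slice_t (isOpen_Dom 0 s d) (hol_dy (isOpen_Dom 0 s d) D.hol) h0).hasDerivAt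
  have d2 : HasDerivAt (fun τ => pO B.hc Θ y τ) (dt (pO B.hc Θ) y t) t :=
    (hol_slice_t (isOpen_Dom 1 s d) (hol_pO B.hc_diff D.hol D.mem) h).hasDerivAt
  have d3 : HasDerivAt (fun τ => pI B.hc Θ y τ) (dt (pI B.hc Θ) y t) t :=
    (hol_slice_t (isOpen_Dom 1 s d) (hol_pI B.hc_diff D.hol D.mem) h).hasDerivAt
  have d4 : HasDerivAt (fun τ : ℂ => (B.c : ℂ) * τ ^ 3) ((B.c : ℂ) * (3 * t ^ 2)) t := by
    have := ((hasDerivAt_id t).pow 3).const_mul (B.c : ℂ)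
    simpa using this
  have hne : (B.c : ℂ) * t ^ 3 ≠ 0 := mul_ne_zero hc (pow_ne_zero _ ht)
  have d5 := (d1.mul (d2.sub d3)).div d4 hne
  have hev : (fun τ => E B Θ y τ) =ᶠ[nhds t]
      (fun τ => dy Θ y τ * (pO B.hc Θ y τ - pI B.hc Θ y τ) / (B.c * τ ^ 3)) := by
    filter_upwards [isOpen_ne.mem_nhds ht] with τ hτ
    exact fsy_E_eq B Θ y hτ
  have d6 : HasDerivAt (fun τ => E B Θ y τ) _ t := d5.congr_of_eventuallyEq hev
  unfold dt at *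
  rw [d6.deriv, fsy_E_eq B Θ y ht]
  simp only [Pi.sub_apply, Pi.mul_apply]
  field_simp

/-- (c2): the `y`-derivative of `E z`. -/
theorem fsy_dy_Ez {B : Base} {s d : ℝ} {Θ : ℂ → ℂ → ℂ} (D : FsyData B s d Θ) {y t : ℂ}
    (h : (y, t) ∈ Dom 1 s d) (ht : t ≠ 0) :
    dy (fun y t => E B Θ y t * zz Θ y t) y t
      = (dy (dt Θ) y t * (pO B.hc Θ y t - pI B.hc Θ y t)
        + dt Θ y t * (dy (pO B.hc Θ) y t - dy (pI B.hc Θ) y t)) / (B.c * t ^ 3) := by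
  have hc : (B.c : ℂ) ≠ 0 := by exact_mod_cast B.c_pos.ne'
  have h0 : (y, t) ∈ Dom 0 s d := Dom_mono (by norm_num) le_rfl le_rfl h
  have d1 : HasDerivAt (fun x => dt Θ x t) (dy (dt Θ) y t) y :=
    (hol_slice_y (isOpen_Dom 0 s d) (hol_dt (isOpen_Dom 0 s d) D.hol) h0).hasDerivAt
  have d2 : HasDerivAt (fun x => pO B.hc Θ x t) (dy (pO B.hc Θ) y t) y :=
    (hol_slice_y (isOpen_Dom 1 s d) (hol_pO B.hc_diff D.hol D.mem) h).hasDerivAt
  have d3 : HasDerivAt (fun x => pI B.hc Θ x t) (dy (pI B.hc Θ) y t) y :=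
    (hol_slice_y (isOpen_Dom 1 s d) (hol_pI B.hc_diff D.hol D.mem) h).hasDerivAt
  have d5 := (d1.mul (d2.sub d3)).div_const ((B.c : ℂ) * t ^ 3)
  have hopen : {x : ℂ | (x, t) ∈ Dom 0 s d} ∈ nhds y :=
    ((isOpen_Dom 0 s d).preimage (by fun_prop : Continuous fun x : ℂ => (x, t))).mem_nhds h0
  have hev : (fun x => E B Θ x t * zz Θ x t) =ᶠ[nhds y]
      (fun x => dt Θ x t * (pO B.hc Θ x t - pI B.hc Θ x t) / (B.c * t ^ 3)) := by
    filter_upwards [hopen] with x hx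
    have n1 : dy Θ x t ≠ 0 := D.ne _ hx
    rw [fsy_E_eq B Θ x ht]
    unfold zz
    field_simp
  have d6 : HasDerivAt (fun x => E B Θ x t * zz Θ x t) _ y := d5.congr_of_eventuallyEq hev
  have e : dy (fun y t => E B Θ y t * zz Θ y t) y t = deriv (fun x => E B Θ x t * zz Θ x t) y := rfl
  rw [e, d6.deriv]
  simp only [Pi.sub_apply]

/-- the area identity for the data. -/
theorem fsy_main {B : Base} {s d : ℝ} {Θ : ℂ → ℂ → ℂ} (D : FsyData B s d Θ) {y t : ℂ}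
    (h : (y, t) ∈ Dom 1 s d) (ht : t ≠ 0) :
    dt (E B Θ) y t = -3 * E B Θ y t / t + dy (fun y t => E B Θ y t * zz Θ y t) y t
      + dd (fun y t => A B Θ y t * (dd (zz Θ) y t + 1 / t)) y t := by
  have hc : (B.c : ℂ) ≠ 0 := by exact_mod_cast B.c_pos.ne'
  have h0 : (y, t) ∈ Dom 0 s d := Dom_mono (by norm_num) le_rfl le_rfl h
  have hp : (y + t, t) ∈ Dom 0 s d := by
    have := fsy_shift h 1 (by norm_num)
    simpa using this
  have hm : (y - t, t) ∈ Dom 0 s d := by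
    have := fsy_shift h (-1) (by norm_num)
    simpa [sub_eq_add_neg] using this
  have hm' : (y - t + t, t) ∈ Dom 0 s d := by simpa using h0
  have a1 := area_in B.hc_diff D.hol D.mem h0 hp
  have a2 := area_out B.hc_diff D.hol D.mem h0 hm
  have b1 := fsy_beta D h0 hp ht
  have b2 := fsy_beta D hm hm' ht
  have e2 : y - t + t / 2 = y - t / 2 := by ring
  rw [e2] at b2
  have cm : dy (dt Θ) y t = dt (dy Θ) y t := hol_dy_dt_comm (isOpen_Dom 0 s d) D.hol (y, t) h0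
  have edd : dd (fun y t => A B Θ y t * (dd (zz Θ) y t + 1 / t)) y t
      = (A B Θ (y + t / 2) t * (dd (zz Θ) (y + t / 2) t + 1 / t)
        - A B Θ (y - t / 2) t * (dd (zz Θ) (y - t / 2) t + 1 / t)) / t := by
    conv_lhs => unfold dd
    rw [if_neg ht]
    rfl
  rw [edd, b1, b2, fsy_dt_E D h ht, fsy_dy_Ez D h ht, cm, ← a1, ← a2]
  field_simp
  ring

/-- LEAF LF-S3-C10. -/
theorem fac_symp (B : Base) (s₁ κ : ℝ) (hp : Pre B s₁ κ) : FSymp B s₁ κ := by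
  intro s hs d _ Θ hc w hw hw2
  exact fsy_main (fsy_data hp hs hc) (y := w.1) (t := w.2) hw hw2

end Claimed.Agent.R269.S3
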