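/-
Row 269, Section 3, UNIT C, leaf packages LF-S3-C3 (`fac_lip_rem`) and LF-S3-C4 (`fac_lin`): variations of the slice residual.   Statements + plans: helper228.
Uses Gen, FacSlice, LibCA.    ~250 + ~350 lines.

C3.  `g(e) := Es B (fun x => f x + e * V x) t y`.   If `μ > 0`: for `‖e‖ < R := κ/μ ≥ 2` the function `f + eV` is a `2κ`-slice (`Slice.add_var`), so `|g| ≤ K₀`;   `g` is holomorphic in `e`:
     `deriv (f + eV) y = f' y + e V' y`, and `Rs` is `pOutC`/`pInC` of affine functions of `e` (`hol_pInC`, `hol_pOutC` composed with curves; midpoints stay in `hstrip (3σ/8)` by `Slice.mem`).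
     `ca_first_order`: `|g 1 - g 0| ≤ 2K₀/R = (2K₀/κ) μ`;   `ca_second_order`: `|g 1 - g 0 - g'(0)| ≤ 2K₀/R² = (2K₀/κ²) μ²`;   `g'(0) = DEs B f V t y` by definition;  `g 1`: `1 * V x = V x`.
     If `μ ≤ 0`: `V = 0` on the strip (`j = 0` in `Var.small`), all three terms are explicit (`g` is constant: `f + eV = f` near the four points `y, y ± t`).
C4.  With `rr(u,v,w) = pOutC h u v - pInC h v w`, `f^± = f(y ± t)`, and `r_u, r_v, r_w` its partial derivatives at `(f⁻, f, f⁺)`;   `r_u = S12 h f⁻ f`, `r_w = S12 h f f⁺`: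
       `d/de|₀ Rs h (f + e f' v) t y = r_u f'⁻ v⁻ + r_v f' v + r_w f'⁺ v⁺`,         `d/dy Rs h f t y = r_u f'⁻ + r_v f' + r_w f'⁺`,
     so `d/de|₀ Rs = v · (Rs)' + r_u f'⁻ (v⁻ - v) + r_w f'⁺ (v⁺ - v)`  (no formula for `r_v` is needed).     Then
       `c t³ DEs = (f' v)' Rs + f' [v (Rs)' + r_u f'⁻ (v⁻ - v) + r_w f'⁺ (v⁺ - v)] = (f' Rs v)' + c₊ (v⁺ - v) + c₋ (v⁻ - v)`,
     `c₊ = S12 h f f⁺ · f' f'⁺ = c t · As(y + t/2)`,  `c₋ = S12 h f⁻ f · f'⁻ f' = c t · As(y - t/2)`,   and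
       `ds t (As · ds t v) y = [As(y+t/2)(v⁺ - v)/t - As(y-t/2)(v - v⁻)/t]/t`.
-/
import Claimed.Agent.R269.S3.FacSlice
import Claimed.Agent.R269.S3.Gen
import Claimed.Agent.R269.S3.LibCA

set_option autoImplicit false

namespace Claimed.Agent.R269.S3

open Real Complex ComplexConjugate

/-- the three points of the stencil. -/
theorem fva_mem {s : ℝ} {y t : ℂ} (h : |y.im| + |t.im| < s) :
    y ∈ hstrip s ∧ y + t ∈ hstrip s ∧ y - t ∈ hstrip s := by
  refine ⟨?_, ?_, ?_⟩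
  · show |y.im| < s
    linarith [abs_nonneg t.im]
  · show |(y + t).im| < s
    rw [Complex.add_im]
    linarith [abs_add_le y.im t.im]
  · show |(y - t).im| < s
    rw [Complex.sub_im]
    linarith [abs_sub y.im t.im]

theorem fva_mid {σ σ' : ℝ} {u v : ℂ} (hu : u ∈ hstrip σ') (hv : v ∈ hstrip σ') (h : σ' ≤ σ) :
    (u, v) ∈ Mid σ := by
  have hu' : |u.im| < σ' := hu
  have hv' : |v.im| < σ' := hv
  show |((u + v) / 2).im| < σ
  have e : ((u + v) / 2).im = (u.im + v.im) / 2 := by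
    rw [Complex.div_ofNat_im, Complex.add_im]
  rw [e, abs_div, abs_two]
  linarith [abs_add_le u.im v.im]

theorem fva_deriv_add {f V : ℂ → ℂ} {y : ℂ} (hf : DifferentiableAt ℂ f y)
    (hV : DifferentiableAt ℂ V y) (e : ℂ) :
    deriv (fun x => f x + e * V x) y = deriv f y + e * deriv V y :=
  (hf.hasDerivAt.add (hV.hasDerivAt.const_mul e)).deriv

theorem fva_Rs_e {h : ℂ → ℂ} {σ : ℝ} (hd : DifferentiableOn ℂ h (hstrip σ)) (f V : ℂ → ℂ)
    (t y e₀ : ℂ)
    (hm1 : (f (y - t) + e₀ * V (y - t), f y + e₀ * V y) ∈ Mid σ)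
    (hm2 : (f y + e₀ * V y, f (y + t) + e₀ * V (y + t)) ∈ Mid σ) :
    HasDerivAt (fun e => Rs h (fun x => f x + e * V x) t y)
      (dy (pOutC h) (f (y - t) + e₀ * V (y - t)) (f y + e₀ * V y) * V (y - t)
        + dt (pOutC h) (f (y - t) + e₀ * V (y - t)) (f y + e₀ * V y) * V y
        - (dy (pInC h) (f y + e₀ * V y) (f (y + t) + e₀ * V (y + t)) * V y
          + dt (pInC h) (f y + e₀ * V y) (f (y + t) + e₀ * V (y + t)) * V (y + t))) e₀ := by
  have l : ∀ a b : ℂ, HasDerivAt (fun e : ℂ => a + e * b) b e₀ := by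
    intro a b
    simpa using ((hasDerivAt_id e₀).mul_const b).const_add a
  exact (hol_chain (isOpen_Mid σ) (hol_pOutC hd) (l _ _) (l _ _) hm1).sub
    (hol_chain (isOpen_Mid σ) (hol_pInC hd) (l _ _) (l _ _) hm2)

theorem fva_Rs_y {h : ℂ → ℂ} {σ : ℝ} (hd : DifferentiableOn ℂ h (hstrip σ)) {f : ℂ → ℂ}
    {t y : ℂ} (h0 : DifferentiableAt ℂ f y) (hp : DifferentiableAt ℂ f (y + t))
    (hm : DifferentiableAt ℂ f (y - t))
    (hm1 : (f (y - t), f y) ∈ Mid σ) (hm2 : (f y, f (y + t)) ∈ Mid σ) :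
    HasDerivAt (fun x => Rs h f t x)
      (dy (pOutC h) (f (y - t)) (f y) * deriv f (y - t) + dt (pOutC h) (f (y - t)) (f y) * deriv f y
        - (dy (pInC h) (f y) (f (y + t)) * deriv f y
          + dt (pInC h) (f y) (f (y + t)) * deriv f (y + t))) y := by
  have l0 := h0.hasDerivAt
  have lp : HasDerivAt (fun x => f (x + t)) (deriv f (y + t)) y := hp.hasDerivAt.comp_add_const y t
  have lm : HasDerivAt (fun x => f (x - t)) (deriv f (y - t)) y := hm.hasDerivAt.comp_sub_const y t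
  exact (hol_chain (isOpen_Mid σ) (hol_pOutC hd) lm l0 hm1).sub
    (hol_chain (isOpen_Mid σ) (hol_pInC hd) l0 lp hm2)

/-- the derivative of the slice residual along `f + e V`. -/
theorem fva_Es_e (B : Base) {f V : ℂ → ℂ} {t y : ℂ} (e₀ : ℂ) (hf : DifferentiableAt ℂ f y)
    (hV : DifferentiableAt ℂ V y)
    (hm1 : (f (y - t) + e₀ * V (y - t), f y + e₀ * V y) ∈ Mid B.σ)
    (hm2 : (f y + e₀ * V y, f (y + t) + e₀ * V (y + t)) ∈ Mid B.σ) :
    HasDerivAt (fun e => Es B (fun x => f x + e * V x) t y)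
      ((deriv V y * Rs B.hc (fun x => f x + e₀ * V x) t y + (deriv f y + e₀ * deriv V y) *
        (dy (pOutC B.hc) (f (y - t) + e₀ * V (y - t)) (f y + e₀ * V y) * V (y - t)
        + dt (pOutC B.hc) (f (y - t) + e₀ * V (y - t)) (f y + e₀ * V y) * V y
        - (dy (pInC B.hc) (f y + e₀ * V y) (f (y + t) + e₀ * V (y + t)) * V y
          + dt (pInC B.hc) (f y + e₀ * V y) (f (y + t) + e₀ * V (y + t)) * V (y + t))))
        / (B.c * t ^ 3)) e₀ := by
  have l : HasDerivAt (fun e : ℂ => deriv f y + e * deriv V y) (deriv V y) e₀ := by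
    simpa using ((hasDerivAt_id e₀).mul_const (deriv V y)).const_add (deriv f y)
  have h1 := (l.mul (fva_Rs_e B.hc_diff f V t y e₀ hm1 hm2)).div_const ((B.c : ℂ) * t ^ 3)
  have e : (fun e => Es B (fun x => f x + e * V x) t y)
      = fun e => (deriv f y + e * deriv V y) * Rs B.hc (fun x => f x + e * V x) t y
          / (B.c * t ^ 3) := by
    funext e
    unfold Es
    rw [fva_deriv_add hf hV]
  rw [e]
  exact h1

/-- both estimates of C3 at one point. -/
theorem fva_core {B : Base} {s₁ κ K₀ : ℝ} (hp : Pre B s₁ κ) (hb : FEsBd B s₁ κ K₀)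
    {s : ℝ} (hs : s ≤ s₁) {f : ℂ → ℂ} (hf : Slice B s κ f) {μ : ℝ} {V : ℂ → ℂ} (hμ : μ ≤ κ / 2)
    (hV : Var s μ V) {t y : ℂ} (ht : t ≠ 0) (ht' : ‖t‖ < s₁) (hy : |y.im| + |t.im| < s) :
    ‖Es B (fun x => f x + V x) t y - Es B f t y‖ ≤ 2 * K₀ / κ * μ ∧
      ‖Es B (fun x => f x + V x) t y - Es B f t y - DEs B f V t y‖ ≤ 2 * K₀ / κ ^ 2 * μ ^ 2 := by
  obtain ⟨m0, mp, mm⟩ := fva_mem hy
  have hκ := hp.κ_pos
  have hop := isOpen_hstrip s
  have hs0 : s ≤ B.s₀ := by linarith [hp.s₁_le, hp.s₁_pos]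
  have hμ0 : 0 ≤ μ := (norm_nonneg _).trans (hV.small 0 (by norm_num) y m0)
  have dfy : DifferentiableAt ℂ f y := hf.diff.differentiableAt (hop.mem_nhds m0)
  have dVy : DifferentiableAt ℂ V y := hV.diff.differentiableAt (hop.mem_nhds m0)
  set g : ℂ → ℂ := fun e => Es B (fun x => f x + e * V x) t y with hg
  have g1 : g 1 = Es B (fun x => f x + V x) t y := by simp only [hg, one_mul]
  have g0 : g 0 = Es B f t y := by simp only [hg, zero_mul, add_zero]
  have gd : DEs B f V t y = deriv g 0 := rfl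
  rw [← g1, ← g0, gd]
  rcases hμ0.eq_or_lt with h0 | h0
  · -- `V = 0`
    have z : ∀ x ∈ hstrip s, V x = 0 := by
      intro x hx
      have := hV.small 0 (by norm_num) x hx
      rw [← h0, iteratedDeriv_zero] at this
      exact norm_le_zero_iff.1 this
    have z' : deriv V y = 0 := by
      have := hV.small 1 (by norm_num) y m0
      rw [← h0, iteratedDeriv_one] at this
      exact norm_le_zero_iff.1 this
    have gc : ∀ e, g e = g 0 := by
      intro e
      simp only [hg, Es, Rs, fva_deriv_add dfy dVy, z y m0, z _ mp, z _ mm, z', mul_zero, add_zero]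
    have gc' : g = fun _ => g 0 := funext gc
    have gd0 : deriv g 0 = 0 := by
      rw [gc']
      simp
    rw [gd0, gc 1, ← h0]
    simp
  · have hR : 2 ≤ κ / μ := by
      rw [le_div_iff₀ h0]
      linarith
    have hsl : ∀ e ∈ Metric.ball (0 : ℂ) (κ / μ), Slice B s (2 * κ) (fun x => f x + e * V x) := by
      intro e he
      rw [mem_ball_zero_iff, lt_div_iff₀ h0] at he
      rw [two_mul]
      exact hf.add_var hs0 hV he.le
    have hbd : ∀ e ∈ Metric.ball (0 : ℂ) (κ / μ), ‖g e‖ ≤ K₀ :=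
      fun e he => hb s hs _ (hsl e he) t y ht ht' hy
    have hσ := B.σ_pos
    have hdg : DifferentiableOn ℂ g (Metric.ball 0 (κ / μ)) := by
      intro e he
      have M := (hsl e he).mem hp hs
      exact (fva_Es_e B e dfy dVy (fva_mid (M _ mm) (M _ m0) (by linarith))
        (fva_mid (M _ m0) (M _ mp) (by linarith))).differentiableAt.differentiableWithinAt
    have c1 := ca_first_order hR hdg hbd
    have c2 := ca_second_order hR hdg hbd
    have e1 : 2 * K₀ / (κ / μ) = 2 * K₀ / κ * μ := by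
      field_simp
    have e2 : 2 * K₀ / (κ / μ) ^ 2 = 2 * K₀ / κ ^ 2 * μ ^ 2 := by
      field_simp
    rw [e1] at c1
    rw [e2] at c2
    exact ⟨c1, c2⟩

/-- LEAF LF-S3-C3. -/
theorem fac_lip_rem (B : Base) (s₁ κ K₀ : ℝ) (hp : Pre B s₁ κ) (hK : 0 ≤ K₀) (hb : FEsBd B s₁ κ K₀) :
    FEsLip B s₁ κ (2 * K₀ / κ) ∧ FEsRem B s₁ κ (2 * K₀ / κ ^ 2) :=
  ⟨fun _ hs _ hf _ _ hμ hV _ _ ht ht' hy => (fva_core hp hb hs hf hμ hV ht ht' hy).1,
    fun _ hs _ hf _ _ hμ hV _ _ ht ht' hy => (fva_core hp hb hs hf hμ hV ht ht' hy).2⟩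

/-- LEAF LF-S3-C4. -/
theorem fac_lin (B : Base) (s₁ κ : ℝ) (hp : Pre B s₁ κ) : FLin B s₁ κ := by
  intro s hs f hf v hv t y ht _ hy
  obtain ⟨m0, mp, mm⟩ := fva_mem hy
  have hc : (B.c : ℂ) ≠ 0 := by exact_mod_cast B.c_pos.ne'
  have hop := isOpen_hstrip s
  have df : ∀ x ∈ hstrip s, DifferentiableAt ℂ f x :=
    fun x hx => hf.diff.differentiableAt (hop.mem_nhds hx)
  have df' : ∀ x ∈ hstrip s, DifferentiableAt ℂ (deriv f) x :=
    fun x hx => (hf.diff.deriv hop).differentiableAt (hop.mem_nhds hx)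
  have dv : ∀ x ∈ hstrip s, DifferentiableAt ℂ v x :=
    fun x hx => hv.differentiableAt (hop.mem_nhds hx)
  have hσ := B.σ_pos
  have M := hf.mem hp hs
  have hm1 : (f (y - t), f y) ∈ Mid B.σ := fva_mid (M _ mm) (M _ m0) (by linarith)
  have hm2 : (f y, f (y + t)) ∈ Mid B.σ := fva_mid (M _ m0) (M _ mp) (by linarith)
  have hV : DifferentiableAt ℂ (fun x => deriv f x * v x) y := (df' y m0).mul (dv y m0)
  have L := fva_Es_e B (V := fun x => deriv f x * v x) (t := t) 0 (df y m0) hV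
    (by simpa using hm1) (by simpa using hm2)
  have eV : deriv (fun x => deriv f x * v x) y
      = deriv (deriv f) y * v y + deriv f y * deriv v y :=
    ((df' y m0).hasDerivAt.mul (dv y m0).hasDerivAt).deriv
  have R1 := fva_Rs_y B.hc_diff (df y m0) (df _ mp) (df _ mm) hm1 hm2
  have R2 : HasDerivAt (fun x => Es B f t x * v x) _ y :=
    (((df' y m0).hasDerivAt.mul R1).div_const ((B.c : ℂ) * t ^ 3)).mul (dv y m0).hasDerivAt
  have s1 : dy (pOutC B.hc) (f (y - t)) (f y) = S12 B.hc (f (y - t)) (f y) :=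
    (hasDerivAt_pOutC_left B.hc_diff hm1).deriv
  have s2 : dt (pInC B.hc) (f y) (f (y + t)) = - S12 B.hc (f y) (f (y + t)) :=
    (hasDerivAt_pInC_right B.hc_diff hm2).deriv
  have e1 : y + t / 2 - t / 2 = y := by ring
  have e2 : y + t / 2 + t / 2 = y + t := by ring
  have e3 : y - t / 2 - t / 2 = y - t := by ring
  have e4 : y - t / 2 + t / 2 = y := by ring
  unfold DEs
  rw [L.deriv, R2.deriv, eV]
  unfold ds As
  simp only [e1, e2, e3, e4, zero_mul, add_zero, s1, s2, Pi.mul_apply]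
  field_simp
  ring

end Claimed.Agent.R269.S3
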