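/-
Row 269, Section 3, UNIT C, leaf packages LF-S3-C6 (`fac_A_hol`), LF-S3-C7 (`fac_Es_phi`), LF-S3-C8 (`fac_E_hol`): joint holomorphy including `t = 0`.   Statements + plans: helper228.
Uses Gen, FacSlice, LibHol, LibCA.     ~300 lines each.

C6.  For `t ≠ 0`:  `A B Θ y t = S12 h (Θ(y-t/2,t)) (Θ(y+t/2,t)) · dy Θ (y-t/2) t · dy Θ (y+t/2) t/(c t)`: holomorphic on `𝒟^{1/2}(s,d) ∩ {t ≠ 0}` (`hol_comp`, `hol_dy`, `hol_S12`, `Dom_shift`).
   `hol_removable`: bounded by `FAsClose` (`Cand.slice`);   LIMIT at `t = 0`: `S(t) := S12 h (Θ(y-t/2,t)) (Θ(y+t/2,t))` has `S 0 = 0` and (`hol_chain`)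
   `S'(0) = rad h (φ y) · (1/2) · Θ_y(y,0) · (1/2) = rad h (φ y) φ'(y)/4`, so `S(t)/t → rad h (φ y) φ'(y)/4` (`hasDerivAt_iff_tendsto_slope`);   `dy Θ (y ∓ t/2) t → φ'(y)` (continuity of `dy Θ`);
   the limit is `rad h (φ y) φ'(y)³/(4c) = 1/4` (`B.normal`).
C7.  `a := A B (fun y _ => φ y)` on `𝒟^{1/2}(2s₁,2s₁)`: holomorphic (`FAHol` at scale `2s₁`, `cand_phi`), `|a - 1/4| ≤ 1/40`, `a(y,0) = 1/4`.    `g := dy a`: `|g| ≤ 1/(20 s₁)` on `𝒟^{1/2}(3s₁/2, 2s₁)`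
   (`bd_dy` for `a - 1/4`, `δ = s₁/2`), `g(y,0) = 0`.    For `|Im y'| < s₁` the function `g(y',·)` is holomorphic on `ball 0 s₁`;   `ca_schwarz`: `|g(y',τ)| ≤ |τ|/(20 s₁²)`.   Hence for `|Im y| + |Im τ| < s₁`, `‖τ‖ < s₁`:
       `|a(y+τ/2,τ) - a(y-τ/2,τ)| ≤ |τ|²/(20 s₁²)`         (mean value inequality on the segment).
   `k(τ) := φ'(y) Rs h φ τ y`:   `k 0 = 0`,   `k'(τ) = φ'(y) [S12 h (φ y) (φ(y+τ)) φ'(y+τ) - S12 h (φ(y-τ)) (φ y) φ'(y-τ)] = c τ [a(y+τ/2,τ) - a(y-τ/2,τ)]`  (`τ ≠ 0`; both sides vanish at `τ = 0`).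
   Mean value inequality on the segment `[0,t]` (it stays in the region):   `|k(t)| ≤ c |t|⁴/(20 s₁²)`,   i.e.   `|Es B φ t y| ≤ |t|/(20 s₁²)`.
C8.  For `t ≠ 0` a composition (`Area.hol_pI`, `hol_pO`, `hol_dy`).    `hol_removable`: bounded by `FEsBd`;   LIMIT `0` at `t = 0`:  `V_t := Θ(·,t) - φ` is a `Var s μ_t`, `μ_t = 2κ‖t‖/d` (`bd_schwarz` for
   `hol_iter j (Θ - φ)`, `j ≤ 3`), so for `‖t‖ ≤ d/4`:   `|E B Θ y t| ≤ |Es B φ t y| + K₁ μ_t ≤ (K₂ + 2 K₁ κ/d) ‖t‖`    (`FEsLip` with `f = φ`, `FEsPhi`).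
-/
import Claimed.Agent.R269.S3.FacSlice
import Claimed.Agent.R269.S3.Area
import Claimed.Agent.R269.S3.LibCA
import Claimed.Agent.R269.S3.FacVar
import Claimed.Agent.R269.S3.FacSymp

set_option autoImplicit false

namespace Claimed.Agent.R269.S3

open Real Complex ComplexConjugate Filter Topology

theorem fho_shift {s d : ℝ} {z : ℂ × ℂ} (h : z ∈ Dom (1 / 2) s d) :
    (z.1 + z.2 / 2, z.2) ∈ Dom 0 s d ∧ (z.1 - z.2 / 2, z.2) ∈ Dom 0 s d := by
  have h' : (z.1, z.2) ∈ Dom (0 + 1 / 2) s d := by simpa using h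
  have h1 := Dom_shift h' (1 / 2) (by norm_num)
  have h2 := Dom_shift h' (-(1 / 2)) (by norm_num)
  constructor
  · convert h1 using 2
    push_cast
    ring
  · convert h2 using 2
    push_cast
    ring

theorem fho_comp_p {F : ℂ → ℂ → ℂ} {s d : ℝ} (hF : Hol F (Dom 0 s d)) :
    Hol (fun y t => F (y + t / 2) t) (Dom (1 / 2) s d) :=
  hol_comp (G₁ := fun y t => y + t / 2) (G₂ := fun _ t => t) hF (by unfold Hol; fun_prop)
    (by unfold Hol; fun_prop) (fun _ hz => (fho_shift hz).1)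

theorem fho_comp_m {F : ℂ → ℂ → ℂ} {s d : ℝ} (hF : Hol F (Dom 0 s d)) :
    Hol (fun y t => F (y - t / 2) t) (Dom (1 / 2) s d) :=
  hol_comp (G₁ := fun y t => y - t / 2) (G₂ := fun _ t => t) hF (by unfold Hol; fun_prop)
    (by unfold Hol; fun_prop) (fun _ hz => (fho_shift hz).2)

/-- `A` off `t = 0`. -/
theorem fho_A_off {B : Base} {s d : ℝ} {Θ : ℂ → ℂ → ℂ} (D : FsyData B s d Θ) :
    Hol (A B Θ) (Dom (1 / 2) s d ∩ {z | z.2 ≠ 0}) := by
  have hc : (B.c : ℂ) ≠ 0 := by exact_mod_cast B.c_pos.ne'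
  have h1 := fho_comp_m D.hol
  have h2 := fho_comp_p D.hol
  have h3 := fho_comp_m (hol_dy (isOpen_Dom 0 s d) D.hol)
  have h4 := fho_comp_p (hol_dy (isOpen_Dom 0 s d) D.hol)
  have hS : Hol (fun y t => S12 B.hc (Θ (y - t / 2) t) (Θ (y + t / 2) t)) (Dom (1 / 2) s d) :=
    hol_comp (hol_S12 B.hc_diff) h1 h2
      (fun z hz => fva_mid (D.mem _ (fho_shift hz).2) (D.mem _ (fho_shift hz).1) le_rfl)
  have h5 : DifferentiableOn ℂ (fun z : ℂ × ℂ => ((B.c : ℂ) * z.2)⁻¹)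
      (Dom (1 / 2) s d ∩ {z | z.2 ≠ 0}) :=
    (differentiableOn_snd.const_mul (B.c : ℂ)).fun_inv (fun z hz => mul_ne_zero hc hz.2)
  have h6 := (((DifferentiableOn.fun_mul hS h3).fun_mul h4).mono
    (Set.inter_subset_left (t := {z : ℂ × ℂ | z.2 ≠ 0}))).fun_mul h5
  refine h6.congr ?_
  intro z hz
  have hz2 : z.2 ≠ 0 := hz.2
  simp only [A, if_neg hz2, As, div_eq_mul_inv]
  rfl

/-- derivative of `t ↦ S12 (Θ(y - t/2,t)) (Θ(y + t/2,t))` at `0`. -/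
theorem fho_S_deriv {B : Base} {s d : ℝ} {Θ : ℂ → ℂ → ℂ} (D : FsyData B s d Θ) {y : ℂ}
    (h0 : (y, (0 : ℂ)) ∈ Dom 0 s d) :
    HasDerivAt (fun t => S12 B.hc (Θ (y - t / 2) t) (Θ (y + t / 2) t))
      (rad B.hc (Θ y 0) * dy Θ y 0 / 4) 0 := by
  have cp : HasDerivAt (fun t : ℂ => y + t / 2) (1 / 2) 0 :=
    ((hasDerivAt_id (0 : ℂ)).div_const 2).const_add y
  have cm : HasDerivAt (fun t : ℂ => y - t / 2) (-(1 / 2)) 0 :=
    ((hasDerivAt_id (0 : ℂ)).div_const 2).const_sub y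
  have ci : HasDerivAt (fun t : ℂ => t) 1 0 := hasDerivAt_id 0
  have hp := hol_chain (isOpen_Dom 0 s d) D.hol cp ci (by simpa using h0)
  have hm := hol_chain (isOpen_Dom 0 s d) D.hol cm ci (by simpa using h0)
  simp only [zero_div, add_zero, sub_zero] at hp hm
  have hmid := (hm.add hp).div_const 2
  have hdif := (hp.sub hm).div_const 2
  have e0 : (Θ y 0 + Θ y 0) / 2 = Θ y 0 := by ring
  have hr : HasDerivAt (rad B.hc) (deriv (rad B.hc) (Θ y 0)) ((Θ (y - 0 / 2) 0 + Θ (y + 0 / 2) 0) / 2) := by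
    simp only [zero_div, add_zero, sub_zero, e0]
    exact ((diff_rad B.hc_diff).differentiableAt
      ((isOpen_hstrip B.σ).mem_nhds (D.mem _ h0))).hasDerivAt
  have h1 := ((hr.comp (0 : ℂ) hmid).mul hdif.csin).div_const 2
  refine h1.congr_deriv ?_
  simp only [Function.comp, Pi.add_apply, Pi.sub_apply, zero_div, add_zero, sub_zero, sub_self,
    Complex.sin_zero, Complex.cos_zero, e0]
  ring

/-- the limit of `A` at `t = 0`. -/
theorem fho_A_lim {B : Base} {s d : ℝ} {Θ : ℂ → ℂ → ℂ} (D : FsyData B s d Θ) (hs0 : s ≤ B.s₀)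
    (hz : ∀ y ∈ hstrip s, Θ y 0 = B.φ y) {y : ℂ} (h0 : (y, (0 : ℂ)) ∈ Dom 0 s d) :
    Tendsto (fun t => A B Θ y t) (𝓝[≠] 0) (𝓝 (1 / 4)) := by
  have hc : (B.c : ℂ) ≠ 0 := by exact_mod_cast B.c_pos.ne'
  have hy : y ∈ hstrip s := by
    have h2 : |y.im| < s - 0 * |(0 : ℂ).im| := h0.2
    show |y.im| < s
    linarith
  have hy0 : y ∈ hstrip B.s₀ := lt_of_lt_of_le (show |y.im| < s from hy) hs0
  have cp : HasDerivAt (fun t : ℂ => y + t / 2) (1 / 2) 0 :=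
    ((hasDerivAt_id (0 : ℂ)).div_const 2).const_add y
  have cm : HasDerivAt (fun t : ℂ => y - t / 2) (-(1 / 2)) 0 :=
    ((hasDerivAt_id (0 : ℂ)).div_const 2).const_sub y
  have ci : HasDerivAt (fun t : ℂ => t) 1 0 := hasDerivAt_id 0
  have hD := hol_dy (isOpen_Dom 0 s d) D.hol
  have tp : Tendsto (fun t => dy Θ (y + t / 2) t) (𝓝[≠] 0) (𝓝 (dy Θ y 0)) := by
    have := (hol_chain (isOpen_Dom 0 s d) hD cp ci (by simpa using h0)).continuousAt.tendsto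
    simp only [zero_div, add_zero] at this
    exact this.mono_left nhdsWithin_le_nhds
  have tm : Tendsto (fun t => dy Θ (y - t / 2) t) (𝓝[≠] 0) (𝓝 (dy Θ y 0)) := by
    have := (hol_chain (isOpen_Dom 0 s d) hD cm ci (by simpa using h0)).continuousAt.tendsto
    simp only [zero_div, sub_zero] at this
    exact this.mono_left nhdsWithin_le_nhds
  have ts := hasDerivAt_iff_tendsto_slope.1 (fho_S_deriv D h0)
  have e1 : dy Θ y 0 = deriv B.φ y := by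
    have e : (fun x => Θ x 0) =ᶠ[𝓝 y] B.φ := by
      filter_upwards [(isOpen_hstrip s).mem_nhds hy] with x hx
      exact hz x hx
    exact e.deriv_eq
  have hv : rad B.hc (Θ y 0) * dy Θ y 0 / 4 * dy Θ y 0 * dy Θ y 0 / B.c = 1 / 4 := by
    rw [e1, hz y hy]
    have := B.normal y hy0
    field_simp
    linear_combination this
  have tt := ((ts.mul tm).mul tp).div_const (B.c : ℂ)
  rw [hv] at tt
  refine tt.congr' ?_
  filter_upwards [self_mem_nhdsWithin] with t ht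
  have ht' : t ≠ 0 := ht
  have S0 : S12 B.hc (Θ (y - 0 / 2) 0) (Θ (y + 0 / 2) 0) = 0 := by
    simp [S12]
  simp only [A, if_neg ht', As, slope_def_field, S0, sub_zero]
  change _ = S12 B.hc (Θ (y - t / 2) t) (Θ (y + t / 2) t) * dy Θ (y - t / 2) t
    * dy Θ (y + t / 2) t / (B.c * t)
  field_simp

theorem fho_norm_le_of_close {a : ℂ} (h : ‖4 * a - 1‖ ≤ 1 / 10) : ‖a‖ ≤ 1 := by
  have h1 : ‖4 * a‖ ≤ ‖4 * a - 1‖ + ‖(1 : ℂ)‖ := by
    have := norm_add_le (4 * a - 1) 1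
    simpa using this
  rw [norm_mul, norm_one] at h1
  have h2 : ‖(4 : ℂ)‖ = 4 := by simp
  rw [h2] at h1
  linarith

/-- LEAF LF-S3-C6. -/
theorem fac_A_hol (B : Base) (s₁ κ : ℝ) (hp : Pre B s₁ κ) (hc : FAsClose B s₁ κ) : FAHol B s₁ κ := by
  intro s hs d hd Θ hΘ
  have D := fsy_data hp hs hΘ
  have hs0 : s ≤ B.s₀ := by linarith [hp.s₁_le, hp.s₁_pos]
  refine hol_removable (isOpen_Dom _ _ _) (fho_A_off D) ?_ ?_
  · intro z hz _
    refine ⟨1, ?_⟩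
    filter_upwards [(isOpen_Dom (1 / 2) s d).mem_nhds hz] with w hw hw0
    have h1 : ‖w.2‖ < d := hw.1
    have h2 : |w.1.im| < s - 1 / 2 * |w.2.im| := hw.2
    have h3 := hc s hs _ (hΘ.slice hs0 h1) w.2 w.1 hw0 (by linarith) (by linarith)
    simp only [A, if_neg hw0]
    exact fho_norm_le_of_close h3
  · intro z hz hz0
    have e : A B Θ z.1 0 = 1 / 4 := by simp [A]
    rw [e]
    have h0 : (z.1, (0 : ℂ)) ∈ Dom 0 s d := by
      have := Dom_mono (ν := 1 / 2) (ν' := 0) (by norm_num) (le_refl s) (le_refl d) hz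
      rw [← hz0]
      exact this
    exact fho_A_lim D hs0 hΘ.zero h0

/-! ### C8 -/

/-- `E` off `t = 0`. -/
theorem fho_E_off {B : Base} {s d : ℝ} {Θ : ℂ → ℂ → ℂ} (D : FsyData B s d Θ) :
    Hol (E B Θ) (Dom 1 s d ∩ {z | z.2 ≠ 0}) := by
  have hc : (B.c : ℂ) ≠ 0 := by exact_mod_cast B.c_pos.ne'
  have h1 : Hol (dy Θ) (Dom 1 s d) :=
    (hol_dy (isOpen_Dom 0 s d) D.hol).mono (Dom_mono (by norm_num) le_rfl le_rfl)
  have h2 := hol_pO B.hc_diff D.hol D.mem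
  have h3 := hol_pI B.hc_diff D.hol D.mem
  have h5 : DifferentiableOn ℂ (fun z : ℂ × ℂ => ((B.c : ℂ) * z.2 ^ 3)⁻¹)
      (Dom 1 s d ∩ {z | z.2 ≠ 0}) :=
    ((differentiableOn_snd.pow 3).const_mul (B.c : ℂ)).fun_inv
      (fun z hz => mul_ne_zero hc (pow_ne_zero 3 hz.2))
  have h6 := ((DifferentiableOn.fun_mul h1 (DifferentiableOn.fun_sub h2 h3)).mono
    (Set.inter_subset_left (t := {z : ℂ × ℂ | z.2 ≠ 0}))).fun_mul h5
  refine h6.congr ?_
  intro z hz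
  have hz2 : z.2 ≠ 0 := hz.2
  rw [fsy_E_eq B Θ z.1 hz2, div_eq_mul_inv]

/-- the difference of a candidate and `φ` is a small variation for small `t`. -/
theorem fho_var {B : Base} {s d κ : ℝ} {Θ : ℂ → ℂ → ℂ} (hs0 : s ≤ B.s₀) (hΘ : Cand B s d κ Θ)
    {t : ℂ} (ht : ‖t‖ < d) : Var s (κ * ‖t‖ / d) (fun x => Θ x t - B.φ x) := by
  have hD : ∀ x ∈ hstrip s, (x, t) ∈ Dom 0 s d := by
    intro x hx
    have hx' : |x.im| < s := hx
    refine ⟨ht, ?_⟩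
    show |x.im| < s - 0 * |t.im|
    linarith
  have hφ : Hol (fun y _ => B.φ y) (Dom 0 s d) := by
    refine hol_comp₁ (G := fun y _ => y) B.φ_diff (by unfold Hol; fun_prop) ?_
    intro z hz
    have h2 : |z.1.im| < s - 0 * |z.2.im| := hz.2
    show |z.1.im| < B.s₀
    linarith
  have hF : Hol (fun y t => Θ y t - B.φ y) (Dom 0 s d) := DifferentiableOn.fun_sub hΘ.hol hφ
  refine ⟨?_, ?_, ?_⟩
  · intro x hx
    exact (hol_slice_y (isOpen_Dom 0 s d) hF (hD x hx)).differentiableWithinAt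
  · intro x hx
    exact hΘ.sym.per _ (hD x hx)
  · intro j hj x hx
    refine bd_schwarz (hol_iter (isOpen_Dom 0 s d) hF j) (fun z hz => hΘ.small j hj z hz) ?_
      (x, t) (hD x hx)
    intro y hy
    have e : (fun x => Θ x 0 - B.φ x) =ᶠ[𝓝 y] fun _ => 0 := by
      filter_upwards [(isOpen_hstrip s).mem_nhds hy] with x hx
      rw [hΘ.zero x hx, sub_self]
    rw [e.iteratedDeriv_eq, iteratedDeriv_fun_const_zero]

/-- LEAF LF-S3-C8. -/
theorem fac_E_hol (B : Base) (s₁ κ K₀ K₁ K₂ : ℝ) (hp : Pre B s₁ κ) (h0 : FEsBd B s₁ κ K₀)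
    (h1 : FEsLip B s₁ κ K₁) (h2 : FEsPhi B s₁ K₂) : FEHol B s₁ κ := by
  intro s hs d hd Θ hΘ
  have D := fsy_data hp hs hΘ
  have hs0 : s ≤ B.s₀ := by linarith [hp.s₁_le, hp.s₁_pos]
  have hκ := hp.κ_pos
  refine hol_removable (isOpen_Dom _ _ _) (fho_E_off D) ?_ ?_
  · intro z hz _
    refine ⟨K₀, ?_⟩
    filter_upwards [(isOpen_Dom 1 s d).mem_nhds hz] with w hw hw0
    have a1 : ‖w.2‖ < d := hw.1
    have a2 : |w.1.im| < s - 1 * |w.2.im| := hw.2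
    simp only [E, if_neg hw0]
    exact h0 s hs _ (hΘ.slice hs0 a1) w.2 w.1 hw0 (by linarith) (by linarith)
  · intro z hz hz0
    have e : E B Θ z.1 0 = 0 := by simp [E]
    rw [e]
    have hd0 : 0 < d := by
      have := hz.1
      rw [hz0, norm_zero] at this
      exact this
    have hz' : (z.1, (0 : ℂ)) ∈ Dom 1 s d := by
      rw [← hz0]
      exact hz
    -- the bound
    have hb : ∀ᶠ t in 𝓝[≠] (0 : ℂ), ‖E B Θ z.1 t‖ ≤ (K₂ + K₁ * (2 * κ / d)) * ‖t‖ := by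
      have ev1 : ∀ᶠ t in 𝓝 (0 : ℂ), (z.1, t) ∈ Dom 1 s d := by
        have hcont : ContinuousAt (fun τ : ℂ => (z.1, τ)) 0 := by fun_prop
        exact hcont.eventually ((isOpen_Dom 1 s d).mem_nhds hz')
      have ev2 : ∀ᶠ t in 𝓝 (0 : ℂ), ‖t‖ < d / 4 := by
        have := Metric.ball_mem_nhds (0 : ℂ) (by positivity : 0 < d / 4)
        filter_upwards [this] with t ht
        simpa using ht
      filter_upwards [nhdsWithin_le_nhds ev1, nhdsWithin_le_nhds ev2, self_mem_nhdsWithin]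
        with t m1 m2 m3
      have ht0 : t ≠ 0 := m3
      have a1 : ‖t‖ < d := m1.1
      have a2 : |z.1.im| < s - 1 * |t.im| := m1.2
      have hV := fho_var hs0 hΘ a1
      have hμ : 2 * κ * ‖t‖ / d ≤ κ / 2 := by
        rw [div_le_iff₀ hd0]
        nlinarith
      have b1 := h1 s hs B.φ (slice_phi hs0 hκ.le) _ _ hμ hV t z.1 ht0 (by linarith) (by linarith)
      have b2 := h2 t z.1 ht0 (by linarith) (by linarith)
      have e1 : (fun x => B.φ x + (Θ x t - B.φ x)) = fun x => Θ x t := by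
        funext x
        ring
      rw [e1] at b1
      simp only [E, if_neg ht0]
      have b3 := norm_add_le (Es B (fun x => Θ x t) t z.1 - Es B B.φ t z.1) (Es B B.φ t z.1)
      rw [sub_add_cancel] at b3
      have e2 : K₁ * (2 * κ * ‖t‖ / d) = K₁ * (2 * κ / d) * ‖t‖ := by ring
      linarith
    have hlim : Tendsto (fun t : ℂ => (K₂ + K₁ * (2 * κ / d)) * ‖t‖) (𝓝[≠] 0) (𝓝 0) := by
      have : Tendsto (fun t : ℂ => (K₂ + K₁ * (2 * κ / d)) * ‖t‖) (𝓝 0)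
          (𝓝 ((K₂ + K₁ * (2 * κ / d)) * ‖(0 : ℂ)‖)) :=
        (continuous_const.mul continuous_norm).tendsto 0
      rw [norm_zero, mul_zero] at this
      exact this.mono_left nhdsWithin_le_nhds
    exact squeeze_zero_norm' hb hlim

/-! ### C7 -/

/-- `a - 1/4` for the trivial candidate. -/
noncomputable def fhoF (B : Base) (y t : ℂ) : ℂ := A B (fun y _ => B.φ y) y t - 1 / 4

theorem fho_F_hol {B : Base} {s₁ κ : ℝ} (hp : Pre B (2 * s₁) κ) (hA : FAHol B (2 * s₁) κ) :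
    Hol (fhoF B) (Dom (1 / 2) (2 * s₁) (2 * s₁)) := by
  have hs0 : 2 * s₁ ≤ B.s₀ := by linarith [hp.s₁_le, hp.s₁_pos]
  have h1 := hA (2 * s₁) le_rfl (2 * s₁) le_rfl _
    (cand_phi (B := B) (d := 2 * s₁) hs0 (by linarith [hp.κ_pos] : (0 : ℝ) ≤ 2 * κ))
  exact DifferentiableOn.fun_sub h1 (differentiableOn_const _)

theorem fho_F_bd {B : Base} {s₁ κ : ℝ} (hp : Pre B (2 * s₁) κ) (hc : FAsClose B (2 * s₁) κ) :
    Bd (fhoF B) (Dom (1 / 2) (2 * s₁) (2 * s₁)) (1 / 40) := by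
  have hs0 : 2 * s₁ ≤ B.s₀ := by linarith [hp.s₁_le, hp.s₁_pos]
  intro z hz
  have a1 : ‖z.2‖ < 2 * s₁ := hz.1
  have a2 : |z.1.im| < 2 * s₁ - 1 / 2 * |z.2.im| := hz.2
  unfold fhoF A
  by_cases h0 : z.2 = 0
  · rw [if_pos h0]
    norm_num
  · rw [if_neg h0]
    have h1 := hc (2 * s₁) le_rfl B.φ
      (slice_phi hs0 (by linarith [hp.κ_pos] : (0 : ℝ) ≤ 2 * κ)) z.2 z.1 h0 a1 (by linarith)
    have e : As B (fun x => B.φ x) z.2 z.1 - 1 / 4 = (4 * As B B.φ z.2 z.1 - 1) / 4 := by ring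
    rw [e, norm_div]
    have h4 : ‖(4 : ℂ)‖ = 4 := by simp
    rw [h4]
    linarith

theorem fho_g_bd {B : Base} {s₁ κ : ℝ} (hp : Pre B (2 * s₁) κ) (hc : FAsClose B (2 * s₁) κ)
    (hA : FAHol B (2 * s₁) κ) {y τ : ℂ} (hy : |y.im| < s₁) (hτ : ‖τ‖ < s₁) :
    ‖dy (fhoF B) y τ‖ ≤ ‖τ‖ / (20 * s₁ ^ 2) := by
  have hs : 0 < s₁ := by linarith [hp.s₁_pos]
  have hF := fho_F_hol hp hA
  have hb := bd_dy (δ := s₁ / 2) (by positivity) hF (fho_F_bd hp hc)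
  have hg := hol_dy (isOpen_Dom _ _ _) hF
  have hm : ∀ w ∈ Metric.ball (0 : ℂ) s₁, (y, w) ∈ Dom (1 / 2) (2 * s₁ - s₁ / 2) (2 * s₁) := by
    intro w hw
    have hw' : ‖w‖ < s₁ := by simpa using hw
    refine ⟨by show ‖w‖ < 2 * s₁; linarith, ?_⟩
    show |y.im| < 2 * s₁ - s₁ / 2 - 1 / 2 * |w.im|
    have := Complex.abs_im_le_norm w
    linarith
  have h1 := ca_schwarz (g := fun w => dy (fhoF B) y w) (c := 0) (R := s₁) (M := 1 / 40 / (s₁ / 2))
    (fun w hw => (hol_slice_t (isOpen_Dom _ _ _) hg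
      (Dom_mono le_rfl (by linarith) le_rfl (hm w hw))).differentiableWithinAt)
    (fun w hw => hb _ (hm w hw))
    (by
      show deriv (fun x => fhoF B x 0) y = 0
      have : (fun x => fhoF B x 0) = fun _ => 0 := by
        funext x
        simp [fhoF, A]
      rw [this]
      simp) τ (by simpa using hτ)
  refine h1.trans (le_of_eq ?_)
  rw [sub_zero]
  field_simp
  ring

theorem fho_F_diff {B : Base} {s₁ κ : ℝ} (hp : Pre B (2 * s₁) κ) (hc : FAsClose B (2 * s₁) κ)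
    (hA : FAHol B (2 * s₁) κ) {y τ : ℂ} (hτ : ‖τ‖ < s₁) (hy : |y.im| + |τ.im| / 2 < s₁) :
    ‖fhoF B (y + τ / 2) τ - fhoF B (y - τ / 2) τ‖ ≤ ‖τ‖ ^ 2 / (20 * s₁ ^ 2) := by
  have hs : 0 < s₁ := by linarith [hp.s₁_pos]
  have hF := fho_F_hol hp hA
  have him : |(τ / 2).im| = |τ.im| / 2 := by rw [Complex.div_ofNat_im, abs_div, abs_two]
  obtain ⟨_, mp, mm⟩ := fva_mem (y := y) (t := τ / 2) (s := s₁) (by rw [him]; exact hy)
  have h1 := (convex_hstrip s₁).norm_image_sub_le_of_norm_deriv_le (𝕜 := ℂ)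
    (f := fun x => fhoF B x τ) (C := ‖τ‖ / (20 * s₁ ^ 2))
    (fun x hx => by
      have hx' : |x.im| < s₁ := hx
      refine hol_slice_y (isOpen_Dom _ _ _) hF ⟨by show ‖τ‖ < 2 * s₁; linarith, ?_⟩
      show |x.im| < 2 * s₁ - 1 / 2 * |τ.im|
      have := Complex.abs_im_le_norm τ
      linarith)
    (fun x hx => fho_g_bd hp hc hA hx hτ) mm mp
  refine h1.trans (le_of_eq ?_)
  rw [show y + τ / 2 - (y - τ / 2) = τ by ring]
  ring

/-- the `τ`-derivative of the stationarity defect of `φ`. -/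
theorem fho_Rs_dt (B : Base) {y τ : ℂ} (hy : |y.im| + |τ.im| < B.s₀) :
    HasDerivAt (fun w => Rs B.hc B.φ w y)
      (S12 B.hc (B.φ y) (B.φ (y + τ)) * deriv B.φ (y + τ)
        - S12 B.hc (B.φ (y - τ)) (B.φ y) * deriv B.φ (y - τ)) τ := by
  obtain ⟨m0, mp, mm⟩ := fva_mem hy
  have hop := isOpen_hstrip B.s₀
  have hσ := B.σ_pos
  have lp : HasDerivAt (fun w => B.φ (y + w)) (deriv B.φ (y + τ)) τ :=
    (B.φ_diff.differentiableAt (hop.mem_nhds mp)).hasDerivAt.comp_const_add y τ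
  have lm : HasDerivAt (fun w => B.φ (y - w)) (-deriv B.φ (y - τ)) τ :=
    (B.φ_diff.differentiableAt (hop.mem_nhds mm)).hasDerivAt.comp_const_sub y τ
  have h1 : (B.φ (y - τ) + B.φ y) / 2 ∈ hstrip B.σ :=
    fva_mid (B.φ_maps _ mm) (B.φ_maps _ m0) (by linarith)
  have h2 : (B.φ y + B.φ (y + τ)) / 2 ∈ hstrip B.σ :=
    fva_mid (B.φ_maps _ m0) (B.φ_maps _ mp) (by linarith)
  have d1 := (hasDerivAt_pOutC_left B.hc_diff h1).comp τ lm
  have d2 := (hasDerivAt_pInC_right B.hc_diff h2).comp τ lp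
  refine (d1.sub d2).congr_deriv ?_
  ring

/-- LEAF LF-S3-C7. -/
theorem fac_Es_phi (B : Base) (s₁ κ : ℝ) (hp : Pre B (2 * s₁) κ) (hc : FAsClose B (2 * s₁) κ)
    (hA : FAHol B (2 * s₁) κ) : FEsPhi B s₁ (1 / (20 * s₁ ^ 2)) := by
  intro t y ht hts hy
  have hs : 0 < s₁ := by linarith [hp.s₁_pos]
  have hs0 : s₁ ≤ B.s₀ := by linarith [hp.s₁_le]
  have hc0 : (B.c : ℂ) ≠ 0 := by exact_mod_cast B.c_pos.ne'
  have hcp := B.c_pos
  have htp : 0 < ‖t‖ := norm_pos_iff.2 ht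
  -- points of the segment
  have hseg : ∀ τ ∈ segment ℝ (0 : ℂ) t, ‖τ‖ ≤ ‖t‖ ∧ |τ.im| ≤ |t.im| := by
    rintro τ ⟨a, b, _, hb, hab, rfl⟩
    have hb1 : b ≤ 1 := by linarith
    constructor
    · rw [smul_zero, zero_add, norm_smul, Real.norm_eq_abs, abs_of_nonneg hb]
      nlinarith [norm_nonneg t]
    · rw [smul_zero, zero_add, Complex.smul_im, smul_eq_mul, abs_mul, abs_of_nonneg hb]
      nlinarith [abs_nonneg t.im]
  have hmv := (convex_segment (0 : ℂ) t).norm_image_sub_le_of_norm_hasDerivWithin_le (𝕜 := ℂ)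
    (f := fun w => deriv B.φ y * Rs B.hc B.φ w y)
    (f' := fun τ => deriv B.φ y * (S12 B.hc (B.φ y) (B.φ (y + τ)) * deriv B.φ (y + τ)
        - S12 B.hc (B.φ (y - τ)) (B.φ y) * deriv B.φ (y - τ)))
    (C := B.c * ‖t‖ ^ 3 / (20 * s₁ ^ 2))
    (fun τ hτ => ((fho_Rs_dt B (by linarith [(hseg τ hτ).2])).const_mul _).hasDerivWithinAt)
    (fun τ hτ => by
      obtain ⟨b1, b2⟩ := hseg τ hτ
      by_cases h0 : τ = 0
      · subst h0
        simp only [add_zero, sub_zero, sub_self, mul_zero, norm_zero]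
        positivity
      · have hd := fho_F_diff hp hc hA (y := y) (τ := τ) (by linarith)
          (by linarith [abs_nonneg τ.im])
        have e : deriv B.φ y * (S12 B.hc (B.φ y) (B.φ (y + τ)) * deriv B.φ (y + τ)
            - S12 B.hc (B.φ (y - τ)) (B.φ y) * deriv B.φ (y - τ))
            = B.c * τ * (fhoF B (y + τ / 2) τ - fhoF B (y - τ / 2) τ) := by
          simp only [fhoF, A, if_neg h0, As]
          rw [show y + τ / 2 - τ / 2 = y by ring, show y + τ / 2 + τ / 2 = y + τ by ring,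
            show y - τ / 2 - τ / 2 = y - τ by ring, show y - τ / 2 + τ / 2 = y by ring]
          field_simp
          ring
        rw [e, norm_mul, norm_mul, Complex.norm_real, Real.norm_eq_abs, abs_of_pos hcp]
        calc B.c * ‖τ‖ * ‖fhoF B (y + τ / 2) τ - fhoF B (y - τ / 2) τ‖
            ≤ B.c * ‖τ‖ * (‖τ‖ ^ 2 / (20 * s₁ ^ 2)) := by gcongr
          _ = B.c * ‖τ‖ ^ 3 / (20 * s₁ ^ 2) := by ring
          _ ≤ B.c * ‖t‖ ^ 3 / (20 * s₁ ^ 2) := by gcongr)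
    (left_mem_segment ℝ 0 t) (right_mem_segment ℝ 0 t)
  have k0 : Rs B.hc B.φ 0 y = 0 := by
    simp [Rs, pOutC_self, pInC_self]
  simp only [k0, mul_zero, sub_zero] at hmv
  unfold Es
  rw [norm_div, norm_mul (B.c : ℂ), norm_pow, Complex.norm_real, Real.norm_eq_abs, abs_of_pos hcp,
    div_le_iff₀ (by positivity)]
  refine hmv.trans (le_of_eq ?_)
  field_simp

end Claimed.Agent.R269.S3
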