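/-
Row 269, Section 3, UNIT C, leaf packages LF-S3-C5 (`fac_mean`) and LF-S3-C9 (`fac_sym`).   Statements + plans: helper228.   Uses Gen, FacSlice, LibFS.   ~250 + ~350 lines.

C5.  `L(y) := Sgen h (f y) (f (y+t))`,  `M(y) := pOutC h (f (y-t)) (f y) · f'(y)`;  both are holomorphic and `2π`-periodic on the strips where they are defined
   (`|Im y| < s - |Im t|`, resp. `|Im y| + |Im t| < s` ...).     `L' (y) = -pInC h (f y) (f(y+t)) f'(y) + pOutC h (f y) (f(y+t)) f'(y+t) = -pInC(..) f'(y) + M(y+t)`.   Hence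
       `f'(y) Rs h f t y = M(y) - M(y+t) + L'(y)`.       `mean L' = 0` (`mean_deriv`),  `mean (M(· + t)) = mean M` (`fc_shift`, `n = 0`; apply it to `M̃(y) := M(y + t/2)`, holomorphic on
   `|Im y| < s - |Im t|/2`, with the shifts `± t/2`).      Finally `mean (Es B f t) = mean (f' Rs)/(c t³)` (`fc_const_mul`).
C9.  `per`: `Θ(y+2π,t) = Θ(y,t) + 2π`, the same for the shifted points, `dy Θ` is periodic; `pInC_per`, `pOutC_per`, `S12_per`.
   `even`: `Θ(x,-t) = Θ(x,t)` on the strip, so the slices (and their derivatives at interior points: `Filter.EventuallyEq.deriv_eq`) agree;   `Rs h f (-t) y = -Rs h f t y` (`pOutC_swap`), `(-t)³ = -t³`;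
      `As B f (-t) y = As B f t y` (`S12_swap`).          `real`: `pInC_conj`, `pOutC_conj`, `S12_conj`, `deriv_conj` for the slice `x ↦ Θ x t` versus `x ↦ Θ x (conj t)`;  `c` is real.
   At `t = 0` all three are trivial (`E = 0`, `A = 1/4`).
-/
import Claimed.Agent.R269.S3.FacSlice
import Claimed.Agent.R269.S3.Gen
import Claimed.Agent.R269.S3.LibFS

set_option autoImplicit false

namespace Claimed.Agent.R269.S3

open Real Complex ComplexConjugate

theorem fme_mem_add {s r : ℝ} {y a : ℂ} (hy : y ∈ hstrip (s - r)) (ha : |a.im| ≤ r) :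
    y + a ∈ hstrip s := by
  have hy' : |y.im| < s - r := hy
  show |(y + a).im| < s
  rw [Complex.add_im]
  linarith [abs_add_le y.im a.im]

theorem fme_mid {σ σ' : ℝ} {u v : ℂ} (hu : u ∈ hstrip σ') (hv : v ∈ hstrip σ') (h : σ' ≤ σ) :
    (u + v) / 2 ∈ hstrip σ := by
  have hu' : |u.im| < σ' := hu
  have hv' : |v.im| < σ' := hv
  show |((u + v) / 2).im| < σ
  have e : ((u + v) / 2).im = (u.im + v.im) / 2 := by
    rw [Complex.div_ofNat_im, Complex.add_im]
  rw [e, abs_div, abs_two]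
  linarith [abs_add_le u.im v.im]

theorem fme_deriv_per {B : Base} {s κ : ℝ} {f : ℂ → ℂ} (hf : Slice B s κ f) :
    ∀ y ∈ hstrip s, deriv f (y + 2 * π) = deriv f y := by
  intro y hy
  have e : (fun x => f (x + 2 * π)) =ᶠ[nhds y] (fun x => f x + 2 * π) := by
    filter_upwards [(isOpen_hstrip s).mem_nhds hy] with x hx
    exact hf.per x hx
  have h1 := e.deriv_eq
  rw [deriv_comp_add_const, deriv_add_const] at h1
  exact h1

/-- chain rule for a function of two shifted values of a slice. -/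
theorem fme_chain {B : Base} {s₁ κ s : ℝ} (hp : Pre B s₁ κ) (hs : s ≤ s₁) {f : ℂ → ℂ}
    (hf : Slice B s (2 * κ) f) {F : ℂ → ℂ → ℂ} (hF : Hol F (Mid B.σ)) {y a b : ℂ}
    (ha : y + a ∈ hstrip s) (hb : y + b ∈ hstrip s) :
    HasDerivAt (fun x => F (f (x + a)) (f (x + b)))
      (dy F (f (y + a)) (f (y + b)) * deriv f (y + a)
        + dt F (f (y + a)) (f (y + b)) * deriv f (y + b)) y := by
  have hop := isOpen_hstrip s
  have la : HasDerivAt (fun x => f (x + a)) (deriv f (y + a)) y :=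
    (hf.diff.differentiableAt (hop.mem_nhds ha)).hasDerivAt.comp_add_const y a
  have lb : HasDerivAt (fun x => f (x + b)) (deriv f (y + b)) y :=
    (hf.diff.differentiableAt (hop.mem_nhds hb)).hasDerivAt.comp_add_const y b
  have hσ := B.σ_pos
  exact hol_chain (isOpen_Mid B.σ) hF la lb
    (fme_mid (hf.mem hp hs _ ha) (hf.mem hp hs _ hb) (by linarith))

/-- periodicity of a function of two shifted values of a slice. -/
theorem fme_per {B : Base} {s₁ κ s : ℝ} (hp : Pre B s₁ κ) (hs : s ≤ s₁) {f : ℂ → ℂ}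
    (hf : Slice B s (2 * κ) f) {F : ℂ → ℂ → ℂ}
    (hF : ∀ u v : ℂ, (u + v) / 2 ∈ hstrip B.σ → F (u + 2 * π) (v + 2 * π) = F u v) {y a b : ℂ}
    (ha : y + a ∈ hstrip s) (hb : y + b ∈ hstrip s) :
    F (f (y + 2 * π + a)) (f (y + 2 * π + b)) = F (f (y + a)) (f (y + b)) := by
  have hσ := B.σ_pos
  rw [show y + 2 * π + a = y + a + 2 * π by ring, show y + 2 * π + b = y + b + 2 * π by ring,
    hf.per _ ha, hf.per _ hb]
  exact hF _ _ (fme_mid (hf.mem hp hs _ ha) (hf.mem hp hs _ hb) (by linarith))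

/-- LEAF LF-S3-C5. -/
theorem fac_mean (B : Base) (s₁ κ : ℝ) (hp : Pre B s₁ κ) : FMean B s₁ κ := by
  intro s hs f hf t ht _ hts
  have hop := isOpen_hstrip s
  have him : (t / 2).im = t.im / 2 := by rw [Complex.div_ofNat_im]
  have a1 : |(t / 2).im| ≤ |t.im| / 2 := by rw [him, abs_div, abs_two]
  have a2 : |(-(t / 2)).im| ≤ |t.im| / 2 := by rw [Complex.neg_im, abs_neg]; exact a1
  have a0 : |(0 : ℂ).im| ≤ |t.im| := by simp
  -- the two auxiliary functions
  set N : ℂ → ℂ := fun y => pOutC B.hc (f (y + -(t / 2))) (f (y + t / 2)) * deriv f (y + t / 2)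
    with hN
  set L : ℂ → ℂ := fun y => Sgen B.hc (f (y + 0)) (f (y + t)) with hL
  have dN : DifferentiableOn ℂ N (hstrip (s - |t.im| / 2)) := by
    intro y hy
    have h1 := fme_chain hp hs hf (hol_pOutC B.hc_diff) (fme_mem_add hy a2) (fme_mem_add hy a1)
    have h2 : HasDerivAt (fun x => deriv f (x + t / 2)) (deriv (deriv f) (y + t / 2)) y :=
      ((hf.diff.deriv hop).differentiableAt
        (hop.mem_nhds (fme_mem_add hy a1))).hasDerivAt.comp_add_const y (t / 2)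
    exact (h1.mul h2).differentiableAt.differentiableWithinAt
  have pN : ∀ y ∈ hstrip (s - |t.im| / 2), N (y + 2 * π) = N y := by
    intro y hy
    simp only [hN]
    rw [fme_per hp hs hf (fun u v h => pOutC_per B.hc_diff B.hc_per h) (fme_mem_add hy a2)
      (fme_mem_add hy a1), show y + 2 * π + t / 2 = y + t / 2 + 2 * π by ring,
      fme_deriv_per hf _ (fme_mem_add hy a1)]
  have hLd : ∀ y ∈ hstrip (s - |t.im|), HasDerivAt L
      (-pInC B.hc (f y) (f (y + t)) * deriv f y + pOutC B.hc (f y) (f (y + t)) * deriv f (y + t))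
      y := by
    intro y hy
    have m0 := fme_mem_add hy a0
    have mt := fme_mem_add hy le_rfl
    have h1 := fme_chain hp hs hf (hol_Sgen B.hc_diff) m0 mt
    have hσ := B.σ_pos
    have hm := fme_mid (hf.mem hp hs _ m0) (hf.mem hp hs _ mt) (by linarith : 3 * B.σ / 8 ≤ B.σ)
    have s1 : dy (Sgen B.hc) (f (y + 0)) (f (y + t)) = -pInC B.hc (f (y + 0)) (f (y + t)) :=
      (hasDerivAt_Sgen_left B.hc_diff hm).deriv
    have s2 : dt (Sgen B.hc) (f (y + 0)) (f (y + t)) = pOutC B.hc (f (y + 0)) (f (y + t)) :=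
      (hasDerivAt_Sgen_right B.hc_diff hm).deriv
    rw [s1, s2] at h1
    simp only [add_zero] at h1
    simpa only [hL, add_zero] using h1
  have dL : DifferentiableOn ℂ L (hstrip (s - |t.im|)) :=
    fun y hy => (hLd y hy).differentiableAt.differentiableWithinAt
  have pL : ∀ y ∈ hstrip (s - |t.im|), L (y + 2 * π) = L y := by
    intro y hy
    simp only [hL]
    exact fme_per hp hs hf (fun u v h => Sgen_per B.hc_per h) (fme_mem_add hy a0)
      (fme_mem_add hy le_rfl)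
  have hs' : 0 < s - |t.im| := by linarith
  have b1 : |(t / 2).im| < s - |t.im| / 2 := by linarith
  have b2 : |(-(t / 2)).im| < s - |t.im| / 2 := by linarith
  -- the identity on the real axis
  have key : ∀ x : ℝ, Es B f t x = ((B.c : ℂ) * t ^ 3)⁻¹ *
      ((N (x + -(t / 2)) + (-1) * N (x + t / 2)) + deriv L x) := by
    intro x
    rw [(hLd x (lfs_real_mem hs' x)).deriv]
    simp only [hN, Es, Rs]
    rw [show (x : ℂ) + -(t / 2) + -(t / 2) = x - t by ring,
      show (x : ℂ) + -(t / 2) + t / 2 = x by ring, show (x : ℂ) + t / 2 + -(t / 2) = x by ring,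
      show (x : ℂ) + t / 2 + t / 2 = x + t by ring]
    ring
  have c1 : Continuous fun x : ℝ => N (x + -(t / 2)) := lfs_cont_of_diff dN b2
  have c2 : Continuous fun x : ℝ => N (x + t / 2) := lfs_cont_of_diff dN b1
  have c3 : Continuous fun x : ℝ => deriv L x :=
    lfs_cont_of_diff₀ hs' (dL.deriv (isOpen_hstrip _))
  unfold mean
  rw [fc_congr (g₂ := fun y => ((B.c : ℂ) * t ^ 3)⁻¹ *
      ((N (y + -(t / 2)) + (-1) * N (y + t / 2)) + deriv L y)) key 0, fc_const_mul,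
    fc_add (g₁ := fun y => N (y + -(t / 2)) + (-1) * N (y + t / 2)) (g₂ := deriv L)
      (c1.add (c2.const_mul (-1))) c3,
    fc_add (g₁ := fun y => N (y + -(t / 2))) (g₂ := fun y => (-1) * N (y + t / 2)) c1
      (c2.const_mul (-1)),
    fc_const_mul, fc_shift dN pN b1, fc_shift dN pN b2]
  have hm : fc 0 (deriv L) = 0 := mean_deriv hs' dL pL
  rw [hm]
  simp

/-! ### C9: symmetries -/

theorem fsm_mem1 {s : ℝ} {y t : ℂ} (h : |y.im| + |t.im| < s) :
    y ∈ hstrip s ∧ y + t ∈ hstrip s ∧ y - t ∈ hstrip s := by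
  refine ⟨?_, ?_, ?_⟩
  · show |y.im| < s
    linarith [abs_nonneg t.im]
  · show |(y + t).im| < s
    rw [Complex.add_im]
    linarith [abs_add_le y.im t.im]
  · show |(y - t).im| < s
    rw [Complex.sub_im]
    linarith [abs_sub y.im t.im]

theorem fsm_mem2 {s : ℝ} {y t : ℂ} (h : |y.im| + |t.im| / 2 < s) :
    y + t / 2 ∈ hstrip s ∧ y - t / 2 ∈ hstrip s := by
  have him : |(t / 2).im| = |t.im| / 2 := by rw [Complex.div_ofNat_im, abs_div, abs_two]
  have := fsm_mem1 (y := y) (t := t / 2) (s := s) (by rw [him]; exact h)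
  exact this.2

/-- the facts on a slice which are used for the symmetries. -/
structure FsmSl (B : Base) (s : ℝ) (f : ℂ → ℂ) : Prop where
  per : ∀ y ∈ hstrip s, f (y + 2 * π) = f y + 2 * π
  dper : ∀ y ∈ hstrip s, deriv f (y + 2 * π) = deriv f y
  mid : ∀ y ∈ hstrip s, ∀ y' ∈ hstrip s, (f y + f y') / 2 ∈ hstrip B.σ

theorem fsm_sl {B : Base} {s₁ κ s : ℝ} (hp : Pre B s₁ κ) (hs : s ≤ s₁) {f : ℂ → ℂ}
    (hf : Slice B s (2 * κ) f) : FsmSl B s f :=
  ⟨hf.per, fme_deriv_per hf, fun y hy y' hy' =>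
    fme_mid (hf.mem hp hs y hy) (hf.mem hp hs y' hy') (by linarith [B.σ_pos])⟩

theorem fsm_Es_per {B : Base} {s : ℝ} {f : ℂ → ℂ} (hf : FsmSl B s f) {t y : ℂ}
    (hy : |y.im| + |t.im| < s) : Es B f t (y + 2 * π) = Es B f t y := by
  obtain ⟨m0, mp, mm⟩ := fsm_mem1 hy
  unfold Es Rs
  rw [show y + 2 * π - t = y - t + 2 * π by ring, show y + 2 * π + t = y + t + 2 * π by ring,
    hf.per _ m0, hf.per _ mp, hf.per _ mm, hf.dper _ m0,
    pOutC_per B.hc_diff B.hc_per (hf.mid _ mm _ m0), pInC_per B.hc_diff B.hc_per (hf.mid _ m0 _ mp)]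

theorem fsm_As_per {B : Base} {s : ℝ} {f : ℂ → ℂ} (hf : FsmSl B s f) {t y : ℂ}
    (hy : |y.im| + |t.im| / 2 < s) : As B f t (y + 2 * π) = As B f t y := by
  obtain ⟨mp, mm⟩ := fsm_mem2 hy
  unfold As
  rw [show y + 2 * π - t / 2 = y - t / 2 + 2 * π by ring,
    show y + 2 * π + t / 2 = y + t / 2 + 2 * π by ring,
    hf.per _ mp, hf.per _ mm, hf.dper _ mp, hf.dper _ mm,
    S12_per B.hc_diff B.hc_per (hf.mid _ mm _ mp)]

theorem fsm_deriv_congr {s : ℝ} {f g : ℂ → ℂ} (h : ∀ x ∈ hstrip s, g x = f x) {y : ℂ}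
    (hy : y ∈ hstrip s) : deriv g y = deriv f y := by
  have e : g =ᶠ[nhds y] f := by
    filter_upwards [(isOpen_hstrip s).mem_nhds hy] with x hx
    exact h x hx
  exact e.deriv_eq

theorem fsm_Es_neg (B : Base) {s : ℝ} {f g : ℂ → ℂ} (h : ∀ x ∈ hstrip s, g x = f x) {t y : ℂ}
    (hy : |y.im| + |t.im| < s) : Es B g (-t) y = Es B f t y := by
  obtain ⟨m0, mp, mm⟩ := fsm_mem1 hy
  unfold Es Rs
  rw [show y - -t = y + t by ring, show y + -t = y - t by ring, h _ m0, h _ mp, h _ mm,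
    fsm_deriv_congr h m0, pOutC_swap B.hc (f (y + t)) (f y), pOutC_swap B.hc (f (y - t)) (f y),
    show (B.c : ℂ) * (-t) ^ 3 = -(B.c * t ^ 3) by ring, div_neg, ← neg_div]
  congr 1
  ring

theorem fsm_As_neg (B : Base) {s : ℝ} {f g : ℂ → ℂ} (h : ∀ x ∈ hstrip s, g x = f x) {t y : ℂ}
    (hy : |y.im| + |t.im| / 2 < s) : As B g (-t) y = As B f t y := by
  obtain ⟨mp, mm⟩ := fsm_mem2 hy
  unfold As
  rw [show y - -t / 2 = y + t / 2 by ring, show y + -t / 2 = y - t / 2 by ring, h _ mp, h _ mm,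
    fsm_deriv_congr h mp, fsm_deriv_congr h mm, S12_swap B.hc (f (y - t / 2)) (f (y + t / 2)),
    show (B.c : ℂ) * (-t) = -(B.c * t) by ring, div_neg, ← neg_div]
  congr 1
  ring

theorem fsm_deriv_conj {s : ℝ} {f g : ℂ → ℂ} (h : ∀ x ∈ hstrip s, g (conj x) = conj (f x)) {y : ℂ}
    (hy : y ∈ hstrip s) : deriv g (conj y) = conj (deriv f y) := by
  have e : (conj ∘ f ∘ conj) =ᶠ[nhds (conj y)] g := by
    filter_upwards [(isOpen_hstrip s).mem_nhds (gen_conj_mem hy)] with x hx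
    simp only [Function.comp]
    rw [← h _ (gen_conj_mem hx), Complex.conj_conj]
  rw [← e.deriv_eq, deriv_conj_conj]
  simp

theorem fsm_Es_conj {B : Base} {s : ℝ} {f g : ℂ → ℂ} (hf : FsmSl B s f)
    (h : ∀ x ∈ hstrip s, g (conj x) = conj (f x)) {t y : ℂ}
    (hy : |y.im| + |t.im| < s) : Es B g (conj t) (conj y) = conj (Es B f t y) := by
  obtain ⟨m0, mp, mm⟩ := fsm_mem1 hy
  unfold Es Rs
  rw [← map_sub, ← map_add, h _ m0, h _ mp, h _ mm, fsm_deriv_conj h m0,
    pOutC_conj B.hc_diff B.hc_conj (hf.mid _ mm _ m0), pInC_conj B.hc_diff B.hc_conj (hf.mid _ m0 _ mp)]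
  simp only [map_div₀, map_mul, map_sub, map_pow, Complex.conj_ofReal]

theorem fsm_As_conj {B : Base} {s : ℝ} {f g : ℂ → ℂ} (hf : FsmSl B s f)
    (h : ∀ x ∈ hstrip s, g (conj x) = conj (f x)) {t y : ℂ}
    (hy : |y.im| + |t.im| / 2 < s) : As B g (conj t) (conj y) = conj (As B f t y) := by
  obtain ⟨mp, mm⟩ := fsm_mem2 hy
  have e2 : conj t / 2 = conj (t / 2) := by rw [map_div₀, map_ofNat]
  unfold As
  rw [e2, ← map_sub, ← map_add, h _ mp, h _ mm, fsm_deriv_conj h mp, fsm_deriv_conj h mm,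
    S12_conj B.hc_diff B.hc_conj (hf.mid _ mm _ mp)]
  simp only [map_div₀, map_mul, Complex.conj_ofReal]

/-- the symmetries of a candidate. -/
structure FsmCd (B : Base) (s d : ℝ) (Θ : ℂ → ℂ → ℂ) : Prop where
  sl : ∀ t : ℂ, ‖t‖ < d → FsmSl B s (fun x => Θ x t)
  even : ∀ t : ℂ, ‖t‖ < d → ∀ x ∈ hstrip s, Θ x (-t) = Θ x t
  real : ∀ t : ℂ, ‖t‖ < d → ∀ x ∈ hstrip s, Θ (conj x) (conj t) = conj (Θ x t)

theorem fsm_cd {B : Base} {s₁ κ s d : ℝ} {Θ : ℂ → ℂ → ℂ} (hp : Pre B s₁ κ) (hs : s ≤ s₁)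
    (hc : Cand B s d (2 * κ) Θ) : FsmCd B s d Θ := by
  have hs0 : s ≤ B.s₀ := by linarith [hp.s₁_le, hp.s₁_pos]
  have hD : ∀ t : ℂ, ‖t‖ < d → ∀ x ∈ hstrip s, (x, t) ∈ Dom 0 s d := by
    intro t ht x hx
    have hx' : |x.im| < s := hx
    refine ⟨ht, ?_⟩
    show |x.im| < s - 0 * |t.im|
    linarith
  refine ⟨fun t ht => fsm_sl hp hs (hc.slice hs0 ht), ?_, ?_⟩
  · intro t ht x hx
    have := hc.sym.even _ (hD t ht x hx)
    simpa using this
  · intro t ht x hx
    have h1 := hc.sym.real _ (hD t ht x hx)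
    have hx0 : x ∈ hstrip B.s₀ := lt_of_lt_of_le (show |x.im| < s from hx) hs0
    simp only [B.φ_conj x hx0, map_sub] at h1
    simpa using h1

/-- LEAF LF-S3-C9. -/
theorem fac_sym (B : Base) (s₁ κ : ℝ) (hp : Pre B s₁ κ) : FESym B s₁ κ ∧ FASym B s₁ κ := by
  constructor
  · intro s hs d _ Θ hc
    have C := fsm_cd hp hs hc
    have hD : ∀ z ∈ Dom 1 s d, ‖z.2‖ < d ∧ |z.1.im| + |z.2.im| < s := by
      intro z hz
      have h2 : |z.1.im| < s - 1 * |z.2.im| := hz.2
      exact ⟨hz.1, by linarith⟩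
    refine ⟨?_, ?_, ?_⟩
    · intro z hz
      obtain ⟨h1, h2⟩ := hD z hz
      unfold E
      by_cases h0 : z.2 = 0
      · simp [h0]
      · rw [if_neg h0, if_neg h0]
        exact fsm_Es_per (C.sl _ h1) h2
    · intro z hz
      obtain ⟨h1, h2⟩ := hD z hz
      unfold E
      by_cases h0 : z.2 = 0
      · simp [h0]
      · rw [if_neg h0, if_neg (neg_ne_zero.2 h0)]
        exact fsm_Es_neg B (C.even _ h1) h2
    · intro z hz
      obtain ⟨h1, h2⟩ := hD z hz
      unfold E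
      by_cases h0 : z.2 = 0
      · simp [h0]
      · rw [if_neg h0, if_neg (by simpa using h0)]
        exact fsm_Es_conj (C.sl _ h1) (C.real _ h1) h2
  · intro s hs d _ Θ hc
    have C := fsm_cd hp hs hc
    have hD : ∀ z ∈ Dom (1 / 2) s d, ‖z.2‖ < d ∧ |z.1.im| + |z.2.im| / 2 < s := by
      intro z hz
      have h2 : |z.1.im| < s - 1 / 2 * |z.2.im| := hz.2
      exact ⟨hz.1, by linarith⟩
    refine ⟨?_, ?_, ?_⟩
    · intro z hz
      obtain ⟨h1, h2⟩ := hD z hz
      unfold A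
      by_cases h0 : z.2 = 0
      · simp [h0]
      · rw [if_neg h0, if_neg h0]
        exact fsm_As_per (C.sl _ h1) h2
    · intro z hz
      obtain ⟨h1, h2⟩ := hD z hz
      unfold A
      by_cases h0 : z.2 = 0
      · simp [h0]
      · rw [if_neg h0, if_neg (neg_ne_zero.2 h0)]
        exact fsm_As_neg B (C.even _ h1) h2
    · intro z hz
      obtain ⟨h1, h2⟩ := hD z hz
      unfold A
      by_cases h0 : z.2 = 0
      · simp [h0, map_ofNat]
      · rw [if_neg h0, if_neg (by simpa using h0)]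
        exact fsm_As_conj (C.sl _ h1) (C.real _ h1) h2

end Claimed.Agent.R269.S3
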