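/-
Row 269, Section 3, UNIT C: slice facts (P1 Lemma 3.2, 03-joint.tex l.64-165) in the angle variable.   Owner: helper228.
`factor_main` is PROVED here from the leaves LF-S3-C0 ... C10 (files S3/Fac*.lean).
-/
import Claimed.Agent.R269.S3.FacBd
import Claimed.Agent.R269.S3.FacVar
import Claimed.Agent.R269.S3.FacMean
import Claimed.Agent.R269.S3.FacHol
import Claimed.Agent.R269.S3.FacSymp

set_option autoImplicit false

namespace Claimed.Agent.R269.S3

open Real Complex ComplexConjugate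

theorem isChain_mono {h : ℝ → ℝ} {η η' : ℝ} {q : ℕ} {θ : ℕ → ℝ} (hc : IsChain h η q θ) (hη : η ≤ η') :
    IsChain h η' q θ :=
  ⟨hc.step_pos, fun j hj => lt_of_lt_of_le (hc.step_lt j hj) hη, hc.stationary⟩

theorem Base.Mφ_pos (B : Base) : 0 < B.Mφ := by
  have h0 : (0 : ℂ) ∈ hstrip B.s₀ := by
    simp [hstrip, B.s₀_pos]
  exact lt_of_lt_of_le B.mφ_pos ((B.φ'_ge 0 h0).trans (B.φ'_le 0 h0))

/-- the collar property for small steps. -/
theorem fac_closes (B : Base) : ∃ S : ℝ, 0 < S ∧ ∀ s₁ ≤ S, FCloses B s₁ := by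
  obtain ⟨η, hη, hcl, -⟩ := B.rigid.out
  refine ⟨η / (4 * B.Mφ), div_pos hη (by have := B.Mφ_pos; positivity), ?_⟩
  intro s₁ hs₁ q l θ hc hθ
  have hM := B.Mφ_pos
  have h1 : 4 * B.Mφ * s₁ ≤ η := by
    have h2 : 4 * B.Mφ * s₁ ≤ 4 * B.Mφ * (η / (4 * B.Mφ)) :=
      mul_le_mul_of_nonneg_left hs₁ (by positivity)
    have h3 : 4 * B.Mφ * (η / (4 * B.Mφ)) = η := by field_simp
    linarith
  exact hcl q l θ (isChain_mono hc h1) hθ

theorem FEsBd.mono {B : Base} {s₁ κ K K' : ℝ} (h : FEsBd B s₁ κ K) (hK : K ≤ K') : FEsBd B s₁ κ K' :=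
  fun s hs f hf t y ht ht1 hy => (h s hs f hf t y ht ht1 hy).trans hK

theorem Var.nonneg {s μ : ℝ} {V : ℂ → ℂ} (h : Var s μ V) {y : ℂ} (hy : y ∈ hstrip s) : 0 ≤ μ :=
  (norm_nonneg _).trans (h.small 0 (Nat.zero_le _) y hy)

theorem mem_hstrip_of_add {s : ℝ} {y t : ℂ} (h : |y.im| + |t.im| < s) : y ∈ hstrip s := by
  have := abs_nonneg t.im
  show |y.im| < s
  linarith

theorem FEsLip.mono {B : Base} {s₁ κ K K' : ℝ} (h : FEsLip B s₁ κ K) (hK : K ≤ K') : FEsLip B s₁ κ K' :=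
  fun s hs f hf μ V hμ hV t y ht ht1 hy => (h s hs f hf μ V hμ hV t y ht ht1 hy).trans
    (mul_le_mul_of_nonneg_right hK (hV.nonneg (mem_hstrip_of_add hy)))

theorem FEsRem.mono {B : Base} {s₁ κ K K' : ℝ} (h : FEsRem B s₁ κ K) (hK : K ≤ K') : FEsRem B s₁ κ K' :=
  fun s hs f hf μ V hμ hV t y ht ht1 hy => (h s hs f hf μ V hμ hV t y ht ht1 hy).trans
    (mul_le_mul_of_nonneg_right hK (by positivity))

theorem FEsPhi.mono {B : Base} {s₁ K K' : ℝ} (h : FEsPhi B s₁ K) (hK : K ≤ K') : FEsPhi B s₁ K' :=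
  fun t y ht ht1 hy => (h t y ht ht1 hy).trans (mul_le_mul_of_nonneg_right hK (norm_nonneg _))

/-- **Unit C.** -/
theorem factor_main (B : Base) : StFactor B := by
  obtain ⟨K₀, hK₀, hEs⟩ := fac_Es_bd B
  obtain ⟨CA, hCA, hAs⟩ := fac_As_est B
  obtain ⟨S₀, hS₀, hcl⟩ := fac_closes B
  have hCApos : 0 < CA := lt_of_lt_of_le one_pos hCA
  set κ : ℝ := min (min (B.σ / 16) (B.mφ / 8)) (1 / (40 * CA)) with hκ
  set S : ℝ := min (min (B.s₀ / 2) 1) (min (1 / (40 * CA)) S₀) with hS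
  have hκpos : 0 < κ := by
    have h1 := B.σ_pos
    have h2 := B.mφ_pos
    simp only [hκ, lt_min_iff]
    refine ⟨⟨by positivity, by positivity⟩, by positivity⟩
  have hSpos : 0 < S := by
    have h1 := B.s₀_pos
    simp only [hS, lt_min_iff]
    refine ⟨⟨by positivity, one_pos⟩, by positivity, hS₀⟩
  have hκ1 : κ ≤ B.σ / 16 := (min_le_left _ _).trans (min_le_left _ _)
  have hκ2 : κ ≤ B.mφ / 8 := (min_le_left _ _).trans (min_le_right _ _)
  have hκ3 : κ ≤ 1 / (40 * CA) := min_le_right _ _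
  have hS1 : S ≤ B.s₀ / 2 := (min_le_left _ _).trans (min_le_left _ _)
  have hS2 : S ≤ 1 := (min_le_left _ _).trans (min_le_right _ _)
  have hS3 : S ≤ 1 / (40 * CA) := (min_le_right _ _).trans (min_le_left _ _)
  have hS4 : S ≤ S₀ := (min_le_right _ _).trans (min_le_right _ _)
  set s₁ : ℝ := S / 2 with hs₁
  have hs₁pos : 0 < s₁ := by positivity
  have h2s : 2 * s₁ = S := by simp only [hs₁]; ring
  have hpreS : Pre B (2 * s₁) κ := by
    rw [h2s]
    exact ⟨hSpos, by linarith, hS2, hκpos, by linarith, by linarith⟩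
  have hpre : Pre B s₁ κ := hpreS.half
  have close_of : ∀ r : ℝ, r ≤ S → Pre B r κ → FAsClose B r κ := by
    intro r hr hp s hs f hf t y ht ht1 hy
    refine (hAs r κ hp s hs f hf t y ht ht1 hy).trans ?_
    have h1 : κ + ‖t‖ ≤ 1 / (40 * CA) + 1 / (40 * CA) := by linarith
    calc CA * (κ + ‖t‖) ≤ CA * (1 / (40 * CA) + 1 / (40 * CA)) :=
          mul_le_mul_of_nonneg_left h1 hCApos.le
      _ = 1 / 20 := by field_simp; norm_num
      _ ≤ 1 / 10 := by norm_num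
  have hcS : FAsClose B (2 * s₁) κ := close_of _ h2s.le hpreS
  have hc1 : FAsClose B s₁ κ := close_of _ (by linarith) hpre
  have hb : FEsBd B s₁ κ K₀ := hEs s₁ κ hpre
  obtain ⟨hlip, hrem⟩ := fac_lip_rem B s₁ κ K₀ hpre (by linarith) hb
  have hphi := fac_Es_phi B s₁ κ hpreS hcS (fac_A_hol B (2 * s₁) κ hpreS hcS)
  obtain ⟨hEsym, hAsym⟩ := fac_sym B s₁ κ hpre
  set K : ℝ := max (max K₀ (2 * K₀ / κ)) (max (2 * K₀ / κ ^ 2) (1 / (20 * s₁ ^ 2))) with hK
  have k1 : K₀ ≤ K := (le_max_left _ _).trans (le_max_left _ _)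
  have k2 : 2 * K₀ / κ ≤ K := (le_max_right _ _).trans (le_max_left _ _)
  have k3 : 2 * K₀ / κ ^ 2 ≤ K := (le_max_left _ _).trans (le_max_right _ _)
  have k4 : 1 / (20 * s₁ ^ 2) ≤ K := (le_max_right _ _).trans (le_max_right _ _)
  refine ⟨s₁, κ, K, ?_⟩
  exact
    { s₁_pos := hpre.s₁_pos
      s₁_le := hpre.s₁_le
      s₁_le_one := hpre.s₁_le_one
      κ_pos := hpre.κ_pos
      κ_le_σ := hpre.κ_le_σ
      κ_le_m := hpre.κ_le_m
      K_ge := hK₀.trans k1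
      Es_bd := hb.mono k1
      As_close := hc1
      Es_lip := hlip.mono k2
      Es_rem := hrem.mono k3
      lin := fac_lin B s₁ κ hpre
      Es_mean := fac_mean B s₁ κ hpre
      Es_phi := hphi.mono k4
      E_hol := fac_E_hol B s₁ κ K₀ _ _ hpre hb hlip hphi
      A_hol := fac_A_hol B s₁ κ hpre hc1
      E_sym := hEsym
      A_sym := hAsym
      symp := fac_symp B s₁ κ hpre
      closes := hcl s₁ (by linarith) }

end Claimed.Agent.R269.S3
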