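/-
Row 269, Section 3, UNIT E (package BP-S3-E, buffered Fourier division), part E1: elementary bounds for the sine, the complex sinc, the divisor `dn`.
Owner: helper170.  Plan: header of S3/Division.lean.
-/
import Claimed.Agent.R269.S3.Defs

set_option autoImplicit false

namespace Claimed.Agent.R269.S3

open Real Complex ComplexConjugate Filter Topology


/-! ### elementary bounds for `sin`, `cos` -/

theorem s3e_norm_exp_mul_I_le (z : ℂ) : ‖Complex.exp (z * Complex.I)‖ ≤ Real.exp |z.im| := by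
  rw [Complex.norm_exp]
  apply Real.exp_le_exp.2
  simp only [Complex.mul_re, Complex.I_re, mul_zero, Complex.I_im, mul_one, zero_sub]
  exact neg_le_abs _

theorem s3e_norm_exp_neg_mul_I_le (z : ℂ) : ‖Complex.exp (-z * Complex.I)‖ ≤ Real.exp |z.im| := by
  have := s3e_norm_exp_mul_I_le (-z)
  simpa using this

theorem s3e_norm_cos_le (z : ℂ) : ‖Complex.cos z‖ ≤ Real.exp |z.im| := by
  have h : Complex.cos z = (Complex.exp (z * Complex.I) + Complex.exp (-z * Complex.I)) / 2 := rfl
  rw [h, norm_div]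
  have h2 : ‖(2 : ℂ)‖ = 2 := by simp
  rw [h2, div_le_iff₀ (by norm_num)]
  calc ‖Complex.exp (z * Complex.I) + Complex.exp (-z * Complex.I)‖
      ≤ ‖Complex.exp (z * Complex.I)‖ + ‖Complex.exp (-z * Complex.I)‖ := norm_add_le _ _
    _ ≤ Real.exp |z.im| + Real.exp |z.im| :=
        add_le_add (s3e_norm_exp_mul_I_le z) (s3e_norm_exp_neg_mul_I_le z)
    _ = Real.exp |z.im| * 2 := by ring

/-- `|sin w| ≤ |w| e^{|Im w|}`. -/
theorem s3e_norm_sin_le (w : ℂ) : ‖Complex.sin w‖ ≤ Real.exp |w.im| * ‖w‖ := by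
  have hconv : Convex ℝ {z : ℂ | |z.im| ≤ |w.im|} := by
    have : {z : ℂ | |z.im| ≤ |w.im|} = Complex.imCLM ⁻¹' (Set.Icc (-|w.im|) |w.im|) := by
      ext z
      simp [abs_le]
    rw [this]
    exact (convex_Icc _ _).linear_preimage Complex.imCLM.toLinearMap
  have h := hconv.norm_image_sub_le_of_norm_deriv_le (f := Complex.sin) (C := Real.exp |w.im|)
    (x := 0) (y := w) (fun z _ => Complex.differentiableAt_sin)
    (fun z hz => by
      rw [Complex.deriv_sin]
      exact (s3e_norm_cos_le z).trans (Real.exp_le_exp.2 hz))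
    (by simp) (by simp)
  simpa using h

theorem s3e_normSq_sin (w : ℂ) :
    ‖Complex.sin w‖ ^ 2 = Real.sin w.re ^ 2 + Real.sinh w.im ^ 2 := by
  rw [← Complex.normSq_eq_norm_sq, Complex.sin_eq, ← Complex.ofReal_sin, ← Complex.ofReal_cos,
    ← Complex.ofReal_sinh, ← Complex.ofReal_cosh, ← Complex.ofReal_mul, ← Complex.ofReal_mul,
    Complex.normSq_add_mul_I]
  have h1 := Real.cosh_sq w.im
  have h2 := Real.sin_sq_add_cos_sq w.re
  nlinarith [h1, h2]

/-- **lower bound for the sine.** -/
theorem s3e_sin_lower (w : ℂ) (k : ℤ) (h : |w.re - k * π| ≤ π / 2) :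
    1 / 4 * min 1 ‖w - k * π‖ * Real.exp |w.im| ≤ ‖Complex.sin w‖ := by
  set u := w.re - k * π with hu
  set v := w.im with hv
  have hsq := s3e_normSq_sin w
  have hsinu : 2 / π * |u| ≤ |Real.sin w.re| := by
    have h1 : |Real.sin w.re| = |Real.sin u| := by
      rw [hu, Real.sin_sub_int_mul_pi, abs_mul, abs_zpow, abs_neg, abs_one, one_zpow, one_mul]
    rw [h1]
    rcases le_total 0 u with h0 | h0
    · rw [abs_of_nonneg h0] at h ⊢
      exact (Real.mul_le_sin h0 h).trans (le_abs_self _)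
    · rw [abs_of_nonpos h0] at h ⊢
      have := Real.mul_le_sin (neg_nonneg.2 h0) h
      rw [Real.sin_neg] at this
      exact this.trans (neg_le_abs _)
  have hsinh : |v| ≤ |Real.sinh v| := by
    rw [Real.abs_sinh]
    exact Real.self_le_sinh_iff.2 (abs_nonneg v)
  have hnorm : ‖w - k * π‖ ^ 2 = u ^ 2 + v ^ 2 := by
    rw [← Complex.normSq_eq_norm_sq, Complex.normSq_apply]
    simp [hu, hv]
    ring
  have hn0 : 0 ≤ ‖Complex.sin w‖ := norm_nonneg _
  have hmin0 : 0 ≤ min 1 ‖w - k * π‖ := le_min zero_le_one (norm_nonneg _)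
  rcases le_or_gt (1 / 2) |v| with hv2 | hv2
  · -- `|sin w| ≥ sinh |v| ≥ e^{|v|}/4`
    have h1 : Real.sinh |v| ≤ ‖Complex.sin w‖ := by
      apply abs_le_of_sq_le_sq' _ hn0 |>.2
      rw [hsq, ← Real.abs_sinh, sq_abs]
      nlinarith [sq_nonneg (Real.sin w.re)]
    have h2 : Real.exp |v| / 4 ≤ Real.sinh |v| := by
      rw [Real.sinh_eq]
      have h3 : Real.exp (-|v|) * 2 ≤ Real.exp |v| := by
        have h4 : (2 : ℝ) ≤ Real.exp (|v| + |v|) := by
          have := Real.add_one_le_exp (|v| + |v|)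
          linarith
        rw [Real.exp_add] at h4
        have h5 : Real.exp (-|v|) * Real.exp |v| = 1 := by rw [← Real.exp_add]; simp
        have h6 := Real.exp_pos (-|v|)
        nlinarith
      linarith
    have h3 : min 1 ‖w - k * π‖ ≤ 1 := min_le_left _ _
    have h4 := Real.exp_pos |v|
    nlinarith
  · have h1 : Real.exp |v| ≤ 2 := by
      have h2 : Real.exp |v| ≤ Real.exp (1 / 2) := Real.exp_le_exp.2 hv2.le
      have h3 : Real.exp (1 / 2) ^ 2 ≤ 2 ^ 2 := by
        rw [← Real.exp_nat_mul]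
        norm_num
        have := Real.exp_one_lt_d9
        linarith
      have h4 := abs_le_of_sq_le_sq' h3 (by norm_num) |>.2
      linarith
    have h2 : 1 / 2 * ‖w - k * π‖ ≤ ‖Complex.sin w‖ := by
      apply abs_le_of_sq_le_sq' _ hn0 |>.2
      rw [mul_pow, hnorm, hsq]
      have hpi : 1 / 2 ≤ 2 / π := by
        rw [le_div_iff₀ Real.pi_pos]
        have := Real.pi_lt_four
        linarith
      have h5 : (1 / 2 * |u|) ^ 2 ≤ Real.sin w.re ^ 2 := by
        rw [← sq_abs (Real.sin w.re)]
        apply pow_le_pow_left₀ (by positivity)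
        exact (mul_le_mul_of_nonneg_right hpi (abs_nonneg u)).trans hsinu
      have h6 : v ^ 2 ≤ Real.sinh v ^ 2 := by
        rw [← sq_abs v, ← sq_abs (Real.sinh v)]
        exact pow_le_pow_left₀ (abs_nonneg v) hsinh 2
      rw [mul_pow, sq_abs] at h5
      nlinarith [sq_nonneg v]
    have h3 : min 1 ‖w - k * π‖ ≤ ‖w - k * π‖ := min_le_right _ _
    have h4 := Real.exp_pos |v|
    nlinarith


/-! ### the complex `sinc` -/

/-- `sinc w = sin w / w`, `sinc 0 = 1`. -/
noncomputable def csinc (w : ℂ) : ℂ := dslope Complex.sin 0 w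

theorem csinc_zero : csinc 0 = 1 := by
  simp [csinc, dslope_same]

theorem csinc_of_ne {w : ℂ} (h : w ≠ 0) : csinc w = Complex.sin w / w := by
  rw [csinc, dslope_of_ne _ h, slope_def_field]
  simp

theorem csinc_mul_self (w : ℂ) : csinc w * w = Complex.sin w := by
  by_cases h : w = 0
  · simp [h]
  · rw [csinc_of_ne h, div_mul_cancel₀ _ h]

theorem differentiable_csinc : Differentiable ℂ csinc := by
  have h : DifferentiableOn ℂ (dslope Complex.sin 0) Set.univ :=
    (Complex.differentiableOn_dslope (Filter.univ_mem)).2 Complex.differentiable_sin.differentiableOn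
  exact differentiableOn_univ.1 h

theorem norm_csinc_le (w : ℂ) : ‖csinc w‖ ≤ Real.exp |w.im| := by
  by_cases h : w = 0
  · simp [h, csinc_zero]
  · rw [csinc_of_ne h, norm_div, div_le_iff₀ (norm_pos_iff.2 h)]
    exact s3e_norm_sin_le w

theorem csinc_neg (w : ℂ) : csinc (-w) = csinc w := by
  by_cases h : w = 0
  · simp [h]
  · rw [csinc_of_ne h, csinc_of_ne (neg_ne_zero.2 h), Complex.sin_neg, neg_div_neg_eq]

theorem csinc_conj (w : ℂ) : csinc (conj w) = conj (csinc w) := by
  by_cases h : w = 0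
  · simp [h, csinc_zero]
  · have h' : conj w ≠ 0 := by simpa using h
    rw [csinc_of_ne h, csinc_of_ne h', map_div₀, Complex.sin_conj]

theorem csinc_int_mul_pi {m : ℤ} (hm : m ≠ 0) : csinc (m * π) = 0 := by
  have h : (m : ℂ) * π ≠ 0 := by
    apply mul_ne_zero
    · exact_mod_cast hm
    · exact_mod_cast Real.pi_ne_zero
  rw [csinc_of_ne h, Complex.sin_int_mul_pi, zero_div]

/-! ### the divisor -/

theorem dn_eq (n : ℤ) (t : ℂ) : dn n t = Complex.I * n * csinc (n * t / 2) := by
  unfold dn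
  by_cases ht : t = 0
  · simp [ht, csinc_zero]
  · rw [if_neg ht]
    by_cases hn : n = 0
    · simp [hn]
    · have hn' : (n : ℂ) ≠ 0 := by exact_mod_cast hn
      have h : (n : ℂ) * t / 2 ≠ 0 := by
        apply div_ne_zero (mul_ne_zero hn' ht) (by norm_num)
      rw [csinc_of_ne h]
      field_simp

theorem differentiable_dn (n : ℤ) : Differentiable ℂ (dn n) := by
  have : dn n = fun t => Complex.I * n * csinc (n * t / 2) := funext (dn_eq n)
  rw [this]
  intro t
  apply DifferentiableAt.const_mul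
  exact (differentiable_csinc _).comp t (by fun_prop)

theorem dn_zero (n : ℤ) : dn n 0 = Complex.I * n := by
  simp [dn]

theorem dn_of_ne (n : ℤ) {t : ℂ} (ht : t ≠ 0) :
    dn n t = 2 * Complex.I * Complex.sin (n * t / 2) / t := by
  simp [dn, ht]

theorem dn_neg_arg (n : ℤ) (t : ℂ) : dn n (-t) = dn n t := by
  rw [dn_eq, dn_eq]
  congr 1
  rw [← csinc_neg]
  congr 1
  ring

theorem dn_conj (n : ℤ) (t : ℂ) : conj (dn n t) = dn (-n) (conj t) := by
  have hn : conj (n : ℂ) = n := by
    rw [← Complex.ofReal_intCast, Complex.conj_ofReal]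
  have h2 : (conj (2 : ℂ)) = 2 := Complex.conj_ofNat 2
  rw [dn_eq, dn_eq, map_mul, map_mul, ← csinc_conj, Complex.conj_I, ← csinc_neg]
  simp only [map_div₀, map_mul, hn, h2, Int.cast_neg]
  have e : -((n : ℂ) * conj t / 2) = -(n : ℂ) * conj t / 2 := by ring
  rw [e]
  ring

theorem dn_eq_zero_iff {n : ℤ} (hn : n ≠ 0) (t : ℂ) :
    dn n t = 0 ↔ ∃ k : ℤ, k ≠ 0 ∧ t = ((2 * π * k / n : ℝ) : ℂ) := by
  have hn' : (n : ℂ) ≠ 0 := by exact_mod_cast hn
  have hpi : (π : ℂ) ≠ 0 := by exact_mod_cast Real.pi_ne_zero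
  by_cases ht : t = 0
  · subst ht
    rw [dn_zero]
    constructor
    · intro h
      exact absurd h (mul_ne_zero Complex.I_ne_zero hn')
    · rintro ⟨k, hk, h⟩
      exfalso
      have hk' : (k : ℂ) ≠ 0 := by exact_mod_cast hk
      push_cast at h
      have : (2 * (π : ℂ) * k / n) ≠ 0 := by
        apply div_ne_zero _ hn'
        exact mul_ne_zero (mul_ne_zero (by norm_num) hpi) hk'
      exact this h.symm
  · rw [dn_of_ne n ht, div_eq_zero_iff]
    simp only [ht, or_false, mul_eq_zero, OfNat.ofNat_ne_zero, Complex.I_ne_zero, false_or]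
    rw [Complex.sin_eq_zero_iff]
    constructor
    · rintro ⟨k, hk⟩
      refine ⟨k, ?_, ?_⟩
      · rintro rfl
        simp only [Int.cast_zero, zero_mul, div_eq_zero_iff, mul_eq_zero, hn', ht, or_self,
          OfNat.ofNat_ne_zero] at hk
      · push_cast
        field_simp
        field_simp at hk
        linear_combination hk
    · rintro ⟨k, _, hk⟩
      refine ⟨k, ?_⟩
      rw [hk]
      push_cast
      field_simp

/-- the zeros of the divisor are isolated. -/
theorem dn_isolated {n : ℤ} (hn : n ≠ 0) (t : ℂ) : ∀ᶠ τ in 𝓝[≠] t, dn n τ ≠ 0 := by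
  have hn' : (n : ℂ) ≠ 0 := by exact_mod_cast hn
  have han : AnalyticAt ℂ (dn n) t := (differentiable_dn n).analyticAt t
  rcases han.eventually_eq_zero_or_eventually_ne_zero with h | h
  · exfalso
    -- then `dn n` vanishes identically
    have h2 : dn n = 0 := by
      have hA : AnalyticOnNhd ℂ (dn n) Set.univ := fun z _ => (differentiable_dn n).analyticAt z
      have := hA.eqOn_zero_of_preconnected_of_eventuallyEq_zero isPreconnected_univ (Set.mem_univ t) h
      funext z
      exact this (Set.mem_univ z)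
    have h3 := congrFun h2 0
    rw [dn_zero] at h3
    exact mul_ne_zero Complex.I_ne_zero hn' h3
  · exact h

end Claimed.Agent.R269.S3
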