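/-
Row 269, Section 3, UNIT E (package BP-S3-E, buffered Fourier division), part E2: one Fourier mode.
Owner: helper170.  Plan: header of S3/Division.lean.
-/
import Claimed.Agent.R269.S3.DivSinc
import Claimed.Agent.R269.S3.LibCA
import Claimed.Agent.R269.Lib.CA1Sing

set_option autoImplicit false

namespace Claimed.Agent.R269.S3

open Real Complex ComplexConjugate Filter Topology

/-- **One mode: the bound (4)** away from the zeros of the divisor. -/
theorem s3e_mode_bound {n : ℤ} (hn : n ≠ 0) {ν σ d d' δ r W : ℝ} (hν : 1 / 2 ≤ ν) (hν1 : ν ≤ 1)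
    (hδ : 0 < δ) (hd0 : 0 < d) (hd : d ≤ 1) (hr : δ * d ≤ r) (hdr : d' + r ≤ d)
    (hW : 0 ≤ W) {G : ℂ → ℂ} (hG : DifferentiableOn ℂ G (Metric.ball 0 d))
    (hb : ∀ t ∈ Metric.ball (0 : ℂ) d, ‖G t‖ ≤ W * Real.exp (-(|(n : ℝ)| * (σ - ν * |t.im|))))
    (h0 : ∀ k : ℤ, k ≠ 0 → |2 * π * k / n| < d' → G ((2 * π * k / n : ℝ) : ℂ) = 0)
    {t : ℂ} (ht : t ∈ Metric.ball (0 : ℂ) (d' - r)) (hdn : dn n t ≠ 0) :
    ‖G t / dn n t‖ ≤
      12 * (1 + δ⁻¹) * W * Real.exp (-(|(n : ℝ)| * (σ - (ν - 1 / 2) * |t.im|))) := by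
  set m : ℝ := |(n : ℝ)| with hm
  have hm1 : 1 ≤ m := by
    have : (1 : ℤ) ≤ |n| := Int.one_le_abs hn
    have h2 : ((1 : ℤ) : ℝ) ≤ ((|n| : ℤ) : ℝ) := by exact_mod_cast this
    simpa [hm] using h2
  have hm0 : 0 < m := by linarith
  have hnR : (n : ℝ) ≠ 0 := by exact_mod_cast hn
  have hnC : (n : ℂ) ≠ 0 := by exact_mod_cast hn
  have hnorm_n : ‖(n : ℂ)‖ = m := by
    rw [hm, ← Complex.ofReal_intCast, Complex.norm_real, Real.norm_eq_abs]
  have hr0 : 0 < r := lt_of_lt_of_le (mul_pos hδ hd0) hr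
  have ht' : ‖t‖ < d' - r := by simpa using ht
  have htd : ‖t‖ < d := by linarith
  have ht1 : ‖t‖ ≤ 1 := by linarith
  have htmem : t ∈ Metric.ball (0 : ℂ) d := by simpa using htd
  have hδi : 0 < δ⁻¹ := inv_pos.2 hδ
  set E : ℝ := Real.exp (-(m * (σ - (ν - 1 / 2) * |t.im|))) with hE
  have hE0 : 0 < E := Real.exp_pos _
  set e₂ : ℝ := Real.exp (m * |t.im| / 2) with he₂
  have he₂1 : 1 ≤ e₂ := by
    rw [he₂]
    apply Real.one_le_exp
    positivity
  have hEe : Real.exp (-(m * (σ - ν * |t.im|))) = E * e₂ := by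
    rw [hE, he₂, ← Real.exp_add]
    congr 1
    ring
  have hGt : ‖G t‖ ≤ W * (E * e₂) := by
    rw [← hEe]
    exact hb t htmem
  -- `‖t‖ δ ≤ r`
  have htr : ‖t‖ ≤ δ⁻¹ * r := by
    have : δ * ‖t‖ ≤ r := (mul_le_mul_of_nonneg_left htd.le hδ.le).trans hr
    rw [inv_mul_eq_div, le_div_iff₀ hδ]
    linarith
  by_cases ht0 : t = 0
  · subst ht0
    rw [dn_zero, norm_div, norm_mul, Complex.norm_I, one_mul, hnorm_n]
    have h1 : ‖G 0‖ / m ≤ ‖G 0‖ := div_le_self (norm_nonneg _) hm1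
    have h2 : e₂ = 1 := by simp [he₂]
    rw [h2, mul_one] at hGt
    have h3 : W * E ≤ 12 * (1 + δ⁻¹) * W * E := by
      have h4 : 0 ≤ W * E := by positivity
      have h5 : 0 ≤ δ⁻¹ * (W * E) := by positivity
      linarith
    linarith
  have htpos : 0 < ‖t‖ := norm_pos_iff.2 ht0
  set w : ℂ := n * t / 2 with hw
  set k : ℤ := round (w.re / π) with hk
  have hkw : |w.re - k * π| ≤ π / 2 := by
    have h1 := abs_sub_round (w.re / π)
    rw [← hk] at h1
    have h2 : w.re - k * π = (w.re / π - k) * π := by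
      field_simp
    rw [h2, abs_mul, abs_of_pos Real.pi_pos]
    have := mul_le_mul_of_nonneg_right h1 Real.pi_pos.le
    linarith
  set tk : ℝ := 2 * π * k / n with htk
  have hwk : w - k * π = n * (t - (tk : ℂ)) / 2 := by
    rw [hw, htk]
    push_cast
    field_simp
  set x : ℝ := ‖t - (tk : ℂ)‖ with hx
  have hx0 : 0 ≤ x := norm_nonneg _
  have hnwk : ‖w - k * π‖ = m * x / 2 := by
    rw [hwk, norm_div, norm_mul, hnorm_n]
    simp [hx]
  have hwim : |w.im| = m * |t.im| / 2 := by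
    have : w.im = n * t.im / 2 := by
      rw [hw]
      simp [Complex.mul_im]
    rw [this, abs_div, abs_mul, ← hm]
    simp
  have hsin := s3e_sin_lower w k hkw
  rw [hnwk, hwim, ← he₂] at hsin
  have hdnt : dn n t = 2 * Complex.I * Complex.sin w / t := dn_of_ne n ht0
  have hsin0 : Complex.sin w ≠ 0 := by
    intro h
    apply hdn
    rw [hdnt, h]
    simp
  have hsinpos : 0 < ‖Complex.sin w‖ := norm_pos_iff.2 hsin0
  have hnormq : ‖G t / dn n t‖ = ‖G t‖ * ‖t‖ / (2 * ‖Complex.sin w‖) := by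
    rw [hdnt, norm_div, norm_div, norm_mul, norm_mul, Complex.norm_I]
    simp only [Complex.norm_ofNat, mul_one]
    rw [div_div_eq_mul_div]
  rw [hnormq, div_le_iff₀ (by positivity)]
  -- the generic case: `‖t‖ ≤ 6 (1 + 1/δ) μ`
  have hgen : ‖t‖ ≤ 6 * (1 + δ⁻¹) * (m * x / 2) →
      ‖G t‖ * ‖t‖ ≤ 12 * (1 + δ⁻¹) * W * E * (2 * ‖Complex.sin w‖) := by
    intro h
    have h1 : ‖t‖ ≤ 6 * (1 + δ⁻¹) * min 1 (m * x / 2) := by
      rcases le_total 1 (m * x / 2) with h2 | h2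
      · rw [min_eq_left h2]
        linarith
      · rw [min_eq_right h2]
        exact h
    calc ‖G t‖ * ‖t‖ ≤ W * (E * e₂) * (6 * (1 + δ⁻¹) * min 1 (m * x / 2)) :=
          mul_le_mul hGt h1 htpos.le (by positivity)
      _ = 12 * (1 + δ⁻¹) * W * E * (2 * (1 / 4 * min 1 (m * x / 2) * e₂)) := by ring
      _ ≤ 12 * (1 + δ⁻¹) * W * E * (2 * ‖Complex.sin w‖) := by
          apply mul_le_mul_of_nonneg_left _ (by positivity)
          linarith
  by_cases hk0 : k = 0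
  · apply hgen
    have : x = ‖t‖ := by
      rw [hx, htk, hk0]
      simp
    rw [this]
    have h1 : ‖t‖ ≤ m * ‖t‖ := le_mul_of_one_le_left htpos.le hm1
    have h2 : 0 ≤ δ⁻¹ * (m * ‖t‖) := by positivity
    linarith
  set ρ₀ : ℝ := min (1 / m) r with hρ
  have hρ0 : 0 < ρ₀ := lt_min (by positivity) hr0
  have hρ1 : ρ₀ ≤ 1 / m := min_le_left _ _
  have hρ2 : ρ₀ ≤ r := min_le_right _ _
  have hρ3 : ‖t‖ ≤ (1 + δ⁻¹) * m * ρ₀ := by
    rcases le_total (1 / m) r with h2 | h2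
    · rw [hρ, min_eq_left h2]
      have : (1 + δ⁻¹) * m * (1 / m) = 1 + δ⁻¹ := by field_simp
      rw [this]
      linarith
    · rw [hρ, min_eq_right h2]
      have h3 : δ⁻¹ * r ≤ (1 + δ⁻¹) * m * r := by
        have h4 : 0 ≤ δ⁻¹ * r := by positivity
        have h5 : δ⁻¹ * r ≤ m * (δ⁻¹ * r) := le_mul_of_one_le_left h4 hm1
        have h6 : 0 ≤ m * r := by positivity
        linarith
      linarith
  rcases le_or_gt ρ₀ x with hxρ | hxρ
  · apply hgen
    have h1 : (1 + δ⁻¹) * m * ρ₀ ≤ (1 + δ⁻¹) * m * x :=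
      mul_le_mul_of_nonneg_left hxρ (by positivity)
    have h2 : 0 ≤ (1 + δ⁻¹) * m * x := by positivity
    linarith
  · -- Schwarz lemma around the node
    have htk_lt : |tk| < d' := by
      have h1 : ‖(tk : ℂ)‖ ≤ ‖t‖ + x := by
        have : (tk : ℂ) = t - (t - (tk : ℂ)) := by ring
        calc ‖(tk : ℂ)‖ = ‖t - (t - (tk : ℂ))‖ := by rw [← this]
          _ ≤ ‖t‖ + ‖t - (tk : ℂ)‖ := norm_sub_le _ _
      rw [Complex.norm_real, Real.norm_eq_abs] at h1
      linarith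
    have hnode : G (tk : ℂ) = 0 := h0 k hk0 htk_lt
    have hsub : Metric.ball (tk : ℂ) ρ₀ ⊆ Metric.ball (0 : ℂ) d := by
      intro τ hτ
      rw [Metric.mem_ball, dist_eq_norm] at hτ
      rw [Metric.mem_ball, dist_zero_right]
      have h1 : ‖τ‖ ≤ ‖τ - (tk : ℂ)‖ + ‖(tk : ℂ)‖ := by
        have : τ = (τ - (tk : ℂ)) + (tk : ℂ) := by ring
        calc ‖τ‖ = ‖(τ - (tk : ℂ)) + (tk : ℂ)‖ := by rw [← this]
          _ ≤ _ := norm_add_le _ _
      rw [Complex.norm_real, Real.norm_eq_abs] at h1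
      linarith
    have hbd : ∀ τ ∈ Metric.ball (tk : ℂ) ρ₀, ‖G τ‖ ≤ W * (Real.exp (-(m * σ)) * Real.exp 1) := by
      intro τ hτ
      refine (hb τ (hsub hτ)).trans ?_
      apply mul_le_mul_of_nonneg_left _ hW
      rw [← Real.exp_add]
      apply Real.exp_le_exp.2
      rw [Metric.mem_ball, dist_eq_norm] at hτ
      have h1 : |τ.im| ≤ ‖τ - (tk : ℂ)‖ := by
        have := Complex.abs_im_le_norm (τ - (tk : ℂ))
        simpa using this
      have h2 : |τ.im| ≤ 1 / m := by linarith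
      have h3 : m * |τ.im| ≤ 1 := by
        rw [le_div_iff₀ hm0] at h2
        linarith
      have h4 : m * (ν * |τ.im|) ≤ 1 := by
        have : ν * (m * |τ.im|) ≤ 1 * 1 :=
          mul_le_mul hν1 h3 (by positivity) (by norm_num)
        linarith
      linarith
    have hsch := ca_schwarz (hG.mono hsub) hbd hnode t (by rw [Metric.mem_ball, dist_eq_norm]; exact hxρ)
    rw [← hx] at hsch
    have hmx : m * x / 2 ≤ 1 := by
      have h1 : x ≤ 1 / m := by linarith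
      rw [le_div_iff₀ hm0] at h1
      linarith
    rw [min_eq_right hmx] at hsin
    have hsin2 : m * x / 8 ≤ ‖Complex.sin w‖ := by
      have : 1 / 4 * (m * x / 2) * 1 ≤ 1 / 4 * (m * x / 2) * e₂ :=
        mul_le_mul_of_nonneg_left he₂1 (by positivity)
      linarith
    have hEσ : Real.exp (-(m * σ)) ≤ E := by
      rw [hE]
      apply Real.exp_le_exp.2
      have : 0 ≤ m * ((ν - 1 / 2) * |t.im|) := by
        apply mul_nonneg hm0.le
        apply mul_nonneg (by linarith) (abs_nonneg _)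
      linarith
    have he3 : Real.exp 1 ≤ 3 := by
      have := Real.exp_one_lt_d9
      linarith
    have h5 : ‖G t‖ ≤ W * (E * 3) * x / ρ₀ := by
      refine hsch.trans ?_
      apply div_le_div_of_nonneg_right _ hρ0.le
      apply mul_le_mul_of_nonneg_right _ hx0
      apply mul_le_mul_of_nonneg_left _ hW
      exact mul_le_mul hEσ he3 (Real.exp_pos _).le hE0.le
    calc ‖G t‖ * ‖t‖ ≤ (W * (E * 3) * x / ρ₀) * ((1 + δ⁻¹) * m * ρ₀) :=
          mul_le_mul h5 hρ3 htpos.le (by positivity)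
      _ = 12 * (1 + δ⁻¹) * W * E * (2 * (m * x / 8)) := by
          field_simp
          ring
      _ ≤ 12 * (1 + δ⁻¹) * W * E * (2 * ‖Complex.sin w‖) := by
          apply mul_le_mul_of_nonneg_left _ (by positivity)
          linarith


/-- uniqueness of continuous quotients by the divisor. -/
theorem s3e_unique {n : ℤ} (hn : n ≠ 0) {ρ : ℝ} {A B : ℂ → ℂ}
    (hA : ContinuousOn A (Metric.ball 0 ρ)) (hB : ContinuousOn B (Metric.ball 0 ρ))
    (h : ∀ t ∈ Metric.ball (0 : ℂ) ρ, A t * dn n t = B t * dn n t) :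
    ∀ t ∈ Metric.ball (0 : ℂ) ρ, A t = B t := by
  intro t ht
  have hU : Metric.ball (0 : ℂ) ρ ∈ 𝓝 t := Metric.isOpen_ball.mem_nhds ht
  have h1 : Tendsto A (𝓝[≠] t) (𝓝 (A t)) :=
    ((hA.continuousAt hU).tendsto).mono_left nhdsWithin_le_nhds
  have h2 : Tendsto B (𝓝[≠] t) (𝓝 (B t)) :=
    ((hB.continuousAt hU).tendsto).mono_left nhdsWithin_le_nhds
  have h3 : A =ᶠ[𝓝[≠] t] B := by
    filter_upwards [dn_isolated hn t, nhdsWithin_le_nhds hU] with τ hτ hτU
    exact mul_right_cancel₀ hτ (h τ hτU)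
  exact tendsto_nhds_unique_of_eventuallyEq h1 h2 h3

/-- **One mode** (E2). -/
theorem s3e_mode {n : ℤ} (hn : n ≠ 0) {ν σ d d' δ r W : ℝ} (hν : 1 / 2 ≤ ν) (hν1 : ν ≤ 1)
    (hδ : 0 < δ) (hd0 : 0 < d) (hd : d ≤ 1) (hr : δ * d ≤ r) (hdr : d' + r ≤ d)
    (hW : 0 ≤ W) {G : ℂ → ℂ} (hG : DifferentiableOn ℂ G (Metric.ball 0 d))
    (hb : ∀ t ∈ Metric.ball (0 : ℂ) d, ‖G t‖ ≤ W * Real.exp (-(|(n : ℝ)| * (σ - ν * |t.im|))))
    (h0 : ∀ k : ℤ, k ≠ 0 → |2 * π * k / n| < d' → G ((2 * π * k / n : ℝ) : ℂ) = 0) :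
    ∃ Hn : ℂ → ℂ, DifferentiableOn ℂ Hn (Metric.ball 0 (d' - r)) ∧
      (∀ t ∈ Metric.ball (0 : ℂ) (d' - r), Hn t * dn n t = G t) ∧
      ∀ t ∈ Metric.ball (0 : ℂ) (d' - r), ‖Hn t‖ ≤
        12 * (1 + δ⁻¹) * W * Real.exp (-(|(n : ℝ)| * (σ - (ν - 1 / 2) * |t.im|))) := by
  have hr0 : 0 < r := lt_of_lt_of_le (mul_pos hδ hd0) hr
  have hδi : 0 < δ⁻¹ := inv_pos.2 hδ
  set U : Set ℂ := Metric.ball (0 : ℂ) (d' - r) with hU
  have hUo : IsOpen U := Metric.isOpen_ball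
  have hUd : U ⊆ Metric.ball (0 : ℂ) d := Metric.ball_subset_ball (by linarith)
  set A : Set ℂ := U ∩ {t | dn n t ≠ 0} with hA
  have hAo : IsOpen A :=
    hUo.inter (isOpen_ne_fun (differentiable_dn n).continuous continuous_const)
  have hev : ∀ y ∈ U, ∀ᶠ y' in 𝓝[≠] y, y' ∈ A := by
    intro y hy
    filter_upwards [dn_isolated hn y, nhdsWithin_le_nhds (hUo.mem_nhds hy)] with τ h1 h2
    exact ⟨h2, h1⟩
  have hv : DifferentiableOn ℂ (fun t => G t / dn n t) A := by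
    intro t ht
    exact ((hG t (hUd ht.1)).mono (fun z hz => hUd hz.1)).div
      (differentiable_dn n t).differentiableWithinAt ht.2
  have hbound := fun (t : ℂ) (ht : t ∈ A) =>
    s3e_mode_bound hn hν hν1 hδ hd0 hd hr hdr hW hG hb h0 ht.1 ht.2
  have hloc : ∀ y ∈ U, ∃ M : ℝ, ∀ᶠ y' in 𝓝[≠] y, ‖G y' / dn n y'‖ ≤ M := by
    intro y hy
    refine ⟨12 * (1 + δ⁻¹) * W * Real.exp (|(n : ℝ)| * (|σ| + 1)), ?_⟩
    filter_upwards [hev y hy] with τ hτ
    refine (hbound τ hτ).trans ?_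
    apply mul_le_mul_of_nonneg_left _ (by positivity)
    apply Real.exp_le_exp.2
    have h1 : |τ.im| ≤ 1 := by
      have h2 : ‖τ‖ < d' - r := by simpa [hU] using hτ.1
      have := Complex.abs_im_le_norm τ
      linarith
    have h2 : (ν - 1 / 2) * |τ.im| ≤ 1 * 1 :=
      mul_le_mul (by linarith) h1 (abs_nonneg _) (by norm_num)
    have h3 : -σ ≤ |σ| := neg_le_abs σ
    have h4 : -(σ - (ν - 1 / 2) * |τ.im|) ≤ |σ| + 1 := by linarith
    have := mul_le_mul_of_nonneg_left h4 (abs_nonneg (n : ℝ))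
    linarith
  obtain ⟨Hn, hHd, hHe⟩ := ca_removable_discrete hUo hAo Set.inter_subset_left hev hv hloc
  refine ⟨Hn, hHd, ?_, ?_⟩
  · intro t ht
    by_cases hdn : dn n t = 0
    · rw [hdn, mul_zero]
      obtain ⟨k, hk, rfl⟩ := (dn_eq_zero_iff hn t).1 hdn
      symm
      apply h0 k hk
      have h2 : ‖((2 * π * k / n : ℝ) : ℂ)‖ < d' - r := by simpa [hU] using ht
      rw [Complex.norm_real, Real.norm_eq_abs] at h2
      linarith
    · rw [hHe t ⟨ht, hdn⟩, div_mul_cancel₀ _ hdn]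
  · intro t ht
    have h1 : Tendsto (fun τ => ‖Hn τ‖) (𝓝[≠] t) (𝓝 ‖Hn t‖) :=
      (((hHd.continuousOn.continuousAt (hUo.mem_nhds ht)).norm).tendsto).mono_left nhdsWithin_le_nhds
    have hc : Continuous fun τ : ℂ =>
        12 * (1 + δ⁻¹) * W * Real.exp (-(|(n : ℝ)| * (σ - (ν - 1 / 2) * |τ.im|))) := by
      fun_prop
    have h2 := (hc.tendsto t).mono_left (nhdsWithin_le_nhds (s := {t}ᶜ))
    apply le_of_tendsto_of_tendsto h1 h2
    filter_upwards [hev t ht] with τ hτ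
    rw [hHe τ hτ]
    exact hbound τ hτ

end Claimed.Agent.R269.S3
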