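/-
Row 269, Section 3, UNIT E (package BP-S3-E, buffered Fourier division), part E3b: Fourier modes, nodes, the sinc interpolant, tails.
Owner: helper170.  Plan: header of S3/Division.lean.
-/
import Claimed.Agent.R269.S3.DivSinc
import Claimed.Agent.R269.S3.LibFS

set_option autoImplicit false

namespace Claimed.Agent.R269.S3

open Real Complex ComplexConjugate Filter Topology

/-! ### nodes and the interpolant -/

/-- the Fourier modes `F_n(t)`. -/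
noncomputable def dvF (F : ℂ → ℂ → ℂ) (n : ℤ) (t : ℂ) : ℂ := fc n (fun y => F y t)

open Classical in
/-- the indices of the nodes `2π j/n`, `j ≠ 0`, of modulus `< d'`. -/
noncomputable def dvJ (N : ℕ) (d' : ℝ) (n : ℤ) : Finset ℤ :=
  (Finset.Icc (-(N : ℤ)) N).filter (fun j => j ≠ 0 ∧ |2 * π * j / n| < d')

/-- the interpolant `R_n`. -/
noncomputable def dvR (F : ℂ → ℂ → ℂ) (N : ℕ) (d' : ℝ) (n : ℤ) (t : ℂ) : ℂ :=
  ∑ j ∈ dvJ N d' n, dvF F n ((2 * π * j / n : ℝ) : ℂ) * csinc (n * (t - ((2 * π * j / n : ℝ) : ℂ)) / 2)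

theorem mem_dvJ {N : ℕ} {d' : ℝ} {n : ℤ} (hn : n ≠ 0) (hnN : |n| ≤ N) (hd' : d' ≤ 1) (j : ℤ) :
    j ∈ dvJ N d' n ↔ j ≠ 0 ∧ |2 * π * j / n| < d' := by
  unfold dvJ
  rw [Finset.mem_filter, and_iff_right_iff_imp]
  rintro ⟨_, h⟩
  have hnR : (0 : ℝ) < |(n : ℝ)| := by
    rw [abs_pos]
    exact_mod_cast hn
  have hnN' : |(n : ℝ)| ≤ N := by
    have : ((|n| : ℤ) : ℝ) ≤ ((N : ℤ) : ℝ) := by exact_mod_cast hnN
    simpa using this
  rw [abs_div, div_lt_iff₀ hnR, abs_mul, abs_mul] at h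
  have hpi : |π| = π := abs_of_pos Real.pi_pos
  rw [hpi] at h
  have h2 : |(2 : ℝ)| = 2 := by norm_num
  rw [h2] at h
  have h3 : |(j : ℝ)| ≤ N := by
    have hp := Real.pi_gt_three
    have h4 : 1 * |(j : ℝ)| ≤ 2 * π * |(j : ℝ)| :=
      mul_le_mul_of_nonneg_right (by linarith) (abs_nonneg _)
    have h5 : d' * |(n : ℝ)| ≤ 1 * N := by
      rcases le_total 0 d' with h6 | h6
      · exact mul_le_mul hd' hnN' hnR.le (by norm_num)
      · have : d' * |(n : ℝ)| ≤ 0 := mul_nonpos_of_nonpos_of_nonneg h6 hnR.le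
        have h7 : (0 : ℝ) ≤ N := Nat.cast_nonneg N
        linarith
    linarith
  have h4 : |j| ≤ (N : ℤ) := by
    have : ((|j| : ℤ) : ℝ) ≤ ((N : ℤ) : ℝ) := by simpa using h3
    exact_mod_cast this
  rw [Finset.mem_Icc]
  exact abs_le.1 h4

theorem card_dvJ_le (N : ℕ) (d' : ℝ) (n : ℤ) : ((dvJ N d' n).card : ℝ) ≤ 2 * N + 1 := by
  have h1 : (dvJ N d' n).card ≤ (Finset.Icc (-(N : ℤ)) N).card := Finset.card_filter_le _ _
  have h2 : (Finset.Icc (-(N : ℤ)) N).card = 2 * N + 1 := by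
    rw [Int.card_Icc]
    omega
  rw [h2] at h1
  exact_mod_cast h1

theorem dvJ_neg_mem {N : ℕ} {d' : ℝ} {n : ℤ} {j : ℤ} (h : j ∈ dvJ N d' n) : -j ∈ dvJ N d' n := by
  unfold dvJ at h ⊢
  rw [Finset.mem_filter, Finset.mem_Icc] at h ⊢
  refine ⟨⟨by omega, by omega⟩, by omega, ?_⟩
  have : (2 * π * ((-j : ℤ) : ℝ) / n) = -(2 * π * j / n) := by
    push_cast
    ring
  rw [this, abs_neg]
  exact h.2.2

theorem dvJ_neg (N : ℕ) (d' : ℝ) (n : ℤ) : dvJ N d' (-n) = dvJ N d' n := by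
  unfold dvJ
  apply Finset.filter_congr
  intro j _
  have : (2 * π * (j : ℝ) / ((-n : ℤ) : ℝ)) = -(2 * π * j / n) := by
    push_cast
    ring
  rw [this, abs_neg]

theorem s3e_node_arg {n : ℤ} (hn : n ≠ 0) (k j : ℤ) :
    (n : ℂ) * (((2 * π * k / n : ℝ) : ℂ) - ((2 * π * j / n : ℝ) : ℂ)) / 2 = ((k - j : ℤ) : ℂ) * π := by
  have hn' : (n : ℂ) ≠ 0 := by exact_mod_cast hn
  push_cast
  field_simp

/-- `R_n` interpolates `F_n` at the nodes. -/
theorem dvR_node (F : ℂ → ℂ → ℂ) {N : ℕ} {d' : ℝ} {n : ℤ} (hn : n ≠ 0) {k : ℤ} (hk : k ∈ dvJ N d' n) :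
    dvR F N d' n ((2 * π * k / n : ℝ) : ℂ) = dvF F n ((2 * π * k / n : ℝ) : ℂ) := by
  unfold dvR
  rw [Finset.sum_eq_single k]
  · rw [sub_self, mul_zero, zero_div, csinc_zero, mul_one]
  · intro j _ hj
    rw [s3e_node_arg hn, csinc_int_mul_pi (sub_ne_zero.2 (Ne.symm hj)), mul_zero]
  · intro h
    exact absurd hk h

theorem dvR_zero (F : ℂ → ℂ → ℂ) {N : ℕ} {d' : ℝ} {n : ℤ} (hn : n ≠ 0) : dvR F N d' n 0 = 0 := by
  unfold dvR
  apply Finset.sum_eq_zero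
  intro j hj
  have hj0 : j ≠ 0 := by
    unfold dvJ at hj
    exact (Finset.mem_filter.1 hj).2.1
  have h := s3e_node_arg hn 0 j
  simp only [Int.cast_zero, mul_zero, zero_div, Complex.ofReal_zero] at h
  rw [h, csinc_int_mul_pi (by omega), mul_zero]

theorem differentiable_dvR (F : ℂ → ℂ → ℂ) (N : ℕ) (d' : ℝ) (n : ℤ) :
    Differentiable ℂ (dvR F N d' n) := by
  unfold dvR
  apply Differentiable.fun_sum
  intro j _
  apply Differentiable.const_mul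
  exact differentiable_csinc.comp (by fun_prop)

theorem norm_dvR_le (F : ℂ → ℂ → ℂ) (N : ℕ) (d' : ℝ) (n : ℤ) {K : ℝ} (hK : 0 ≤ K)
    (h : ∀ j ∈ dvJ N d' n, ‖dvF F n ((2 * π * j / n : ℝ) : ℂ)‖ ≤ K) (t : ℂ) :
    ‖dvR F N d' n t‖ ≤ (2 * N + 1) * (K * Real.exp (|(n : ℝ)| * |t.im| / 2)) := by
  unfold dvR
  calc _ ≤ ∑ j ∈ dvJ N d' n, K * Real.exp (|(n : ℝ)| * |t.im| / 2) := by
        apply norm_sum_le_of_le
        intro j hj
        rw [norm_mul]
        apply mul_le_mul (h j hj) _ (norm_nonneg _) hK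
        refine (norm_csinc_le _).trans (le_of_eq ?_)
        congr 1
        have : ((n : ℂ) * (t - ((2 * π * j / n : ℝ) : ℂ)) / 2).im = n * t.im / 2 := by
          simp [Complex.mul_im]
        rw [this, abs_div, abs_mul]
        simp
    _ = (dvJ N d' n).card * (K * Real.exp (|(n : ℝ)| * |t.im| / 2)) := by
        rw [Finset.sum_const, nsmul_eq_mul]
    _ ≤ _ := by
        apply mul_le_mul_of_nonneg_right (card_dvJ_le N d' n)
        positivity

/-- evenness. -/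
theorem dvR_even (F : ℂ → ℂ → ℂ) (N : ℕ) (d' : ℝ) (n : ℤ)
    (h : ∀ j ∈ dvJ N d' n, dvF F n (-((2 * π * j / n : ℝ) : ℂ)) = dvF F n ((2 * π * j / n : ℝ) : ℂ))
    (t : ℂ) : dvR F N d' n (-t) = dvR F N d' n t := by
  unfold dvR
  refine Finset.sum_bij' (fun j _ => -j) (fun j _ => -j) (fun j hj => dvJ_neg_mem hj)
    (fun j hj => dvJ_neg_mem hj) (fun j _ => neg_neg j) (fun j _ => neg_neg j) ?_
  · intro j hj
    have e : (((2 * π * ((-j : ℤ) : ℝ) / n : ℝ)) : ℂ) = -((2 * π * j / n : ℝ) : ℂ) := by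
      push_cast
      ring
    rw [e, h j hj, ← csinc_neg]
    congr 2
    ring

/-- reality. -/
theorem dvR_conj (F : ℂ → ℂ → ℂ) (N : ℕ) (d' : ℝ) (n : ℤ)
    (h : ∀ j ∈ dvJ N d' n, conj (dvF F n ((2 * π * j / n : ℝ) : ℂ)) = dvF F (-n) ((2 * π * j / n : ℝ) : ℂ))
    (t : ℂ) : conj (dvR F N d' n t) = dvR F N d' (-n) (conj t) := by
  have hn : conj (n : ℂ) = n := by
    rw [← Complex.ofReal_intCast, Complex.conj_ofReal]
  have h2 : (conj (2 : ℂ)) = 2 := Complex.conj_ofNat 2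
  unfold dvR
  rw [map_sum, dvJ_neg]
  refine Finset.sum_bij' (fun j _ => -j) (fun j _ => -j) (fun j hj => dvJ_neg_mem hj)
    (fun j hj => dvJ_neg_mem hj) (fun j _ => neg_neg j) (fun j _ => neg_neg j) ?_
  · intro j hj
    have e : (((2 * π * ((-j : ℤ) : ℝ) / ((-n : ℤ) : ℝ) : ℝ)) : ℂ) = ((2 * π * j / n : ℝ) : ℂ) := by
      push_cast
      ring
    rw [e, map_mul, h j hj, ← csinc_conj, ← csinc_neg]
    congr 2
    simp only [map_div₀, map_mul, map_sub, hn, h2, Complex.conj_ofReal]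
    push_cast
    ring

/-! ### Fourier modes on the slanted domains -/

theorem fc_conj' (n : ℤ) {g h : ℂ → ℂ} (hgh : ∀ x : ℝ, h x = conj (g x)) :
    conj (fc n g) = fc (-n) h := by
  unfold fc
  rw [map_mul]
  congr 1
  · exact Complex.conj_ofReal _
  · rw [intervalIntegral.integral_of_le (by positivity), intervalIntegral.integral_of_le (by positivity),
      ← integral_conj]
    congr 1
    funext x
    rw [map_mul, hgh x, ← Complex.exp_conj]
    congr 2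
    have hn : conj (n : ℂ) = n := by
      rw [← Complex.ofReal_intCast, Complex.conj_ofReal]
    simp only [map_neg, map_mul, hn, Complex.conj_ofReal, Complex.conj_I]
    push_cast
    ring

section Modes

variable {ν s d M : ℝ} {F : ℂ → ℂ → ℂ}

theorem dvF_decay (hF : Hol F (Dom ν s d)) (hP : Per F (Dom ν s d)) (hB : Bd F (Dom ν s d) M)
    {t : ℂ} (ht : ‖t‖ < d) (hpos : 0 < s - ν * |t.im|) (n : ℤ) :
    ‖dvF F n t‖ ≤ M * Real.exp (-(|(n : ℝ)| * (s - ν * |t.im|))) := by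
  have h := fc_decay (g := fun y => F y t) (M := M) hpos
    (fun y hy => (hol_slice_y (isOpen_Dom ν s d) hF (y := y) (t := t) ⟨ht, hy⟩).differentiableWithinAt)
    (fun y hy => hP (y, t) ⟨ht, hy⟩) (fun y hy => hB (y, t) ⟨ht, hy⟩) n
  simpa [dvF] using h

theorem dvF_hasSum (hF : Hol F (Dom ν s d)) (hP : Per F (Dom ν s d)) (hB : Bd F (Dom ν s d) M)
    {y t : ℂ} (h : (y, t) ∈ Dom ν s d) :
    HasSum (fun n : ℤ => dvF F n t * Complex.exp (n * y * Complex.I)) (F y t) :=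
  fc_hasSum (g := fun y => F y t) (M := M) (s := s - ν * |t.im|)
    (fun y hy => (hol_slice_y (isOpen_Dom ν s d) hF (y := y) (t := t) ⟨h.1, hy⟩).differentiableWithinAt)
    (fun y hy => hP (y, t) ⟨h.1, hy⟩) (fun y hy => hB (y, t) ⟨h.1, hy⟩) y h.2

theorem dvF_hol (hF : Hol F (Dom ν s d)) (hpos : ∀ t : ℂ, ‖t‖ < d → 0 < s - ν * |t.im|) (n : ℤ) :
    DifferentiableOn ℂ (dvF F n) (Metric.ball 0 d) :=
  fc_hol (isOpen_Dom ν s d) Metric.isOpen_ball hF
    (fun x t ht => by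
      have ht' : ‖t‖ < d := by simpa using ht
      refine ⟨ht', ?_⟩
      simpa using hpos t ht') n

end Modes

/-- the tail of a Fourier series with geometric decay. -/
theorem s3e_tail {a : ℤ → ℂ} {A : ℂ} {M δ : ℝ} (hδ : 0 < δ) (hM : 0 ≤ M) (ha : HasSum a A)
    (h0 : a 0 = 0) (hb : ∀ n : ℤ, ‖a n‖ ≤ M * Real.exp (-(|(n : ℝ)| * δ))) (N : ℕ) :
    ‖∑ x ∈ Finset.range N, (a ((x : ℤ) + 1) + a (-((x : ℤ) + 1))) - A‖
      ≤ 2 * M * Real.exp (-(N * δ)) / δ := by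
  have h1 : HasSum (fun x : ℕ => a x + a (-(x : ℤ))) A := by
    have := ha.nat_add_neg
    rwa [h0, add_zero] at this
  set ρ : ℝ := Real.exp (-δ) with hρ
  have hρ0 : 0 < ρ := Real.exp_pos _
  have hρ1 : ρ < 1 := by
    rw [hρ, Real.exp_lt_one_iff]
    linarith
  have hf : ∀ x : ℕ, ‖a x + a (-(x : ℤ))‖ ≤ 2 * M * ρ ^ x := by
    intro x
    have e : ρ ^ x = Real.exp (-((x : ℝ) * δ)) := by
      rw [hρ, ← Real.exp_nat_mul]
      congr 1
      ring
    have h2 := hb x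
    have h3 := hb (-(x : ℤ))
    have e2 : |(((x : ℕ) : ℤ) : ℝ)| = x := by simp
    have e3 : |((-((x : ℕ) : ℤ) : ℤ) : ℝ)| = x := by simp
    rw [e2] at h2
    rw [e3] at h3
    rw [e]
    calc _ ≤ ‖a x‖ + ‖a (-(x : ℤ))‖ := norm_add_le _ _
      _ ≤ _ := by linarith
  have h2 := norm_sub_le_of_geometric_bound_of_hasSum hρ1 hf h1 (N + 1)
  rw [Finset.sum_range_succ'] at h2
  have e0 : a ((0 : ℕ) : ℤ) + a (-((0 : ℕ) : ℤ)) = 0 := by simp [h0]
  rw [e0, add_zero] at h2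
  have e1 : ∑ x ∈ Finset.range N, (a ((x + 1 : ℕ) : ℤ) + a (-((x + 1 : ℕ) : ℤ)))
      = ∑ x ∈ Finset.range N, (a ((x : ℤ) + 1) + a (-((x : ℤ) + 1))) := by
    apply Finset.sum_congr rfl
    intro x _
    push_cast
    rfl
  rw [e1] at h2
  refine h2.trans ?_
  have e2 : ρ ^ (N + 1) = Real.exp (-(N * δ)) * ρ := by
    rw [pow_succ, hρ, ← Real.exp_nat_mul]
    congr 2
    ring
  rw [e2, div_le_div_iff₀ (by linarith) hδ]
  have h3 : ρ * δ ≤ 1 - ρ := by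
    have h4 : δ + 1 ≤ Real.exp δ := Real.add_one_le_exp δ
    have h5 : ρ * Real.exp δ = 1 := by
      rw [hρ, ← Real.exp_add]
      simp
    have h6 : ρ * (δ + 1) ≤ ρ * Real.exp δ := mul_le_mul_of_nonneg_left h4 hρ0.le
    linarith
  have h4 : 0 ≤ 2 * M * Real.exp (-(N * δ)) := by positivity
  calc 2 * M * (Real.exp (-(N * δ)) * ρ) * δ = 2 * M * Real.exp (-(N * δ)) * (ρ * δ) := by ring
    _ ≤ 2 * M * Real.exp (-(N * δ)) * (1 - ρ) := mul_le_mul_of_nonneg_left h3 h4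

end Claimed.Agent.R269.S3
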