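/-
Row 269, Section 3, UNIT E (package BP-S3-E, buffered Fourier division), part E3a: trigonometric polynomials in `y` with coefficients depending on `t`.
Owner: helper170.  Plan: header of S3/Division.lean.
-/
import Claimed.Agent.R269.S3.DivSinc
import Claimed.Agent.R269.S3.LibFS

set_option autoImplicit false

namespace Claimed.Agent.R269.S3

open Real Complex ComplexConjugate Filter Topology

/-! ### trigonometric polynomials without constant term -/

/-- `∑_{1 ≤ |n| ≤ N} c_n(t) e^{iny}`. -/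
noncomputable def trig (N : ℕ) (c : ℤ → ℂ → ℂ) (y t : ℂ) : ℂ :=
  ∑ x ∈ Finset.range N, (c ((x : ℤ) + 1) t * Complex.exp ((((x : ℤ) + 1 : ℤ) : ℂ) * y * Complex.I)
    + c (-((x : ℤ) + 1)) t * Complex.exp (((-((x : ℤ) + 1) : ℤ) : ℂ) * y * Complex.I))

theorem s3e_norm_exp_int (n : ℤ) (y : ℂ) :
    ‖Complex.exp ((n : ℂ) * y * Complex.I)‖ ≤ Real.exp (|(n : ℝ)| * |y.im|) := by
  rw [Complex.norm_exp]
  apply Real.exp_le_exp.2
  have : ((n : ℂ) * y * Complex.I).re = -(n * y.im) := by
    simp [Complex.mul_re, Complex.mul_im]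
  rw [this, ← abs_mul]
  exact neg_le_abs _

theorem s3e_ds_exp (n : ℤ) {t : ℂ} (ht : t ≠ 0) (y : ℂ) :
    ds t (fun x => Complex.exp ((n : ℂ) * x * Complex.I)) y
      = dn n t * Complex.exp ((n : ℂ) * y * Complex.I) := by
  unfold ds
  rw [dn_of_ne n ht]
  beta_reduce
  have h1 : (n : ℂ) * (y + t / 2) * Complex.I = (n : ℂ) * y * Complex.I + (n * t / 2) * Complex.I := by
    ring
  have h2 : (n : ℂ) * (y - t / 2) * Complex.I = (n : ℂ) * y * Complex.I + -(n * t / 2) * Complex.I := by
    ring
  have h3 : Complex.sin (n * t / 2) =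
      (Complex.exp (-(n * t / 2) * Complex.I) - Complex.exp ((n * t / 2) * Complex.I)) * Complex.I / 2 := rfl
  rw [h1, h2, Complex.exp_add, Complex.exp_add, h3]
  field_simp
  ring_nf
  rw [Complex.I_sq]
  ring

theorem s3e_dd_trig (N : ℕ) (c : ℤ → ℂ → ℂ) (y t : ℂ) :
    dd (trig N c) y t = trig N (fun n t => c n t * dn n t) y t := by
  unfold dd
  split_ifs with ht
  · subst ht
    unfold dy
    apply HasDerivAt.deriv
    unfold trig
    apply HasDerivAt.fun_sum
    intro x _
    have key : ∀ n : ℤ, HasDerivAt (fun x : ℂ => c n 0 * Complex.exp ((n : ℂ) * x * Complex.I))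
        (c n 0 * dn n 0 * Complex.exp ((n : ℂ) * y * Complex.I)) y := by
      intro n
      have h1 : HasDerivAt (fun x : ℂ => (n : ℂ) * x * Complex.I) ((n : ℂ) * Complex.I) y := by
        have := ((hasDerivAt_id y).const_mul (n : ℂ)).mul_const Complex.I
        simpa using this
      have h2 := (h1.cexp).const_mul (c n 0)
      have e : c n 0 * dn n 0 * Complex.exp ((n : ℂ) * y * Complex.I)
          = c n 0 * (Complex.exp ((n : ℂ) * y * Complex.I) * ((n : ℂ) * Complex.I)) := by
        rw [dn_zero]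
        ring
      rw [e]
      exact h2
    exact (key _).add (key _)
  · have h := fun n : ℤ => s3e_ds_exp n ht y
    unfold ds at h ⊢
    unfold trig
    rw [← Finset.sum_sub_distrib, Finset.sum_div]
    apply Finset.sum_congr rfl
    intro x _
    have e1 := h ((x : ℤ) + 1)
    have e2 := h (-((x : ℤ) + 1))
    simp only at e1 e2 ⊢
    linear_combination (c ((x : ℤ) + 1) t) * e1 + (c (-((x : ℤ) + 1)) t) * e2

theorem s3e_per_trig (N : ℕ) (c : ℤ → ℂ → ℂ) : Per (trig N c) Set.univ := by
  intro z _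
  unfold trig
  apply Finset.sum_congr rfl
  intro x _
  have key : ∀ n : ℤ, Complex.exp ((n : ℂ) * (z.1 + 2 * π) * Complex.I)
      = Complex.exp ((n : ℂ) * z.1 * Complex.I) := by
    intro n
    have : (n : ℂ) * (z.1 + 2 * π) * Complex.I = (n : ℂ) * z.1 * Complex.I + n * (2 * π * Complex.I) := by
      ring
    rw [this, Complex.exp_add, Complex.exp_int_mul_two_pi_mul_I, mul_one]
  rw [key, key]

theorem s3e_mean_trig (N : ℕ) (c : ℤ → ℂ → ℂ) (t : ℂ) : mean (fun y => trig N c y t) = 0 := by
  unfold mean trig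
  have hc : ∀ (n : ℤ) (a : ℂ), Continuous fun x : ℝ => a * Complex.exp ((n : ℂ) * (x : ℂ) * Complex.I) := by
    intro n a
    fun_prop
  rw [fc_sum _ _ (fun x _ => (hc _ _).add (hc _ _))]
  apply Finset.sum_eq_zero
  intro x _
  rw [fc_add (hc _ _) (hc _ _), fc_const_mul, fc_const_mul, fc_exp, fc_exp]
  have h1 : (0 : ℤ) ≠ (x : ℤ) + 1 := by omega
  have h2 : (0 : ℤ) ≠ -((x : ℤ) + 1) := by omega
  rw [if_neg h1, if_neg h2]
  simp

theorem s3e_hol_trig (N : ℕ) (c : ℤ → ℂ → ℂ) {U : Set ℂ}
    (hc : ∀ n : ℤ, n ≠ 0 → |n| ≤ N → DifferentiableOn ℂ (c n) U) :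
    Hol (trig N c) (Set.univ ×ˢ U) := by
  unfold Hol trig
  apply DifferentiableOn.fun_sum
  intro x hx
  have hxN : x < N := Finset.mem_range.1 hx
  have key : ∀ n : ℤ, n ≠ 0 → |n| ≤ N → DifferentiableOn ℂ
      (fun z : ℂ × ℂ => c n z.2 * Complex.exp ((n : ℂ) * z.1 * Complex.I)) (Set.univ ×ˢ U) := by
    intro n h1 h2
    apply DifferentiableOn.mul
    · exact (hc n h1 h2).comp differentiable_snd.differentiableOn (fun z hz => hz.2)
    · apply Differentiable.differentiableOn
      fun_prop
  apply DifferentiableOn.add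
  · apply key
    · omega
    · rw [abs_of_nonneg (by omega)]
      omega
  · apply key
    · omega
    · rw [abs_neg, abs_of_nonneg (by omega)]
      omega

/-- a bound for every mode gives a bound for the sum. -/
theorem s3e_norm_trig_le (N : ℕ) (c : ℤ → ℂ → ℂ) (y t : ℂ) {K : ℝ}
    (h : ∀ n : ℤ, n ≠ 0 → |n| ≤ N → ‖c n t * Complex.exp ((n : ℂ) * y * Complex.I)‖ ≤ K) :
    ‖trig N c y t‖ ≤ 2 * N * K := by
  unfold trig
  calc _ ≤ ∑ x ∈ Finset.range N, (K + K) := by
        apply norm_sum_le_of_le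
        intro x hx
        have hxN : x < N := Finset.mem_range.1 hx
        refine (norm_add_le _ _).trans (add_le_add ?_ ?_)
        · apply h
          · omega
          · rw [abs_of_nonneg (by omega)]
            omega
        · apply h
          · omega
          · rw [abs_neg, abs_of_nonneg (by omega)]
            omega
    _ = 2 * N * K := by
        rw [Finset.sum_const, Finset.card_range, nsmul_eq_mul]
        ring

theorem s3e_trig_sub (N : ℕ) (c c' : ℤ → ℂ → ℂ) (y t : ℂ) :
    trig N (fun n t => c n t - c' n t) y t = trig N c y t - trig N c' y t := by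
  unfold trig
  rw [← Finset.sum_sub_distrib]
  apply Finset.sum_congr rfl
  intro x _
  ring

theorem s3e_trig_congr (N : ℕ) {c c' : ℤ → ℂ → ℂ} (y t : ℂ)
    (h : ∀ n : ℤ, n ≠ 0 → |n| ≤ N → c n t = c' n t) : trig N c y t = trig N c' y t := by
  unfold trig
  apply Finset.sum_congr rfl
  intro x hx
  have hxN : x < N := Finset.mem_range.1 hx
  rw [h, h]
  · omega
  · rw [abs_neg, abs_of_nonneg (by omega)]
    omega
  · omega
  · rw [abs_of_nonneg (by omega)]
    omega

theorem s3e_trig_conj (N : ℕ) (c : ℤ → ℂ → ℂ) (y t : ℂ)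
    (h : ∀ n : ℤ, n ≠ 0 → |n| ≤ N → conj (c n t) = c (-n) (conj t)) :
    conj (trig N c y t) = trig N c (conj y) (conj t) := by
  unfold trig
  rw [map_sum]
  apply Finset.sum_congr rfl
  intro x hx
  have hxN : x < N := Finset.mem_range.1 hx
  have key : ∀ n : ℤ, conj (Complex.exp ((n : ℂ) * y * Complex.I))
      = Complex.exp (((-n : ℤ) : ℂ) * conj y * Complex.I) := by
    intro n
    have hn : conj (n : ℂ) = n := by
      rw [← Complex.ofReal_intCast, Complex.conj_ofReal]
    rw [← Complex.exp_conj]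
    congr 1
    simp only [map_mul, hn, Complex.conj_I]
    push_cast
    ring
  rw [map_add, map_mul, map_mul, key, key, h, h, neg_neg, add_comm]
  · omega
  · rw [abs_neg, abs_of_nonneg (by omega)]
    omega
  · omega
  · rw [abs_of_nonneg (by omega)]
    omega

end Claimed.Agent.R269.S3
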