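/-
Row 269, Section 3, UNIT E (package BP-S3-E, buffered Fourier division), part E3/E4: assembly.  `division_core` = the statement of
`DivisionC 48 3` under the bundled hypotheses `DivHyp` (which contain `0 < d`).
Owner: helper170.  Plan: header of S3/Division.lean.
-/
import Claimed.Agent.R269.S3.Stmt
import Claimed.Agent.R269.S3.DivMode
import Claimed.Agent.R269.S3.DivTrig
import Claimed.Agent.R269.S3.DivNode

set_option autoImplicit false

namespace Claimed.Agent.R269.S3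

open Real Complex ComplexConjugate Filter Topology

/-- `G_n = F_n - R_n`. -/
noncomputable def dvG (F : ℂ → ℂ → ℂ) (N : ℕ) (d' : ℝ) (n : ℤ) (t : ℂ) : ℂ :=
  dvF F n t - dvR F N d' n t

/-- the standing hypotheses of the division lemma. -/
structure DivHyp (ν s s' d d' δ r M η : ℝ) (N : ℕ) (F : ℂ → ℂ → ℂ) : Prop where
  hν : 1 / 2 ≤ ν
  hν1 : ν ≤ 1
  hδ : 0 < δ
  hδ1 : δ ≤ 1
  hd0 : 0 < d
  hss : s' ≤ s
  hd1 : d ≤ 1
  hds : d ≤ s'
  hr : δ * d ≤ r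
  hdr : d' + r ≤ d
  hrd : r < d'
  hN : 1 ≤ N
  hM : 0 ≤ M
  hη : 0 ≤ η
  hF : Hol F (Dom ν s d)
  hP : Per F (Dom ν s d)
  hB : Bd F (Dom ν s d) M
  hmean : ∀ t : ℂ, ‖t‖ < d → mean (fun y => F y t) = 0
  hnode : ∀ n : ℤ, n ≠ 0 → |n| ≤ N → ∀ j : ℤ, j ≠ 0 → |2 * π * j / n| < d' →
      ‖fc n (fun y => F y ((2 * π * j / n : ℝ) : ℂ))‖ ≤ η * Real.exp (-(|n| * s'))

namespace DivHyp

variable {ν s s' d d' δ r M η : ℝ} {N : ℕ} {F : ℂ → ℂ → ℂ}

theorem r_pos (h : DivHyp ν s s' d d' δ r M η N F) : 0 < r :=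
  lt_of_lt_of_le (mul_pos h.hδ h.hd0) h.hr

theorem d'_le (h : DivHyp ν s s' d d' δ r M η N F) : d' ≤ 1 := by
  have := h.r_pos
  have := h.hdr
  have := h.hd1
  linarith

theorem d'_lt (h : DivHyp ν s s' d d' δ r M η N F) : d' < d := by
  have := h.r_pos
  have := h.hdr
  linarith

theorem slice_pos (h : DivHyp ν s s' d d' δ r M η N F) (t : ℂ) (ht : ‖t‖ < d) :
    0 < s - ν * |t.im| := by
  have h1 : |t.im| ≤ ‖t‖ := Complex.abs_im_le_norm t
  have h2 : ν * |t.im| ≤ 1 * |t.im| := mul_le_mul_of_nonneg_right h.hν1 (abs_nonneg _)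
  have := h.hss
  have := h.hds
  linarith

theorem real_mem (h : DivHyp ν s s' d d' δ r M η N F) (x : ℝ) {t : ℂ} (ht : ‖t‖ < d) :
    ((x : ℂ), t) ∈ Dom ν s d := by
  refine ⟨ht, ?_⟩
  simpa using h.slice_pos t ht

theorem G_diff (h : DivHyp ν s s' d d' δ r M η N F) (n : ℤ) :
    DifferentiableOn ℂ (dvG F N d' n) (Metric.ball 0 d) :=
  (dvF_hol h.hF h.slice_pos n).sub (differentiable_dvR F N d' n).differentiableOn

theorem node_bd (h : DivHyp ν s s' d d' δ r M η N F) {n : ℤ} (hn : n ≠ 0) (hnN : |n| ≤ N) :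
    ∀ j ∈ dvJ N d' n, ‖dvF F n ((2 * π * j / n : ℝ) : ℂ)‖ ≤ η * Real.exp (-(|(n : ℝ)| * s')) := by
  intro j hj
  obtain ⟨h1, h2⟩ := (mem_dvJ hn hnN h.d'_le j).1 hj
  have := h.hnode n hn hnN j h1 h2
  simpa [dvF] using this

theorem R_bd (h : DivHyp ν s s' d d' δ r M η N F) {n : ℤ} (hn : n ≠ 0) (hnN : |n| ≤ N) (t : ℂ) :
    ‖dvR F N d' n t‖ ≤ (2 * N + 1) * η * Real.exp (-(|(n : ℝ)| * (s' - |t.im| / 2))) := by
  have h1 := norm_dvR_le F N d' n (mul_nonneg h.hη (Real.exp_pos _).le) (h.node_bd hn hnN) t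
  refine h1.trans (le_of_eq ?_)
  rw [mul_assoc, mul_assoc, ← Real.exp_add]
  congr 3
  ring

theorem G_bd (h : DivHyp ν s s' d d' δ r M η N F) {n : ℤ} (hn : n ≠ 0) (hnN : |n| ≤ N) :
    ∀ t ∈ Metric.ball (0 : ℂ) d, ‖dvG F N d' n t‖ ≤
      (M + (2 * N + 1) * η) * Real.exp (-(|(n : ℝ)| * (s' - ν * |t.im|))) := by
  intro t ht
  have ht' : ‖t‖ < d := by simpa using ht
  have h1 := dvF_decay h.hF h.hP h.hB ht' (h.slice_pos t ht') n
  have h2 := h.R_bd hn hnN t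
  have hm : 0 ≤ |(n : ℝ)| := abs_nonneg _
  have e1 : Real.exp (-(|(n : ℝ)| * (s - ν * |t.im|))) ≤ Real.exp (-(|(n : ℝ)| * (s' - ν * |t.im|))) := by
    apply Real.exp_le_exp.2
    have : |(n : ℝ)| * (s' - ν * |t.im|) ≤ |(n : ℝ)| * (s - ν * |t.im|) :=
      mul_le_mul_of_nonneg_left (by linarith [h.hss]) hm
    linarith
  have e2 : Real.exp (-(|(n : ℝ)| * (s' - |t.im| / 2))) ≤ Real.exp (-(|(n : ℝ)| * (s' - ν * |t.im|))) := by
    apply Real.exp_le_exp.2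
    have h3 : 1 / 2 * |t.im| ≤ ν * |t.im| := mul_le_mul_of_nonneg_right h.hν (abs_nonneg _)
    have : |(n : ℝ)| * (s' - ν * |t.im|) ≤ |(n : ℝ)| * (s' - |t.im| / 2) :=
      mul_le_mul_of_nonneg_left (by linarith) hm
    linarith
  have hη' : 0 ≤ (2 * (N : ℝ) + 1) * η := mul_nonneg (by positivity) h.hη
  calc ‖dvG F N d' n t‖ ≤ ‖dvF F n t‖ + ‖dvR F N d' n t‖ := norm_sub_le _ _
    _ ≤ M * Real.exp (-(|(n : ℝ)| * (s' - ν * |t.im|)))
        + (2 * N + 1) * η * Real.exp (-(|(n : ℝ)| * (s' - ν * |t.im|))) :=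
        add_le_add (h1.trans (mul_le_mul_of_nonneg_left e1 h.hM))
          (h2.trans (mul_le_mul_of_nonneg_left e2 hη'))
    _ = _ := by ring

theorem G_node (h : DivHyp ν s s' d d' δ r M η N F) {n : ℤ} (hn : n ≠ 0) (hnN : |n| ≤ N) :
    ∀ k : ℤ, k ≠ 0 → |2 * π * k / n| < d' → dvG F N d' n ((2 * π * k / n : ℝ) : ℂ) = 0 := by
  intro k hk hkd
  unfold dvG
  rw [dvR_node F hn ((mem_dvJ hn hnN h.d'_le k).2 ⟨hk, hkd⟩), sub_self]

/-- the modes of the solution. -/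
theorem exists_modes (h : DivHyp ν s s' d d' δ r M η N F) :
    ∃ Hm : ℤ → ℂ → ℂ, ∀ n : ℤ, n ≠ 0 → |n| ≤ N →
      DifferentiableOn ℂ (Hm n) (Metric.ball 0 (d' - r)) ∧
      (∀ t ∈ Metric.ball (0 : ℂ) (d' - r), Hm n t * dn n t = dvG F N d' n t) ∧
      ∀ t ∈ Metric.ball (0 : ℂ) (d' - r), ‖Hm n t‖ ≤
        12 * (1 + δ⁻¹) * (M + (2 * N + 1) * η) *
          Real.exp (-(|(n : ℝ)| * (s' - (ν - 1 / 2) * |t.im|))) := by
  have hW : 0 ≤ M + (2 * (N : ℝ) + 1) * η :=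
    add_nonneg h.hM (mul_nonneg (by positivity) h.hη)
  have key : ∀ n : ℤ, n ≠ 0 → |n| ≤ N → ∃ Hn : ℂ → ℂ,
      DifferentiableOn ℂ Hn (Metric.ball 0 (d' - r)) ∧
      (∀ t ∈ Metric.ball (0 : ℂ) (d' - r), Hn t * dn n t = dvG F N d' n t) ∧
      ∀ t ∈ Metric.ball (0 : ℂ) (d' - r), ‖Hn t‖ ≤
        12 * (1 + δ⁻¹) * (M + (2 * N + 1) * η) *
          Real.exp (-(|(n : ℝ)| * (s' - (ν - 1 / 2) * |t.im|))) := fun n hn hnN =>
    s3e_mode hn h.hν h.hν1 h.hδ h.hd0 h.hd1 h.hr h.hdr hW (h.G_diff n) (h.G_bd hn hnN)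
      (h.G_node hn hnN)
  choose! Hm hHm using key
  exact ⟨Hm, hHm⟩


end DivHyp

/-! ### the constants -/

theorem s3e_const1 {N δi M η : ℝ} (hN : 0 ≤ N) (hδ : 0 ≤ δi) (hM : 0 ≤ M) (hη : 0 ≤ η) :
    2 * N * (12 * (1 + δi) * (M + (2 * N + 1) * η)) ≤ 48 * (1 + N + δi) ^ 3 * (M + η) := by
  set Q : ℝ := 1 + N + δi with hQ
  have hQ1 : 1 ≤ Q := by linarith
  have h1 : N ≤ Q := by linarith
  have h2 : 1 + δi ≤ Q := by linarith
  have h3 : M + (2 * N + 1) * η ≤ 2 * Q * (M + η) := by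
    have e1 : (2 * N + 1) * η ≤ 2 * Q * η := mul_le_mul_of_nonneg_right (by linarith) hη
    have e2 : 1 * M ≤ 2 * Q * M := mul_le_mul_of_nonneg_right (by linarith) hM
    linarith
  have h4 : N * (1 + δi) ≤ Q * Q := mul_le_mul h1 h2 (by linarith) (by linarith)
  have h5 : N * (1 + δi) * (M + (2 * N + 1) * η) ≤ Q * Q * (2 * Q * (M + η)) :=
    mul_le_mul h4 h3 (by positivity) (by positivity)
  calc 2 * N * (12 * (1 + δi) * (M + (2 * N + 1) * η))
      = 24 * (N * (1 + δi) * (M + (2 * N + 1) * η)) := by ring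
    _ ≤ 24 * (Q * Q * (2 * Q * (M + η))) := by linarith
    _ = 48 * Q ^ 3 * (M + η) := by ring

theorem s3e_const2 {N δi η X : ℝ} (hN : 0 ≤ N) (hδ : 0 ≤ δi) (hη : 0 ≤ η) (hX : 0 ≤ X) :
    2 * X * δi + 2 * N * ((2 * N + 1) * η) ≤ 48 * (1 + N + δi) ^ 3 * (η + X) := by
  set Q : ℝ := 1 + N + δi with hQ
  have hQ1 : 1 ≤ Q := by linarith
  have hQ2 : Q ≤ Q ^ 3 := by
    have : Q * 1 ≤ Q * Q ^ 2 := mul_le_mul_of_nonneg_left (one_le_pow₀ hQ1) (by linarith)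
    calc Q = Q * 1 := by ring
      _ ≤ Q * Q ^ 2 := this
      _ = Q ^ 3 := by ring
  have hQ3 : Q ^ 2 ≤ Q ^ 3 := pow_le_pow_right₀ hQ1 (by norm_num)
  have h1 : N * (2 * N + 1) ≤ Q * (2 * Q) := mul_le_mul (by linarith) (by linarith) (by linarith) (by linarith)
  have h2 : N * (2 * N + 1) * η ≤ 2 * Q ^ 3 * η := by
    apply mul_le_mul_of_nonneg_right _ hη
    nlinarith
  have h3 : X * δi ≤ X * Q ^ 3 := mul_le_mul_of_nonneg_left (by linarith) hX
  have h4 : 0 ≤ Q ^ 3 * η := by positivity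
  have h5 : 0 ≤ X * Q ^ 3 := by positivity
  nlinarith

/-- the properties of the modes. -/
def IsModes (ν s' d' δ r M η : ℝ) (N : ℕ) (F : ℂ → ℂ → ℂ) (Hm : ℤ → ℂ → ℂ) : Prop :=
  ∀ n : ℤ, n ≠ 0 → |n| ≤ N →
      DifferentiableOn ℂ (Hm n) (Metric.ball 0 (d' - r)) ∧
      (∀ t ∈ Metric.ball (0 : ℂ) (d' - r), Hm n t * dn n t = dvG F N d' n t) ∧
      ∀ t ∈ Metric.ball (0 : ℂ) (d' - r), ‖Hm n t‖ ≤
        12 * (1 + δ⁻¹) * (M + (2 * N + 1) * η) *
          Real.exp (-(|(n : ℝ)| * (s' - (ν - 1 / 2) * |t.im|)))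

namespace DivHyp

variable {ν s s' d d' δ r M η : ℝ} {N : ℕ} {F : ℂ → ℂ → ℂ} {Hm : ℤ → ℂ → ℂ}

theorem H_bd (h : DivHyp ν s s' d d' δ r M η N F) (hm : IsModes ν s' d' δ r M η N F Hm) :
    Bd (trig N Hm) (Dom (ν - 1 / 2) (s' - δ) (d' - r)) (48 * QQ N δ ^ 3 * (M + η)) := by
  intro z hz
  obtain ⟨hz1, hz2⟩ := hz
  have hδi : 0 < δ⁻¹ := inv_pos.2 h.hδ
  have hW : 0 ≤ M + (2 * (N : ℝ) + 1) * η :=
    add_nonneg h.hM (mul_nonneg (by positivity) h.hη)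
  have hzb : z.2 ∈ Metric.ball (0 : ℂ) (d' - r) := by simpa using hz1
  refine (s3e_norm_trig_le N Hm z.1 z.2 (K := 12 * (1 + δ⁻¹) * (M + (2 * N + 1) * η)) ?_).trans
    (s3e_const1 (Nat.cast_nonneg N) hδi.le h.hM h.hη)
  intro n hn hnN
  rw [norm_mul]
  have h1 := (hm n hn hnN).2.2 z.2 hzb
  have h2 := s3e_norm_exp_int n z.1
  have hK : 0 ≤ 12 * (1 + δ⁻¹) * (M + (2 * N + 1) * η) := by positivity
  calc ‖Hm n z.2‖ * ‖Complex.exp ((n : ℂ) * z.1 * Complex.I)‖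
      ≤ (12 * (1 + δ⁻¹) * (M + (2 * N + 1) * η) *
          Real.exp (-(|(n : ℝ)| * (s' - (ν - 1 / 2) * |z.2.im|)))) * Real.exp (|(n : ℝ)| * |z.1.im|) :=
        mul_le_mul h1 h2 (norm_nonneg _) (by positivity)
    _ = 12 * (1 + δ⁻¹) * (M + (2 * N + 1) * η) *
          Real.exp (-(|(n : ℝ)| * (s' - (ν - 1 / 2) * |z.2.im| - |z.1.im|))) := by
        rw [mul_assoc, ← Real.exp_add]
        congr 2
        ring
    _ ≤ 12 * (1 + δ⁻¹) * (M + (2 * N + 1) * η) * 1 := by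
        apply mul_le_mul_of_nonneg_left _ hK
        rw [Real.exp_le_one_iff, neg_nonpos]
        apply mul_nonneg (abs_nonneg _)
        linarith [h.hδ]
    _ = _ := mul_one _

theorem err_bd (h : DivHyp ν s s' d d' δ r M η N F) (hm : IsModes ν s' d' δ r M η N F Hm) :
    Bd (fun y t => dd (trig N Hm) y t - F y t) (Dom ν (s' - δ) (d' - r))
      (48 * QQ N δ ^ 3 * (η + M * Real.exp (-(N * δ)))) := by
  intro z hz
  obtain ⟨hz1, hz2⟩ := hz
  have hδi : 0 < δ⁻¹ := inv_pos.2 h.hδ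
  have hr0 := h.r_pos
  have hzb : z.2 ∈ Metric.ball (0 : ℂ) (d' - r) := by simpa using hz1
  have hzd : ‖z.2‖ < d := by linarith [h.hdr]
  have hzD : (z.1, z.2) ∈ Dom ν s d := ⟨hzd, by
    show |z.1.im| < s - ν * |z.2.im|
    linarith [h.hss, h.hδ]⟩
  have e1 : dd (trig N Hm) z.1 z.2 = trig N (dvF F) z.1 z.2 - trig N (dvR F N d') z.1 z.2 := by
    rw [s3e_dd_trig, ← s3e_trig_sub]
    apply s3e_trig_congr
    intro n hn hnN
    exact (hm n hn hnN).2.1 z.2 hzb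
  show ‖dd (trig N Hm) z.1 z.2 - F z.1 z.2‖ ≤ _
  rw [e1]
  have hR : ‖trig N (dvR F N d') z.1 z.2‖ ≤ 2 * N * ((2 * N + 1) * η) := by
    apply s3e_norm_trig_le
    intro n hn hnN
    rw [norm_mul]
    have h1 := h.R_bd hn hnN z.2
    have h2 := s3e_norm_exp_int n z.1
    have hK : 0 ≤ (2 * (N : ℝ) + 1) * η := mul_nonneg (by positivity) h.hη
    calc ‖dvR F N d' n z.2‖ * ‖Complex.exp ((n : ℂ) * z.1 * Complex.I)‖
        ≤ ((2 * N + 1) * η * Real.exp (-(|(n : ℝ)| * (s' - |z.2.im| / 2)))) *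
            Real.exp (|(n : ℝ)| * |z.1.im|) :=
          mul_le_mul h1 h2 (norm_nonneg _) (by positivity)
      _ = (2 * N + 1) * η * Real.exp (-(|(n : ℝ)| * (s' - |z.2.im| / 2 - |z.1.im|))) := by
          rw [mul_assoc, ← Real.exp_add]
          congr 2
          ring
      _ ≤ (2 * N + 1) * η * 1 := by
          apply mul_le_mul_of_nonneg_left _ hK
          rw [Real.exp_le_one_iff, neg_nonpos]
          apply mul_nonneg (abs_nonneg _)
          have h3 : 1 / 2 * |z.2.im| ≤ ν * |z.2.im| := mul_le_mul_of_nonneg_right h.hν (abs_nonneg _)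
          linarith [h.hδ]
      _ = _ := mul_one _
  have hT : ‖trig N (dvF F) z.1 z.2 - F z.1 z.2‖ ≤ 2 * M * Real.exp (-(N * δ)) / δ := by
    apply s3e_tail h.hδ h.hM (dvF_hasSum h.hF h.hP h.hB hzD)
    · have : dvF F 0 z.2 = 0 := h.hmean z.2 hzd
      rw [this, zero_mul]
    · intro n
      rw [norm_mul]
      have h1 := dvF_decay h.hF h.hP h.hB hzd (h.slice_pos z.2 hzd) n
      have h2 := s3e_norm_exp_int n z.1
      calc ‖dvF F n z.2‖ * ‖Complex.exp ((n : ℂ) * z.1 * Complex.I)‖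
          ≤ (M * Real.exp (-(|(n : ℝ)| * (s - ν * |z.2.im|)))) * Real.exp (|(n : ℝ)| * |z.1.im|) :=
            mul_le_mul h1 h2 (norm_nonneg _) (mul_nonneg h.hM (Real.exp_pos _).le)
        _ = M * Real.exp (-(|(n : ℝ)| * (s - ν * |z.2.im| - |z.1.im|))) := by
            rw [mul_assoc, ← Real.exp_add]
            congr 2
            ring
        _ ≤ M * Real.exp (-(|(n : ℝ)| * δ)) := by
            apply mul_le_mul_of_nonneg_left _ h.hM
            apply Real.exp_le_exp.2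
            have : |(n : ℝ)| * δ ≤ |(n : ℝ)| * (s - ν * |z.2.im| - |z.1.im|) :=
              mul_le_mul_of_nonneg_left (by linarith [h.hss]) (abs_nonneg _)
            linarith
  have hX : 0 ≤ M * Real.exp (-(N * δ)) := mul_nonneg h.hM (Real.exp_pos _).le
  have hfin := s3e_const2 (Nat.cast_nonneg N) hδi.le h.hη hX
  calc ‖trig N (dvF F) z.1 z.2 - trig N (dvR F N d') z.1 z.2 - F z.1 z.2‖
      = ‖(trig N (dvF F) z.1 z.2 - F z.1 z.2) - trig N (dvR F N d') z.1 z.2‖ := by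
        congr 1
        ring
    _ ≤ ‖trig N (dvF F) z.1 z.2 - F z.1 z.2‖ + ‖trig N (dvR F N d') z.1 z.2‖ := norm_sub_le _ _
    _ ≤ 2 * M * Real.exp (-(N * δ)) / δ + 2 * N * ((2 * N + 1) * η) := add_le_add hT hR
    _ = 2 * (M * Real.exp (-(N * δ))) * δ⁻¹ + 2 * N * ((2 * N + 1) * η) := by
        rw [div_eq_mul_inv]
        ring
    _ ≤ _ := hfin


theorem node_lt (h : DivHyp ν s s' d d' δ r M η N F) {n : ℤ} (hn : n ≠ 0) (hnN : |n| ≤ N) {j : ℤ}
    (hj : j ∈ dvJ N d' n) : ‖((2 * π * j / n : ℝ) : ℂ)‖ < d := by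
  rw [Complex.norm_real, Real.norm_eq_abs]
  exact ((mem_dvJ hn hnN h.d'_le j).1 hj).2.trans h.d'_lt

theorem F_even (h : DivHyp ν s s' d d' δ r M η N F) (hS : Sym F (Dom ν s d)) (n : ℤ) {t : ℂ}
    (ht : ‖t‖ < d) : dvF F n (-t) = dvF F n t :=
  fc_congr (fun x => hS.even ((x : ℂ), t) (h.real_mem x ht)) n

theorem F_conj (h : DivHyp ν s s' d d' δ r M η N F) (hS : Sym F (Dom ν s d)) (n : ℤ) {t : ℂ}
    (ht : ‖t‖ < d) : conj (dvF F n t) = dvF F (-n) (conj t) := by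
  apply fc_conj'
  intro x
  have := hS.real ((x : ℂ), t) (h.real_mem x ht)
  simpa using this

theorem G_even (h : DivHyp ν s s' d d' δ r M η N F) (hS : Sym F (Dom ν s d)) {n : ℤ} (hn : n ≠ 0)
    (hnN : |n| ≤ N) {t : ℂ} (ht : ‖t‖ < d) : dvG F N d' n (-t) = dvG F N d' n t := by
  unfold dvG
  rw [h.F_even hS n ht, dvR_even F N d' n (fun j hj => h.F_even hS n (h.node_lt hn hnN hj))]

theorem G_conj (h : DivHyp ν s s' d d' δ r M η N F) (hS : Sym F (Dom ν s d)) {n : ℤ} (hn : n ≠ 0)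
    (hnN : |n| ≤ N) {t : ℂ} (ht : ‖t‖ < d) : conj (dvG F N d' n t) = dvG F N d' (-n) (conj t) := by
  unfold dvG
  rw [map_sub, h.F_conj hS n ht, dvR_conj F N d' n (fun j hj => by
    have := h.F_conj hS n (h.node_lt hn hnN hj)
    rwa [Complex.conj_ofReal] at this)]

theorem Hm_even (h : DivHyp ν s s' d d' δ r M η N F) (hm : IsModes ν s' d' δ r M η N F Hm)
    (hS : Sym F (Dom ν s d)) {n : ℤ} (hn : n ≠ 0) (hnN : |n| ≤ N) :
    ∀ t ∈ Metric.ball (0 : ℂ) (d' - r), Hm n (-t) = Hm n t := by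
  have hr0 := h.r_pos
  have hneg : ∀ t ∈ Metric.ball (0 : ℂ) (d' - r), -t ∈ Metric.ball (0 : ℂ) (d' - r) := by
    intro t ht
    simpa using ht
  apply s3e_unique hn (A := fun t => Hm n (-t)) (B := Hm n)
  · exact (hm n hn hnN).1.continuousOn.comp continuous_neg.continuousOn hneg
  · exact (hm n hn hnN).1.continuousOn
  · intro t ht
    have htd : ‖t‖ < d := by
      have : ‖t‖ < d' - r := by simpa using ht
      linarith [h.hdr]
    show Hm n (-t) * dn n t = Hm n t * dn n t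
    rw [(hm n hn hnN).2.1 t ht, ← dn_neg_arg, (hm n hn hnN).2.1 _ (hneg t ht), h.G_even hS hn hnN htd]

theorem Hm_conj (h : DivHyp ν s s' d d' δ r M η N F) (hm : IsModes ν s' d' δ r M η N F Hm)
    (hS : Sym F (Dom ν s d)) {n : ℤ} (hn : n ≠ 0) (hnN : |n| ≤ N) :
    ∀ t ∈ Metric.ball (0 : ℂ) (d' - r), conj (Hm n t) = Hm (-n) (conj t) := by
  have hr0 := h.r_pos
  have hn' : -n ≠ 0 := neg_ne_zero.2 hn
  have hnN' : |-n| ≤ N := by rwa [abs_neg]
  have hcj : ∀ t ∈ Metric.ball (0 : ℂ) (d' - r), conj t ∈ Metric.ball (0 : ℂ) (d' - r) := by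
    intro t ht
    simpa using ht
  have key := s3e_unique hn' (ρ := d' - r) (A := fun t => conj (Hm n (conj t))) (B := Hm (-n))
    (Complex.continuous_conj.comp_continuousOn
      ((hm n hn hnN).1.continuousOn.comp Complex.continuous_conj.continuousOn hcj))
    (hm (-n) hn' hnN').1.continuousOn
    (by
      intro t ht
      have htd : ‖conj t‖ < d := by
        have : ‖t‖ < d' - r := by simpa using ht
        rw [Complex.norm_conj]
        linarith [h.hdr]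
      have e1 := dn_conj n (conj t)
      rw [Complex.conj_conj] at e1
      show conj (Hm n (conj t)) * dn (-n) t = Hm (-n) t * dn (-n) t
      rw [(hm (-n) hn' hnN').2.1 t ht, ← e1, ← map_mul, (hm n hn hnN).2.1 _ (hcj t ht),
        h.G_conj hS hn hnN htd, Complex.conj_conj])
  intro t ht
  have := key (conj t) (hcj t ht)
  simpa using this

theorem H_sym (h : DivHyp ν s s' d d' δ r M η N F) (hm : IsModes ν s' d' δ r M η N F Hm)
    (hS : Sym F (Dom ν s d)) : Sym (trig N Hm) (Set.univ ×ˢ Metric.ball 0 (d' - r)) where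
  per := fun z _ => s3e_per_trig N Hm z (Set.mem_univ z)
  even := by
    intro z hz
    show trig N (fun n τ => Hm n (-τ)) z.1 z.2 = trig N Hm z.1 z.2
    apply s3e_trig_congr
    intro n hn hnN
    exact h.Hm_even hm hS hn hnN z.2 hz.2
  real := by
    intro z hz
    rw [s3e_trig_conj]
    intro n hn hnN
    exact h.Hm_conj hm hS hn hnN z.2 hz.2

theorem H_zero (h : DivHyp ν s s' d d' δ r M η N F) (hm : IsModes ν s' d' δ r M η N F Hm)
    (h0 : ∀ y ∈ hstrip s, F y 0 = 0) : ∀ y, trig N Hm y 0 = 0 := by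
  intro y
  have hr0 := h.r_pos
  have hs : 0 < s := by
    have := h.slice_pos 0 (by simpa using h.hd0)
    simpa using this
  have hmem : (0 : ℂ) ∈ Metric.ball (0 : ℂ) (d' - r) := by
    simpa using h.hrd
  have key : ∀ n : ℤ, n ≠ 0 → |n| ≤ N → Hm n 0 = (fun _ _ => (0 : ℂ)) n (0 : ℂ) := by
    intro n hn hnN
    have hnC : (n : ℂ) ≠ 0 := by exact_mod_cast hn
    have h1 := (hm n hn hnN).2.1 0 hmem
    have h2 : dvF F n 0 = 0 := by
      have e : dvF F n 0 = fc n (fun _ => 0 * 0) := by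
        apply fc_congr
        intro x
        rw [h0 x (by simpa [hstrip] using hs)]
        simp
      rw [e, fc_const_mul, zero_mul]
    unfold dvG at h1
    rw [h2, dvR_zero F hn, sub_zero, dn_zero] at h1
    exact (mul_eq_zero.1 h1).resolve_right (mul_ne_zero Complex.I_ne_zero hnC)
  rw [s3e_trig_congr N (c' := fun _ _ => (0 : ℂ)) y 0 key]
  simp [trig]

end DivHyp

/-- **Unit E**, with explicit constants and the hypothesis `0 < d`. -/
theorem division_core (ν s s' d d' δ r M η : ℝ) (N : ℕ) (F : ℂ → ℂ → ℂ)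
    (h : DivHyp ν s s' d d' δ r M η N F) :
    ∃ H : ℂ → ℂ → ℂ,
      Hol H (Set.univ ×ˢ Metric.ball 0 (d' - r)) ∧
      Per H Set.univ ∧
      (∀ t : ℂ, ‖t‖ < d' - r → mean (fun y => H y t) = 0) ∧
      Bd H (Dom (ν - 1 / 2) (s' - δ) (d' - r)) (48 * QQ N δ ^ 3 * (M + η)) ∧
      Bd (fun y t => dd H y t - F y t) (Dom ν (s' - δ) (d' - r))
        (48 * QQ N δ ^ 3 * (η + M * Real.exp (-(N * δ)))) ∧
      (Sym F (Dom ν s d) → Sym H (Set.univ ×ˢ Metric.ball 0 (d' - r))) ∧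
      ((∀ y ∈ hstrip s, F y 0 = 0) → ∀ y, H y 0 = 0) := by
  obtain ⟨Hm, hm⟩ := h.exists_modes
  have hm' : IsModes ν s' d' δ r M η N F Hm := hm
  exact ⟨trig N Hm, s3e_hol_trig N Hm (fun n hn hnN => (hm n hn hnN).1), s3e_per_trig N Hm,
    fun t _ => s3e_mean_trig N Hm t, h.H_bd hm', h.err_bd hm', h.H_sym hm', h.H_zero hm'⟩

end Claimed.Agent.R269.S3
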