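/-
Row 269, Section 3, UNIT E (package BP-S3-E): BUFFERED FOURIER DIVISION (P1 Lemma 3.5, 03-joint.tex l.436-545).  Statement + plan: helper228.
HOST-FREE: S3/Defs.lean, S3/Stmt.lean (StDivision), LibHol, LibFS, LibCA.   The proof below differs from the text (no maximum principle on
discs; relative parameter buffer `r ≥ δ d`, so that the cost does not depend on `d`).

CONSTRUCTION.  `F_n(t) := fc n (F(·,t))`, holomorphic on `ball 0 d` (`fc_hol`),  `|F_n(t)| ≤ M e^{-|n|(s - ν|Im t|)}` (`fc_decay` on the slice strip).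
For `1 ≤ |n| ≤ N`:  nodes `t_j = 2π j/n`, `j ≠ 0`, `|t_j| < d'` (a finite set, at most `|n|` of them since `d' ≤ 1`),
   `R_n(t) := ∑_j F_n(t_j) sinc(n (t - t_j)/2)`,   `sinc w = sin w / w` (`= 1` at `0`),     `G_n := F_n - R_n`,
   `H_n(t) := G_n(t)/d_n(t)` where `d_n(t) = dn n t ≠ 0`, continued holomorphically through the zeros of `d_n` in `ball 0 (d'-r)`
   (e.g. `H_n t := limUnder (𝓝[≠] t) (G_n/d_n)`, `ca_removable_discrete` of Lib/CA1Sing.lean),   `H(y,t) := ∑_{1≤|n|≤N} H_n(t) e^{iny}`.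
FACTS.
 (1) `sinc(π m) = 0` for integers `m ≠ 0`: `R_n(t_k) = F_n(t_k)`, i.e. `G_n(t_k) = 0` at every node;  `R_n(0) = 0`.
 (2) `|sinc w| ≤ e^{|Im w|}` (`sinc w = ∫₀¹ cos(u w) du`, or power series / `|sin w| ≤ |w| cosh|Im w|`-type bound; any proof).  Hence
     `|R_n(t)| ≤ N η e^{-|n|(s' - |Im t|/2)}`   and   `|G_n(t)| ≤ (M + Nη) e^{-|n|(s' - ν|Im t|)}` on `ball 0 d`   (`ν ≥ 1/2`, `s' ≤ s`).
 (3) LOWER BOUND FOR THE SINE: there is `c₀ > 0` with  `|sin w| ≥ c₀ min(1, |w - kπ|) e^{|Im w|}`  whenever `|Re w - kπ| ≤ π/2`, `k ∈ ℤ`.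
     (`|sin(u+iv)|² = sin²u + sinh²v`; `|sin u| ≥ (2/π)|u - kπ|`; `sinh|v| ≥ |v|`; `sinh|v| ≥ e^{|v|}/4` for `|v| ≥ 1/2`.)
 (4) BOUND OF `H_n` on `ball 0 (d'-r)`, `t ≠ 0`, `d_n(t) ≠ 0`:  `|H_n(t)| = |t| |G_n(t)| / (2 |sin(nt/2)|)`.  Let `k` be an integer nearest to `Re(nt/2)/π`,
     `t_k = 2π k/n`, `x = |t - t_k|`, so `|nt/2 - kπ| = |n| x/2`;   `ρ₀ := min(1/|n|, r)`.
     * `k = 0`:  `|t| / min(1,|n||t|/2) ≤ max(|t|, 2/|n|) ≤ 2`.   So `|H_n(t)| ≤ c₀⁻¹ (M+Nη) e^{-|n|(s' - (ν-1/2)|Im t|)}`.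
     * `k ≠ 0`:  then `|t| ≥ π/|n|` (as `|t_k| ≥ 2π/|n|`, `x ≤ π/|n|` up to the imaginary part: use `|Re t - t_k| ≤ π/|n|`), so `1/|n| ≤ |t|/π < d/π`, and
         `|t|/(|n| r) ≤ |t| d/(π r) ≤ 1/(π δ)`     (this is where `δ d ≤ r` is used).
       - `x ≥ ρ₀`:  `min(1,|n|x/2) ≥ |n|ρ₀/2 = min(1/2, |n| r/2)`:   `|H_n(t)| ≤ C (1 + 1/δ) (M+Nη) e^{-|n|(s' - (ν-1/2)|Im t|)}`.
       - `x < ρ₀`:  `|t_k| < d' - r + r = d'`: `t_k` is a node, `G_n(t_k) = 0`, `ball t_k ρ₀ ⊆ ball 0 d` (`d' + r ≤ d`).  `ca_schwarz`: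
         `|G_n(t)| ≤ (x/ρ₀) sup_{ball t_k ρ₀} |G_n| ≤ (x/ρ₀) (M+Nη) e^{ν} e^{-|n| s'}` (`|Im τ| < ρ₀ ≤ 1/|n|`),  `|sin(nt/2)| ≥ c₀ |n| x/2`.
         So `|H_n(t)| ≤ |t| e (M+Nη) e^{-|n|s'} / (c₀ |n| ρ₀)`, `1/(|n|ρ₀) = max(1, 1/(|n| r))`.
     The bound extends to the removed points by continuity.   This local boundedness also gives the removability.
 (5) `|H(y,t)| ≤ ∑_{1≤|n|≤N} |H_n(t)| e^{|n||Im y|} ≤ 2N · C(1+1/δ)(M+Nη)` on `𝒟^{ν-1/2}(s'-δ, d'-r)`  (every term has `e^{-|n|δ} ≤ 1`).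
 (6) `∂(e^{iny}) = d_n(t) e^{iny}` (also at `t = 0`), so `∂H = ∑ (F_n - R_n) e^{iny}`;   with `fc_hasSum` on the slice strip and `F_0 = 0`:
     `∂H - F = - ∑_{1≤|n|≤N} R_n e^{iny} - ∑_{|n|>N} F_n e^{iny}`.   On `𝒟^ν(s'-δ, d'-r)`:  `|R_n e^{iny}| ≤ Nη`,   tail `≤ 2M ∑_{n>N} e^{-nδ} ≤ 2 M e^{-Nδ}/δ`.
 (7) SYMMETRIES.  `F` even in `t` ⇒ `F_n` even; the node set is symmetric; `d_n` even ⇒ `H_n` even.   `F` real ⇒ `conj F_n(t) = F_{-n}(conj t)`;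
     `conj d_n(t) = d_{-n}(conj t)`; nodes of `-n` = nodes of `n` ⇒ `conj H_n(t) = H_{-n}(conj t)` ⇒ `H` real.   (Alternative: prove the theorem without (7)
     and symmetrise `H` over the group generated by `t ↦ -t` and `(y,t) ↦ conj`.)
 (8) `F(·,0) = 0` ⇒ `F_n(0) = 0`, `R_n(0) = 0` ⇒ `H_n(0) = 0/(i n) = 0`.
 (9) `mean H(·,t) = 0`: `fc_exp`, `fc_sum`.
SUGGESTED CUT: E1 = (2),(3) elementary inequalities [host-free, Mathlib only]; E2 = one mode: a lemma on `G : ℂ → ℂ` holomorphic on `ball 0 d`, vanishing at the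
nodes, with the weight bound ⇒ `H_n` holomorphic with the bound (4);  E3 = assembly (5),(6),(9);  E4 = (7),(8).
-/
import Claimed.Agent.R269.S3.DivCore

set_option autoImplicit false

namespace Claimed.Agent.R269.S3

open Real Complex ComplexConjugate

/-- **Unit E.** -/
theorem division_main : StDivision := by
  refine ⟨48, 3, ?_⟩
  intro ν s s' d d' δ r M η N F hν hδ hδ1 hd0 hss hd1 hds hr hdr hrd hN hM hη hF hP hB hmean hnode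
  apply division_core
  exact
    { hν := by rcases hν with h | h <;> rw [h] <;> norm_num
      hν1 := by rcases hν with h | h <;> rw [h] <;> norm_num
      hδ := hδ, hδ1 := hδ1, hd0 := hd0, hss := hss, hd1 := hd1, hds := hds, hr := hr, hdr := hdr
      hrd := hrd, hN := hN, hM := hM, hη := hη, hF := hF, hP := hP, hB := hB, hmean := hmean
      hnode := hnode }

end Claimed.Agent.R269.S3
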