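/-
Row 269, Section 3, UNIT F: proof of the step N3 (second compatibility, application of unit K).   Owner: helper228.
-/
import Claimed.Agent.R269.S3.CandLib

set_option autoImplicit false

namespace Claimed.Agent.R269.S3

open Real Complex ComplexConjugate

variable {B : Base} {s₁ κ K : ℝ} {s d δ ε : ℝ} {N : ℕ} {Θ : ℂ → ℂ → ℂ}

/-- a thin polydisc around a real parameter inside the slanted domains. -/
theorem Wd_sub_Dom {ν S S' D t₀ r : ℝ} (hν : 0 ≤ ν) (hν1 : ν ≤ 1) (ht₀ : 0 ≤ t₀) (hD : t₀ + r ≤ D) (hS : S' + r ≤ S) :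
    Wd S' t₀ r ⊆ Dom ν S D := by
  rintro ⟨y, t⟩ ⟨hy, ht⟩
  have h1 : ‖t - t₀‖ < r := by simpa [dist_eq_norm] using ht
  have hy' : |y.im| < S' := hy
  refine ⟨?_, ?_⟩
  · have h2 := norm_add_le (t - t₀) (t₀ : ℂ)
    rw [sub_add_cancel] at h2
    have h3 : ‖(t₀ : ℂ)‖ = t₀ := by simp [abs_of_nonneg ht₀]
    show ‖t‖ < D
    linarith
  · have h2 : |(t - t₀).im| ≤ ‖t - t₀‖ := Complex.abs_im_le_norm _
    have h3 : (t - t₀).im = t.im := by simp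
    rw [h3] at h2
    show |y.im| < S - ν * |t.im|
    have h4 : ν * |t.im| ≤ 1 * |t.im| := mul_le_mul_of_nonneg_right hν1 (abs_nonneg _)
    linarith

theorem zz_hol (hs : s ≤ B.s₀) (h : Cand B s d κ Θ) (hκ : κ < B.mφ) : Hol (zz Θ) (Dom 0 s d) := by
  refine (hol_dt (isOpen_Dom 0 s d) h.hol).div (hol_dy (isOpen_Dom 0 s d) h.hol) fun z hz h0 => ?_
  have := h.dy_ge hs z hz
  rw [h0, norm_zero] at this
  linarith

theorem zz_per (hs : s ≤ B.s₀) (h : Cand B s d κ Θ) : Per (zz Θ) (Dom 0 s d) := by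
  intro z hz
  unfold zz
  rw [dy_per (isOpen_Dom 0 s d) (h.per' hs) z hz, dt_per (isOpen_Dom 0 s d) (h.per' hs) z hz]

set_option maxHeartbeats 1600000 in
/-- N3: the second compatibility condition. -/
theorem newton_compat_pf (hG : Good B s₁ κ K) {CK : ℝ} {bK : ℕ} (hCK : 0 ≤ CK) (hK : CompatC CK bK)
    (hS : Step B s₁ κ s d δ ε N Θ) {Ph Pρ PE P : ℝ} {h : ℂ → ℂ → ℂ} (hh : Div1 B Θ s d δ ε Ph Pρ h)
    (hm : Mid2 B Θ s d δ ε Ph h) (hos : OsumBd (E B Θ) N (s - 2 * δ) d (PE * ε ^ 2))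
    (h1 : 1 ≤ P) (h2 : 2 * Ph ≤ P) (h3 : Pρ ≤ P) (h4 : PE ≤ P) (h5 : QQ N δ ^ 2 ≤ P) (hPh : 0 ≤ Ph)
    (hsm : CK * (P + 2 * QQ N δ + QQ N δ ^ 2) ^ bK * ε ≤ 1) :
    OsumBd (bF (A B Θ) h) N (s - 14 * δ) (d * (1 - 3 * δ))
      (CK * (P + 2 * QQ N δ + QQ N δ ^ 2) ^ bK * ε ^ 2) := by
  intro l q hl hq hqN hr y hy
  have hδ := hS.δ_pos
  have hε := hS.ε_pos
  have hd := hS.d_pos
  have hδs := hS.δ_lt
  have hds := hS.d_lt
  have hs1 : s ≤ 1 := hS.s_le.trans hG.s₁_le_one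
  have hs0 := hS.s_le_s₀ hG
  have hδ1 : δ ≤ 1 := by linarith
  obtain ⟨t₀, ht₀⟩ : ∃ t₀, t₀ = rat l q := ⟨_, rfl⟩
  have ht₀pos : 0 < t₀ := ht₀ ▸ rat_pos hl hq
  rw [← ht₀] at hr ⊢
  have ht₀d : t₀ < d := lt_of_lt_of_le hr (by nlinarith)
  obtain ⟨r, hrdef⟩ : ∃ r, r = δ * t₀ / 2 := ⟨_, rfl⟩
  have hrpos : 0 < r := by rw [hrdef]; positivity
  have hrδ : r ≤ δ := by rw [hrdef]; nlinarith
  have hrt : 2 * r ≤ t₀ := by rw [hrdef]; nlinarith
  have hrd : t₀ + r ≤ d * (1 - 2 * δ) := by rw [hrdef]; nlinarith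
  have hd2 : d * (1 - 2 * δ) ≤ d := by nlinarith
  -- inclusions
  have i1 : Wd (s - 4 * δ) t₀ r ⊆ Dom 1 (s - 3 * δ) (d * (1 - 2 * δ)) :=
    Wd_sub_Dom zero_le_one le_rfl ht₀pos.le hrd (by linarith)
  have i2 : Wd (s - 4 * δ) t₀ r ⊆ Dom (1 / 2) (s - 3 * δ) (d * (1 - 2 * δ)) :=
    Wd_sub_Dom (by norm_num) (by norm_num) ht₀pos.le hrd (by linarith)
  have i3 : Dom 1 (s - 3 * δ) (d * (1 - 2 * δ)) ⊆ Dom 1 s d := Dom_mono le_rfl (by linarith) hd2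
  have i4 : Dom (1 / 2) (s - 3 * δ) (d * (1 - 2 * δ)) ⊆ Dom (1 / 2) s d := Dom_mono le_rfl (by linarith) hd2
  have i5 : Wd (s - 4 * δ) t₀ r ⊆ Dom 0 s d :=
    Wd_sub_Dom le_rfl zero_le_one ht₀pos.le (hrd.trans hd2) (by linarith)
  have i6 : Wd (s - 4 * δ) t₀ r ⊆ Set.univ ×ˢ Metric.ball (0 : ℂ) (d * (1 - 2 * δ)) := fun z hz =>
    ⟨Set.mem_univ _, by simpa using (i1 hz).1⟩
  have hc2 := hS.cand2 hG
  have hEhol := hG.E_hol s hS.s_le d hS.d_le_s₁ Θ hc2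
  have hEsym := hG.E_sym s hS.s_le d hS.d_le_s₁ Θ hc2
  have hAhol := hG.A_hol s hS.s_le d hS.d_le_s₁ Θ hc2
  have hAsym := hG.A_sym s hS.s_le d hS.d_le_s₁ Θ hc2
  have hκm : κ < B.mφ := by
    have := hG.κ_le_m
    have := hG.κ_pos
    linarith
  -- `dd h`
  have hddhol : Hol (dd h) (Dom (1 / 2) (s - 3 * δ) (d * (1 - 2 * δ))) := by
    have e1 : Hol h (Dom 0 (s - 3 * δ) (d * (1 - 2 * δ))) := hh.hol.mono fun z hz =>
      ⟨Set.mem_univ _, by simpa using hz.1⟩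
    have := hol_dd e1
    simpa using this
  have hρhol : Hol (fun y t => -(dd h y t + E B Θ y t)) (Wd (s - 4 * δ) t₀ r) :=
    ((hddhol.mono i2).add (hEhol.mono (i1.trans i3))).neg
  have hρper : Per (fun y t => -(dd h y t + E B Θ y t)) (Wd (s - 4 * δ) t₀ r) := by
    intro z hz
    simp only
    rw [dd_per hh.sym.per z (i6 hz), hEsym.per z (i3 (i1 hz))]
  -- the bound of `z`
  have hqpos : (0 : ℝ) < q := by exact_mod_cast hq
  have hl1 : (1 : ℝ) ≤ l := by exact_mod_cast hl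
  have hqN' : (q : ℝ) ≤ N := by exact_mod_cast hqN
  have hQN := nat_le_QQ N hδ
  have hQδ := inv_le_QQ N hδ
  have hQ1 := one_le_QQ N hδ
  have hδinv : 0 < δ⁻¹ := inv_pos.2 hδ
  have ht₀inv : t₀⁻¹ ≤ q / 6 := by
    rw [ht₀]
    unfold rat
    rw [inv_div, div_le_div_iff₀ (by positivity) (by norm_num)]
    have hp := Real.pi_gt_three
    have e1 : (6 : ℝ) ≤ 2 * π * l := by nlinarith
    exact mul_le_mul_of_nonneg_left e1 hqpos.le
  have hdinv : d⁻¹ ≤ q / 6 := (inv_anti₀ ht₀pos ht₀d.le).trans ht₀inv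
  have hzbd : Bd (zz Θ) (Wd (s - 4 * δ) t₀ r) P := by
    intro z hz
    have e1 : ‖dt Θ z.1 z.2‖ ≤ κ / (2 * δ * d) := by
      refine hS.cand.dt_le (by positivity) (mem_hstrip_of_Dom0 (i5 hz)) ?_
      have := (i1 hz).1
      nlinarith
    have e2 : 7 * κ ≤ ‖dy Θ z.1 z.2‖ := by
      have := hS.cand.dy_ge hs0 z (i5 hz)
      have := hG.κ_le_m
      linarith
    have hκ := hG.κ_pos
    unfold zz
    rw [norm_div, div_le_iff₀ (by linarith)]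
    have e3 : κ / (2 * δ * d) = κ * (δ⁻¹ * d⁻¹) / 2 := by
      field_simp
    have e4 : δ⁻¹ * d⁻¹ ≤ QQ N δ * QQ N δ := by
      refine mul_le_mul hQδ (hdinv.trans ?_) (inv_pos.2 hd).le (by linarith)
      linarith
    have e5 : QQ N δ * QQ N δ ≤ P := by nlinarith
    calc ‖dt Θ z.1 z.2‖ ≤ κ * (δ⁻¹ * d⁻¹) / 2 := e3 ▸ e1
      _ ≤ κ * P / 2 := by
          have := mul_le_mul_of_nonneg_left (e4.trans e5) hκ.le
          linarith
      _ ≤ P * (7 * κ) := by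
          have : 0 ≤ κ * P := by positivity
          linarith
      _ ≤ P * ‖dy Θ z.1 z.2‖ := mul_le_mul_of_nonneg_left e2 (by linarith)
  have hε2 : 0 ≤ ε ^ 2 := by positivity
  -- cost
  have hrinv : r⁻¹ ≤ QQ N δ ^ 2 := by
    have e : r⁻¹ = 2 * (δ⁻¹ * t₀⁻¹) := by
      rw [hrdef]
      field_simp
    rw [e]
    have e4 : δ⁻¹ * t₀⁻¹ ≤ QQ N δ * (QQ N δ / 6) := by
      refine mul_le_mul hQδ (ht₀inv.trans ?_) (inv_pos.2 ht₀pos).le (by linarith)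
      linarith
    nlinarith
  have hX : P + q + δ⁻¹ + r⁻¹ ≤ P + 2 * QQ N δ + QQ N δ ^ 2 := by linarith
  have hX0 : 0 ≤ P + q + δ⁻¹ + r⁻¹ := by
    have := inv_pos.2 hrpos
    positivity
  have hXb : (P + q + δ⁻¹ + r⁻¹) ^ bK ≤ (P + 2 * QQ N δ + QQ N δ ^ 2) ^ bK := pow_le_pow_left₀ hX0 hX bK
  have hsm' : CK * (P + q + δ⁻¹ + r⁻¹) ^ bK * ε ≤ 1 := by
    refine le_trans ?_ hsm
    gcongr
  have ht₀abs : ‖((t₀ : ℝ) : ℂ)‖ < d * (1 - 2 * δ) := by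
    simp only [Complex.norm_real, Real.norm_eq_abs, abs_of_pos ht₀pos]
    linarith
  have key := hK (s - 4 * δ) δ r ε P l q (E B Θ) h (fun y t => -(dd h y t + E B Θ y t)) (A B Θ) (zz Θ)
    (lamF (A B Θ) h (t₀ : ℝ))
  rw [← ht₀] at key
  have key2 := key hδ (by linarith) (by linarith) hl hq (by linarith) hrpos hrδ hrt h1 hε.le
    (hEhol.mono (i1.trans i3)) (hh.hol.mono i6) hρhol (hAhol.mono (i2.trans i4))
    ((zz_hol hs0 hS.cand hκm).mono i5)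
    (fun z hz => hEsym.per z (i3 (i1 hz))) (fun z hz => hh.sym.per z (i6 hz)) hρper
    (fun z hz => hAsym.per z (i4 (i2 hz))) (fun z hz => zz_per hs0 hS.cand z (i5 hz))
    (fun z hz => hS.err z (i3 (i1 hz)))
    (fun z hz => (hh.bd z (i2 hz)).trans (by nlinarith))
    (fun z hz => by
      simp only [norm_neg]
      exact (hh.res z (i1 hz)).trans (by nlinarith))
    hzbd (fun z hz => hS.A_close hG z (i4 (i2 hz)))
    (fun w _ => by ring)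
    (fun w hw => by
      have hw' : w ∈ Wd (s - 4 * δ) t₀ r := ⟨hstrip_mono (by linarith) hw.1, hw.2⟩
      refine hG.symp s hS.s_le d hS.d_le_s₁ Θ hc2 w (i3 (i1 hw')) fun h0 => ?_
      have e1 : dist w.2 (t₀ : ℂ) < r := hw.2
      rw [h0, dist_eq_norm, zero_sub, norm_neg, Complex.norm_real, Real.norm_eq_abs, abs_of_pos ht₀pos] at e1
      linarith)
    (fun x hx => by
      have := hos l q hl hq hqN (ht₀ ▸ ht₀d) x (hstrip_mono (by linarith) hx)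
      rw [← ht₀] at this
      exact this.trans (by nlinarith))
    ((hm.lam_bd _ ht₀abs).trans (by nlinarith))
    (hm.mean0 _ ht₀abs) hsm' y (by
      have e : s - 4 * δ - 10 * δ = s - 14 * δ := by ring
      rw [e]; exact hy)
  refine key2.trans ?_
  gcongr

end Claimed.Agent.R269.S3
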