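/-
Row 269, Section 3, UNIT F: proof of the step N5 (the correction `Δ = Θ_y v` and the new error).   Owner: helper228.
-/
import Claimed.Agent.R269.S3.CandLib

set_option autoImplicit false

namespace Claimed.Agent.R269.S3

open Real Complex ComplexConjugate

variable {B : Base} {s₁ κ K : ℝ} {s d δ ε : ℝ} {N : ℕ} {Θ : ℂ → ℂ → ℂ}

theorem univ_ball_of_Dom {ν S D D' : ℝ} (h : D ≤ D') : Dom ν S D ⊆ Set.univ ×ˢ Metric.ball (0 : ℂ) D' := fun z hz =>
  ⟨Set.mem_univ _, by simpa using lt_of_lt_of_le hz.1 h⟩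

/-- N5a: the correction. -/
theorem final_corr (hG : Good B s₁ κ K) (hS : Step B s₁ κ s d δ ε N Θ) {L Pv Pw : ℝ} (hL : 1 ≤ L)
    (hLb : ∀ z ∈ Dom 0 s d, ‖dy Θ z.1 z.2‖ ≤ L) (hPv : 0 ≤ Pv)
    {h v : ℂ → ℂ → ℂ} (hv : Div2 B Θ s d δ ε Pv Pw h v) :
    Hol (fun y t => dy Θ y t * v y t) (Dom 0 (s - 16 * δ) (d * (1 - 4 * δ))) ∧
    Sym (fun y t => dy Θ y t * v y t) (Dom 0 (s - 16 * δ) (d * (1 - 4 * δ))) ∧
    (∀ y ∈ hstrip (s - 16 * δ), dy Θ y 0 * v y 0 = 0) ∧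
    BdC 3 (fun y t => dy Θ y t * v y t) (Dom 0 (s - 16 * δ) (d * (1 - 4 * δ)))
      (6 * L * Pv * QQ N δ ^ 3 * ε) := by
  have hδ := hS.δ_pos
  have hε := hS.ε_pos
  have hd := hS.d_pos
  have hδs := hS.δ_lt
  have hs1 : s ≤ 1 := hS.s_le.trans hG.s₁_le_one
  have hs0 := hS.s_le_s₀ hG
  have hδ1 : δ ≤ 1 := by linarith
  have hd4 : d * (1 - 4 * δ) ≤ d := by nlinarith
  have i15 : Dom 0 (s - 15 * δ) (d * (1 - 4 * δ)) ⊆ Dom 0 s d := Dom_mono le_rfl (by linarith) hd4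
  have i16 : Dom 0 (s - 16 * δ) (d * (1 - 4 * δ)) ⊆ Dom 0 (s - 15 * δ) (d * (1 - 4 * δ)) :=
    Dom_mono le_rfl (by linarith) le_rfl
  have hol15 : Hol (fun y t => dy Θ y t * v y t) (Dom 0 (s - 15 * δ) (d * (1 - 4 * δ))) :=
    ((hol_dy (isOpen_Dom 0 s d) hS.cand.hol).mono i15).mul (hv.hol.mono (univ_ball_of_Dom le_rfl))
  have bd15 : Bd (fun y t => dy Θ y t * v y t) (Dom 0 (s - 15 * δ) (d * (1 - 4 * δ))) (L * (Pv * ε)) := by
    intro z hz
    simp only [norm_mul]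
    exact mul_le_mul (hLb z (i15 hz)) (hv.bd z hz) (norm_nonneg _) (by linarith)
  have hC := bdC_of_bd 3 hδ hδ1 (by positivity) hol15 bd15
  have e16 : s - 15 * δ - δ = s - 16 * δ := by ring
  rw [e16] at hC
  refine ⟨hol15.mono i16, ((hS.cand.dy_sym hs0).mono (i16.trans i15)).mul
    (hv.sym.mono (univ_ball_of_Dom le_rfl)), fun y _ => by rw [hv.zero y, mul_zero], ?_⟩
  intro j hj z hz
  refine (hC j hj z hz).trans ?_
  have hQδ := inv_le_QQ N hδ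
  have hδinv : 0 < δ⁻¹ := inv_pos.2 hδ
  have e1 : ((3 : ℕ).factorial : ℝ) * (L * (Pv * ε)) / δ ^ 3 = 6 * L * Pv * (δ⁻¹) ^ 3 * ε := by
    have : ((3 : ℕ).factorial : ℝ) = 6 := by norm_num [Nat.factorial]
    rw [this]
    field_simp
  rw [e1]
  have e2 : (δ⁻¹) ^ 3 ≤ QQ N δ ^ 3 := pow_le_pow_left₀ hδinv.le hQδ 3
  gcongr

theorem dd_of_ne (F : ℂ → ℂ → ℂ) (y : ℂ) {t : ℂ} (ht : t ≠ 0) :
    dd F y t = (F (y + t / 2) t - F (y - t / 2) t) / t := by
  simp [dd, ht, ds]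

/-- N5b: the algebraic identity behind the quadratic gain. -/
theorem final_identity {a h v : ℂ → ℂ → ℂ} {y t : ℂ} (ht : t ≠ 0) (hp : a (y + t / 2) t ≠ 0) (hn : a (y - t / 2) t ≠ 0) :
    ds t (fun x => a x t * dd v x t) y
      = dd h y t + dd (fun y t => a y t * (dd v y t - bF a h y t)) y t := by
  have e1 : ∀ x, a x t ≠ 0 → a x t * dd v x t = h x t + lamF a h t + a x t * (dd v x t - bF a h x t) := by
    intro x hx
    unfold bF
    generalize dd v x t = D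
    field_simp
    ring
  rw [dd_of_ne h y ht, dd_of_ne (fun y t => a y t * (dd v y t - bF a h y t)) y ht]
  unfold ds
  beta_reduce
  rw [e1 _ hp, e1 _ hn]
  ring

/-- N5c: the two derivative terms. -/
theorem final_terms (hG : Good B s₁ κ K) (hS : Step B s₁ κ s d δ ε N Θ) {Ph Pv Pw : ℝ}
    (hPv : 0 ≤ Pv) (hPw : 0 ≤ Pw) {h v : ℂ → ℂ → ℂ} (hm : Mid2 B Θ s d δ ε Ph h)
    (hv : Div2 B Θ s d δ ε Pv Pw h v) :
    Bd (dd (fun y t => A B Θ y t * (dd v y t - bF (A B Θ) h y t))) (Dom 1 (s - 16 * δ) (d * (1 - 4 * δ)))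
      (Pw * QQ N δ * ε ^ 2) ∧
    Bd (dy (fun y t => E B Θ y t * v y t)) (Dom 1 (s - 16 * δ) (d * (1 - 4 * δ))) (Pv * QQ N δ * ε ^ 2) := by
  have hδ := hS.δ_pos
  have hε := hS.ε_pos
  have hd := hS.d_pos
  have hδs := hS.δ_lt
  have hd4 : d * (1 - 4 * δ) ≤ d := by nlinarith
  have hd42 : d * (1 - 4 * δ) ≤ d * (1 - 2 * δ) := by nlinarith
  have hc2 := hS.cand2 hG
  have hEhol := hG.E_hol s hS.s_le d hS.d_le_s₁ Θ hc2
  have hAhol := hG.A_hol s hS.s_le d hS.d_le_s₁ Θ hc2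
  have hQδ := inv_le_QQ N hδ
  have hδinv : 0 < δ⁻¹ := inv_pos.2 hδ
  have e16 : s - 15 * δ - δ = s - 16 * δ := by ring
  constructor
  · have j1 : Dom (1 / 2) (s - 15 * δ) (d * (1 - 4 * δ)) ⊆ Dom (1 / 2) s d := Dom_mono le_rfl (by linarith) hd4
    have j2 : Dom (1 / 2) (s - 15 * δ) (d * (1 - 4 * δ)) ⊆ Dom (1 / 2) (s - 3 * δ) (d * (1 - 2 * δ)) :=
      Dom_mono le_rfl (by linarith) hd42
    have hddv : Hol (dd v) (Dom (1 / 2) (s - 15 * δ) (d * (1 - 4 * δ))) := by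
      have e1 : Hol v (Dom 0 (s - 15 * δ) (d * (1 - 4 * δ))) := hv.hol.mono (univ_ball_of_Dom le_rfl)
      have := hol_dd e1
      simpa using this
    have hGhol : Hol (fun y t => A B Θ y t * (dd v y t - bF (A B Θ) h y t))
        (Dom (1 / 2) (s - 15 * δ) (d * (1 - 4 * δ))) := (hAhol.mono j1).mul (hddv.sub (hm.hol.mono j2))
    have hGbd : Bd (fun y t => A B Θ y t * (dd v y t - bF (A B Θ) h y t))
        (Dom (1 / 2) (s - 15 * δ) (d * (1 - 4 * δ))) (1 * (Pw * ε ^ 2)) := by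
      intro z hz
      simp only [norm_mul]
      have h1 := (close_facts (hS.A_close hG z (j1 hz))).2.2.2
      exact mul_le_mul (h1.trans (by norm_num)) (hv.res z hz) (norm_nonneg _) (by norm_num)
    have h1 := bd_dy hδ hGhol hGbd
    rw [e16] at h1
    have h2 := bd_dd (hGhol.mono (Dom_mono le_rfl (by linarith) le_rfl)) h1
    have e : (1 : ℝ) / 2 + 1 / 2 = 1 := by norm_num
    rw [e] at h2
    refine h2.mono subset_rfl ?_
    have e2 : 1 * (Pw * ε ^ 2) / δ = Pw * δ⁻¹ * ε ^ 2 := by field_simp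
    rw [e2]
    gcongr
  · have j1 : Dom 1 (s - 15 * δ) (d * (1 - 4 * δ)) ⊆ Dom 1 s d := Dom_mono le_rfl (by linarith) hd4
    have j2 : Dom 1 (s - 15 * δ) (d * (1 - 4 * δ)) ⊆ Dom 0 (s - 15 * δ) (d * (1 - 4 * δ)) :=
      Dom_mono zero_le_one le_rfl le_rfl
    have hHhol : Hol (fun y t => E B Θ y t * v y t) (Dom 1 (s - 15 * δ) (d * (1 - 4 * δ))) :=
      (hEhol.mono j1).mul (hv.hol.mono (univ_ball_of_Dom le_rfl))
    have hHbd : Bd (fun y t => E B Θ y t * v y t) (Dom 1 (s - 15 * δ) (d * (1 - 4 * δ))) (ε * (Pv * ε)) := by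
      intro z hz
      simp only [norm_mul]
      exact mul_le_mul (hS.err z (j1 hz)) (hv.bd z (j2 hz)) (norm_nonneg _) hε.le
    have h1 := bd_dy hδ hHhol hHbd
    rw [e16] at h1
    refine h1.mono subset_rfl ?_
    have e2 : ε * (Pv * ε) / δ = Pv * δ⁻¹ * ε ^ 2 := by field_simp
    rw [e2]
    gcongr

set_option maxHeartbeats 1600000 in
/-- N5: the correction `Δ = Θ_y v` and the new error. -/
theorem newton_final_pf (hG : Good B s₁ κ K) (hS : Step B s₁ κ s d δ ε N Θ) {L Ph Pρ Pv Pw : ℝ} (hL : 1 ≤ L)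
    (hLb : ∀ z ∈ Dom 0 s d, ‖dy Θ z.1 z.2‖ ≤ L) (hPv : 0 ≤ Pv) (hPw : 0 ≤ Pw) (hPρ : 0 ≤ Pρ)
    {h v : ℂ → ℂ → ℂ} (hh : Div1 B Θ s d δ ε Ph Pρ h) (hm : Mid2 B Θ s d δ ε Ph h)
    (hv : Div2 B Θ s d δ ε Pv Pw h v) (hsm : 6 * L * Pv * QQ N δ ^ 3 * ε ≤ κ / 2) :
    Hol (fun y t => dy Θ y t * v y t) (Dom 0 (s - 16 * δ) (d * (1 - 4 * δ))) ∧
    Sym (fun y t => dy Θ y t * v y t) (Dom 0 (s - 16 * δ) (d * (1 - 4 * δ))) ∧
    (∀ y ∈ hstrip (s - 16 * δ), dy Θ y 0 * v y 0 = 0) ∧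
    BdC 3 (fun y t => dy Θ y t * v y t) (Dom 0 (s - 16 * δ) (d * (1 - 4 * δ)))
      (6 * L * Pv * QQ N δ ^ 3 * ε) ∧
    Bd (E B (fun y t => Θ y t + dy Θ y t * v y t)) (Dom 1 (s - 16 * δ) (d * (1 - 4 * δ)))
      ((Pρ + Pw * QQ N δ + Pv * QQ N δ + K * (6 * L * Pv * QQ N δ ^ 3) ^ 2) * ε ^ 2) := by
  obtain ⟨c1, c2, c3, c4⟩ := final_corr hG hS hL hLb hPv hv
  obtain ⟨t1, t2⟩ := final_terms hG hS hPv hPw hm hv
  refine ⟨c1, c2, c3, c4, ?_⟩
  have hδ := hS.δ_pos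
  have hε := hS.ε_pos
  have hd := hS.d_pos
  have hδs := hS.δ_lt
  have hs0 := hS.s_le_s₀ hG
  have hd4 : d * (1 - 4 * δ) ≤ d := by nlinarith
  have hd42 : d * (1 - 4 * δ) ≤ d * (1 - 2 * δ) := by nlinarith
  have hQ1 := one_le_QQ N hδ
  have hK := hG.K_ge
  have hκ := hG.κ_pos
  rintro ⟨y, t⟩ hz
  show ‖E B (fun y t => Θ y t + dy Θ y t * v y t) y t‖ ≤ _
  by_cases ht : t = 0
  · simp only [E, if_pos ht, norm_zero]
    positivity
  have htd4 : ‖t‖ < d * (1 - 4 * δ) := hz.1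
  have htd : ‖t‖ < d := lt_of_lt_of_le htd4 hd4
  have hts₁ : ‖t‖ < s₁ := lt_of_lt_of_le htd hS.d_le_s₁
  have hyt : |y.im| + |t.im| < s - 16 * δ := by
    have : |y.im| < s - 16 * δ - 1 * |t.im| := hz.2
    linarith
  have hs16 : s - 16 * δ ≤ s₁ := by have := hS.s_le; linarith
  obtain ⟨μ, hμ⟩ : ∃ μ, μ = 6 * L * Pv * QQ N δ ^ 3 * ε := ⟨_, rfl⟩
  rw [← hμ] at hsm c4
  have hslice : Slice B (s - 16 * δ) κ (fun x => Θ x t) :=
    (hS.cand.slice hs0 htd).mono (by linarith) le_rfl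
  have hmem : ∀ x ∈ hstrip (s - 16 * δ), (x, t) ∈ Dom 0 (s - 16 * δ) (d * (1 - 4 * δ)) := fun x hx =>
    mem_Dom0 hx htd4
  have hVar : Var (s - 16 * δ) μ (fun x => dy Θ x t * v x t) :=
    ⟨fun x hx => (hol_slice_y (isOpen_Dom _ _ _) c1 (hmem x hx)).differentiableWithinAt,
      fun x hx => c2.per _ (hmem x hx), fun j hj x hx => c4 j hj _ (hmem x hx)⟩
  have rem := hG.Es_rem (s - 16 * δ) hs16 _ hslice μ _ hsm hVar t y ht hts₁ hyt
  have hvd : DifferentiableOn ℂ (fun x => v x t) (hstrip (s - 16 * δ)) := fun x hx =>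
    (hol_slice_y (isOpen_univ.prod Metric.isOpen_ball) hv.hol (y := x) (t := t)
      ⟨Set.mem_univ _, by simpa using htd4⟩).differentiableWithinAt
  have lin := hG.lin (s - 16 * δ) hs16 _ (hslice.mono le_rfl (by linarith)) _ hvd t y ht hts₁ hyt
  -- rewriting the linear part
  have hA : ∀ x, As B (fun x => Θ x t) t x = A B Θ x t := fun x => by simp only [A, if_neg ht]
  have hD : ∀ x, ds t (fun x => v x t) x = dd v x t := fun x => by simp only [dd, if_neg ht]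
  have hE : ∀ x, Es B (fun x => Θ x t) t x = E B Θ x t := fun x => by simp only [E, if_neg ht]
  have hz' : ((y, t) : ℂ × ℂ) ∈ Dom (1 / 2 + 1 / 2) s d := by
    refine ⟨htd, ?_⟩
    show |y.im| < s - (1 / 2 + 1 / 2) * |t.im|
    linarith
  have hp : A B Θ (y + t / 2) t ≠ 0 := by
    have h1 := Dom_shift hz' (1 / 2) (by rw [abs_of_pos] <;> norm_num)
    have h2 := (close_facts (hS.A_close hG _ h1)).1
    convert h2 using 2
    push_cast; ring
  have hn : A B Θ (y - t / 2) t ≠ 0 := by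
    have h1 := Dom_shift hz' (-(1 / 2)) (by rw [abs_neg, abs_of_pos] <;> norm_num)
    have h2 := (close_facts (hS.A_close hG _ h1)).1
    convert h2 using 2
    push_cast; ring
  have e1 : ds t (fun x => As B (fun x => Θ x t) t x * ds t (fun x => v x t) x) y
      = dd h y t + dd (fun y t => A B Θ y t * (dd v y t - bF (A B Θ) h y t)) y t := by
    rw [← final_identity ht hp hn]
    congr 1
    funext x
    rw [hA, hD]
  have e2 : deriv (fun x => Es B (fun x => Θ x t) t x * v x t) y = dy (fun y t => E B Θ y t * v y t) y t := by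
    unfold dy
    congr 1
    funext x
    rw [hE]
  rw [e1, e2] at lin
  have lin' : DEs B (fun x => Θ x t) (fun x => dy Θ x t * v x t) t y
      = dd h y t + dd (fun y t => A B Θ y t * (dd v y t - bF (A B Θ) h y t)) y t
        + dy (fun y t => E B Θ y t * v y t) y t := lin
  rw [lin', hE] at rem
  have b1 := hh.res (y, t) (Dom_mono le_rfl (by linarith) hd42 hz)
  have b2 := t1 (y, t) hz
  have b3 := t2 (y, t) hz
  simp only at b1 b2 b3
  have eE : E B (fun y t => Θ y t + dy Θ y t * v y t) y t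
      = Es B (fun x => Θ x t + dy Θ x t * v x t) t y := by simp only [E, if_neg ht]
  rw [eE]
  generalize Es B (fun x => Θ x t + dy Θ x t * v x t) t y = X at rem ⊢
  generalize dd (fun y t => A B Θ y t * (dd v y t - bF (A B Θ) h y t)) y t = X2 at rem b2
  generalize dy (fun y t => E B Θ y t * v y t) y t = X3 at rem b3
  have eX : X = (X - E B Θ y t - (dd h y t + X2 + X3)) + (dd h y t + E B Θ y t) + X2 + X3 := by ring
  rw [eX]
  refine (norm_add_le _ _).trans ?_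
  refine (add_le_add ((norm_add_le _ _).trans (add_le_add (norm_add_le _ _) le_rfl)) le_rfl).trans ?_
  have eμ : K * μ ^ 2 = K * (6 * L * Pv * QQ N δ ^ 3) ^ 2 * ε ^ 2 := by rw [hμ]; ring
  rw [eμ] at rem
  nlinarith

end Claimed.Agent.R269.S3
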