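/-
Row 269, Section 3, UNIT F: the six steps of the Newton step (statements; proofs in NewtonN0..N5).   Owner: helper228.
-/
import Claimed.Agent.R269.S3.NewtonN3
import Claimed.Agent.R269.S3.NewtonN5

set_option autoImplicit false

namespace Claimed.Agent.R269.S3

open Real Complex ComplexConjugate

variable {B : Base} {s₁ κ K : ℝ} {s d δ ε : ℝ} {N : ℕ} {Θ : ℂ → ℂ → ℂ}

/-- N0: from orbit sums to the resonant Fourier coefficients (all signs of `n`, `j`). -/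
theorem newton_nodes {F : ℂ → ℂ → ℂ} {ν S D s' d' η : ℝ} (hν : 0 ≤ ν) (hs' : 0 < s') (hs'S : s' ≤ S) (hd' : d' ≤ D)
    (hF : Hol F (Dom ν S D)) (hsym : Sym F (Dom ν S D)) (hb : OsumBd F N s' d' η) :
    ∀ n : ℤ, n ≠ 0 → |n| ≤ N → ∀ j : ℤ, j ≠ 0 → |2 * π * j / n| < d' →
      ‖fc n (fun y => F y ((2 * π * j / n : ℝ) : ℂ))‖ ≤ η * Real.exp (-(|n| * s')) :=
  newton_nodes_pf hs' hs'S hd' hF hsym hb

/-- N1a: orbit sums of `E`. -/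
theorem newton_osumE (hG : Good B s₁ κ K) {CD : ℝ} {bD : ℕ} (hCD : 0 ≤ CD) (hD : RatSumC B s₁ κ CD bD)
    (hS : Step B s₁ κ s d δ ε N Θ) (hsm : CD * QQ N δ ^ bD * ε ≤ 1) :
    OsumBd (E B Θ) N (s - 2 * δ) d (CD * QQ N δ ^ bD * ε ^ 2) :=
  newton_osumE_pf hG hCD hD hS hsm

/-- N1: the first division. -/
theorem newton_div1 (hG : Good B s₁ κ K) {CE PE : ℝ} {bE : ℕ} (hCE : 0 ≤ CE) (hE : DivisionC CE bE)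
    (hS : Step B s₁ κ s d δ ε N Θ) (hPE : 0 ≤ PE) (hsm : PE * ε ≤ 1)
    (hos : OsumBd (E B Θ) N (s - 2 * δ) d (PE * ε ^ 2)) :
    ∃ h, Div1 B Θ s d δ ε (2 * CE * QQ N δ ^ bE) (CE * QQ N δ ^ bE * (PE + 1)) h :=
  newton_div1_pf hG hCE hE hS hPE hsm hos

/-- N2: the mean adjustment. -/
theorem newton_mid (hG : Good B s₁ κ K) (hS : Step B s₁ κ s d δ ε N Θ) {Ph Pρ : ℝ} (hPh : 0 ≤ Ph)
    {h : ℂ → ℂ → ℂ} (hh : Div1 B Θ s d δ ε Ph Pρ h) : Mid2 B Θ s d δ ε Ph h :=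
  newton_mid_pf hG hS hPh hh

/-- N3: the second compatibility condition. -/
theorem newton_compat (hG : Good B s₁ κ K) {CK : ℝ} {bK : ℕ} (hCK : 0 ≤ CK) (hK : CompatC CK bK)
    (hS : Step B s₁ κ s d δ ε N Θ) {Ph Pρ PE P : ℝ} {h : ℂ → ℂ → ℂ} (hh : Div1 B Θ s d δ ε Ph Pρ h)
    (hm : Mid2 B Θ s d δ ε Ph h) (hos : OsumBd (E B Θ) N (s - 2 * δ) d (PE * ε ^ 2))
    (h1 : 1 ≤ P) (h2 : 2 * Ph ≤ P) (h3 : Pρ ≤ P) (h4 : PE ≤ P) (h5 : QQ N δ ^ 2 ≤ P) (hPh : 0 ≤ Ph)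
    (hsm : CK * (P + 2 * QQ N δ + QQ N δ ^ 2) ^ bK * ε ≤ 1) :
    OsumBd (bF (A B Θ) h) N (s - 14 * δ) (d * (1 - 3 * δ))
      (CK * (P + 2 * QQ N δ + QQ N δ ^ 2) ^ bK * ε ^ 2) :=
  newton_compat_pf hG hCK hK hS hh hm hos h1 h2 h3 h4 h5 hPh hsm

/-- N4: the second division. -/
theorem newton_div2 (hG : Good B s₁ κ K) {CE : ℝ} {bE : ℕ} (hCE : 0 ≤ CE) (hE : DivisionC CE bE)
    (hS : Step B s₁ κ s d δ ε N Θ) {Ph η₂ : ℝ} (hPh : 0 ≤ Ph) {h : ℂ → ℂ → ℂ} (hm : Mid2 B Θ s d δ ε Ph h)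
    (hη : 0 ≤ η₂) (hη1 : η₂ * ε ≤ 1)
    (hos : OsumBd (bF (A B Θ) h) N (s - 14 * δ) (d * (1 - 3 * δ)) (η₂ * ε ^ 2)) :
    ∃ v, Div2 B Θ s d δ ε (CE * QQ N δ ^ bE * (15 * Ph + 1)) (CE * QQ N δ ^ bE * (η₂ + 15 * Ph)) h v :=
  newton_div2_pf hG hCE hE hS hPh hm hη hη1 hos

/-- N5: the correction `Δ = Θ_y v` and the new error. -/
theorem newton_final (hG : Good B s₁ κ K) (hS : Step B s₁ κ s d δ ε N Θ) {L Ph Pρ Pv Pw : ℝ} (hL : 1 ≤ L)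
    (hLb : ∀ z ∈ Dom 0 s d, ‖dy Θ z.1 z.2‖ ≤ L) (hPv : 0 ≤ Pv) (hPw : 0 ≤ Pw) (hPρ : 0 ≤ Pρ)
    {h v : ℂ → ℂ → ℂ} (hh : Div1 B Θ s d δ ε Ph Pρ h) (hm : Mid2 B Θ s d δ ε Ph h)
    (hv : Div2 B Θ s d δ ε Pv Pw h v) (hsm : 6 * L * Pv * QQ N δ ^ 3 * ε ≤ κ / 2) :
    Hol (fun y t => dy Θ y t * v y t) (Dom 0 (s - 16 * δ) (d * (1 - 4 * δ))) ∧
    Sym (fun y t => dy Θ y t * v y t) (Dom 0 (s - 16 * δ) (d * (1 - 4 * δ))) ∧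
    (∀ y ∈ hstrip (s - 16 * δ), dy Θ y 0 * v y 0 = 0) ∧
    BdC 3 (fun y t => dy Θ y t * v y t) (Dom 0 (s - 16 * δ) (d * (1 - 4 * δ)))
      (6 * L * Pv * QQ N δ ^ 3 * ε) ∧
    Bd (E B (fun y t => Θ y t + dy Θ y t * v y t)) (Dom 1 (s - 16 * δ) (d * (1 - 4 * δ)))
      ((Pρ + Pw * QQ N δ + Pv * QQ N δ + K * (6 * L * Pv * QQ N δ ^ 3) ^ 2) * ε ^ 2) :=
  newton_final_pf hG hS hL hLb hPv hPw hPρ hh hm hv hsm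

end Claimed.Agent.R269.S3
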