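/-
Row 269, Section 3: bookkeeping of polynomial costs.   Owner: helper228.
`PolyBd g`: `|g Q| ≤ C Q^b` for `Q ≥ 1`.
-/
import Mathlib

set_option autoImplicit false

namespace Claimed.Agent.R269.S3

/-- polynomially bounded functions of the cost parameter `Q ≥ 1`. -/
def PolyBd (g : ℝ → ℝ) : Prop := ∃ (C : ℝ) (b : ℕ), 0 ≤ C ∧ ∀ Q : ℝ, 1 ≤ Q → |g Q| ≤ C * Q ^ b

theorem PolyBd.const (c : ℝ) : PolyBd (fun _ => c) :=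
  ⟨|c|, 0, abs_nonneg c, fun Q _ => by simp⟩

theorem PolyBd.id : PolyBd (fun Q => Q) :=
  ⟨1, 1, zero_le_one, fun Q hQ => by rw [abs_of_nonneg (by linarith)]; simp⟩

theorem PolyBd.add {g₁ g₂ : ℝ → ℝ} (h₁ : PolyBd g₁) (h₂ : PolyBd g₂) : PolyBd (fun Q => g₁ Q + g₂ Q) := by
  obtain ⟨C₁, b₁, hC₁, h₁⟩ := h₁
  obtain ⟨C₂, b₂, hC₂, h₂⟩ := h₂
  refine ⟨C₁ + C₂, max b₁ b₂, by positivity, fun Q hQ => ?_⟩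
  have e1 : Q ^ b₁ ≤ Q ^ max b₁ b₂ := pow_le_pow_right₀ hQ (le_max_left _ _)
  have e2 : Q ^ b₂ ≤ Q ^ max b₁ b₂ := pow_le_pow_right₀ hQ (le_max_right _ _)
  calc |g₁ Q + g₂ Q| ≤ |g₁ Q| + |g₂ Q| := abs_add_le _ _
    _ ≤ C₁ * Q ^ b₁ + C₂ * Q ^ b₂ := add_le_add (h₁ Q hQ) (h₂ Q hQ)
    _ ≤ C₁ * Q ^ max b₁ b₂ + C₂ * Q ^ max b₁ b₂ := by gcongr
    _ = (C₁ + C₂) * Q ^ max b₁ b₂ := by ring

theorem PolyBd.mul {g₁ g₂ : ℝ → ℝ} (h₁ : PolyBd g₁) (h₂ : PolyBd g₂) : PolyBd (fun Q => g₁ Q * g₂ Q) := by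
  obtain ⟨C₁, b₁, hC₁, h₁⟩ := h₁
  obtain ⟨C₂, b₂, hC₂, h₂⟩ := h₂
  refine ⟨C₁ * C₂, b₁ + b₂, by positivity, fun Q hQ => ?_⟩
  have hQ0 : 0 ≤ Q := by linarith
  calc |g₁ Q * g₂ Q| = |g₁ Q| * |g₂ Q| := abs_mul _ _
    _ ≤ (C₁ * Q ^ b₁) * (C₂ * Q ^ b₂) :=
        mul_le_mul (h₁ Q hQ) (h₂ Q hQ) (abs_nonneg _) (by positivity)
    _ = C₁ * C₂ * Q ^ (b₁ + b₂) := by rw [pow_add]; ring

theorem PolyBd.pow {g : ℝ → ℝ} (h : PolyBd g) (k : ℕ) : PolyBd (fun Q => g Q ^ k) := by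
  induction k with
  | zero => simpa using PolyBd.const 1
  | succ k ih => simpa [pow_succ] using ih.mul h

theorem PolyBd.const_mul {g : ℝ → ℝ} (c : ℝ) (h : PolyBd g) : PolyBd (fun Q => c * g Q) :=
  (PolyBd.const c).mul h

theorem PolyBd.mono (c : ℝ) (k : ℕ) : PolyBd (fun Q => c * Q ^ k) :=
  (PolyBd.id.pow k).const_mul c

/-- extraction of the constants. -/
theorem PolyBd.le {g : ℝ → ℝ} (h : PolyBd g) : ∃ (C : ℝ) (b : ℕ), 0 ≤ C ∧ ∀ Q : ℝ, 1 ≤ Q → g Q ≤ C * Q ^ b := by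
  obtain ⟨C, b, hC, h⟩ := h
  exact ⟨C, b, hC, fun Q hQ => (le_abs_self _).trans (h Q hQ)⟩

end Claimed.Agent.R269.S3
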