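/-
Row 269, Section 3, UNIT D (first compatibility): DEFINITIONS of the cut.   Owner: helper237.   The mathematical plan D1-D5 is in the header of `RatSum.lean`.

CONVENTIONS.  `q = p + 1`;  `t₀ > 0` real with `(p+1) t₀ = 2π l`;  `h = B.hc`;  `L = ratL B κ = Mφ + κ` bounds `|f'|`;  `ϱ = ratRad B κ = σ/(8L)`.
  orbit points      `ratPt t₀ y j = y + j t₀`            (same shape as in `osum`),
  chain             `x_j = f (ratPt t₀ y j)`,  `x'_j = deriv f (ratPt t₀ y j)`,      `X_j = ratX f t₀ ξ y j = x_j + x'_j ξ_j`     (`ξ : ℕ → ℂ`),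
  vertex defect     `ratRR h u v w = pOutC h u v - pInC h v w`,
  edge coefficient  `ratC B f t₀ y = S12 h (f y) (f (y+t₀)) f'(y) f'(y+t₀)`;      `c_j = ratC B f t₀ (ratPt t₀ y j)`,
  vertex map        `ratG B f t₀ y (a,b,c) = f'(y) · rr(f(y-t₀) + f'(y-t₀) a, f y + f'(y) b, f(y+t₀) + f'(y+t₀) c)`   (`y` = the MIDDLE vertex),
  `ratA0 c ξ j = c_{j+1}(ξ_{j+2} - ξ_{j+1}) - c_j(ξ_{j+1} - ξ_j)`       (index `j` = interior vertex `j+1`),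
  `ratN y ξ j = ratA0 c ξ j - ratG (ratPt t₀ y (j+1)) (ξ_j, ξ_{j+1}, ξ_{j+2})`,        `ratT q y ξ k = fluxSol q c (ratN y ξ) k`,
  action            `ratW h q Z = ∑_{j<q} Sgen h (Z j) (Z (j+1))`.
All sequences are indexed by `ℕ`; only the indices `≤ p + 1` matter.
-/
import Claimed.Agent.R269.S3.Stmt
import Claimed.Agent.R269.S3.Gen
import Claimed.Agent.R269.S3.LibCA
import Claimed.Agent.R269.S3.FacSlice
import Claimed.Agent.R269.S3.RatFlux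

set_option autoImplicit false

namespace Claimed.Agent.R269.S3

open Real Complex ComplexConjugate

/-- vertex defect `rr(u,v,w) = pOut(u,v) - pIn(v,w)`. -/
noncomputable def ratRR (h : ℂ → ℂ) (u v w : ℂ) : ℂ := pOutC h u v - pInC h v w

/-- the orbit point `y + j t₀`. -/
noncomputable def ratPt (t₀ : ℝ) (y : ℂ) (j : ℕ) : ℂ := y + j * (t₀ : ℂ)

/-- the perturbed chain `X_j = x_j + x'_j ξ_j`. -/
noncomputable def ratX (f : ℂ → ℂ) (t₀ : ℝ) (ξ : ℕ → ℂ) (y : ℂ) (j : ℕ) : ℂ :=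
  f (ratPt t₀ y j) + deriv f (ratPt t₀ y j) * ξ j

/-- edge coefficient of the edge `y → y + t₀`. -/
noncomputable def ratC (B : Base) (f : ℂ → ℂ) (t₀ : ℝ) (y : ℂ) : ℂ :=
  S12 B.hc (f y) (f (y + t₀)) * deriv f y * deriv f (y + t₀)

/-- the vertex map at the middle vertex `y`. -/
noncomputable def ratG (B : Base) (f : ℂ → ℂ) (t₀ : ℝ) (y : ℂ) (u : ℂ × ℂ × ℂ) : ℂ :=
  deriv f y * ratRR B.hc (f (y - t₀) + deriv f (y - t₀) * u.1) (f y + deriv f y * u.2.1)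
    (f (y + t₀) + deriv f (y + t₀) * u.2.2)

/-- the second difference operator with edge coefficients `c`. -/
def ratA0 (c ξ : ℕ → ℂ) (j : ℕ) : ℂ := c (j + 1) * (ξ (j + 2) - ξ (j + 1)) - c j * (ξ (j + 1) - ξ j)

/-- `N(ξ) = A₀ ξ - Φ(y,ξ)`. -/
noncomputable def ratN (B : Base) (f : ℂ → ℂ) (t₀ : ℝ) (y : ℂ) (ξ : ℕ → ℂ) (j : ℕ) : ℂ :=
  ratA0 (fun i => ratC B f t₀ (ratPt t₀ y i)) ξ j - ratG B f t₀ (ratPt t₀ y (j + 1)) (ξ j, ξ (j + 1), ξ (j + 2))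

/-- `T_y(ξ) = A₀⁻¹ N(ξ)`. -/
noncomputable def ratT (B : Base) (f : ℂ → ℂ) (t₀ : ℝ) (q : ℕ) (y : ℂ) (ξ : ℕ → ℂ) (k : ℕ) : ℂ :=
  fluxSol q (fun i => ratC B f t₀ (ratPt t₀ y i)) (ratN B f t₀ y ξ) k

/-- the action of a chain `Z_0, …, Z_q`. -/
noncomputable def ratW (h : ℂ → ℂ) (q : ℕ) (Z : ℕ → ℂ) : ℂ := ∑ j ∈ Finset.range q, Sgen h (Z j) (Z (j + 1))

/-- `L = Mφ + κ` bounds `|f'|` for every `κ`-slice. -/
def ratL (B : Base) (κ : ℝ) : ℝ := B.Mφ + κ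

/-- `ϱ = σ/(8L)`: perturbations `|ξ_j| ≤ ϱ` move the vertices by at most `σ/8`. -/
noncomputable def ratRad (B : Base) (κ : ℝ) : ℝ := B.σ / (8 * ratL B κ)

/-- The standing hypotheses of unit D.  `Cg` is the constant of `gen_bounds` for `R = L + σ`. -/
structure RatCtx (B : Base) (s₁ κ K Cg s δ ε t₀ : ℝ) (f : ℂ → ℂ) (l p : ℕ) : Prop where
  good : Good B s₁ κ K
  Cg_ge : 1 ≤ Cg
  gen : ∀ u v : ℂ, (u + v) / 2 ∈ hstrip (7 * B.σ / 8) → ‖v - u‖ ≤ ratL B κ + B.σ →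
    ‖pInC B.hc u v‖ ≤ Cg ∧ ‖pOutC B.hc u v‖ ≤ Cg ∧ ‖Sgen B.hc u v‖ ≤ Cg
  s_le : s ≤ s₁
  δ_pos : 0 < δ
  δ_lt : 2 * δ < s
  slice : Slice B s κ f
  real : ∀ y ∈ hstrip s, f (conj y) = conj (f y)
  t_pos : 0 < t₀
  t_lt : t₀ < s₁
  t_q : ((p : ℝ) + 1) * t₀ = 2 * π * l
  ε_nonneg : 0 ≤ ε
  err : ∀ y ∈ hstrip s, ‖Es B f (t₀ : ℝ) y‖ ≤ ε

/-- The output of D3: a holomorphic family of exact chains with fixed end points near the approximate chain. -/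
structure RatSol (B : Base) (f : ℂ → ℂ) (t₀ : ℝ) (p : ℕ) (U : Set ℂ) (ρ : ℝ) (ξ : ℂ → ℕ → ℂ) : Prop where
  diff : ∀ j, DifferentiableOn ℂ (fun y => ξ y j) U
  bd : ∀ y ∈ U, ∀ j, ‖ξ y j‖ ≤ ρ
  first : ∀ y ∈ U, ξ y 0 = 0
  last : ∀ y ∈ U, ξ y (p + 1) = 0
  stat : ∀ y ∈ U, ∀ j < p,
    ratRR B.hc (ratX f t₀ (ξ y) y j) (ratX f t₀ (ξ y) y (j + 1)) (ratX f t₀ (ξ y) y (j + 2)) = 0
  real : ∀ x : ℝ, ∀ j, (ξ x j).im = 0

end Claimed.Agent.R269.S3
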