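/-
Row 269, Section 3, UNIT D, leaf packages LF-S3-Dg (`PART 1`: calculus of `pInC/pOutC/Sgen/S12/ratRR/ratW` along curves) and LF-S3-Df (`PART 2`: two host-free tools).
Statements + plans: helper237.     Uses: Gen.lean, LibHol.lean, LibCA.lean as black boxes.    ~250 lines (PART 1), ~200 lines (PART 2).

PART 1.
 * `rat_diffOn_*`: `(hol_pInC hd).comp (h₁.prodMk h₂) hm` (`Hol F Ω` unfolds to `DifferentiableOn ℂ (fun z => F z.1 z.2) Ω`, `Mid σ = {p | (p.1+p.2)/2 ∈ hstrip σ}`).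
 * `*_per_nat`: induction on `l` with `pInC_per`, `pOutC_per`; the midpoint `(u+v)/2 + 2π l` has the same imaginary part.
 * `rat_sbp`: `Finset.sum_range_succ`, `Finset.sum_range_succ'`, `Finset.sum_add_distrib`, `ring` (or induction on `p`).
 * `ratW_hasDerivAt`: `HasDerivAt.fun_sum`; each term by `hol_chain (isOpen_Mid σ) (hol_Sgen hd)`, with `dy (Sgen h) u v = -pInC h u v`, `dt (Sgen h) u v = pOutC h u v`
   (`(hasDerivAt_Sgen_left hd hm).deriv`, `(hasDerivAt_Sgen_right hd hm).deriv`); then `rat_sbp` with `a j = pInC h (Z a j) (Z a (j+1))`, `b j = pOutC h (Z a j) (Z a (j+1))`, `v = Z'`.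
PART 2.
 * `rat_strip_eq_of_real`: `DifferentiableOn.analyticOnNhd` (`isOpen_hstrip`), `(convex_hstrip s).isPreconnected`, `AnalyticOnNhd.eqOn_of_preconnected_of_frequently_eq` at `z₀ = 0`:
   the real points `1/(n+1)` accumulate at `0` (`frequently` in `𝓝[≠] 0`).
 * `ca_fixed_point_seq`: `ca_fixed_point` with `V = Fin (n+1) → ℂ` (sup norm), `ext ξ j = if h : j < n+1 then ξ ⟨j,h⟩ else 0`, `T' y ξ = fun k => T y (ext ξ) k`.
   `‖ext ξ j‖ ≤ ‖ξ‖` (`norm_le_pi_norm`), `pi_norm_le_iff_of_nonneg`, `differentiableOn_pi`; in `hlip` take `d = ‖ξ - ξ'‖`.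
-/
import Claimed.Agent.R269.S3.RatDefs

set_option autoImplicit false

namespace Claimed.Agent.R269.S3

open Real Complex ComplexConjugate

/-! ### PART 1 (LF-S3-Dg) -/

section
variable {h : ℂ → ℂ} {σ : ℝ} {E : Type*} [NormedAddCommGroup E] [NormedSpace ℂ E] {U : Set E} {Z₁ Z₂ : E → ℂ}

theorem rat_diffOn_pInC (hd : DifferentiableOn ℂ h (hstrip σ)) (h₁ : DifferentiableOn ℂ Z₁ U)
    (h₂ : DifferentiableOn ℂ Z₂ U) (hm : ∀ y ∈ U, (Z₁ y + Z₂ y) / 2 ∈ hstrip σ) :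
    DifferentiableOn ℂ (fun y => pInC h (Z₁ y) (Z₂ y)) U := by
  exact DifferentiableOn.comp (g := fun z : ℂ × ℂ => pInC h z.1 z.2) (f := fun y => (Z₁ y, Z₂ y)) (t := Mid σ)
    (hol_pInC hd) (h₁.prodMk h₂) hm

theorem rat_diffOn_pOutC (hd : DifferentiableOn ℂ h (hstrip σ)) (h₁ : DifferentiableOn ℂ Z₁ U)
    (h₂ : DifferentiableOn ℂ Z₂ U) (hm : ∀ y ∈ U, (Z₁ y + Z₂ y) / 2 ∈ hstrip σ) :
    DifferentiableOn ℂ (fun y => pOutC h (Z₁ y) (Z₂ y)) U := by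
  exact DifferentiableOn.comp (g := fun z : ℂ × ℂ => pOutC h z.1 z.2) (f := fun y => (Z₁ y, Z₂ y)) (t := Mid σ)
    (hol_pOutC hd) (h₁.prodMk h₂) hm

theorem rat_diffOn_Sgen (hd : DifferentiableOn ℂ h (hstrip σ)) (h₁ : DifferentiableOn ℂ Z₁ U)
    (h₂ : DifferentiableOn ℂ Z₂ U) (hm : ∀ y ∈ U, (Z₁ y + Z₂ y) / 2 ∈ hstrip σ) :
    DifferentiableOn ℂ (fun y => Sgen h (Z₁ y) (Z₂ y)) U := by
  exact DifferentiableOn.comp (g := fun z : ℂ × ℂ => Sgen h z.1 z.2) (f := fun y => (Z₁ y, Z₂ y)) (t := Mid σ)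
    (hol_Sgen hd) (h₁.prodMk h₂) hm

theorem rat_diffOn_S12 (hd : DifferentiableOn ℂ h (hstrip σ)) (h₁ : DifferentiableOn ℂ Z₁ U)
    (h₂ : DifferentiableOn ℂ Z₂ U) (hm : ∀ y ∈ U, (Z₁ y + Z₂ y) / 2 ∈ hstrip σ) :
    DifferentiableOn ℂ (fun y => S12 h (Z₁ y) (Z₂ y)) U := by
  exact DifferentiableOn.comp (g := fun z : ℂ × ℂ => S12 h z.1 z.2) (f := fun y => (Z₁ y, Z₂ y)) (t := Mid σ)
    (hol_S12 hd) (h₁.prodMk h₂) hm

theorem rat_diffOn_RR {Z₃ : E → ℂ} (hd : DifferentiableOn ℂ h (hstrip σ)) (h₁ : DifferentiableOn ℂ Z₁ U)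
    (h₂ : DifferentiableOn ℂ Z₂ U) (h₃ : DifferentiableOn ℂ Z₃ U) (hm : ∀ y ∈ U, (Z₁ y + Z₂ y) / 2 ∈ hstrip σ)
    (hm' : ∀ y ∈ U, (Z₂ y + Z₃ y) / 2 ∈ hstrip σ) :
    DifferentiableOn ℂ (fun y => ratRR h (Z₁ y) (Z₂ y) (Z₃ y)) U := by
  exact (rat_diffOn_pOutC hd h₁ h₂ hm).sub (rat_diffOn_pInC hd h₂ h₃ hm')

end

variable {h : ℂ → ℂ} {σ : ℝ}

theorem pInC_per_nat (hd : DifferentiableOn ℂ h (hstrip σ)) (hp : ∀ z ∈ hstrip σ, h (z + 2 * π) = h z) {u v : ℂ}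
    (hm : (u + v) / 2 ∈ hstrip σ) (l : ℕ) : pInC h (u + 2 * π * l) (v + 2 * π * l) = pInC h u v := by
  induction l with
  | zero => simp
  | succ l ih =>
    have hm' : ((u + 2 * π * l) + (v + 2 * π * l)) / 2 ∈ hstrip σ := by
      have e : ((u + 2 * π * l) + (v + 2 * π * l)) / 2 = (u + v) / 2 + ((2 * π * l : ℝ) : ℂ) := by
        push_cast; ring
      rw [e]
      simpa [hstrip] using hm
    have := pInC_per hd hp hm'
    rw [← ih, ← this]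
    congr 1 <;> (push_cast; ring)

theorem pOutC_per_nat (hd : DifferentiableOn ℂ h (hstrip σ)) (hp : ∀ z ∈ hstrip σ, h (z + 2 * π) = h z) {u v : ℂ}
    (hm : (u + v) / 2 ∈ hstrip σ) (l : ℕ) : pOutC h (u + 2 * π * l) (v + 2 * π * l) = pOutC h u v := by
  induction l with
  | zero => simp
  | succ l ih =>
    have hm' : ((u + 2 * π * l) + (v + 2 * π * l)) / 2 ∈ hstrip σ := by
      have e : ((u + 2 * π * l) + (v + 2 * π * l)) / 2 = (u + v) / 2 + ((2 * π * l : ℝ) : ℂ) := by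
        push_cast; ring
      rw [e]
      simpa [hstrip] using hm
    have := pOutC_per hd hp hm'
    rw [← ih, ← this]
    congr 1 <;> (push_cast; ring)

theorem ratRR_conj (hd : DifferentiableOn ℂ h (hstrip σ)) (hc : ∀ z ∈ hstrip σ, h (conj z) = conj (h z)) {u v w : ℂ}
    (h1 : (u + v) / 2 ∈ hstrip σ) (h2 : (v + w) / 2 ∈ hstrip σ) :
    ratRR h (conj u) (conj v) (conj w) = conj (ratRR h u v w) := by
  simp only [ratRR, map_sub]
  rw [pOutC_conj hd hc h1, pInC_conj hd hc h2]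

/-- summation by parts along a chain. -/
theorem rat_sbp (p : ℕ) (a b v : ℕ → ℂ) :
    ∑ j ∈ Finset.range (p + 1), (-a j * v j + b j * v (j + 1))
      = ∑ j ∈ Finset.range p, (b j - a (j + 1)) * v (j + 1) + b p * v (p + 1) - a 0 * v 0 := by
  induction p with
  | zero => simp; ring
  | succ p ih =>
    rw [Finset.sum_range_succ, ih, Finset.sum_range_succ]
    ring

/-- first variation of the action of a chain `Z_0, …, Z_{p+1}` depending on one complex parameter. -/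
theorem ratW_hasDerivAt (hd : DifferentiableOn ℂ h (hstrip σ)) (p : ℕ) {Z : ℂ → ℕ → ℂ} {Z' : ℕ → ℂ} {a : ℂ}
    (hZ : ∀ j ≤ p + 1, HasDerivAt (fun x => Z x j) (Z' j) a)
    (hm : ∀ j ≤ p, (Z a j + Z a (j + 1)) / 2 ∈ hstrip σ) :
    HasDerivAt (fun x => ratW h (p + 1) (Z x))
      (∑ j ∈ Finset.range p, ratRR h (Z a j) (Z a (j + 1)) (Z a (j + 2)) * Z' (j + 1)
        + pOutC h (Z a p) (Z a (p + 1)) * Z' (p + 1) - pInC h (Z a 0) (Z a 1) * Z' 0) a := by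
  have hterm : ∀ j ∈ Finset.range (p + 1), HasDerivAt (fun x => Sgen h (Z x j) (Z x (j + 1)))
      (-pInC h (Z a j) (Z a (j + 1)) * Z' j + pOutC h (Z a j) (Z a (j + 1)) * Z' (j + 1)) a := by
    intro j hj
    have hj' : j ≤ p := Nat.lt_succ_iff.mp (Finset.mem_range.mp hj)
    have := hol_chain (isOpen_Mid σ) (hol_Sgen hd) (hZ j (by omega)) (hZ (j + 1) (by omega)) (hm j hj')
    have e1 : dy (Sgen h) (Z a j) (Z a (j + 1)) = -pInC h (Z a j) (Z a (j + 1)) :=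
      (hasDerivAt_Sgen_left hd (hm j hj')).deriv
    have e2 : dt (Sgen h) (Z a j) (Z a (j + 1)) = pOutC h (Z a j) (Z a (j + 1)) :=
      (hasDerivAt_Sgen_right hd (hm j hj')).deriv
    rwa [e1, e2] at this
  have hsum := HasDerivAt.fun_sum hterm
  have e := rat_sbp p (fun j => pInC h (Z a j) (Z a (j + 1))) (fun j => pOutC h (Z a j) (Z a (j + 1))) Z'
  rw [e] at hsum
  exact hsum

/-! ### PART 2 (LF-S3-Df) -/

/-- identity theorem: two holomorphic functions on a strip which agree on the real axis. -/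
theorem rat_strip_eq_of_real {g₁ g₂ : ℂ → ℂ} {s : ℝ} (h₁ : DifferentiableOn ℂ g₁ (hstrip s))
    (h₂ : DifferentiableOn ℂ g₂ (hstrip s)) (h : ∀ x : ℝ, g₁ x = g₂ x) : ∀ y ∈ hstrip s, g₁ y = g₂ y := by
  intro y hy
  have hs : 0 < s := by
    have : |y.im| < s := hy
    exact lt_of_le_of_lt (abs_nonneg _) this
  have h0 : ((0 : ℝ) : ℂ) ∈ hstrip s := gen_real_mem hs 0
  have hfreq : ∃ᶠ z in nhdsWithin ((0 : ℝ) : ℂ) {((0 : ℝ) : ℂ)}ᶜ, g₁ z = g₂ z := by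
    have ht : Filter.Tendsto (fun t : ℝ => (t : ℂ)) (nhdsWithin (0 : ℝ) {(0 : ℝ)}ᶜ)
        (nhdsWithin ((0 : ℝ) : ℂ) {((0 : ℝ) : ℂ)}ᶜ) := by
      apply tendsto_nhdsWithin_of_tendsto_nhds_of_eventually_within
      · exact (Complex.continuous_ofReal.tendsto 0).mono_left nhdsWithin_le_nhds
      · filter_upwards [self_mem_nhdsWithin] with t ht
        have ht' : t ≠ 0 := ht
        simpa using ht'
    exact ht.frequently (Filter.Eventually.frequently (Filter.Eventually.of_forall fun t => h t))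
  exact (h₁.analyticOnNhd (isOpen_hstrip s)).eqOn_of_preconnected_of_frequently_eq
    (h₂.analyticOnNhd (isOpen_hstrip s)) (convex_hstrip s).isPreconnected h0 hfreq hy

/-- `ca_fixed_point` for finite sequences `ξ_0, …, ξ_n`, written as functions on `ℕ` which vanish beyond `n`. -/
theorem ca_fixed_point_seq {U : Set ℂ} (hU : IsOpen U) {ρ : ℝ} (hρ : 0 ≤ ρ) (n : ℕ) (T : ℂ → (ℕ → ℂ) → ℕ → ℂ)
    (hmaps : ∀ y ∈ U, ∀ ξ : ℕ → ℂ, (∀ j, ‖ξ j‖ ≤ ρ) → ∀ k ≤ n, ‖T y ξ k‖ ≤ ρ)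
    (hlip : ∀ y ∈ U, ∀ ξ ξ' : ℕ → ℂ, (∀ j, ‖ξ j‖ ≤ ρ) → (∀ j, ‖ξ' j‖ ≤ ρ) → ∀ d : ℝ, (∀ j, ‖ξ j - ξ' j‖ ≤ d) →
      ∀ k ≤ n, ‖T y ξ k - T y ξ' k‖ ≤ 1 / 2 * d)
    (hhol : ∀ ξ : ℂ → ℕ → ℂ, (∀ j, DifferentiableOn ℂ (fun y => ξ y j) U) → (∀ y ∈ U, ∀ j, ‖ξ y j‖ ≤ ρ) →
      ∀ k ≤ n, DifferentiableOn ℂ (fun y => T y (ξ y) k) U) :
    ∃ ξ : ℂ → ℕ → ℂ, (∀ j, DifferentiableOn ℂ (fun y => ξ y j) U) ∧ (∀ y ∈ U, ∀ j, ‖ξ y j‖ ≤ ρ) ∧
      (∀ y, ∀ j, n < j → ξ y j = 0) ∧ (∀ y ∈ U, ∀ k ≤ n, T y (ξ y) k = ξ y k) ∧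
      (∀ y ∈ U, ∀ η : ℕ → ℂ, (∀ j, ‖η j‖ ≤ ρ) → (∀ j, n < j → η j = 0) → (∀ k ≤ n, T y η k = η k) →
        ∀ j ≤ n, η j = ξ y j) := by
  classical
  let ext : (Fin (n + 1) → ℂ) → ℕ → ℂ := fun ξ j => if hj : j < n + 1 then ξ ⟨j, hj⟩ else 0
  have ext_lt : ∀ (ξ : Fin (n + 1) → ℂ) (j : ℕ) (hj : j < n + 1), ext ξ j = ξ ⟨j, hj⟩ := by
    intro ξ j hj
    simp only [ext, dif_pos hj]
  have ext_ge : ∀ (ξ : Fin (n + 1) → ℂ) (j : ℕ), ¬ j < n + 1 → ext ξ j = 0 := by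
    intro ξ j hj
    simp only [ext, dif_neg hj]
  have ext_bd : ∀ (ξ : Fin (n + 1) → ℂ), ‖ξ‖ ≤ ρ → ∀ j, ‖ext ξ j‖ ≤ ρ := by
    intro ξ hξ j
    by_cases hj : j < n + 1
    · rw [ext_lt ξ j hj]
      exact (norm_le_pi_norm ξ _).trans hξ
    · rw [ext_ge ξ j hj, norm_zero]
      exact hρ
  let T' : ℂ → (Fin (n + 1) → ℂ) → (Fin (n + 1) → ℂ) := fun y ξ k => T y (ext ξ) k
  have hmaps' : ∀ y ∈ U, ∀ ξ ∈ Metric.closedBall (0 : Fin (n + 1) → ℂ) ρ,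
      T' y ξ ∈ Metric.closedBall (0 : Fin (n + 1) → ℂ) ρ := by
    intro y hy ξ hξ
    rw [mem_closedBall_zero_iff] at hξ ⊢
    rw [pi_norm_le_iff_of_nonneg hρ]
    intro k
    exact hmaps y hy (ext ξ) (ext_bd ξ hξ) k (Nat.lt_succ_iff.mp k.2)
  have hlip' : ∀ y ∈ U, ∀ ξ ∈ Metric.closedBall (0 : Fin (n + 1) → ℂ) ρ,
      ∀ ξ' ∈ Metric.closedBall (0 : Fin (n + 1) → ℂ) ρ, ‖T' y ξ - T' y ξ'‖ ≤ 1 / 2 * ‖ξ - ξ'‖ := by
    intro y hy ξ hξ ξ' hξ'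
    rw [mem_closedBall_zero_iff] at hξ hξ'
    rw [pi_norm_le_iff_of_nonneg (by positivity)]
    intro k
    refine hlip y hy (ext ξ) (ext ξ') (ext_bd ξ hξ) (ext_bd ξ' hξ') ‖ξ - ξ'‖ ?_ k (Nat.lt_succ_iff.mp k.2)
    intro j
    by_cases hj : j < n + 1
    · rw [ext_lt ξ j hj, ext_lt ξ' j hj]
      exact norm_le_pi_norm (ξ - ξ') ⟨j, hj⟩
    · rw [ext_ge ξ j hj, ext_ge ξ' j hj, sub_zero, norm_zero]
      exact norm_nonneg _
  have ext_diff : ∀ ξ : ℂ → (Fin (n + 1) → ℂ), DifferentiableOn ℂ ξ U →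
      ∀ j, DifferentiableOn ℂ (fun y => ext (ξ y) j) U := by
    intro ξ hξ j
    by_cases hj : j < n + 1
    · have := (differentiableOn_pi.mp hξ) ⟨j, hj⟩
      refine this.congr fun y _ => ?_
      exact ext_lt (ξ y) j hj
    · refine (differentiableOn_const (c := (0 : ℂ))).congr fun y _ => ?_
      exact ext_ge (ξ y) j hj
  have hhol' : ∀ ξ : ℂ → (Fin (n + 1) → ℂ), DifferentiableOn ℂ ξ U →
      (∀ y ∈ U, ξ y ∈ Metric.closedBall (0 : Fin (n + 1) → ℂ) ρ) →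
      DifferentiableOn ℂ (fun y => T' y (ξ y)) U := by
    intro ξ hξ hb
    rw [differentiableOn_pi]
    intro k
    exact hhol (fun y => ext (ξ y)) (ext_diff ξ hξ)
      (fun y hy => ext_bd (ξ y) (mem_closedBall_zero_iff.mp (hb y hy))) k (Nat.lt_succ_iff.mp k.2)
  obtain ⟨ξ, hd, hb, hfix, huniq⟩ := ca_fixed_point hU hρ T' hmaps' hlip' hhol'
  refine ⟨fun y => ext (ξ y), ext_diff ξ hd, fun y hy => ext_bd (ξ y) (mem_closedBall_zero_iff.mp (hb y hy)),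
    fun y j hj => ext_ge (ξ y) j (by omega), ?_, ?_⟩
  · intro y hy k hk
    have hk' : k < n + 1 := Nat.lt_succ_iff.mpr hk
    have := congrFun (hfix y hy) ⟨k, hk'⟩
    show T y (ext (ξ y)) k = ext (ξ y) k
    rw [ext_lt (ξ y) k hk', ← this]
  · intro y hy η hη hz hf j hj
    have hj' : j < n + 1 := Nat.lt_succ_iff.mpr hj
    let η' : Fin (n + 1) → ℂ := fun k => η k
    have he : ext η' = η := by
      funext i
      by_cases hi : i < n + 1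
      · rw [ext_lt η' i hi]
      · rw [ext_ge η' i hi, hz i (by omega)]
    have hη' : η' ∈ Metric.closedBall (0 : Fin (n + 1) → ℂ) ρ := by
      rw [mem_closedBall_zero_iff, pi_norm_le_iff_of_nonneg hρ]
      intro k
      exact hη k
    have hfix' : T' y η' = η' := by
      funext k
      show T y (ext η') k = η k
      rw [he]
      exact hf k (Nat.lt_succ_iff.mp k.2)
    have := congrFun (huniq y hy η' hη' hfix') ⟨j, hj'⟩
    show η j = ext (ξ y) j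
    rw [ext_lt (ξ y) j hj', ← this]

end Claimed.Agent.R269.S3
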