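/-
Row 269, Section 3, UNIT D, leaf packages LF-S3-Ds1 (`PART 1`) and LF-S3-Ds2 (`PART 2`): elementary facts on the slice `f` along the orbit `y + j t₀`.
Statements + plans: helper237.   Routine; ~300 lines each.   Uses `RatCtx` (RatDefs.lean), FacSlice (`Slice.mono`, `strip_lip`), LibHol (`isOpen_hstrip`, `strip_deriv_le`), Gen (`deriv_conj`, `S12_conj`), RatGen PART 1.
Throughout `H : RatCtx B s₁ κ K Cg s δ ε t₀ f l p`,  `L = ratL B κ = Mφ + κ`,  `ϱ = ratRad B κ = σ/(8L)`,  `hstrip s = {z | |z.im| < s}` (membership unfolds by `Set.mem_setOf_eq` / `show`).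

PART 1.
 * numbers: `H.good` gives `0 < s₁ ≤ 1`, `2 s₁ ≤ s₀`, `0 < κ`, `16 κ ≤ σ`, `8 κ ≤ mφ`;  `mφ ≤ Mφ` from `B.φ'_ge`, `B.φ'_le` at `z = 0`.
 * `iteratedDeriv 0 g = g`, `iteratedDeriv 1 g = deriv g` (`iteratedDeriv_zero`, `iteratedDeriv_one`);  `deriv (fun x => f x - φ x) y = deriv f y - deriv φ y` (`deriv_fun_sub`/`deriv_sub`, both differentiable at `y`
   since the strips are open);  so `|f y - φ y| ≤ κ`, `|f' y - φ' y| ≤ κ` on `hstrip s ⊆ hstrip s₀`.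
 * `f_mem`: `|Im f y| ≤ |Im φ y| + |f y - φ y| < σ/4 + κ ≤ 5σ/16`.
 * `f_last`: `ratPt t₀ y (p+1) = y + 2π l` by `H.t_q` (cast to `ℂ`: `exact_mod_cast`/`push_cast`), then induction on `l` with `H.slice.per`.   `f_prev`: `ratPt t₀ y p = (y - t₀) + 2π l`.
 * `deriv_last`: `f (z + 2π l) = f z + 2π l` for all `z` of the open strip, so the derivatives agree (`Filter.EventuallyEq.deriv_eq`, `deriv_comp_add_const`).
 * `pair`: `|Im (f y + f'(y) a)| < 5σ/16 + Lϱ = 7σ/16`; the midpoint of two such points too;  `|v - u| ≤ |f(y+t₀) - f y| + 2Lϱ ≤ L t₀ + σ/4`.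
PART 2.
 * `Rs_mul`: unfold `Es`; `B.c * t₀^3 ≠ 0`.     `Rs_diff`: `rat_diffOn_pOutC`, `rat_diffOn_pInC` with `Z = f ∘ (· ± t₀)`, midpoints by `pair` with `a = a' = 0`.
 * `Rs_le`: `|Rs| = c t₀³ |Es|/|f'|`.     `dRs_le`: `strip_deriv_le H.δ_pos`.
 * `C_ok`: `ratC B f t₀ y = c t₀ · As B f t₀ (y + t₀/2)` (unfold `As`; `y + t₀/2 - t₀/2 = y`, `y + t₀/2 + t₀/2 = y + t₀`), `H.good.As_close` for the `2κ`-slice `f` (`Slice.mono`).
 * real axis: `f (conj x) = conj (f x)` gives `Im f x = 0` (`Complex.conj_eq_iff_im`); the same for `f'` (`deriv_conj` of Gen.lean applied to `f`) and for `φ'`;   `Re φ'(x) = |φ'(x)| ≥ mφ` as `Re φ'(x) > 0`;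
   `Re f'(x) ≥ Re φ'(x) - κ`.     `step_ge`: `HasDerivAt.real_of_complex` and `Convex.mul_sub_le_image_sub_of_le_deriv` (on `Set.univ`).
-/
import Claimed.Agent.R269.S3.RatGen

set_option autoImplicit false

namespace Claimed.Agent.R269.S3

open Real Complex ComplexConjugate

/-! ### PART 1 (LF-S3-Ds1) -/

theorem rat_hstrip_mono {s s' : ℝ} (h : s ≤ s') : hstrip s ⊆ hstrip s' := by
  exact fun _ hz => lt_of_lt_of_le hz h

theorem rat_ofReal_mem {s : ℝ} (hs : 0 < s) (x : ℝ) : (x : ℂ) ∈ hstrip s := by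
  show |(x : ℂ).im| < s
  simpa using hs

theorem rat_add_real_mem {s : ℝ} {y : ℂ} (hy : y ∈ hstrip s) (t : ℝ) : y + (t : ℂ) ∈ hstrip s := by
  have : |y.im| < s := hy
  show |(y + (t : ℂ)).im| < s
  simpa using this

theorem rat_sub_real_mem {s : ℝ} {y : ℂ} (hy : y ∈ hstrip s) (t : ℝ) : y - (t : ℂ) ∈ hstrip s := by
  have : |y.im| < s := hy
  show |(y - (t : ℂ)).im| < s
  simpa using this

theorem rat_conj_mem {s : ℝ} {y : ℂ} (hy : y ∈ hstrip s) : conj y ∈ hstrip s := by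
  have : |y.im| < s := hy
  show |(conj y).im| < s
  simpa using this

theorem ratPt_mem {s : ℝ} {y : ℂ} (t₀ : ℝ) (hy : y ∈ hstrip s) (j : ℕ) : ratPt t₀ y j ∈ hstrip s := by
  have := rat_add_real_mem hy ((j : ℝ) * t₀)
  unfold ratPt
  simpa using this

theorem ratPt_zero (t₀ : ℝ) (y : ℂ) : ratPt t₀ y 0 = y := by
  simp [ratPt]

theorem ratPt_succ (t₀ : ℝ) (y : ℂ) (j : ℕ) : ratPt t₀ y (j + 1) = ratPt t₀ y j + t₀ := by
  unfold ratPt
  push_cast
  ring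

theorem ratPt_succ_sub (t₀ : ℝ) (y : ℂ) (j : ℕ) : ratPt t₀ y (j + 1) - t₀ = ratPt t₀ y j := by
  rw [ratPt_succ]
  ring

theorem ratPt_conj (t₀ : ℝ) (y : ℂ) (j : ℕ) : ratPt t₀ (conj y) j = conj (ratPt t₀ y j) := by
  simp [ratPt]

theorem ratPt_hasDerivAt (t₀ : ℝ) (y : ℂ) (j : ℕ) : HasDerivAt (fun x => ratPt t₀ x j) 1 y := by
  unfold ratPt
  exact (hasDerivAt_id y).add_const _

variable {B : Base} {s₁ κ K Cg s δ ε t₀ : ℝ} {f : ℂ → ℂ} {l p : ℕ}

namespace RatCtx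

theorem pre (H : RatCtx B s₁ κ K Cg s δ ε t₀ f l p) : Pre B s₁ κ := by
  exact ⟨H.good.s₁_pos, H.good.s₁_le, H.good.s₁_le_one, H.good.κ_pos, H.good.κ_le_σ, H.good.κ_le_m⟩

theorem s_pos (H : RatCtx B s₁ κ K Cg s δ ε t₀ f l p) : 0 < s := by
  have := H.δ_pos
  have := H.δ_lt
  linarith

theorem sδ_pos (H : RatCtx B s₁ κ K Cg s δ ε t₀ f l p) : 0 < s - δ := by
  have := H.δ_pos
  have := H.δ_lt
  linarith

theorem s_le_s₀ (H : RatCtx B s₁ κ K Cg s δ ε t₀ f l p) : s ≤ B.s₀ := by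
  have := H.s_le
  have := H.good.s₁_le
  have := H.good.s₁_pos
  linarith

theorem t_le_one (H : RatCtx B s₁ κ K Cg s δ ε t₀ f l p) : t₀ ≤ 1 := by
  have := H.t_lt
  have := H.good.s₁_le_one
  linarith

theorem m_pos (H : RatCtx B s₁ κ K Cg s δ ε t₀ f l p) : 0 < B.mφ - κ := by
  have := H.good.κ_le_m
  have := H.good.κ_pos
  linarith

theorem L_pos (H : RatCtx B s₁ κ K Cg s δ ε t₀ f l p) : 0 < ratL B κ := by
  have h0 : (0 : ℂ) ∈ hstrip B.s₀ := by simpa using rat_ofReal_mem B.s₀_pos 0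
  have h1 := B.φ'_ge 0 h0
  have h2 := B.φ'_le 0 h0
  have := B.mφ_pos
  have := H.good.κ_pos
  unfold ratL
  linarith

theorem L_le (H : RatCtx B s₁ κ K Cg s δ ε t₀ f l p) : ratL B κ ≤ 9 / 8 * B.Mφ := by
  have h0 : (0 : ℂ) ∈ hstrip B.s₀ := by simpa using rat_ofReal_mem B.s₀_pos 0
  have h1 := B.φ'_ge 0 h0
  have h2 := B.φ'_le 0 h0
  have := H.good.κ_le_m
  unfold ratL
  linarith

theorem rad_pos (H : RatCtx B s₁ κ K Cg s δ ε t₀ f l p) : 0 < ratRad B κ := by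
  have := H.L_pos
  have := B.σ_pos
  unfold ratRad
  positivity

theorem L_mul_rad (H : RatCtx B s₁ κ K Cg s δ ε t₀ f l p) : ratL B κ * ratRad B κ = B.σ / 8 := by
  have := H.L_pos
  unfold ratRad
  field_simp

theorem diffAt (H : RatCtx B s₁ κ K Cg s δ ε t₀ f l p) {y : ℂ} (hy : y ∈ hstrip s) : DifferentiableAt ℂ f y := by
  exact (H.slice.diff y hy).differentiableAt ((isOpen_hstrip s).mem_nhds hy)

theorem deriv_diff (H : RatCtx B s₁ κ K Cg s δ ε t₀ f l p) : DifferentiableOn ℂ (deriv f) (hstrip s) := by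
  exact H.slice.diff.deriv (isOpen_hstrip s)

theorem sub_phi_le (H : RatCtx B s₁ κ K Cg s δ ε t₀ f l p) {y : ℂ} (hy : y ∈ hstrip s) : ‖f y - B.φ y‖ ≤ κ := by
  have := H.slice.small 0 (by norm_num) y hy
  simpa using this

theorem dsub_phi_le (H : RatCtx B s₁ κ K Cg s δ ε t₀ f l p) {y : ℂ} (hy : y ∈ hstrip s) :
    ‖deriv f y - deriv B.φ y‖ ≤ κ := by
  have h1 := H.slice.small 1 (by norm_num) y hy
  rw [iteratedDeriv_one] at h1
  have hy0 := rat_hstrip_mono H.s_le_s₀ hy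
  have d2 : DifferentiableAt ℂ B.φ y := (B.φ_diff y hy0).differentiableAt ((isOpen_hstrip _).mem_nhds hy0)
  have e : deriv (fun x => f x - B.φ x) y = deriv f y - deriv B.φ y := deriv_fun_sub (H.diffAt hy) d2
  rwa [e] at h1

theorem f_mem (H : RatCtx B s₁ κ K Cg s δ ε t₀ f l p) {y : ℂ} (hy : y ∈ hstrip s) : f y ∈ hstrip (5 * B.σ / 16) := by
  have b1 := H.sub_phi_le hy
  have b2 : |(B.φ y).im| < B.σ / 4 := B.φ_maps y (rat_hstrip_mono H.s_le_s₀ hy)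
  have b3 : |(f y - B.φ y).im| ≤ ‖f y - B.φ y‖ := Complex.abs_im_le_norm _
  have b4 : (f y).im = (f y - B.φ y).im + (B.φ y).im := by simp
  show |(f y).im| < 5 * B.σ / 16
  rw [b4]
  have := abs_add_le (f y - B.φ y).im (B.φ y).im
  have := H.good.κ_le_σ
  linarith

theorem deriv_le (H : RatCtx B s₁ κ K Cg s δ ε t₀ f l p) {y : ℂ} (hy : y ∈ hstrip s) : ‖deriv f y‖ ≤ ratL B κ := by
  have h1 := H.dsub_phi_le hy
  have h2 := B.φ'_le y (rat_hstrip_mono H.s_le_s₀ hy)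
  have h3 := norm_add_le (deriv f y - deriv B.φ y) (deriv B.φ y)
  rw [sub_add_cancel] at h3
  unfold ratL
  linarith

theorem deriv_ge (H : RatCtx B s₁ κ K Cg s δ ε t₀ f l p) {y : ℂ} (hy : y ∈ hstrip s) : B.mφ - κ ≤ ‖deriv f y‖ := by
  have h1 := H.dsub_phi_le hy
  have h2 := B.φ'_ge y (rat_hstrip_mono H.s_le_s₀ hy)
  have h3 := norm_sub_norm_le (deriv B.φ y) (deriv B.φ y - deriv f y)
  have e : deriv B.φ y - (deriv B.φ y - deriv f y) = deriv f y := by ring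
  rw [e, norm_sub_rev] at h3
  linarith

theorem deriv_ne (H : RatCtx B s₁ κ K Cg s δ ε t₀ f l p) {y : ℂ} (hy : y ∈ hstrip s) : deriv f y ≠ 0 := by
  intro h0
  have h1 := H.deriv_ge hy
  have h2 := H.m_pos
  rw [h0, norm_zero] at h1
  linarith

theorem step_le (H : RatCtx B s₁ κ K Cg s δ ε t₀ f l p) {y : ℂ} (hy : y ∈ hstrip s) :
    ‖f (y + t₀) - f y‖ ≤ ratL B κ * t₀ := by
  have h1 := strip_lip H.slice.diff (fun z hz => H.deriv_le hz) (y + t₀) (rat_add_real_mem hy t₀) y hy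
  have e : ‖y + (t₀ : ℂ) - y‖ = t₀ := by
    rw [add_sub_cancel_left, Complex.norm_real, Real.norm_eq_abs, abs_of_pos H.t_pos]
  rwa [e] at h1

theorem f_per_nat (H : RatCtx B s₁ κ K Cg s δ ε t₀ f l p) (n : ℕ) {y : ℂ} (hy : y ∈ hstrip s) :
    f (y + 2 * π * n) = f y + 2 * π * n := by
  induction n with
  | zero => simp
  | succ n ih =>
    have hm : y + 2 * π * n ∈ hstrip s := by
      have := rat_add_real_mem hy (2 * π * n)
      simpa using this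
    have e : y + 2 * π * ((n + 1 : ℕ) : ℂ) = (y + 2 * π * n) + 2 * π := by push_cast; ring
    rw [e, H.slice.per _ hm, ih]
    push_cast
    ring

theorem pt_last (H : RatCtx B s₁ κ K Cg s δ ε t₀ f l p) (y : ℂ) : ratPt t₀ y (p + 1) = y + 2 * π * l := by
  have h1 : (((p : ℝ) + 1) * t₀ : ℂ) = ((2 * π * l : ℝ) : ℂ) := by exact_mod_cast H.t_q
  unfold ratPt
  push_cast at h1 ⊢
  rw [h1]

theorem f_last (H : RatCtx B s₁ κ K Cg s δ ε t₀ f l p) {y : ℂ} (hy : y ∈ hstrip s) :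
    f (ratPt t₀ y (p + 1)) = f y + 2 * π * l := by
  rw [H.pt_last, H.f_per_nat l hy]

theorem f_prev (H : RatCtx B s₁ κ K Cg s δ ε t₀ f l p) {y : ℂ} (hy : y ∈ hstrip s) :
    f (ratPt t₀ y p) = f (y - t₀) + 2 * π * l := by
  have e : ratPt t₀ y p = (y - t₀) + 2 * π * l := by
    have := H.pt_last y
    rw [ratPt_succ] at this
    linear_combination this
  rw [e, H.f_per_nat l (rat_sub_real_mem hy t₀)]

theorem deriv_last (H : RatCtx B s₁ κ K Cg s δ ε t₀ f l p) {y : ℂ} (hy : y ∈ hstrip s) :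
    deriv f (ratPt t₀ y (p + 1)) = deriv f y := by
  rw [H.pt_last, ← deriv_comp_add_const f (2 * π * l) y]
  have e : (fun x => f (x + 2 * π * l)) =ᶠ[nhds y] fun x => f x + 2 * π * l := by
    filter_upwards [(isOpen_hstrip s).mem_nhds hy] with x hx
    exact H.f_per_nat l hx
  rw [e.deriv_eq, deriv_add_const]

theorem pert_le (H : RatCtx B s₁ κ K Cg s δ ε t₀ f l p) {y a : ℂ} (hy : y ∈ hstrip s) (ha : ‖a‖ ≤ ratRad B κ) :
    ‖deriv f y * a‖ ≤ B.σ / 8 := by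
  rw [norm_mul, ← H.L_mul_rad]
  exact mul_le_mul (H.deriv_le hy) ha (norm_nonneg _) H.L_pos.le

theorem pert_mem (H : RatCtx B s₁ κ K Cg s δ ε t₀ f l p) {y a : ℂ} (hy : y ∈ hstrip s) (ha : ‖a‖ ≤ ratRad B κ) :
    f y + deriv f y * a ∈ hstrip (7 * B.σ / 16) := by
  have h1 : |(f y).im| < 5 * B.σ / 16 := H.f_mem hy
  have h2 := H.pert_le hy ha
  have h3 : |(deriv f y * a).im| ≤ ‖deriv f y * a‖ := Complex.abs_im_le_norm _
  show |(f y + deriv f y * a).im| < 7 * B.σ / 16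
  rw [Complex.add_im]
  have := abs_add_le (f y).im (deriv f y * a).im
  linarith

/-- two consecutive perturbed vertices: the midpoint stays in `hstrip (7σ/16)`, the step is bounded. -/
theorem pair (H : RatCtx B s₁ κ K Cg s δ ε t₀ f l p) {y a a' : ℂ} (hy : y ∈ hstrip s) (ha : ‖a‖ ≤ ratRad B κ)
    (ha' : ‖a'‖ ≤ ratRad B κ) :
    ((f y + deriv f y * a) + (f (y + t₀) + deriv f (y + t₀) * a')) / 2 ∈ hstrip (7 * B.σ / 16) ∧
      ‖(f (y + t₀) + deriv f (y + t₀) * a') - (f y + deriv f y * a)‖ ≤ ratL B κ + B.σ := by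
  have hy' := rat_add_real_mem hy t₀
  have m1 := H.pert_mem hy ha
  have m2 := H.pert_mem hy' ha'
  refine ⟨?_, ?_⟩
  · have h1 : |(f y + deriv f y * a).im| < 7 * B.σ / 16 := m1
    have h2 : |(f (y + t₀) + deriv f (y + t₀) * a').im| < 7 * B.σ / 16 := m2
    show |(((f y + deriv f y * a) + (f (y + t₀) + deriv f (y + t₀) * a')) / 2).im| < 7 * B.σ / 16
    have e : (((f y + deriv f y * a) + (f (y + t₀) + deriv f (y + t₀) * a')) / 2).im
        = ((f y + deriv f y * a).im + (f (y + t₀) + deriv f (y + t₀) * a').im) / 2 := by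
      simp only [Complex.div_ofNat_im, Complex.add_im]
    rw [e, abs_lt]
    rw [abs_lt] at h1 h2
    constructor <;> linarith
  · have e : (f (y + t₀) + deriv f (y + t₀) * a') - (f y + deriv f y * a)
        = (f (y + t₀) - f y) + deriv f (y + t₀) * a' - deriv f y * a := by ring
    rw [e]
    have b1 := H.step_le hy
    have b2 := H.pert_le hy ha
    have b3 := H.pert_le hy' ha'
    have b4 := norm_sub_le ((f (y + t₀) - f y) + deriv f (y + t₀) * a') (deriv f y * a)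
    have b5 := norm_add_le (f (y + t₀) - f y) (deriv f (y + t₀) * a')
    have b6 : ratL B κ * t₀ ≤ ratL B κ := by
      have := H.L_pos
      have := H.t_le_one
      nlinarith
    have := B.σ_pos
    linarith

/-- the same for the chain `ratX`. -/
theorem X_pair (H : RatCtx B s₁ κ K Cg s δ ε t₀ f l p) {y : ℂ} (hy : y ∈ hstrip s) {ξ : ℕ → ℂ}
    (hξ : ∀ j, ‖ξ j‖ ≤ ratRad B κ) (j : ℕ) :
    (ratX f t₀ ξ y j + ratX f t₀ ξ y (j + 1)) / 2 ∈ hstrip (7 * B.σ / 16) ∧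
      ‖ratX f t₀ ξ y (j + 1) - ratX f t₀ ξ y j‖ ≤ ratL B κ + B.σ := by
  have := H.pair (ratPt_mem t₀ hy j) (hξ j) (hξ (j + 1))
  unfold ratX
  rw [ratPt_succ]
  exact this

theorem X_mid (H : RatCtx B s₁ κ K Cg s δ ε t₀ f l p) {y : ℂ} (hy : y ∈ hstrip s) {ξ : ℕ → ℂ}
    (hξ : ∀ j, ‖ξ j‖ ≤ ratRad B κ) (j : ℕ) : (ratX f t₀ ξ y j + ratX f t₀ ξ y (j + 1)) / 2 ∈ hstrip B.σ := by
  have := B.σ_pos
  exact rat_hstrip_mono (by linarith) (H.X_pair hy hξ j).1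

/-- the chain depends holomorphically on `y`. -/
theorem X_diff (H : RatCtx B s₁ κ K Cg s δ ε t₀ f l p) {s' : ℝ} (hs' : s' ≤ s) {ξ : ℂ → ℕ → ℂ}
    (hξ : ∀ j, DifferentiableOn ℂ (fun y => ξ y j) (hstrip s')) (j : ℕ) :
    DifferentiableOn ℂ (fun y => ratX f t₀ (ξ y) y j) (hstrip s') := by
  have hpt : DifferentiableOn ℂ (fun y => ratPt t₀ y j) (hstrip s') := fun y _ =>
    (ratPt_hasDerivAt t₀ y j).differentiableAt.differentiableWithinAt
  have hmaps : Set.MapsTo (fun y => ratPt t₀ y j) (hstrip s') (hstrip s) := fun y hy =>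
    ratPt_mem t₀ (rat_hstrip_mono hs' hy) j
  unfold ratX
  exact (H.slice.diff.comp hpt hmaps).add ((H.deriv_diff.comp hpt hmaps).mul (hξ j))

/-! ### PART 2 (LF-S3-Ds2) -/

theorem Rs_mul (H : RatCtx B s₁ κ K Cg s δ ε t₀ f l p) (y : ℂ) :
    deriv f y * Rs B.hc f t₀ y = B.c * (t₀ : ℂ) ^ 3 * Es B f t₀ y := by
  have hc : (B.c : ℂ) ≠ 0 := by exact_mod_cast B.c_pos.ne'
  have ht : (t₀ : ℂ) ≠ 0 := by exact_mod_cast H.t_pos.ne'
  unfold Es
  field_simp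

theorem mid_mem (H : RatCtx B s₁ κ K Cg s δ ε t₀ f l p) {y y' : ℂ} (hy : y ∈ hstrip s) (hy' : y' ∈ hstrip s) :
    (f y + f y') / 2 ∈ hstrip B.σ := by
  have h1 : |(f y).im| < 5 * B.σ / 16 := H.f_mem hy
  have h2 : |(f y').im| < 5 * B.σ / 16 := H.f_mem hy'
  show |((f y + f y') / 2).im| < B.σ
  have e : ((f y + f y') / 2).im = ((f y).im + (f y').im) / 2 := by
    simp only [Complex.div_ofNat_im, Complex.add_im]
  have := B.σ_pos
  rw [e, abs_lt]
  rw [abs_lt] at h1 h2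
  constructor <;> linarith

theorem Rs_diff (H : RatCtx B s₁ κ K Cg s δ ε t₀ f l p) : DifferentiableOn ℂ (Rs B.hc f t₀) (hstrip s) := by
  have hshp : DifferentiableOn ℂ (fun y => f (y + t₀)) (hstrip s) :=
    H.slice.diff.comp (fun y _ => ((hasDerivAt_id y).add_const (t₀ : ℂ)).differentiableAt.differentiableWithinAt)
      (fun y hy => rat_add_real_mem hy t₀)
  have hshm : DifferentiableOn ℂ (fun y => f (y - t₀)) (hstrip s) :=
    H.slice.diff.comp (fun y _ => ((hasDerivAt_id y).sub_const (t₀ : ℂ)).differentiableAt.differentiableWithinAt)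
      (fun y hy => rat_sub_real_mem hy t₀)
  unfold Rs
  exact (rat_diffOn_pOutC B.hc_diff hshm H.slice.diff
      (fun y hy => H.mid_mem (rat_sub_real_mem hy t₀) hy)).sub
    (rat_diffOn_pInC B.hc_diff H.slice.diff hshp (fun y hy => H.mid_mem hy (rat_add_real_mem hy t₀)))

theorem Rs_le (H : RatCtx B s₁ κ K Cg s δ ε t₀ f l p) {y : ℂ} (hy : y ∈ hstrip s) :
    ‖Rs B.hc f t₀ y‖ ≤ B.c * t₀ ^ 3 * ε / (B.mφ - κ) := by
  have h1 := H.Rs_mul y
  have h2 := H.deriv_ge hy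
  have h3 := H.err y hy
  have h4 := H.m_pos
  have hc := B.c_pos
  have ht := H.t_pos
  have h5 : ‖deriv f y‖ * ‖Rs B.hc f t₀ y‖ = B.c * t₀ ^ 3 * ‖Es B f t₀ y‖ := by
    rw [← norm_mul, h1, norm_mul, norm_mul, norm_pow, Complex.norm_real, Complex.norm_real, Real.norm_eq_abs,
      Real.norm_eq_abs, abs_of_pos hc, abs_of_pos ht]
  rw [le_div_iff₀ h4]
  calc ‖Rs B.hc f t₀ y‖ * (B.mφ - κ) ≤ ‖Rs B.hc f t₀ y‖ * ‖deriv f y‖ :=
        mul_le_mul_of_nonneg_left h2 (norm_nonneg _)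
    _ = B.c * t₀ ^ 3 * ‖Es B f t₀ y‖ := by rw [mul_comm, h5]
    _ ≤ B.c * t₀ ^ 3 * ε := mul_le_mul_of_nonneg_left h3 (by positivity)

theorem dRs_le (H : RatCtx B s₁ κ K Cg s δ ε t₀ f l p) {y : ℂ} (hy : y ∈ hstrip (s - δ)) :
    ‖deriv (Rs B.hc f t₀) y‖ ≤ B.c * t₀ ^ 3 * ε / (B.mφ - κ) / δ := by
  exact strip_deriv_le H.δ_pos H.Rs_diff (fun z hz => H.Rs_le hz) y hy

theorem C_ok (H : RatCtx B s₁ κ K Cg s δ ε t₀ f l p) {y : ℂ} (hy : y ∈ hstrip s) :
    ‖ratC B f t₀ y / ((B.c * t₀ / 4 : ℝ) : ℂ) - 1‖ ≤ 1 / 10 := by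
  have hc : (B.c : ℂ) ≠ 0 := by exact_mod_cast B.c_pos.ne'
  have ht : (t₀ : ℂ) ≠ 0 := by exact_mod_cast H.t_pos.ne'
  have hκ := H.good.κ_pos
  have hy' : |y.im| < s := hy
  have h1 := H.good.As_close s H.s_le f (H.slice.mono le_rfl (by linarith)) (t₀ : ℂ) (y + t₀ / 2) ht
    (by rw [Complex.norm_real, Real.norm_eq_abs, abs_of_pos H.t_pos]; exact H.t_lt)
    (by simpa using hy')
  have e : ratC B f t₀ y / ((B.c * t₀ / 4 : ℝ) : ℂ) = 4 * As B f t₀ (y + t₀ / 2) := by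
    unfold ratC As
    have e1 : y + (t₀ : ℂ) / 2 - t₀ / 2 = y := by ring
    have e2 : y + (t₀ : ℂ) / 2 + t₀ / 2 = y + t₀ := by ring
    rw [e1, e2]
    push_cast
    field_simp
  rw [e]
  exact h1

theorem flux_ok (H : RatCtx B s₁ κ K Cg s δ ε t₀ f l p) {y : ℂ} (hy : y ∈ hstrip s) (q : ℕ) :
    FluxOK q (B.c * t₀ / 4) (fun i => ratC B f t₀ (ratPt t₀ y i)) := by
  have := B.c_pos
  have := H.t_pos
  exact ⟨by positivity, fun j _ => H.C_ok (ratPt_mem t₀ hy j)⟩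

theorem C_diff (H : RatCtx B s₁ κ K Cg s δ ε t₀ f l p) : DifferentiableOn ℂ (ratC B f t₀) (hstrip s) := by
  have hsh : DifferentiableOn ℂ (fun y : ℂ => y + (t₀ : ℂ)) (hstrip s) := fun y _ =>
    ((hasDerivAt_id y).add_const (t₀ : ℂ)).differentiableAt.differentiableWithinAt
  have hmaps : Set.MapsTo (fun y : ℂ => y + (t₀ : ℂ)) (hstrip s) (hstrip s) := fun y hy => rat_add_real_mem hy t₀
  unfold ratC
  exact ((rat_diffOn_S12 B.hc_diff H.slice.diff (H.slice.diff.comp hsh hmaps)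
    (fun y hy => H.mid_mem hy (rat_add_real_mem hy t₀))).mul H.deriv_diff).mul (H.deriv_diff.comp hsh hmaps)

theorem deriv_conj' (H : RatCtx B s₁ κ K Cg s δ ε t₀ f l p) {y : ℂ} (hy : y ∈ hstrip s) :
    deriv f (conj y) = conj (deriv f y) := by
  exact deriv_conj H.slice.diff H.real y hy

theorem C_conj (H : RatCtx B s₁ κ K Cg s δ ε t₀ f l p) {y : ℂ} (hy : y ∈ hstrip s) :
    ratC B f t₀ (conj y) = conj (ratC B f t₀ y) := by
  have hy' := rat_add_real_mem hy t₀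
  have e : conj y + (t₀ : ℂ) = conj (y + t₀) := by simp
  unfold ratC
  rw [e, H.real y hy, H.real _ hy', H.deriv_conj' hy, H.deriv_conj' hy',
    S12_conj B.hc_diff B.hc_conj (H.mid_mem hy hy'), map_mul, map_mul]

theorem f_im (H : RatCtx B s₁ κ K Cg s δ ε t₀ f l p) (x : ℝ) : (f x).im = 0 := by
  have h1 := H.real x (rat_ofReal_mem H.s_pos x)
  rw [Complex.conj_ofReal] at h1
  exact Complex.conj_eq_iff_im.1 h1.symm

theorem deriv_im (H : RatCtx B s₁ κ K Cg s δ ε t₀ f l p) (x : ℝ) : (deriv f x).im = 0 := by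
  have h1 := H.deriv_conj' (rat_ofReal_mem H.s_pos x)
  rw [Complex.conj_ofReal] at h1
  exact Complex.conj_eq_iff_im.1 h1.symm

theorem deriv_re_ge (H : RatCtx B s₁ κ K Cg s δ ε t₀ f l p) (x : ℝ) : B.mφ - κ ≤ (deriv f x).re := by
  have hx := rat_ofReal_mem H.s_pos x
  have hx0 := rat_ofReal_mem B.s₀_pos x
  have h1 := deriv_conj B.φ_diff B.φ_conj x hx0
  rw [Complex.conj_ofReal] at h1
  have h2 : (deriv B.φ x).im = 0 := Complex.conj_eq_iff_im.1 h1.symm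
  have h3 := B.φ'_pos x
  have h4 := B.φ'_ge x hx0
  have h5 : ‖deriv B.φ x‖ = (deriv B.φ x).re := by
    have e : deriv B.φ x = ((deriv B.φ x).re : ℂ) := Complex.ext (by simp) (by simp [h2])
    rw [e, Complex.norm_real, Real.norm_eq_abs, abs_of_pos (by simpa using h3)]
    simp
  have h6 := H.dsub_phi_le hx
  have h7 : |(deriv f x - deriv B.φ x).re| ≤ ‖deriv f x - deriv B.φ x‖ := Complex.abs_re_le_norm _
  rw [Complex.sub_re] at h7
  have := (abs_le.1 h7).1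
  linarith

theorem step_ge (H : RatCtx B s₁ κ K Cg s δ ε t₀ f l p) (x : ℝ) :
    (B.mφ - κ) * t₀ ≤ (f ((x : ℂ) + t₀)).re - (f x).re := by
  have hd : ∀ τ : ℝ, HasDerivAt (fun r : ℝ => (f r).re) (deriv f τ).re τ := fun τ =>
    (H.diffAt (rat_ofReal_mem H.s_pos τ)).hasDerivAt.real_of_complex
  have h1 := Convex.mul_sub_le_image_sub_of_le_deriv (D := Set.univ) convex_univ
    (f := fun r : ℝ => (f r).re) (fun τ _ => (hd τ).continuousAt.continuousWithinAt)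
    (fun τ _ => (hd τ).differentiableAt.differentiableWithinAt) (C := B.mφ - κ)
    (fun τ _ => by rw [(hd τ).deriv]; exact H.deriv_re_ge τ) x (Set.mem_univ _) (x + t₀) (Set.mem_univ _)
    (by have := H.t_pos; linarith)
  have e : x + t₀ - x = t₀ := by ring
  rw [e] at h1
  simpa using h1

end RatCtx

end Claimed.Agent.R269.S3
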