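/-
Row 269, Section 3, UNIT D, steps D4 (CLOSING) and D5 (ACTION).      Statements + plans: helper237.
Leaf packages:  LF-S3-D4a (`X_im`, `chain`; ~300 l),  LF-S3-D4b (`close_real`, `close`; ~200 l),  LF-S3-D5a (`Wx_deriv`; ~200 l),  LF-S3-D5b (`WX_deriv`; ~200 l),  LF-S3-D5c (`W_quad`; ~300 l).
Uses RatSlice, RatGen, Gen (`pInC_ofReal`, `pOutC_ofReal`), LibCA (`ca_second_order`) as black boxes.
`H : RatCtx …`, `hS : RatSol B f t₀ p (hstrip (s - δ)) ρ ξ`, `L = ratL B κ`, `ϱ = ratRad B κ`, `h = B.hc`, `X_j(y) = ratX f t₀ (ξ y) y j`, `x_j(y) = f (ratPt t₀ y j)`.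

D4a.  For real `x`: `ratPt t₀ x j = ((x + j t₀ : ℝ) : ℂ)` (`push_cast`), so `f`, `f'` are real there (`H.f_im`, `H.deriv_im`), `ξ x j` is real (`hS.real`): `X_im` (`Complex.add_im`, `Complex.mul_im`).
   `chain`, with `θ j = Re X_j(x)`:
     `θ (j+1) - θ j = [Re f(Y + t₀) - Re f(Y)] + Re (f'(Y + t₀) ξ_{j+1}) - Re (f'(Y) ξ_j)`, `Y = ratPt t₀ x j` real;  `≥ (mφ - κ) t₀ - 2 L ρ > 0` (`H.step_ge`, `|Re z| ≤ ‖z‖`, `H.deriv_le`, `hS.bd`);
     `≤ L t₀ + 2 L ρ ≤ 2 L t₀ ≤ (9/4) Mφ t₀ < 4 Mφ s₁` (`H.step_le`, `H.L_le`, `H.t_lt`, `0 < Mφ`);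
     stationarity: `hS.stat x _ j _` says `pOutC h X_j X_{j+1} = pInC h X_{j+1} X_{j+2}`; `X_j = ((θ j : ℝ) : ℂ)` (`Complex.ext`, `X_im`); `pOutC_ofReal B.σ_pos B.hc_diff B.hc_conj`, `pInC_ofReal`, `Complex.ofReal_injective`;
     `B.hR = fun θ => (B.hc θ).re` by `rfl`.
D4b.  `close_real`: `H.good.closes p l θ (chain) _`;  `θ (p+1) = θ 0 + 2π l` from `H.f_last`, `hS.first`, `hS.last`, `ratPt_zero`;  back to `ℂ` with the bridges.
   `close`: `rat_strip_eq_of_real`; both sides differentiable by `rat_diffOn_pOutC`/`rat_diffOn_pInC B.hc_diff`, `H.X_diff`, `H.X_mid`.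
D5a.  `ratW_hasDerivAt B.hc_diff p` with `Z x j = f (ratPt t₀ x j)`, `Z' j = deriv f (ratPt t₀ y j)` (chain rule with `ratPt_hasDerivAt`), midpoints: `H.X_mid` with `ξ = 0` or `H.pair` with `a = a' = 0`.   Then
     `ratRR h x_j x_{j+1} x_{j+2} = Rs h f t₀ (ratPt t₀ y (j+1))` (`ratPt_succ_sub`, `ratPt_succ`),      `x'_{p+1} = x'_0 = f'(y)` (`H.deriv_last`),
     `pOutC h x_p x_{p+1} = pOutC h (f (y - t₀)) (f y)` (`H.f_prev`, `H.f_last`, `pOutC_per_nat B.hc_diff B.hc_per`),  so the two boundary terms are `f'(y) Rs h f t₀ y`;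
     `∑_{j<p} Rs(Y_{j+1}) x'_{j+1} + Rs(Y_0) x'_0 = ∑_{j<p+1} x'_j Rs(Y_j)` (`Finset.sum_range_succ'`), `H.Rs_mul`, `Finset.mul_sum`, unfold `osum`, `ratPt`.
D5b.  `ratW_hasDerivAt` with `Z x j = ratX f t₀ (ξ x) x j`, `Z' j = deriv (fun x => ratX f t₀ (ξ x) x j) y` (`H.X_diff`, the strip is open).   The sum vanishes by `hS.stat`.
     Near `y`: `X_0(x) = f x` and `X_{p+1}(x) = f x + 2π l` (`hS.first`, `hS.last`, `H.f_last`), so `Z' 0 = Z' (p+1)` (`Filter.EventuallyEq.deriv_eq`); the boundary terms cancel by `hcl`.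
D5c.  If `ρ = 0` then `ξ y j = 0`, both chains coincide.   Let `ρ > 0`, `R = σ/(16 L ρ) ≥ 2`,  `D λ = ratW h (p+1) (ratX f t₀ (fun j => (1 - λ) * ξ y j) y)`:  `D 0 = W_X`, `D 1 = W_x`.
     For `|λ| < R`: `|(1-λ) ξ_j| ≤ (1 + R) ρ ≤ 2 R ρ = ϱ`, so `H.X_pair`, `H.gen` give `|D λ| ≤ (p+1) Cg`; `D` is differentiable on `ball 0 R` (`rat_diffOn_Sgen`, or `ratW_hasDerivAt` at every point).
     `ratW_hasDerivAt` at `λ = 0` with `Z' j = - x'_j ξ_j`:  the sum vanishes by `hS.stat`, the boundary terms by `hS.first`, `hS.last`:  `deriv D 0 = 0`.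
     `ca_second_order`: `|D 1 - D 0 - 0| ≤ 2 (p+1) Cg / R² = 512 (p+1) Cg L² ρ²/σ²`.
-/
import Claimed.Agent.R269.S3.RatSlice

set_option autoImplicit false

namespace Claimed.Agent.R269.S3

open Real Complex ComplexConjugate Topology

variable {B : Base} {s₁ κ K Cg s δ ε t₀ ρ : ℝ} {f : ℂ → ℂ} {l p : ℕ} {ξ : ℂ → ℕ → ℂ}

theorem ratPt_ofReal (t₀ x : ℝ) (j : ℕ) : ratPt t₀ (x : ℂ) j = ((x + j * t₀ : ℝ) : ℂ) := by
  unfold ratPt
  push_cast
  ring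

namespace RatCtx

/-! ### LF-S3-D4a -/

theorem X_im (H : RatCtx B s₁ κ K Cg s δ ε t₀ f l p) (hS : RatSol B f t₀ p (hstrip (s - δ)) ρ ξ) (x : ℝ) (j : ℕ) :
    (ratX f t₀ (ξ x) x j).im = 0 := by
  unfold ratX
  rw [ratPt_ofReal, Complex.add_im, Complex.mul_im, H.f_im, H.deriv_im, hS.real]
  ring

theorem X_ofReal (H : RatCtx B s₁ κ K Cg s δ ε t₀ f l p) (hS : RatSol B f t₀ p (hstrip (s - δ)) ρ ξ) (x : ℝ) (j : ℕ) :
    (((ratX f t₀ (ξ x) x j).re : ℝ) : ℂ) = ratX f t₀ (ξ x) x j := by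
  apply Complex.ext
  · simp
  · simp [H.X_im hS x j]

theorem chain (H : RatCtx B s₁ κ K Cg s δ ε t₀ f l p) (hS : RatSol B f t₀ p (hstrip (s - δ)) ρ ξ)
    (h3 : 2 * ratL B κ * ρ < (B.mφ - κ) * t₀) (h4 : 2 * ρ ≤ t₀) (x : ℝ) :
    IsChain B.hR (4 * B.Mφ * s₁) (p + 1) (fun j => (ratX f t₀ (ξ x) x j).re) := by
  have hx : (x : ℂ) ∈ hstrip (s - δ) := rat_ofReal_mem H.sδ_pos x
  have hxs : (x : ℂ) ∈ hstrip s := rat_ofReal_mem H.s_pos x
  have hL := H.L_pos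
  have hterm : ∀ j, ‖deriv f (ratPt t₀ x j) * ξ x j‖ ≤ ratL B κ * ρ := by
    intro j
    rw [norm_mul]
    exact mul_le_mul (H.deriv_le (ratPt_mem t₀ hxs j)) (hS.bd x hx j) (norm_nonneg _) hL.le
  have hdiff : ∀ j, (ratX f t₀ (ξ x) x (j + 1)).re - (ratX f t₀ (ξ x) x j).re
      = ((f (ratPt t₀ x j + t₀)).re - (f (ratPt t₀ x j)).re)
        + (deriv f (ratPt t₀ x (j + 1)) * ξ x (j + 1)).re - (deriv f (ratPt t₀ x j) * ξ x j).re := by
    intro j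
    unfold ratX
    rw [Complex.add_re, Complex.add_re, ratPt_succ]
    ring
  refine ⟨?_, ?_, ?_⟩
  · intro j _
    have h1 := H.step_ge (x + j * t₀)
    rw [← ratPt_ofReal] at h1
    have h2 := (Complex.abs_re_le_norm _).trans (hterm (j + 1))
    have h5 := (Complex.abs_re_le_norm _).trans (hterm j)
    have h2' := (abs_le.mp h2).1
    have h5' := (abs_le.mp h5).2
    have := hdiff j
    linarith
  · intro j _
    have h1 : (f (ratPt t₀ x j + t₀)).re - (f (ratPt t₀ x j)).re ≤ ratL B κ * t₀ := by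
      rw [← Complex.sub_re]
      exact (Complex.re_le_norm _).trans (H.step_le (ratPt_mem t₀ hxs j))
    have h2 := (Complex.abs_re_le_norm _).trans (hterm (j + 1))
    have h5 := (Complex.abs_re_le_norm _).trans (hterm j)
    have h2' := (abs_le.mp h2).2
    have h5' := (abs_le.mp h5).1
    have := hdiff j
    have hM : 0 < B.Mφ := by
      have := H.L_le
      linarith
    have a1 : ratL B κ * (2 * ρ) ≤ ratL B κ * t₀ := mul_le_mul_of_nonneg_left h4 hL.le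
    have a2 : ratL B κ * t₀ ≤ 9 / 8 * B.Mφ * t₀ := mul_le_mul_of_nonneg_right H.L_le H.t_pos.le
    have a3 : B.Mφ * t₀ < B.Mφ * s₁ := mul_lt_mul_of_pos_left H.t_lt hM
    have a4 : 0 < B.Mφ * s₁ := mul_pos hM H.good.s₁_pos
    nlinarith
  · intro j hj
    have hst := hS.stat x hx j (by omega)
    unfold ratRR at hst
    rw [sub_eq_zero, ← H.X_ofReal hS x j, ← H.X_ofReal hS x (j + 1), ← H.X_ofReal hS x (j + 2),
      pOutC_ofReal B.σ_pos B.hc_diff B.hc_conj, pInC_ofReal B.σ_pos B.hc_diff B.hc_conj] at hst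
    exact Complex.ofReal_injective hst

/-! ### LF-S3-D4b -/

theorem close_real (H : RatCtx B s₁ κ K Cg s δ ε t₀ f l p) (hS : RatSol B f t₀ p (hstrip (s - δ)) ρ ξ)
    (h3 : 2 * ratL B κ * ρ < (B.mφ - κ) * t₀) (h4 : 2 * ρ ≤ t₀) (x : ℝ) :
    pOutC B.hc (ratX f t₀ (ξ x) x p) (ratX f t₀ (ξ x) x (p + 1))
      = pInC B.hc (ratX f t₀ (ξ x) x 0) (ratX f t₀ (ξ x) x 1) := by
  have hx : (x : ℂ) ∈ hstrip (s - δ) := rat_ofReal_mem H.sδ_pos x
  have hxs : (x : ℂ) ∈ hstrip s := rat_ofReal_mem H.s_pos x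
  have hlast : (ratX f t₀ (ξ x) x (p + 1)).re = (ratX f t₀ (ξ x) x 0).re + 2 * π * l := by
    have e1 : ratX f t₀ (ξ x) x (p + 1) = ratX f t₀ (ξ x) x 0 + ((2 * π * l : ℝ) : ℂ) := by
      unfold ratX
      rw [hS.last x hx, hS.first x hx, H.f_last hxs, ratPt_zero]
      push_cast
      ring
    rw [e1, Complex.add_re, Complex.ofReal_re]
  have hc := H.good.closes p l _ (H.chain hS h3 h4 x) hlast
  rw [← H.X_ofReal hS x p, ← H.X_ofReal hS x (p + 1), ← H.X_ofReal hS x 0, ← H.X_ofReal hS x 1,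
    pOutC_ofReal B.σ_pos B.hc_diff B.hc_conj, pInC_ofReal B.σ_pos B.hc_diff B.hc_conj]
  exact congrArg _ hc

/-- **D4.** -/
theorem close (H : RatCtx B s₁ κ K Cg s δ ε t₀ f l p) (hS : RatSol B f t₀ p (hstrip (s - δ)) ρ ξ)
    (h3 : 2 * ratL B κ * ρ < (B.mφ - κ) * t₀) (h4 : 2 * ρ ≤ t₀) (h5 : ρ ≤ ratRad B κ) :
    ∀ y ∈ hstrip (s - δ), pOutC B.hc (ratX f t₀ (ξ y) y p) (ratX f t₀ (ξ y) y (p + 1))
      = pInC B.hc (ratX f t₀ (ξ y) y 0) (ratX f t₀ (ξ y) y 1) := by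
  have hsub : hstrip (s - δ) ⊆ hstrip s := rat_hstrip_mono (by linarith [H.δ_pos])
  have hX : ∀ j, DifferentiableOn ℂ (fun y => ratX f t₀ (ξ y) y j) (hstrip (s - δ)) :=
    H.X_diff (by linarith [H.δ_pos]) hS.diff
  have hm : ∀ j, ∀ y ∈ hstrip (s - δ), (ratX f t₀ (ξ y) y j + ratX f t₀ (ξ y) y (j + 1)) / 2 ∈ hstrip B.σ :=
    fun j y hy => H.X_mid (hsub hy) (fun i => (hS.bd y hy i).trans h5) j
  exact rat_strip_eq_of_real (rat_diffOn_pOutC B.hc_diff (hX p) (hX (p + 1)) (hm p))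
    (rat_diffOn_pInC B.hc_diff (hX 0) (hX 1) (hm 0)) (H.close_real hS h3 h4)

/-! ### LF-S3-D5a -/

theorem Wx_deriv (H : RatCtx B s₁ κ K Cg s δ ε t₀ f l p) {y : ℂ} (hy : y ∈ hstrip s) :
    HasDerivAt (fun x => ratW B.hc (p + 1) (fun j => f (ratPt t₀ x j)))
      (B.c * (t₀ : ℂ) ^ 3 * osum (p + 1) t₀ (Es B f t₀) y) y := by
  have hZ : ∀ j, HasDerivAt (fun x => f (ratPt t₀ x j)) (deriv f (ratPt t₀ y j)) y := by
    intro j
    have := (H.diffAt (ratPt_mem t₀ hy j)).hasDerivAt.comp y (ratPt_hasDerivAt t₀ y j)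
    rw [mul_one] at this
    exact this
  have hmid : ∀ (z : ℂ), z ∈ hstrip s → ∀ j, (f (ratPt t₀ z j) + f (ratPt t₀ z (j + 1))) / 2 ∈ hstrip B.σ := by
    intro z hz j
    have := H.X_mid hz (ξ := fun _ => 0) (fun _ => by simpa using H.rad_pos.le) j
    simpa [ratX] using this
  have hW := ratW_hasDerivAt B.hc_diff p (Z := fun x j => f (ratPt t₀ x j))
    (Z' := fun j => deriv f (ratPt t₀ y j)) (fun j _ => hZ j) (fun j _ => hmid y hy j)
  refine hW.congr_deriv ?_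
  have hrr : ∀ j, ratRR B.hc (f (ratPt t₀ y j)) (f (ratPt t₀ y (j + 1))) (f (ratPt t₀ y (j + 2)))
      = Rs B.hc f t₀ (ratPt t₀ y (j + 1)) := by
    intro j
    unfold ratRR Rs
    rw [ratPt_succ_sub, ← ratPt_succ t₀ y (j + 1)]
  have hm0 : (f (y - t₀) + f y) / 2 ∈ hstrip B.σ := by
    have := hmid (y - t₀) (rat_sub_real_mem hy t₀) 0
    rwa [ratPt_succ, ratPt_zero, sub_add_cancel] at this
  have hb : pOutC B.hc (f (ratPt t₀ y p)) (f (ratPt t₀ y (p + 1))) = pOutC B.hc (f (y - t₀)) (f y) := by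
    rw [H.f_prev hy, H.f_last hy]
    exact pOutC_per_nat B.hc_diff B.hc_per hm0 l
  have h1 : ratPt t₀ y 1 = y + t₀ := by rw [ratPt_succ, ratPt_zero]
  have hos : B.c * (t₀ : ℂ) ^ 3 * osum (p + 1) t₀ (Es B f t₀) y
      = ∑ j ∈ Finset.range (p + 1), deriv f (ratPt t₀ y j) * Rs B.hc f t₀ (ratPt t₀ y j) := by
    unfold osum
    rw [Finset.mul_sum]
    apply Finset.sum_congr rfl
    intro j _
    rw [H.Rs_mul]
    rfl
  rw [hos, Finset.sum_range_succ', hb, H.deriv_last hy, ratPt_zero, h1]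
  have : ∑ j ∈ Finset.range p, ratRR B.hc (f (ratPt t₀ y j)) (f (ratPt t₀ y (j + 1))) (f (ratPt t₀ y (j + 2)))
        * deriv f (ratPt t₀ y (j + 1))
      = ∑ j ∈ Finset.range p, deriv f (ratPt t₀ y (j + 1)) * Rs B.hc f t₀ (ratPt t₀ y (j + 1)) := by
    apply Finset.sum_congr rfl
    intro j _
    rw [hrr, mul_comm]
  rw [this]
  unfold Rs
  ring

/-! ### LF-S3-D5b -/

theorem WX_deriv (H : RatCtx B s₁ κ K Cg s δ ε t₀ f l p) (hS : RatSol B f t₀ p (hstrip (s - δ)) ρ ξ)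
    (h5 : ρ ≤ ratRad B κ)
    (hcl : ∀ y ∈ hstrip (s - δ), pOutC B.hc (ratX f t₀ (ξ y) y p) (ratX f t₀ (ξ y) y (p + 1))
      = pInC B.hc (ratX f t₀ (ξ y) y 0) (ratX f t₀ (ξ y) y 1))
    {y : ℂ} (hy : y ∈ hstrip (s - δ)) :
    HasDerivAt (fun x => ratW B.hc (p + 1) (ratX f t₀ (ξ x) x)) 0 y := by
  have hsub : hstrip (s - δ) ⊆ hstrip s := rat_hstrip_mono (by linarith [H.δ_pos])
  have hys : y ∈ hstrip s := hsub hy
  have hnhds : hstrip (s - δ) ∈ 𝓝 y := (isOpen_hstrip (s - δ)).mem_nhds hy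
  have hXd : ∀ j, DifferentiableAt ℂ (fun x => ratX f t₀ (ξ x) x j) y := fun j =>
    (H.X_diff (by linarith [H.δ_pos]) hS.diff j).differentiableAt hnhds
  have hW := ratW_hasDerivAt B.hc_diff p (Z := fun x => ratX f t₀ (ξ x) x)
    (Z' := fun j => deriv (fun x => ratX f t₀ (ξ x) x j) y) (fun j _ => (hXd j).hasDerivAt)
    (fun j _ => H.X_mid hys (fun i => (hS.bd y hy i).trans h5) j)
  have e0 : (fun x => ratX f t₀ (ξ x) x 0) =ᶠ[𝓝 y] f := by
    filter_upwards [hnhds] with x hx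
    simp [ratX, hS.first x hx, ratPt_zero]
  have e1 : (fun x => ratX f t₀ (ξ x) x (p + 1)) =ᶠ[𝓝 y] fun x => f x + 2 * π * l := by
    filter_upwards [hnhds] with x hx
    simp [ratX, hS.last x hx, H.f_last (hsub hx)]
  have d0 : deriv (fun x => ratX f t₀ (ξ x) x 0) y = deriv f y := e0.deriv_eq
  have d1 : deriv (fun x => ratX f t₀ (ξ x) x (p + 1)) y = deriv f y := by
    rw [e1.deriv_eq, deriv_add_const]
  have hsum : ∑ j ∈ Finset.range p, ratRR B.hc (ratX f t₀ (ξ y) y j) (ratX f t₀ (ξ y) y (j + 1))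
      (ratX f t₀ (ξ y) y (j + 2)) * deriv (fun x => ratX f t₀ (ξ x) x (j + 1)) y = 0 := by
    apply Finset.sum_eq_zero
    intro j hj
    rw [hS.stat y hy j (Finset.mem_range.mp hj), zero_mul]
  refine hW.congr_deriv ?_
  rw [hsum, d0, d1, hcl y hy]
  ring

/-! ### LF-S3-D5c -/

theorem W_quad (H : RatCtx B s₁ κ K Cg s δ ε t₀ f l p) (hS : RatSol B f t₀ p (hstrip (s - δ)) ρ ξ)
    (h6 : 32 * ratL B κ * ρ ≤ B.σ) {y : ℂ} (hy : y ∈ hstrip (s - δ)) :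
    ‖ratW B.hc (p + 1) (fun j => f (ratPt t₀ y j)) - ratW B.hc (p + 1) (ratX f t₀ (ξ y) y)‖
      ≤ 512 * ((p : ℝ) + 1) * Cg * ratL B κ ^ 2 * ρ ^ 2 / B.σ ^ 2 := by
  have hys : y ∈ hstrip s := rat_hstrip_mono (by linarith [H.δ_pos]) hy
  have hσ := B.σ_pos
  have hL := H.L_pos
  have hCg : 0 < Cg := lt_of_lt_of_le zero_lt_one H.Cg_ge
  have hρ0 : 0 ≤ ρ := le_trans (norm_nonneg _) (hS.bd y hy 0)
  rcases hρ0.eq_or_lt with hρ | hρ
  · -- ρ = 0
    have hz : ∀ j, ξ y j = 0 := fun j => by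
      have := hS.bd y hy j
      rw [← hρ] at this
      exact norm_le_zero_iff.mp this
    have : ratX f t₀ (ξ y) y = fun j => f (ratPt t₀ y j) := by
      funext j
      simp [ratX, hz j]
    rw [this, sub_self, norm_zero]
    positivity
  -- ρ > 0
  set R : ℝ := B.σ / (16 * ratL B κ * ρ) with hR
  have hR2 : 2 ≤ R := by
    rw [hR, le_div_iff₀ (by positivity)]
    linarith
  have hRρ : 2 * R * ρ = ratRad B κ := by
    rw [hR, ratRad]
    field_simp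
    ring
  set Z : ℂ → ℕ → ℂ := fun a => ratX f t₀ (fun j => (1 - a) * ξ y j) y with hZ
  have hsmall : ∀ a ∈ Metric.ball (0 : ℂ) R, ∀ j, ‖(1 - a) * ξ y j‖ ≤ ratRad B κ := by
    intro a ha j
    rw [mem_ball_zero_iff] at ha
    rw [norm_mul, ← hRρ]
    have h1 : ‖1 - a‖ ≤ 2 * R := by
      have := norm_sub_le (1 : ℂ) a
      rw [norm_one] at this
      linarith
    exact mul_le_mul h1 (hS.bd y hy j) (norm_nonneg _) (by linarith)
  have hder : ∀ a : ℂ, ∀ j, HasDerivAt (fun x => Z x j) (-(deriv f (ratPt t₀ y j) * ξ y j)) a := by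
    intro a j
    have h1 : HasDerivAt (fun x : ℂ => (1 - x) * ξ y j) (-ξ y j) a := by
      have := ((hasDerivAt_id a).const_sub 1).mul_const (ξ y j)
      simpa using this
    have := (h1.const_mul (deriv f (ratPt t₀ y j))).const_add (f (ratPt t₀ y j))
    simpa [hZ, ratX] using this
  have hW : ∀ a ∈ Metric.ball (0 : ℂ) R, HasDerivAt (fun x => ratW B.hc (p + 1) (Z x))
      (∑ j ∈ Finset.range p, ratRR B.hc (Z a j) (Z a (j + 1)) (Z a (j + 2))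
          * (-(deriv f (ratPt t₀ y (j + 1)) * ξ y (j + 1)))
        + pOutC B.hc (Z a p) (Z a (p + 1)) * (-(deriv f (ratPt t₀ y (p + 1)) * ξ y (p + 1)))
        - pInC B.hc (Z a 0) (Z a 1) * (-(deriv f (ratPt t₀ y 0) * ξ y 0))) a := by
    intro a ha
    exact ratW_hasDerivAt B.hc_diff p (Z := Z) (Z' := fun j => -(deriv f (ratPt t₀ y j) * ξ y j))
      (fun j _ => hder a j) (fun j _ => H.X_mid hys (hsmall a ha) j)
  have hdiff : DifferentiableOn ℂ (fun x => ratW B.hc (p + 1) (Z x)) (Metric.ball 0 R) :=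
    fun a ha => (hW a ha).differentiableAt.differentiableWithinAt
  have hbd : ∀ a ∈ Metric.ball (0 : ℂ) R, ‖ratW B.hc (p + 1) (Z a)‖ ≤ ((p : ℝ) + 1) * Cg := by
    intro a ha
    unfold ratW
    refine (norm_sum_le _ _).trans ?_
    have hsub : hstrip (7 * B.σ / 16) ⊆ hstrip (7 * B.σ / 8) := rat_hstrip_mono (by linarith)
    have : ∀ j ∈ Finset.range (p + 1), ‖Sgen B.hc (Z a j) (Z a (j + 1))‖ ≤ Cg := by
      intro j _
      have hp := H.X_pair hys (hsmall a ha) j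
      exact (H.gen _ _ (hsub hp.1) hp.2).2.2
    refine (Finset.sum_le_sum this).trans ?_
    rw [Finset.sum_const, Finset.card_range, nsmul_eq_mul]
    push_cast
    exact le_refl _
  have h0 : (0 : ℂ) ∈ Metric.ball (0 : ℂ) R := by
    rw [mem_ball_zero_iff, norm_zero]; linarith
  have hZ0 : Z 0 = ratX f t₀ (ξ y) y := by
    funext j
    simp [hZ, ratX]
  have hZ1 : Z 1 = fun j => f (ratPt t₀ y j) := by
    funext j
    simp [hZ, ratX]
  have hd0 : deriv (fun x => ratW B.hc (p + 1) (Z x)) 0 = 0 := by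
    rw [(hW 0 h0).deriv, hZ0, hS.first y hy, hS.last y hy]
    have : ∀ j ∈ Finset.range p, ratRR B.hc (ratX f t₀ (ξ y) y j) (ratX f t₀ (ξ y) y (j + 1))
        (ratX f t₀ (ξ y) y (j + 2)) * (-(deriv f (ratPt t₀ y (j + 1)) * ξ y (j + 1))) = 0 := by
      intro j hj
      rw [hS.stat y hy j (Finset.mem_range.mp hj), zero_mul]
    rw [Finset.sum_eq_zero this]
    simp
  have key := ca_second_order hR2 hdiff hbd
  rw [hd0, sub_zero, hZ0, hZ1] at key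
  refine key.trans (le_of_eq ?_)
  rw [hR]
  field_simp
  ring

end RatCtx

end Claimed.Agent.R269.S3
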