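/-
Row 269, Section 3, UNIT D, step D2: THE VERTEX MAP `ratG` AND THE LIPSCHITZ BOUND OF `ratN`.      Statements + plans: helper237.
Leaf packages:  LF-S3-D2a (`G_eq`, `G_zero`, `G_diff`, `G_bd`; ~200 l),   LF-S3-D2b (`G_fderiv`; ~250 l),   LF-S3-D2c (`N_zero`, `N_lip`; ~200 l).
Uses RatSlice, RatGen, Gen (`hasDerivAt_pOutC_left`, `hasDerivAt_pInC_right`, `hol_pOutC`, `hol_pInC`), LibCA (`ca_second_lip`) as black boxes.
`H : RatCtx …`, `L = ratL B κ`, `ϱ = ratRad B κ`, `h = B.hc`.   The norm of `ℂ × ℂ × ℂ` is the sup norm (`Prod.norm_def`, `Prod.norm_mk`, `norm_fst_le`, `norm_snd_le`).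

D2a.  `G_eq`: unfold `ratG`, `ratX`; rewrite `ratPt_succ_sub`, `(ratPt_succ t₀ y (j+1)).symm`.      `G_zero`: `mul_zero`, `add_zero`, then `Rs` unfolds to `ratRR`; `H.Rs_mul`.
   `G_diff`: `rat_diffOn_RR` with the affine maps `u ↦ f(y-t₀) + f'(y-t₀) u.1` etc. (`fun_prop`); midpoints by `H.pair` at `y - t₀` (`sub_add_cancel`) and at `y`, `hstrip (7σ/16) ⊆ hstrip σ`.
   `G_bd`: `|f'(y)| ≤ L`, `|pOutC|, |pInC| ≤ Cg` by `H.gen` (midpoints in `hstrip (7σ/16) ⊆ hstrip (7σ/8)`, steps `≤ L + σ` by `H.pair`).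
D2b.  Put `P = (u₀,v₀,w₀) = (f(y-t₀), f y, f(y+t₀))`, `(α,β,γ) = (f'(y-t₀), f'(y), f'(y+t₀))`, `R₃ z = ratRR h z.1 z.2.1 z.2.2`;  `R₃` is differentiable at `P` (`rat_diffOn_RR` on the open set
   `{z | (z.1+z.2.1)/2 ∈ hstrip σ ∧ (z.2.1+z.2.2)/2 ∈ hstrip σ}`, or `hol_pOutC`/`hol_pInC` composed with projections).   Let `D = fderiv ℂ R₃ P`.
     (i)   `D (1,0,0) = S12 h u₀ v₀`:   `x ↦ R₃ (x, v₀, w₀)` has derivative `S12 h u₀ v₀` (`hasDerivAt_pOutC_left`) and derivative `D (1,0,0)` (`HasFDerivAt.comp_hasDerivAt`); `HasDerivAt.unique`.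
     (ii)  `D (0,0,1) = S12 h v₀ w₀`:   `hasDerivAt_pInC_right` (sign!).
     (iii) `D (α,β,γ) = deriv (Rs h f t₀) y`:   `Rs h f t₀ x = R₃ (f (x - t₀), f x, f (x + t₀))`, chain rule.
     (iv)  `ratG y u = β * R₃ (P + (α u.1, β u.2.1, γ u.2.2))`, so `fderiv (ratG y) 0 u = β * D (α u.1, β u.2.1, γ u.2.2)`  and
           `(α a, β b, γ c) = (α a) • (1,0,0) + (γ c) • (0,0,1) + b • ((α,β,γ) - α • (1,0,0) - γ • (0,0,1))`;   linearity of `D`, `ring`.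
     `ratC B f t₀ y = S12 h v₀ w₀ β γ`,   `ratC B f t₀ (y - t₀) = S12 h u₀ v₀ α β` (`sub_add_cancel`).
D2c.  `N_zero`: `ratA0 c 0 j = 0`, `G_zero`, `H.err`.
   `N_lip`: `u = (ξ j, ξ (j+1), ξ (j+2))`, `u'` likewise, `Y = ratPt t₀ y (j+1) ∈ hstrip (s - δ)`;  `‖u‖, ‖u'‖ ≤ r < ϱ/8`, `‖u - u'‖ ≤ d`;
     `ratN y ξ j - ratN y ξ' j = -(ratG Y u - ratG Y u' - fderiv (ratG Y) 0 (u - u')) - f'(Y) (Rs)'(Y) (ξ (j+1) - ξ' (j+1))`     (`G_fderiv`, `ratPt_succ_sub`, `ring`),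
     `ca_second_lip H.rad_pos` with `u₀ = 0`, `M = 2 L Cg`;   `|f'(Y)| ≤ L`, `H.dRs_le`.
-/
import Claimed.Agent.R269.S3.RatSlice

set_option autoImplicit false

namespace Claimed.Agent.R269.S3

open Real Complex ComplexConjugate

variable {B : Base} {s₁ κ K Cg s δ ε t₀ : ℝ} {f : ℂ → ℂ} {l p : ℕ}

/-! ### LF-S3-D2a -/

/-- the vertex map along the chain. -/
theorem ratG_eq (B : Base) (f : ℂ → ℂ) (t₀ : ℝ) (y : ℂ) (ξ : ℕ → ℂ) (j : ℕ) :
    ratG B f t₀ (ratPt t₀ y (j + 1)) (ξ j, ξ (j + 1), ξ (j + 2))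
      = deriv f (ratPt t₀ y (j + 1))
        * ratRR B.hc (ratX f t₀ ξ y j) (ratX f t₀ ξ y (j + 1)) (ratX f t₀ ξ y (j + 2)) := by
  unfold ratG ratX
  rw [ratPt_succ_sub, ← ratPt_succ t₀ y (j + 1)]

/-- the vertex defect as a function of three variables is differentiable. -/
theorem ratRR_differentiableAt {h : ℂ → ℂ} {σ : ℝ} (hd : DifferentiableOn ℂ h (hstrip σ)) {u v w : ℂ}
    (h1 : (u + v) / 2 ∈ hstrip σ) (h2 : (v + w) / 2 ∈ hstrip σ) :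
    DifferentiableAt ℂ (fun z : ℂ × ℂ × ℂ => ratRR h z.1 z.2.1 z.2.2) (u, v, w) := by
  have hO : DifferentiableAt ℂ (fun z : ℂ × ℂ => pOutC h z.1 z.2) (u, v) :=
    (hol_pOutC hd).differentiableAt ((isOpen_Mid σ).mem_nhds h1)
  have hI : DifferentiableAt ℂ (fun z : ℂ × ℂ => pInC h z.1 z.2) (v, w) :=
    (hol_pInC hd).differentiableAt ((isOpen_Mid σ).mem_nhds h2)
  have a1 : DifferentiableAt ℂ (fun z : ℂ × ℂ × ℂ => (z.1, z.2.1)) (u, v, w) := by fun_prop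
  have a2 : DifferentiableAt ℂ (fun z : ℂ × ℂ × ℂ => (z.2.1, z.2.2)) (u, v, w) := by fun_prop
  have b1 := DifferentiableAt.comp (u, v, w) (f := fun z : ℂ × ℂ × ℂ => (z.1, z.2.1)) hO a1
  have b2 := DifferentiableAt.comp (u, v, w) (f := fun z : ℂ × ℂ × ℂ => (z.2.1, z.2.2)) hI a2
  exact b1.sub b2

namespace RatCtx

theorem G_zero (H : RatCtx B s₁ κ K Cg s δ ε t₀ f l p) (y : ℂ) :
    ratG B f t₀ y 0 = B.c * (t₀ : ℂ) ^ 3 * Es B f t₀ y := by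
  rw [← H.Rs_mul y]
  simp [ratG, ratRR, Rs]

/-- the two midpoints and steps of the perturbed vertices around the middle vertex `y`. -/
theorem G_pairs (H : RatCtx B s₁ κ K Cg s δ ε t₀ f l p) {y : ℂ} (hy : y ∈ hstrip s) {u : ℂ × ℂ × ℂ}
    (hu : u ∈ Metric.ball (0 : ℂ × ℂ × ℂ) (ratRad B κ)) :
    (((f (y - t₀) + deriv f (y - t₀) * u.1) + (f y + deriv f y * u.2.1)) / 2 ∈ hstrip (7 * B.σ / 16) ∧
      ‖(f y + deriv f y * u.2.1) - (f (y - t₀) + deriv f (y - t₀) * u.1)‖ ≤ ratL B κ + B.σ) ∧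
    (((f y + deriv f y * u.2.1) + (f (y + t₀) + deriv f (y + t₀) * u.2.2)) / 2 ∈ hstrip (7 * B.σ / 16) ∧
      ‖(f (y + t₀) + deriv f (y + t₀) * u.2.2) - (f y + deriv f y * u.2.1)‖ ≤ ratL B κ + B.σ) := by
  rw [mem_ball_zero_iff] at hu
  have h1 : ‖u.1‖ ≤ ratRad B κ := (norm_fst_le u).trans hu.le
  have h2 : ‖u.2.1‖ ≤ ratRad B κ := ((norm_fst_le u.2).trans (norm_snd_le u)).trans hu.le
  have h3 : ‖u.2.2‖ ≤ ratRad B κ := ((norm_snd_le u.2).trans (norm_snd_le u)).trans hu.le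
  have hym : y - t₀ ∈ hstrip s := rat_sub_real_mem hy t₀
  have a := H.pair hym h1 h2
  rw [sub_add_cancel] at a
  exact ⟨a, H.pair hy h2 h3⟩

theorem G_diff (H : RatCtx B s₁ κ K Cg s δ ε t₀ f l p) {y : ℂ} (hy : y ∈ hstrip s) :
    DifferentiableOn ℂ (ratG B f t₀ y) (Metric.ball 0 (ratRad B κ)) := by
  have hσ := B.σ_pos
  have hsub : hstrip (7 * B.σ / 16) ⊆ hstrip B.σ := rat_hstrip_mono (by linarith)
  unfold ratG
  apply DifferentiableOn.const_mul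
  apply rat_diffOn_RR B.hc_diff
  · fun_prop
  · fun_prop
  · fun_prop
  · intro u hu
    exact hsub (H.G_pairs hy hu).1.1
  · intro u hu
    exact hsub (H.G_pairs hy hu).2.1

theorem G_bd (H : RatCtx B s₁ κ K Cg s δ ε t₀ f l p) {y : ℂ} (hy : y ∈ hstrip s) :
    ∀ u ∈ Metric.ball (0 : ℂ × ℂ × ℂ) (ratRad B κ), ‖ratG B f t₀ y u‖ ≤ 2 * ratL B κ * Cg := by
  intro u hu
  have hσ := B.σ_pos
  have hsub : hstrip (7 * B.σ / 16) ⊆ hstrip (7 * B.σ / 8) := rat_hstrip_mono (by linarith)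
  obtain ⟨⟨a1, a2⟩, ⟨b1, b2⟩⟩ := H.G_pairs hy hu
  have c1 := (H.gen _ _ (hsub a1) a2).2.1
  have c2 := (H.gen _ _ (hsub b1) b2).1
  have hL := H.L_pos
  unfold ratG ratRR
  rw [norm_mul]
  have : ‖pOutC B.hc (f (y - t₀) + deriv f (y - t₀) * u.1) (f y + deriv f y * u.2.1)
      - pInC B.hc (f y + deriv f y * u.2.1) (f (y + t₀) + deriv f (y + t₀) * u.2.2)‖ ≤ Cg + Cg :=
    (norm_sub_le _ _).trans (add_le_add c1 c2)
  calc _ ≤ ratL B κ * (Cg + Cg) := mul_le_mul (H.deriv_le hy) this (norm_nonneg _) hL.le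
    _ = 2 * ratL B κ * Cg := by ring

/-! ### LF-S3-D2b -/

theorem G_fderiv (H : RatCtx B s₁ κ K Cg s δ ε t₀ f l p) {y : ℂ} (hy : y ∈ hstrip s) (u : ℂ × ℂ × ℂ) :
    fderiv ℂ (ratG B f t₀ y) 0 u
      = ratC B f t₀ y * (u.2.2 - u.2.1) - ratC B f t₀ (y - t₀) * (u.2.1 - u.1)
        + deriv f y * deriv (Rs B.hc f t₀) y * u.2.1 := by
  have hym : y - t₀ ∈ hstrip s := rat_sub_real_mem hy t₀
  have hyp : y + t₀ ∈ hstrip s := rat_add_real_mem hy t₀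
  have hσ := B.σ_pos
  have hsub : hstrip (7 * B.σ / 16) ⊆ hstrip B.σ := rat_hstrip_mono (by linarith)
  have hR0 : ‖(0 : ℂ)‖ ≤ ratRad B κ := by simpa using H.rad_pos.le
  have hm1 : (f (y - t₀) + f y) / 2 ∈ hstrip B.σ := by
    have := (H.pair hym hR0 hR0).1
    simp only [mul_zero, add_zero, sub_add_cancel] at this
    exact hsub this
  have hm2 : (f y + f (y + t₀)) / 2 ∈ hstrip B.σ := by
    have := (H.pair hy hR0 hR0).1
    simp only [mul_zero, add_zero] at this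
    exact hsub this
  have hD := (ratRR_differentiableAt B.hc_diff hm1 hm2).hasFDerivAt
  set D := fderiv ℂ (fun z : ℂ × ℂ × ℂ => ratRR B.hc z.1 z.2.1 z.2.2) (f (y - t₀), f y, f (y + t₀)) with hDdef
  -- (i)
  have e1 : D (1, 0, 0) = S12 B.hc (f (y - t₀)) (f y) := by
    have hc : HasDerivAt (fun x : ℂ => ((x, f y, f (y + t₀)) : ℂ × ℂ × ℂ)) (1, 0, 0) (f (y - t₀)) :=
      (hasDerivAt_id _).prodMk ((hasDerivAt_const _ _).prodMk (hasDerivAt_const _ _))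
    have h1 := hD.comp_hasDerivAt (f (y - t₀)) hc
    have h2 : HasDerivAt (fun x => pOutC B.hc x (f y) - pInC B.hc (f y) (f (y + t₀)))
        (S12 B.hc (f (y - t₀)) (f y)) (f (y - t₀)) :=
      (hasDerivAt_pOutC_left B.hc_diff hm1).sub_const _
    exact h1.unique h2
  -- (ii)
  have e3 : D (0, 0, 1) = S12 B.hc (f y) (f (y + t₀)) := by
    have hc : HasDerivAt (fun x : ℂ => ((f (y - t₀), f y, x) : ℂ × ℂ × ℂ)) (0, 0, 1) (f (y + t₀)) :=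
      (hasDerivAt_const _ _).prodMk ((hasDerivAt_const _ _).prodMk (hasDerivAt_id _))
    have h1 := hD.comp_hasDerivAt (f (y + t₀)) hc
    have h2 : HasDerivAt (fun x => pOutC B.hc (f (y - t₀)) (f y) - pInC B.hc (f y) x)
        (S12 B.hc (f y) (f (y + t₀))) (f (y + t₀)) := by
      have := (hasDerivAt_pInC_right B.hc_diff hm2).const_sub (pOutC B.hc (f (y - t₀)) (f y))
      simpa using this
    exact h1.unique h2
  -- (iii)
  have e2 : D (deriv f (y - t₀), deriv f y, deriv f (y + t₀)) = deriv (Rs B.hc f t₀) y := by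
    have c1 : HasDerivAt (fun x : ℂ => f (x - t₀)) (deriv f (y - t₀)) y :=
      (H.diffAt hym).hasDerivAt.comp_sub_const y t₀
    have c2 : HasDerivAt f (deriv f y) y := (H.diffAt hy).hasDerivAt
    have c3 : HasDerivAt (fun x : ℂ => f (x + t₀)) (deriv f (y + t₀)) y :=
      (H.diffAt hyp).hasDerivAt.comp_add_const y t₀
    have hc : HasDerivAt (fun x : ℂ => ((f (x - t₀), f x, f (x + t₀)) : ℂ × ℂ × ℂ))
        (deriv f (y - t₀), deriv f y, deriv f (y + t₀)) y := c1.prodMk (c2.prodMk c3)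
    have h1 := hD.comp_hasDerivAt y hc
    exact h1.deriv.symm
  -- (iv)
  have e4 : fderiv ℂ (ratG B f t₀ y) 0 u
      = deriv f y * D (deriv f (y - t₀) * u.1, deriv f y * u.2.1, deriv f (y + t₀) * u.2.2) := by
    have hg : DifferentiableAt ℂ (ratG B f t₀ y) 0 :=
      (H.G_diff hy).differentiableAt (Metric.ball_mem_nhds _ H.rad_pos)
    have hl : HasDerivAt (fun a : ℂ => a • u) u 0 := by
      simpa using (hasDerivAt_id (0 : ℂ)).smul_const u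
    have hg' : HasFDerivAt (ratG B f t₀ y) (fderiv ℂ (ratG B f t₀ y) 0) ((fun a : ℂ => a • u) 0) := by
      simpa using hg.hasFDerivAt
    have h1 := hg'.comp_hasDerivAt (0 : ℂ) hl
    have hc : HasDerivAt (fun a : ℂ => ((f (y - t₀) + deriv f (y - t₀) * (a * u.1), f y + deriv f y * (a * u.2.1),
        f (y + t₀) + deriv f (y + t₀) * (a * u.2.2)) : ℂ × ℂ × ℂ))
        (deriv f (y - t₀) * u.1, deriv f y * u.2.1, deriv f (y + t₀) * u.2.2) 0 := by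
      have k : ∀ c₀ c₁ c₂ : ℂ, HasDerivAt (fun a : ℂ => c₀ + c₁ * (a * c₂)) (c₁ * c₂) 0 := by
        intro c₀ c₁ c₂
        have := (((hasDerivAt_id (0 : ℂ)).mul_const c₂).const_mul c₁).const_add c₀
        simpa using this
      exact (k _ _ _).prodMk ((k _ _ _).prodMk (k _ _ _))
    have hD' : HasFDerivAt (fun z : ℂ × ℂ × ℂ => ratRR B.hc z.1 z.2.1 z.2.2) D
        ((fun a : ℂ => ((f (y - t₀) + deriv f (y - t₀) * (a * u.1), f y + deriv f y * (a * u.2.1),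
        f (y + t₀) + deriv f (y + t₀) * (a * u.2.2)) : ℂ × ℂ × ℂ)) 0) := by
      simpa using hD
    have h2 := (hD'.comp_hasDerivAt (0 : ℂ) hc).const_mul (deriv f y)
    exact h1.unique h2
  have e5 : ((deriv f (y - t₀) * u.1, deriv f y * u.2.1, deriv f (y + t₀) * u.2.2) : ℂ × ℂ × ℂ)
      = (deriv f (y - t₀) * u.1) • ((1, 0, 0) : ℂ × ℂ × ℂ) + (deriv f (y + t₀) * u.2.2) • ((0, 0, 1) : ℂ × ℂ × ℂ)
        + u.2.1 • (((deriv f (y - t₀), deriv f y, deriv f (y + t₀)) : ℂ × ℂ × ℂ)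
          - deriv f (y - t₀) • ((1, 0, 0) : ℂ × ℂ × ℂ) - deriv f (y + t₀) • ((0, 0, 1) : ℂ × ℂ × ℂ)) := by
    ext <;> simp <;> ring
  rw [e4, e5, map_add, map_add, map_smul, map_smul, map_smul, map_sub, map_sub, map_smul, map_smul, e1, e2, e3]
  simp only [ratC, smul_eq_mul, sub_add_cancel]
  ring

/-! ### LF-S3-D2c -/

theorem N_zero (H : RatCtx B s₁ κ K Cg s δ ε t₀ f l p) {y : ℂ} (hy : y ∈ hstrip s) (j : ℕ) :
    ‖ratN B f t₀ y (fun _ => 0) j‖ ≤ B.c * t₀ ^ 3 * ε := by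
  have hc := B.c_pos
  have ht := H.t_pos
  have e : ratN B f t₀ y (fun _ => 0) j = -(B.c * (t₀ : ℂ) ^ 3 * Es B f t₀ (ratPt t₀ y (j + 1))) := by
    unfold ratN ratA0
    have : ((0 : ℂ), (0 : ℂ), (0 : ℂ)) = (0 : ℂ × ℂ × ℂ) := rfl
    rw [this, H.G_zero]
    ring
  rw [e, norm_neg, norm_mul, norm_mul, norm_pow, Complex.norm_real, Complex.norm_real,
    Real.norm_of_nonneg hc.le, Real.norm_of_nonneg ht.le]
  exact mul_le_mul_of_nonneg_left (H.err _ (ratPt_mem t₀ hy (j + 1))) (by positivity)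

theorem N_lip (H : RatCtx B s₁ κ K Cg s δ ε t₀ f l p) {y : ℂ} (hy : y ∈ hstrip (s - δ)) {ξ ξ' : ℕ → ℂ} {r d : ℝ}
    (hr : r < ratRad B κ / 8) (hξ : ∀ j, ‖ξ j‖ ≤ r) (hξ' : ∀ j, ‖ξ' j‖ ≤ r) (hd : ∀ j, ‖ξ j - ξ' j‖ ≤ d) (j : ℕ) :
    ‖ratN B f t₀ y ξ j - ratN B f t₀ y ξ' j‖
      ≤ (32 * (2 * ratL B κ * Cg) / ratRad B κ ^ 2 * r
          + ratL B κ * (B.c * t₀ ^ 3 * ε / (B.mφ - κ) / δ)) * d := by
  have hYδ : ratPt t₀ y (j + 1) ∈ hstrip (s - δ) := ratPt_mem t₀ hy (j + 1)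
  have hY : ratPt t₀ y (j + 1) ∈ hstrip s := rat_hstrip_mono (by linarith [H.δ_pos]) hYδ
  have hd0 : 0 ≤ d := le_trans (norm_nonneg _) (hd 0)
  have hr0 : 0 ≤ r := le_trans (norm_nonneg _) (hξ 0)
  have hL := H.L_pos
  have hCg : 0 ≤ Cg := le_trans zero_le_one H.Cg_ge
  have hR := H.rad_pos
  set Y := ratPt t₀ y (j + 1) with hYdef
  set u : ℂ × ℂ × ℂ := (ξ j, ξ (j + 1), ξ (j + 2)) with hu
  set u' : ℂ × ℂ × ℂ := (ξ' j, ξ' (j + 1), ξ' (j + 2)) with hu'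
  have nu : ‖u‖ ≤ r := by
    rw [hu, Prod.norm_mk, Prod.norm_mk]
    exact max_le (hξ _) (max_le (hξ _) (hξ _))
  have nu' : ‖u'‖ ≤ r := by
    rw [hu', Prod.norm_mk, Prod.norm_mk]
    exact max_le (hξ' _) (max_le (hξ' _) (hξ' _))
  have nd : ‖u - u'‖ ≤ d := by
    rw [hu, hu', Prod.mk_sub_mk, Prod.mk_sub_mk, Prod.norm_mk, Prod.norm_mk]
    exact max_le (hd _) (max_le (hd _) (hd _))
  have mu : u ∈ Metric.ball (0 : ℂ × ℂ × ℂ) (ratRad B κ / 8) := by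
    rw [mem_ball_zero_iff]; exact lt_of_le_of_lt nu hr
  have mu' : u' ∈ Metric.ball (0 : ℂ × ℂ × ℂ) (ratRad B κ / 8) := by
    rw [mem_ball_zero_iff]; exact lt_of_le_of_lt nu' hr
  have key := ca_second_lip hR (H.G_diff hY) (H.G_bd hY) mu mu'
  rw [sub_zero, sub_zero] at key
  have e : ratN B f t₀ y ξ j - ratN B f t₀ y ξ' j
      = -(ratG B f t₀ Y u - ratG B f t₀ Y u' - fderiv ℂ (ratG B f t₀ Y) 0 (u - u'))
        - deriv f Y * deriv (Rs B.hc f t₀) Y * (ξ (j + 1) - ξ' (j + 1)) := by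
    rw [H.G_fderiv hY, hYdef, ratPt_succ_sub]
    simp only [ratN, ratA0, hu, hu', Prod.mk_sub_mk]
    ring
  rw [e]
  have k1 : ‖ratG B f t₀ Y u - ratG B f t₀ Y u' - fderiv ℂ (ratG B f t₀ Y) 0 (u - u')‖
      ≤ 32 * (2 * ratL B κ * Cg) / ratRad B κ ^ 2 * r * d := by
    refine key.trans ?_
    have c0 : 0 ≤ 32 * (2 * ratL B κ * Cg) / ratRad B κ ^ 2 := by positivity
    have : max ‖u‖ ‖u'‖ ≤ r := max_le nu nu'
    calc 32 * (2 * ratL B κ * Cg) / ratRad B κ ^ 2 * max ‖u‖ ‖u'‖ * ‖u - u'‖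
        ≤ 32 * (2 * ratL B κ * Cg) / ratRad B κ ^ 2 * r * ‖u - u'‖ := by
          apply mul_le_mul_of_nonneg_right _ (norm_nonneg _)
          exact mul_le_mul_of_nonneg_left this c0
      _ ≤ 32 * (2 * ratL B κ * Cg) / ratRad B κ ^ 2 * r * d := by
          apply mul_le_mul_of_nonneg_left nd
          positivity
  have k2 : ‖deriv f Y * deriv (Rs B.hc f t₀) Y * (ξ (j + 1) - ξ' (j + 1))‖
      ≤ ratL B κ * (B.c * t₀ ^ 3 * ε / (B.mφ - κ) / δ) * d := by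
    rw [norm_mul, norm_mul]
    have a1 := H.deriv_le hY
    have a2 := H.dRs_le hYδ
    have a3 := hd (j + 1)
    have : ‖deriv f Y‖ * ‖deriv (Rs B.hc f t₀) Y‖ ≤ ratL B κ * (B.c * t₀ ^ 3 * ε / (B.mφ - κ) / δ) :=
      mul_le_mul a1 a2 (norm_nonneg _) hL.le
    exact mul_le_mul this a3 (norm_nonneg _) (le_trans (by positivity) this)
  calc _ ≤ ‖ratG B f t₀ Y u - ratG B f t₀ Y u' - fderiv ℂ (ratG B f t₀ Y) 0 (u - u')‖
        + ‖deriv f Y * deriv (Rs B.hc f t₀) Y * (ξ (j + 1) - ξ' (j + 1))‖ := by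
        refine (norm_sub_le _ _).trans ?_
        rw [norm_neg]
    _ ≤ _ := by
        rw [add_mul]
        exact add_le_add k1 k2

end RatCtx

end Claimed.Agent.R269.S3
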