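/-
Row 269, Section 3, UNIT D, step D3: THE FIXED POINT.      Statements + plans + glue: helper237.
Leaf packages:  LF-S3-D3a (`T_hol`; ~200 l),   LF-S3-D3b (`T_conj`; ~200 l).      The glue (`T_lip`, `T_zero`, `exists_sol`) is PROVED below.
`H : RatCtx …`, `ϱ = ratRad B κ`, `q = p + 1`, `γ = c t₀/4`.

D3a.  `ratT B f t₀ q y (ξ y) k = fluxSol q (c y) (F y) k` with `c y i = ratC B f t₀ (ratPt t₀ y i)`, `F y j = ratN B f t₀ y (ξ y) j`:  use `fluxSol_diff` (`H.flux_ok`).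
   `y ↦ ratC B f t₀ (ratPt t₀ y i)`: `H.C_diff.comp` with the translation `ratPt t₀ · i` (`ratPt_mem`, `ratPt_hasDerivAt`).
   `ratN`: unfold `ratN`, `ratA0`; products/differences of differentiable functions;  for the `ratG` term rewrite with `ratG_eq`:
   `deriv f (ratPt t₀ y (j+1))` is differentiable (`H.deriv_diff.comp`), `ratRR B.hc (X_j) (X_{j+1}) (X_{j+2})` by `rat_diffOn_RR B.hc_diff`, `H.X_diff`, midpoints by `H.X_mid`.
D3b.  Everything commutes with `conj`:  `ratPt_conj`, `H.real`, `H.deriv_conj'`, `H.C_conj`, `ratRR_conj B.hc_diff B.hc_conj` (midpoints by `H.X_mid`), `fluxSol_conj`.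
   First `ratX f t₀ (conj ∘ ξ) (conj y) j = conj (ratX f t₀ ξ y j)`, then `ratN … (conj y) (conj ∘ ξ) j = conj (ratN … y ξ j)` (via `ratG_eq`, `map_mul`, `map_sub`), then `ratT`.
-/
import Claimed.Agent.R269.S3.RatLoc

set_option autoImplicit false

namespace Claimed.Agent.R269.S3

open Real Complex ComplexConjugate

variable {B : Base} {s₁ κ K Cg s δ ε t₀ : ℝ} {f : ℂ → ℂ} {l p : ℕ}

/-- the Lipschitz constant of `ratN` on the ball of radius `ρ`. -/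
noncomputable def ratLam (B : Base) (κ Cg δ ε t₀ ρ : ℝ) : ℝ :=
  32 * (2 * ratL B κ * Cg) / ratRad B κ ^ 2 * ρ + ratL B κ * (B.c * t₀ ^ 3 * ε / (B.mφ - κ) / δ)

namespace RatCtx

/-! ### LF-S3-D3a -/

/-- composition with the translation `y ↦ y + j t₀`. -/
theorem comp_pt {g : ℂ → ℂ} {s s' : ℝ} (t₀ : ℝ) (hg : DifferentiableOn ℂ g (hstrip s)) (hs' : s' ≤ s) (j : ℕ) :
    DifferentiableOn ℂ (fun y => g (ratPt t₀ y j)) (hstrip s') := by
  have h1 : DifferentiableOn ℂ (fun y => ratPt t₀ y j) (hstrip s') :=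
    fun y _ => (ratPt_hasDerivAt t₀ y j).differentiableAt.differentiableWithinAt
  exact hg.comp h1 (fun y hy => ratPt_mem t₀ (rat_hstrip_mono hs' hy) j)

theorem T_hol (H : RatCtx B s₁ κ K Cg s δ ε t₀ f l p) {s' : ℝ} (hs' : s' ≤ s) {ξ : ℂ → ℕ → ℂ}
    (hξ : ∀ j, DifferentiableOn ℂ (fun y => ξ y j) (hstrip s'))
    (hb : ∀ y ∈ hstrip s', ∀ j, ‖ξ y j‖ ≤ ratRad B κ) {k : ℕ} (hk : k ≤ p + 1) :
    DifferentiableOn ℂ (fun y => ratT B f t₀ (p + 1) y (ξ y) k) (hstrip s') := by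
  have hsub : hstrip s' ⊆ hstrip s := rat_hstrip_mono hs'
  have hC : ∀ j, DifferentiableOn ℂ (fun y => ratC B f t₀ (ratPt t₀ y j)) (hstrip s') :=
    fun j => comp_pt t₀ H.C_diff hs' j
  unfold ratT
  refine fluxSol_diff (γ := B.c * t₀ / 4) (c := fun y i => ratC B f t₀ (ratPt t₀ y i))
    (F := fun y => ratN B f t₀ y (ξ y)) (Nat.succ_pos p) (fun y hy => H.flux_ok (hsub hy) (p + 1))
    (fun j _ => hC j) ?_ hk
  intro j _
  unfold ratN ratA0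
  simp only [ratG_eq]
  have hX := H.X_diff hs' hξ
  have hm : ∀ i, ∀ y ∈ hstrip s', (ratX f t₀ (ξ y) y i + ratX f t₀ (ξ y) y (i + 1)) / 2 ∈ hstrip B.σ :=
    fun i y hy => H.X_mid (hsub hy) (hb y hy) i
  have hRR := rat_diffOn_RR B.hc_diff (hX j) (hX (j + 1)) (hX (j + 2)) (hm j) (hm (j + 1))
  have hd := comp_pt t₀ H.deriv_diff hs' (j + 1)
  exact (((hC (j + 1)).mul ((hξ (j + 2)).sub (hξ (j + 1)))).sub ((hC j).mul ((hξ (j + 1)).sub (hξ j)))).sub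
    (hd.mul hRR)

/-! ### LF-S3-D3b -/

theorem X_conj (H : RatCtx B s₁ κ K Cg s δ ε t₀ f l p) {y : ℂ} (hy : y ∈ hstrip s) (ξ : ℕ → ℂ) (j : ℕ) :
    ratX f t₀ (fun i => conj (ξ i)) (conj y) j = conj (ratX f t₀ ξ y j) := by
  unfold ratX
  rw [ratPt_conj, H.real _ (ratPt_mem t₀ hy j), H.deriv_conj' (ratPt_mem t₀ hy j), map_add, map_mul]

theorem N_conj (H : RatCtx B s₁ κ K Cg s δ ε t₀ f l p) {y : ℂ} (hy : y ∈ hstrip s) {ξ : ℕ → ℂ}
    (hb : ∀ j, ‖ξ j‖ ≤ ratRad B κ) (j : ℕ) :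
    ratN B f t₀ (conj y) (fun i => conj (ξ i)) j = conj (ratN B f t₀ y ξ j) := by
  unfold ratN ratA0
  rw [ratG_eq B f t₀ (conj y) (fun i => conj (ξ i)) j, ratG_eq]
  simp only [H.X_conj hy, ratPt_conj]
  rw [H.C_conj (ratPt_mem t₀ hy (j + 1)), H.C_conj (ratPt_mem t₀ hy j), H.deriv_conj' (ratPt_mem t₀ hy (j + 1)),
    ratRR_conj B.hc_diff B.hc_conj (H.X_mid hy hb j) (H.X_mid hy hb (j + 1))]
  simp only [map_sub, map_mul]

theorem T_conj (H : RatCtx B s₁ κ K Cg s δ ε t₀ f l p) {y : ℂ} (hy : y ∈ hstrip s) {ξ : ℕ → ℂ}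
    (hb : ∀ j, ‖ξ j‖ ≤ ratRad B κ) (k : ℕ) :
    ratT B f t₀ (p + 1) (conj y) (fun j => conj (ξ j)) k = conj (ratT B f t₀ (p + 1) y ξ k) := by
  unfold ratT
  rw [← fluxSol_conj]
  congr 1
  · funext i
    rw [ratPt_conj, H.C_conj (ratPt_mem t₀ hy i)]
  · funext j
    exact H.N_conj hy hb j

/-! ### glue -/

theorem T_lip (H : RatCtx B s₁ κ K Cg s δ ε t₀ f l p) {y : ℂ} (hy : y ∈ hstrip (s - δ)) {ξ ξ' : ℕ → ℂ} {ρ d : ℝ}
    (hr : ρ < ratRad B κ / 8) (hξ : ∀ j, ‖ξ j‖ ≤ ρ) (hξ' : ∀ j, ‖ξ' j‖ ≤ ρ) (hd : ∀ j, ‖ξ j - ξ' j‖ ≤ d)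
    {k : ℕ} (hk : k ≤ p + 1) :
    ‖ratT B f t₀ (p + 1) y ξ k - ratT B f t₀ (p + 1) y ξ' k‖
      ≤ 3 * ((p : ℝ) + 1) ^ 2 * (ratLam B κ Cg δ ε t₀ ρ * d) / (B.c * t₀ / 4) := by
  have hy' : y ∈ hstrip s := rat_hstrip_mono (by linarith [H.δ_pos]) hy
  have hd0 : 0 ≤ d := le_trans (norm_nonneg _) (hd 0)
  have hρ0 : 0 ≤ ρ := le_trans (norm_nonneg _) (hξ 0)
  have hL := H.L_pos
  have hm := H.m_pos
  have hCg : 0 ≤ Cg := le_trans zero_le_one H.Cg_ge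
  have hLam : 0 ≤ ratLam B κ Cg δ ε t₀ ρ := by
    unfold ratLam
    have h1 : 0 ≤ B.c * t₀ ^ 3 * ε / (B.mφ - κ) / δ := by
      have := B.c_pos; have := H.t_pos; have := H.ε_nonneg; have := H.δ_pos
      positivity
    have h2 : 0 ≤ 32 * (2 * ratL B κ * Cg) / ratRad B κ ^ 2 * ρ := by positivity
    have h3 : 0 ≤ ratL B κ * (B.c * t₀ ^ 3 * ε / (B.mφ - κ) / δ) := mul_nonneg hL.le h1
    linarith
  unfold ratT
  rw [← fluxSol_sub]
  have hb := fluxSol_bound (H.flux_ok hy' (p + 1)) (Nat.succ_pos p)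
    (F := fun i => ratN B f t₀ y ξ i - ratN B f t₀ y ξ' i) (M := ratLam B κ Cg δ ε t₀ ρ * d)
    (mul_nonneg hLam hd0) (fun j _ => H.N_lip hy hr hξ hξ' hd j) hk
  simpa using hb

theorem T_zero (H : RatCtx B s₁ κ K Cg s δ ε t₀ f l p) {y : ℂ} (hy : y ∈ hstrip s) {k : ℕ} (hk : k ≤ p + 1) :
    ‖ratT B f t₀ (p + 1) y (fun _ => 0) k‖ ≤ 12 * ((p : ℝ) + 1) ^ 2 * t₀ ^ 2 * ε := by
  have hc := B.c_pos
  have ht := H.t_pos
  have hε := H.ε_nonneg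
  have hb := fluxSol_bound (H.flux_ok hy (p + 1)) (Nat.succ_pos p)
    (F := ratN B f t₀ y (fun _ => 0)) (M := B.c * t₀ ^ 3 * ε) (by positivity)
    (fun j _ => H.N_zero hy j) hk
  unfold ratT
  refine hb.trans (le_of_eq ?_)
  push_cast
  field_simp
  ring

/-- **D3.**  The holomorphic family of exact chains. -/
theorem exists_sol (H : RatCtx B s₁ κ K Cg s δ ε t₀ f l p) {ρ : ℝ} (hρ : ρ = 24 * ((p : ℝ) + 1) ^ 2 * t₀ ^ 2 * ε)
    (h1 : ρ < ratRad B κ / 8)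
    (h2 : 3 * ((p : ℝ) + 1) ^ 2 * ratLam B κ Cg δ ε t₀ ρ / (B.c * t₀ / 4) ≤ 1 / 2) :
    ∃ ξ : ℂ → ℕ → ℂ, RatSol B f t₀ p (hstrip (s - δ)) ρ ξ := by
  have hc := B.c_pos
  have ht := H.t_pos
  have hε := H.ε_nonneg
  have hρ0 : 0 ≤ ρ := by rw [hρ]; positivity
  have hsub : hstrip (s - δ) ⊆ hstrip s := rat_hstrip_mono (by linarith [H.δ_pos])
  have hρR : ρ ≤ ratRad B κ := by linarith [H.rad_pos]
  have hlip : ∀ y ∈ hstrip (s - δ), ∀ ξ ξ' : ℕ → ℂ, (∀ j, ‖ξ j‖ ≤ ρ) → (∀ j, ‖ξ' j‖ ≤ ρ) → ∀ d : ℝ,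
      (∀ j, ‖ξ j - ξ' j‖ ≤ d) → ∀ k ≤ p + 1,
      ‖ratT B f t₀ (p + 1) y ξ k - ratT B f t₀ (p + 1) y ξ' k‖ ≤ 1 / 2 * d := by
    intro y hy ξ ξ' hξ hξ' d hd k hk
    have hd0 : 0 ≤ d := le_trans (norm_nonneg _) (hd 0)
    refine (H.T_lip hy h1 hξ hξ' hd hk).trans ?_
    have := mul_le_mul_of_nonneg_right h2 hd0
    refine le_trans (le_of_eq ?_) this
    ring
  obtain ⟨ξ, hdiff, hbd, hvan, hfix, huniq⟩ := ca_fixed_point_seq (isOpen_hstrip (s - δ)) hρ0 (p + 1)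
    (ratT B f t₀ (p + 1))
    (by
      intro y hy ξ hξ k hk
      have h0 := H.T_zero (hsub hy) hk
      have hl := hlip y hy ξ (fun _ => 0) hξ (fun _ => by simpa using hρ0) ρ (fun j => by simpa using hξ j) k hk
      have : ratT B f t₀ (p + 1) y ξ k
          = ratT B f t₀ (p + 1) y (fun _ => 0) k
            + (ratT B f t₀ (p + 1) y ξ k - ratT B f t₀ (p + 1) y (fun _ => 0) k) := by ring
      rw [this]
      refine (norm_add_le _ _).trans ?_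
      have : 12 * ((p : ℝ) + 1) ^ 2 * t₀ ^ 2 * ε = 1 / 2 * ρ := by rw [hρ]; ring
      linarith)
    hlip
    (by
      intro ξ hξ hb k hk
      exact H.T_hol (by linarith [H.δ_pos]) hξ (fun y hy j => (hb y hy j).trans hρR) hk)
  refine ⟨ξ, hdiff, hbd, ?_, ?_, ?_, ?_⟩
  · intro y hy
    rw [← hfix y hy 0 (Nat.zero_le _)]
    exact fluxSol_zero _ _ _
  · intro y hy
    rw [← hfix y hy (p + 1) le_rfl]
    exact fluxSol_last (H.flux_ok (hsub hy) (p + 1)) (Nat.succ_pos p) _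
  · intro y hy j hj
    have he := fluxSol_eq (H.flux_ok (hsub hy) (p + 1)) (ratN B f t₀ y (ξ y)) (j := j) (by omega)
    have e0 : fluxSol (p + 1) (fun i => ratC B f t₀ (ratPt t₀ y i)) (ratN B f t₀ y (ξ y)) j = ξ y j :=
      hfix y hy j (by omega)
    have e1 : fluxSol (p + 1) (fun i => ratC B f t₀ (ratPt t₀ y i)) (ratN B f t₀ y (ξ y)) (j + 1) = ξ y (j + 1) :=
      hfix y hy (j + 1) (by omega)
    have e2 : fluxSol (p + 1) (fun i => ratC B f t₀ (ratPt t₀ y i)) (ratN B f t₀ y (ξ y)) (j + 2) = ξ y (j + 2) :=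
      hfix y hy (j + 2) (by omega)
    rw [e0, e1, e2] at he
    have hG : ratG B f t₀ (ratPt t₀ y (j + 1)) (ξ y j, ξ y (j + 1), ξ y (j + 2)) = 0 := by
      have : ratN B f t₀ y (ξ y) j
          = ratA0 (fun i => ratC B f t₀ (ratPt t₀ y i)) (ξ y) j
            - ratG B f t₀ (ratPt t₀ y (j + 1)) (ξ y j, ξ y (j + 1), ξ y (j + 2)) := rfl
      rw [this] at he
      unfold ratA0 at he
      beta_reduce at he
      linear_combination he
    rw [ratG_eq] at hG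
    exact (mul_eq_zero.mp hG).resolve_left (H.deriv_ne (ratPt_mem t₀ (hsub hy) (j + 1)))
  · intro x j
    have hx : (x : ℂ) ∈ hstrip (s - δ) := rat_ofReal_mem H.sδ_pos x
    by_cases hj : j ≤ p + 1
    · have hη := huniq x hx (fun i => conj (ξ x i)) (fun i => by simpa using hbd x hx i)
        (fun i hi => by simp [hvan x i hi])
        (fun k hk => by
          have := H.T_conj (hsub hx) (ξ := ξ x) (fun i => (hbd x hx i).trans hρR) k
          rw [Complex.conj_ofReal] at this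
          rw [this, hfix x hx k hk]) j hj
      exact Complex.conj_eq_iff_im.mp hη
    · rw [hvan x j (by omega)]
      simp

end RatCtx

end Claimed.Agent.R269.S3
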