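/-
Row 269, Section 3, UNIT D (package BP-S3-D): THE FIRST COMPATIBILITY CONDITION.   Statement + plan: helper228.
Uses: Real.lean (IsChain, pIn, pOut), Glance.lean (pInC, pOutC), S3/Defs.lean, S3/Stmt.lean (Good, StRatSum), LibHol, LibCA.
The Dirichlet problem is that of P1 l.253-328 (03-joint.tex); the rest of P1 Lemma 3.4 is NOT needed.  This is the only place of Section 3 where the caustics
are used (`Good.closes`).

SETTING.  `f` a real-symmetric `κ`-slice on `hstrip s`,  `t₀ = rat l q = 2π l/q ∈ (0, s₁)`,  `|Es B f t₀| ≤ ε` on `hstrip s`.   `h = B.hc`.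
  `x_j(y) := f(y + j t₀)`,  `x'_j(y) := f'(y + j t₀)`;   `x_{j+q} = x_j + 2π l`.      `|f'| ∈ [mφ - κ, Mφ + κ]`,   `f y ∈ hstrip (σ/4 + κ)`.
  vertex defect  `rr(u,v,w) := pOutC h u v - pInC h v w`;   `rr(x_{j-1},x_j,x_{j+1}) = Rs h f t₀ (y + j t₀) = c t₀³ Es(y + j t₀)/x'_j`.
  PARTIAL DERIVATIVES (direct computation):  `∂_u pOutC h u v = S12 h u v`,   `∂_w pInC h v w = - S12 h v w`,
      `∂_u Sgen h u v = - pInC h u v`,   `∂_v Sgen h u v = pOutC h u v`;    everything is invariant under `(u,v) ↦ (u + 2π, v + 2π)`.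
  `c_j(y) := S12 h x_j x_{j+1} · x'_j x'_{j+1} = c t₀ · As B f t₀ (y + (j + 1/2) t₀)`,  so `|4 c_j/(c t₀) - 1| ≤ 1/10` (`Good.As_close`).

D1 (LINEAR ALGEBRA, host-free leaf).  For complex numbers `c_0..c_{q-1}` with `|c_j/γ - 1| ≤ 1/10` (`γ > 0`) and `F_1..F_{q-1}` there is a unique `ξ_0..ξ_q`,
   `ξ_0 = ξ_q = 0`,  `c_j(ξ_{j+1} - ξ_j) - c_{j-1}(ξ_j - ξ_{j-1}) = F_j` (`1 ≤ j ≤ q-1`), given by the flux formula
      `J_j = J_0 + ∑_{i=1}^{j} F_i`,   `ξ_k = ∑_{j<k} J_j/c_j`,   `J_0 = - (∑_j S_j/c_j)/(∑_j 1/c_j)`,  `S_j = ∑_{i=1}^j F_i`,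
   and `max|ξ| ≤ 3 q² max|F| / γ`.   (`|1/(1+e) - 1| ≤ 1/9`, so `|∑ γ/c_j| ≥ 8q/9`.)     The solution is a rational expression in `(c, F)`: holomorphic in parameters.
D2 (THE NONLINEAR MAP).  For `ξ = (ξ_j)`, `ξ_0 = ξ_q = 0`:  `X_j := x_j + x'_j ξ_j`,   `Φ_j(y,ξ) := x'_j · rr(X_{j-1}, X_j, X_{j+1})`,  `1 ≤ j ≤ q-1`.
   `Φ_j(y,0) = c t₀³ Es(y + j t₀)`, so `|Φ(y,0)| ≤ c t₀³ ε`.
   DERIVATIVE AT `ξ = 0`, as a function `g` of `(ξ_{j-1},ξ_j,ξ_{j+1}) ∈ ℂ³`:  `Dg(0)(1,0,0) = c_{j-1}`,  `Dg(0)(0,0,1) = c_j`,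
      `Dg(0)(1,1,1) = x'_j · d/dy [Rs h f t₀ (y + j t₀)] =: V_j`   (chain rule),   hence
      `Dg(0)(ξ_{j-1},ξ_j,ξ_{j+1}) = c_j(ξ_{j+1} - ξ_j) - c_{j-1}(ξ_j - ξ_{j-1}) + V_j ξ_j = (A₀ξ)_j + V_j ξ_j`.
   `|Rs| ≤ c t₀³ ε/(mφ - κ)` on `hstrip s`, so `|V_j| ≤ C t₀³ ε/δ` on `hstrip (s - δ)` (`strip_deriv_le`).
   `g` is holomorphic and bounded by a fixed `M₁` on the polydisc of a fixed radius `ϱ₁` (all arguments stay in `hstrip (σ/2)`, where `h`, `h'` are bounded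
   by Cauchy estimates from `B.hc_bdd`; `cos`, `sin` of bounded arguments).   `ca_second_lip` (sup norm on `Fin 3 → ℂ` or `ℂ × ℂ × ℂ`):
      `|N_j(ξ) - N_j(ξ')| ≤ (C₁ max(|ξ|,|ξ'|) + C₂ t₀³ ε/δ) |ξ - ξ'|`   for   `N(ξ) := A₀ξ - Φ(y,ξ)`.
D3 (FIXED POINT).  `T_y(ξ) := A₀⁻¹ N(ξ)` (D1 with `γ = c t₀/4`: `‖A₀⁻¹‖ ≤ 12 q²/(c t₀)`).   With `ρ := 24 q² t₀² ε` the map `T_y` preserves the ball of radius `ρ` and is a
   `1/2`-contraction if `C q⁴ t₀ ε ≤ 1` and `C q² t₀² ε/δ ≤ 1`.    `ca_fixed_point` on `U = hstrip (s - δ)`: holomorphic `ξ_j(y)`, `|ξ_j| ≤ ρ`, `Φ_j(y,ξ(y)) = 0`, i.e.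
   (as `x'_j ≠ 0`)  `rr(X_{j-1},X_j,X_{j+1}) = 0` for `1 ≤ j ≤ q-1`.     Uniqueness ⇒ `ξ_j(conj y) = conj ξ_j(y)`: real for real `y`.
D4 (CLOSING).  For real `y`: `θ_j := Re X_j(y)` is an `IsChain B.hR (4 Mφ s₁) q θ`:  steps `X_{j+1} - X_j ≥ (mφ - κ) t₀ - 2 (Mφ + κ) ρ > 0` and `≤ (Mφ+κ)(t₀ + 2ρ) < 4 Mφ s₁`
   (mean value theorem for the real function `f`; `f' ≥ mφ - κ` on `ℝ` because `φ' > 0` is real there and `|φ'| ≥ mφ`);  stationarity from D3 and the bridge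
   `pInC h (a:ℂ) (b:ℂ) = (pIn B.hR a b : ℂ)` (the same for `pOut`; `deriv` of the real restriction, cf. `prelim_rad`).   `θ_q = θ_0 + 2π l`.
   `Good.closes` ⇒ `pOutC h X_{q-1} X_q = pInC h X_0 X_1` for real `y`, hence on `hstrip (s - δ)` (identity theorem: both sides holomorphic, strip connected).
D5 (ACTION).  `W_x(y) := ∑_{j<q} Sgen h x_j x_{j+1}`,  `W_X(y) := ∑_{j<q} Sgen h X_j X_{j+1}`.
   `W_X' = ∑_{j=1}^{q-1} rr_j(X) X'_j + (pOutC h X_{q-1} X_q - pInC h X_0 X_1) X'_0 = 0`     (`X_q = X_0 + 2π l`, `X_0 = x_0`),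
   `W_x' = ∑_{j<q} x'_j Rs(y + j t₀) = c t₀³ · osum q t₀ (Es B f t₀) y`      (reindexing with `x_{j+q} = x_j + 2π l`).
   `|W_x - W_X| ≤ C q ρ²`:  `D(λ) := ∑_{j<q} Sgen h (X_j + λ η_j) (X_{j+1} + λ η_{j+1})`, `η = x - X`, `η_0 = η_q = 0`, is holomorphic and bounded by `q M₂` for `|λ| < R = ϱ₁/|η|_∞`,
   `D'(0) = ∑_{j=1}^{q-1} rr_j(X) η_j = 0`;   `ca_second_order` gives `|D 1 - D 0| ≤ 2 q M₂ |η|²/ϱ₁²`.
   `strip_deriv_le` on `hstrip (s - δ)`:  `|c t₀³ osum| = |(W_x - W_X)'| ≤ C q ρ²/δ` on `hstrip (s - 2δ)`,   and  `ρ²/t₀³ = 576 q⁴ t₀ ε²`.   QED.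
THE CUT (helper237, 09:50 UTC).  `ratsum_main` is PROVED below from the leaves (exact statements + plans in the headers of the files):
   RatFlux.lean  LF-S3-D1 (flux formula, host-free)         RatGen.lean   LF-S3-Dg (calculus along curves), LF-S3-Df (identity theorem on strips, fixed point for finite sequences)
   RatSlice.lean LF-S3-Ds1, LF-S3-Ds2 (slice facts)          RatLoc.lean   LF-S3-D2a, D2b, D2c (vertex map, its derivative, Lipschitz bound of N)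
   RatFix.lean   LF-S3-D3a, D3b (holomorphy, reality of T; the fixed point glue is proved)        RatClose.lean LF-S3-D4a, D4b, D5a, D5b, D5c.
   Definitions: RatDefs.lean (`RatCtx` = standing hypotheses with `q = p+1`, `RatSol` = output of D3).
-/
import Claimed.Agent.R269.S3.RatFix
import Claimed.Agent.R269.S3.RatClose

set_option autoImplicit false

namespace Claimed.Agent.R269.S3

open Real Complex ComplexConjugate

/-- **D5, conclusion**: the orbit sum is bounded by `ρ²`. -/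
theorem RatCtx.main {B : Base} {s₁ κ K Cg s δ ε t₀ : ℝ} {f : ℂ → ℂ} {l p : ℕ}
    (H : RatCtx B s₁ κ K Cg s δ ε t₀ f l p) {ρ : ℝ} (hρ : ρ = 24 * ((p : ℝ) + 1) ^ 2 * t₀ ^ 2 * ε)
    (h1 : ρ < ratRad B κ / 8)
    (h2 : 3 * ((p : ℝ) + 1) ^ 2 * ratLam B κ Cg δ ε t₀ ρ / (B.c * t₀ / 4) ≤ 1 / 2)
    (h3 : 2 * ratL B κ * ρ < (B.mφ - κ) * t₀) (h4 : 2 * ρ ≤ t₀) :
    ∀ y ∈ hstrip (s - 2 * δ), ‖osum (p + 1) t₀ (Es B f t₀) y‖
      ≤ 512 * ((p : ℝ) + 1) * Cg * ratL B κ ^ 2 * ρ ^ 2 / B.σ ^ 2 / δ / (B.c * t₀ ^ 3) := by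
  obtain ⟨ξ, hS⟩ := H.exists_sol hρ h1 h2
  have hc := B.c_pos
  have ht := H.t_pos
  have hsub : hstrip (s - δ) ⊆ hstrip s := rat_hstrip_mono (by linarith [H.δ_pos])
  have h5 : ρ ≤ ratRad B κ := by linarith [H.rad_pos]
  have h6 : 32 * ratL B κ * ρ ≤ B.σ := by
    have := mul_lt_mul_of_pos_left h1 H.L_pos
    have e : ratL B κ * (ratRad B κ / 8) = B.σ / 64 := by rw [mul_div_assoc', H.L_mul_rad]; ring
    rw [e] at this
    have := B.σ_pos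
    linarith
  have hcl := H.close hS h3 h4 h5
  have hG : ∀ y ∈ hstrip (s - δ), HasDerivAt
      (fun x => ratW B.hc (p + 1) (fun j => f (ratPt t₀ x j)) - ratW B.hc (p + 1) (ratX f t₀ (ξ x) x))
      (B.c * (t₀ : ℂ) ^ 3 * osum (p + 1) t₀ (Es B f t₀) y) y := by
    intro y hy
    have := (H.Wx_deriv (hsub hy)).sub (H.WX_deriv hS h5 hcl hy)
    rwa [sub_zero] at this
  have hGd : DifferentiableOn ℂ
      (fun x => ratW B.hc (p + 1) (fun j => f (ratPt t₀ x j)) - ratW B.hc (p + 1) (ratX f t₀ (ξ x) x))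
      (hstrip (s - δ)) := fun y hy => (hG y hy).differentiableAt.differentiableWithinAt
  have hd := strip_deriv_le H.δ_pos hGd (fun y hy => H.W_quad hS h6 hy)
  intro y hy
  have hy' : y ∈ hstrip (s - δ - δ) := by
    have : s - δ - δ = s - 2 * δ := by ring
    rwa [this]
  have hy'' : y ∈ hstrip (s - δ) := rat_hstrip_mono (by linarith [H.δ_pos]) hy'
  have h := hd y hy'
  rw [(hG y hy'').deriv, norm_mul, norm_mul, norm_pow, Complex.norm_real, Complex.norm_real,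
    Real.norm_of_nonneg hc.le, Real.norm_of_nonneg ht.le] at h
  rw [le_div_iff₀ (by positivity)]
  linarith

/-- the constant of unit D. -/
noncomputable def ratConst (B : Base) (κ Cg : ℝ) : ℝ :=
  384 / ratRad B κ + 2 * (288 * (32 * (2 * ratL B κ * Cg) / ratRad B κ ^ 2) / B.c + 12 * ratL B κ / (B.mφ - κ))
    + 96 * ratL B κ / (B.mφ - κ) + 48 + 512 * 576 * Cg * ratL B κ ^ 2 / (B.σ ^ 2 * B.c)

/-- the smallness conditions and the final bound, in terms of `X = Q⁶ ε`. -/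
theorem RatCtx.final {B : Base} {s₁ κ K Cg s δ ε t₀ : ℝ} {f : ℂ → ℂ} {l p : ℕ}
    (H : RatCtx B s₁ κ K Cg s δ ε t₀ f l p)
    (hsm : ratConst B κ Cg * (((p : ℝ) + 1) + δ⁻¹) ^ 6 * ε ≤ 1) :
    ∀ y ∈ hstrip (s - 2 * δ), ‖osum (p + 1) t₀ (Es B f t₀) y‖
      ≤ ratConst B κ Cg * (((p : ℝ) + 1) + δ⁻¹) ^ 6 * ε ^ 2 := by
  have hc := B.c_pos
  have hσ := B.σ_pos
  have ht := H.t_pos
  have ht1 := H.t_le_one
  have hε := H.ε_nonneg
  have hδ := H.δ_pos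
  have hL := H.L_pos
  have hm := H.m_pos
  have hR := H.rad_pos
  have hCg : 0 < Cg := lt_of_lt_of_le zero_lt_one H.Cg_ge
  set q' : ℝ := (p : ℝ) + 1 with hq'
  have hq1 : 1 ≤ q' := by rw [hq']; have : (0 : ℝ) ≤ p := Nat.cast_nonneg p; linarith
  have hdi : 0 < δ⁻¹ := inv_pos.mpr hδ
  set Q : ℝ := q' + δ⁻¹ with hQ
  have hQ1 : 1 ≤ Q := by linarith
  have hqQ : q' ≤ Q := by linarith
  have hdQ : δ⁻¹ ≤ Q := by linarith
  set X : ℝ := Q ^ 6 * ε with hX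
  have hX0 : 0 ≤ X := by positivity
  -- the five terms of the constant
  set T1 : ℝ := 384 / ratRad B κ with hT1
  set C1 : ℝ := 32 * (2 * ratL B κ * Cg) / ratRad B κ ^ 2 with hC1
  set T2 : ℝ := 2 * (288 * C1 / B.c + 12 * ratL B κ / (B.mφ - κ)) with hT2
  set T3 : ℝ := 96 * ratL B κ / (B.mφ - κ) with hT3
  set T5 : ℝ := 512 * 576 * Cg * ratL B κ ^ 2 / (B.σ ^ 2 * B.c) with hT5
  have hCdef : ratConst B κ Cg = T1 + T2 + T3 + 48 + T5 := rfl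
  have hT1p : 0 ≤ T1 := by positivity
  have hC1p : 0 ≤ C1 := by positivity
  have hT2p : 0 ≤ T2 := by positivity
  have hT3p : 0 ≤ T3 := by positivity
  have hT5p : 0 ≤ T5 := by positivity
  have hCX : (T1 + T2 + T3 + 48 + T5) * X ≤ 1 := by
    rw [← hCdef, hX, ← mul_assoc]; exact hsm
  have b1 : T1 * X ≤ 1 := (mul_le_mul_of_nonneg_right (by linarith) hX0).trans hCX
  have b2 : T2 * X ≤ 1 := (mul_le_mul_of_nonneg_right (by linarith) hX0).trans hCX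
  have b3 : T3 * X ≤ 1 := (mul_le_mul_of_nonneg_right (by linarith) hX0).trans hCX
  have b4 : 48 * X ≤ 1 := (mul_le_mul_of_nonneg_right (by linarith) hX0).trans hCX
  -- monomials
  have pw : ∀ a : ℕ, a ≤ 6 → Q ^ a ≤ Q ^ 6 := fun a ha => pow_le_pow_right₀ hQ1 ha
  have m2 : q' ^ 2 * ε ≤ X := by
    apply mul_le_mul_of_nonneg_right _ hε
    exact (pow_le_pow_left₀ (by linarith) hqQ 2).trans (pw 2 (by norm_num))
  have m4 : q' ^ 4 * ε ≤ X := by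
    apply mul_le_mul_of_nonneg_right _ hε
    exact (pow_le_pow_left₀ (by linarith) hqQ 4).trans (pw 4 (by norm_num))
  have m3 : q' ^ 2 * δ⁻¹ * ε ≤ X := by
    apply mul_le_mul_of_nonneg_right _ hε
    calc q' ^ 2 * δ⁻¹ ≤ Q ^ 2 * Q := by
          apply mul_le_mul (pow_le_pow_left₀ (by linarith) hqQ 2) hdQ hdi.le (by positivity)
      _ = Q ^ 3 := by ring
      _ ≤ Q ^ 6 := pw 3 (by norm_num)
  have m6 : q' ^ 5 * δ⁻¹ ≤ Q ^ 6 := by
    calc q' ^ 5 * δ⁻¹ ≤ Q ^ 5 * Q := by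
          apply mul_le_mul (pow_le_pow_left₀ (by linarith) hqQ 5) hdQ hdi.le (by positivity)
      _ = Q ^ 6 := by ring
  -- ρ
  set ρ : ℝ := 24 * q' ^ 2 * t₀ ^ 2 * ε with hρ
  have hρt : ρ ≤ 24 * X * t₀ := by
    have e : ρ = 24 * (q' ^ 2 * ε) * t₀ * t₀ := by rw [hρ]; ring
    rw [e]
    have h1 : 24 * (q' ^ 2 * ε) * t₀ * t₀ ≤ 24 * (q' ^ 2 * ε) * t₀ * 1 := by
      apply mul_le_mul_of_nonneg_left ht1; positivity
    have h2 : 24 * (q' ^ 2 * ε) * t₀ ≤ 24 * X * t₀ := by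
      apply mul_le_mul_of_nonneg_right _ ht.le; linarith
    linarith
  have hρX : ρ ≤ 24 * X := by
    have : 24 * X * t₀ ≤ 24 * X * 1 := by apply mul_le_mul_of_nonneg_left ht1; positivity
    linarith
  have h1 : ρ < ratRad B κ / 8 := by
    have : 384 * X ≤ ratRad B κ := by
      have := b1; rw [hT1, div_mul_eq_mul_div, div_le_one hR] at this; exact this
    linarith
  have h3 : 2 * ratL B κ * ρ < (B.mφ - κ) * t₀ := by
    have e : 96 * ratL B κ * X ≤ B.mφ - κ := by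
      have := b3; rw [hT3, div_mul_eq_mul_div, div_le_one hm] at this; exact this
    have h' : 2 * ratL B κ * ρ ≤ 2 * ratL B κ * (24 * X * t₀) := by
      apply mul_le_mul_of_nonneg_left hρt; positivity
    have h'' : 2 * ratL B κ * (24 * X * t₀) = (96 * ratL B κ * X) / 2 * t₀ := by ring
    have h''' : (96 * ratL B κ * X) / 2 * t₀ ≤ (B.mφ - κ) / 2 * t₀ := by
      apply mul_le_mul_of_nonneg_right _ ht.le; linarith
    have : (B.mφ - κ) / 2 * t₀ < (B.mφ - κ) * t₀ := by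
      apply mul_lt_mul_of_pos_right _ ht; linarith
    linarith
  have h4 : 2 * ρ ≤ t₀ := by
    have : 48 * X * t₀ ≤ 1 * t₀ := mul_le_mul_of_nonneg_right b4 ht.le
    linarith
  have h2 : 3 * q' ^ 2 * ratLam B κ Cg δ ε t₀ ρ / (B.c * t₀ / 4) ≤ 1 / 2 := by
    have e : 3 * q' ^ 2 * ratLam B κ Cg δ ε t₀ ρ / (B.c * t₀ / 4)
        = 288 * C1 / B.c * (q' ^ 4 * ε) * t₀
          + 12 * ratL B κ / (B.mφ - κ) * (q' ^ 2 * δ⁻¹ * ε) * t₀ ^ 2 := by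
      unfold ratLam
      rw [← hC1, hρ]
      field_simp
      ring
    rw [e]
    have a1 : 288 * C1 / B.c * (q' ^ 4 * ε) * t₀ ≤ 288 * C1 / B.c * X := by
      have : 288 * C1 / B.c * (q' ^ 4 * ε) * t₀ ≤ 288 * C1 / B.c * (q' ^ 4 * ε) * 1 := by
        apply mul_le_mul_of_nonneg_left ht1; positivity
      have : 288 * C1 / B.c * (q' ^ 4 * ε) ≤ 288 * C1 / B.c * X := by
        apply mul_le_mul_of_nonneg_left m4; positivity
      linarith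
    have a2 : 12 * ratL B κ / (B.mφ - κ) * (q' ^ 2 * δ⁻¹ * ε) * t₀ ^ 2 ≤ 12 * ratL B κ / (B.mφ - κ) * X := by
      have ht2 : t₀ ^ 2 ≤ 1 := pow_le_one₀ ht.le ht1
      have : 12 * ratL B κ / (B.mφ - κ) * (q' ^ 2 * δ⁻¹ * ε) * t₀ ^ 2
          ≤ 12 * ratL B κ / (B.mφ - κ) * (q' ^ 2 * δ⁻¹ * ε) * 1 := by
        apply mul_le_mul_of_nonneg_left ht2; positivity
      have : 12 * ratL B κ / (B.mφ - κ) * (q' ^ 2 * δ⁻¹ * ε) ≤ 12 * ratL B κ / (B.mφ - κ) * X := by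
        apply mul_le_mul_of_nonneg_left m3; positivity
      linarith
    have : T2 * X = 2 * (288 * C1 / B.c * X + 12 * ratL B κ / (B.mφ - κ) * X) := by rw [hT2]; ring
    linarith
  intro y hy
  refine (H.main hρ h1 h2 h3 h4 y hy).trans ?_
  have e : 512 * q' * Cg * ratL B κ ^ 2 * ρ ^ 2 / B.σ ^ 2 / δ / (B.c * t₀ ^ 3)
      = T5 * (q' ^ 5 * δ⁻¹) * t₀ * ε ^ 2 := by
    rw [hT5, hρ]
    field_simp
    ring
  rw [e, hCdef]
  have a1 : T5 * (q' ^ 5 * δ⁻¹) * t₀ * ε ^ 2 ≤ T5 * (q' ^ 5 * δ⁻¹) * 1 * ε ^ 2 := by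
    apply mul_le_mul_of_nonneg_right _ (by positivity)
    apply mul_le_mul_of_nonneg_left ht1; positivity
  have a2 : T5 * (q' ^ 5 * δ⁻¹) * 1 * ε ^ 2 ≤ T5 * Q ^ 6 * ε ^ 2 := by
    apply mul_le_mul_of_nonneg_right _ (by positivity)
    rw [mul_one]
    apply mul_le_mul_of_nonneg_left m6 hT5p
  have a3 : T5 * Q ^ 6 * ε ^ 2 ≤ (T1 + T2 + T3 + 48 + T5) * Q ^ 6 * ε ^ 2 := by
    apply mul_le_mul_of_nonneg_right _ (by positivity)
    apply mul_le_mul_of_nonneg_right _ (by positivity)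
    linarith
  linarith

/-- **Unit D.** -/
theorem ratsum_main (B : Base) (s₁ κ K : ℝ) (hG : Good B s₁ κ K) : StRatSum B s₁ κ := by
  obtain ⟨Cg, hCg1, -, hgen⟩ := gen_bounds B.σ_pos B.hc_diff B.hc_bdd (ratL B κ + B.σ)
  refine ⟨ratConst B κ Cg, 6, ?_⟩
  intro s δ ε f l q hs hδ hδs hsl hreal hl hq ht hε herr hsmall
  obtain ⟨p, rfl⟩ : ∃ p, q = p + 1 := ⟨q - 1, by omega⟩
  have ht0 : 0 < rat l (p + 1) := by
    unfold rat
    have : (0 : ℝ) < l := by exact_mod_cast hl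
    positivity
  have H : RatCtx B s₁ κ K Cg s δ ε (rat l (p + 1)) f l p :=
    { good := hG
      Cg_ge := hCg1
      gen := fun u v h1 h2 => ⟨(hgen u v h1 h2).1, (hgen u v h1 h2).2.1, (hgen u v h1 h2).2.2.1⟩
      s_le := hs
      δ_pos := hδ
      δ_lt := hδs
      slice := hsl
      real := hreal
      t_pos := ht0
      t_lt := ht
      t_q := by
        unfold rat
        push_cast
        field_simp
      ε_nonneg := hε
      err := herr }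
  have hcast : ((p + 1 : ℕ) : ℝ) = (p : ℝ) + 1 := by push_cast; ring
  rw [hcast] at hsmall ⊢
  exact H.final hsmall

end Claimed.Agent.R269.S3
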