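/-
Row 269, Section 3, UNIT F: the Newton step (P1 Prop 3.3) from units C, D, E, K.   Owner: helper228.
`newton_main` is PROVED here from the steps N0-N5 of S3/NewtonSteps.lean and the unit exports D, E, K.

PLAN (widths `s_j = s - jδ`, radii `d_j = d (1 - jδ)`, `P = C Q^b`).
 1. FIRST DIVISION.  `F = -E` on `𝒟¹(s,d)`, `M = ε`, mean zero (`Good.Es_mean`).  Nodes `t = 2π j/n`, `|n| ≤ N`, `|t| < d_1`: `StRatSum` for the slice `Θ(·,|t|)`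
    with `(l,q) = (|j|,|n|)` + evenness (`osum_neg`) + `fc_le_of_osum` give `|E_n(t)| ≤ Pε² e^{-|n| s_2}`.   `StDivision` (`ν = 1`, `s' = s_2`, `r = δ d`, `d' = d_1`):
    `h` on `𝒟^{1/2}(s_3,d_2)`, `|h| ≤ Pε`,  `ρ := -(∂h + E)`, `|ρ| ≤ Pε²` on `𝒟¹(s_3,d_2)`,  `h(·,0) = 0`, symmetric.
 2. `b := (h + λ)/a`, `λ(t) := - mean(h/a)/mean(1/a)`: holomorphic (`fc_hol`), symmetric, mean zero, `|b| ≤ Pε` on `𝒟^{1/2}(s_3,d_2)`,  `b(·,0) = 0`.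
 3. SECOND COMPATIBILITY.  Nodes `|t₀| < d_3`: `StCompat` on `Wd s_4 t₀ r₀`, `r₀ = δ t₀/2`, with `E, h, ρ, a = A B Θ, z = zz Θ` (`Good.symp`): orbit sums of `b` are `≤ Pε²` on `hstrip s_14`.
 4. SECOND DIVISION (`ν = 1/2`, `s' = s_14`, `d = d_2`, `d' = d_3`, `r = δ d`): `v` on `𝒟⁰(s_15,d_4)`, `|v| ≤ Pε`, `|∂v - b| ≤ Pε²` on `𝒟^{1/2}(s_15,d_4)`, `v(·,0) = 0`.
 5. `E + ∂(a∂v) = -ρ + ∂(a(∂v - b))` (`∂λ = 0`), `≤ Pε²` on `𝒟¹(s_16,d_4)` (`bd_dy`, `bd_dd`).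
 6. `Δ := Θ_y v`;  `Good.lin`, `Good.Es_rem` on slices, `(E v)_y = O(Pε²)`;  `t = 0` by continuity (`bd_of_ne_zero`, `Good.E_hol`).
-/
import Claimed.Agent.R269.S3.RatSum
import Claimed.Agent.R269.S3.Division
import Claimed.Agent.R269.S3.Compat
import Claimed.Agent.R269.S3.NewtonSteps
import Claimed.Agent.R269.S3.Basic
import Claimed.Agent.R269.S3.Poly

set_option autoImplicit false

namespace Claimed.Agent.R269.S3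

open Real Complex ComplexConjugate

/-- **Unit F.** -/
theorem newton_main (B : Base) (s₁ κ K : ℝ) (hG : Good B s₁ κ K) : StNewton B s₁ κ := by
  obtain ⟨CD0, bD, hD0⟩ := ratsum_main B s₁ κ K hG
  obtain ⟨CE0, bE, hE0⟩ := division_main
  obtain ⟨CK0, bK, hK0⟩ := compat_main
  obtain ⟨L, hL, hLs⟩ := slice_C3 B
  obtain ⟨CD, hCD, hD⟩ : ∃ CD : ℝ, 0 ≤ CD ∧ RatSumC B s₁ κ CD bD :=
    ⟨max CD0 0, le_max_right _ _, hD0.mono (le_max_left _ _)⟩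
  obtain ⟨CE, hCE, hE⟩ : ∃ CE : ℝ, 0 ≤ CE ∧ DivisionC CE bE :=
    ⟨max CE0 0, le_max_right _ _, hE0.mono (le_max_left _ _)⟩
  obtain ⟨CK, hCK, hK⟩ : ∃ CK : ℝ, 0 ≤ CK ∧ CompatC CK bK :=
    ⟨max CK0 0, le_max_right _ _, hK0.mono (le_max_left _ _)⟩
  have hκ := hG.κ_pos
  have hK1 := hG.K_ge
  -- the cost functions
  obtain ⟨PE, hPE⟩ : ∃ PE : ℝ → ℝ, PE = fun Q => CD * Q ^ bD := ⟨_, rfl⟩
  obtain ⟨Ph, hPh⟩ : ∃ Ph : ℝ → ℝ, Ph = fun Q => 2 * CE * Q ^ bE := ⟨_, rfl⟩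
  obtain ⟨Pρ, hPρ⟩ : ∃ Pρ : ℝ → ℝ, Pρ = fun Q => CE * Q ^ bE * (PE Q + 1) := ⟨_, rfl⟩
  obtain ⟨P, hP⟩ : ∃ P : ℝ → ℝ, P = fun Q => 1 + 2 * Ph Q + Pρ Q + PE Q + Q ^ 2 := ⟨_, rfl⟩
  obtain ⟨η₂, hη₂⟩ : ∃ η₂ : ℝ → ℝ, η₂ = fun Q => CK * (P Q + 2 * Q + Q ^ 2) ^ bK := ⟨_, rfl⟩
  obtain ⟨Pv, hPv⟩ : ∃ Pv : ℝ → ℝ, Pv = fun Q => CE * Q ^ bE * (15 * Ph Q + 1) := ⟨_, rfl⟩
  obtain ⟨Pw, hPw⟩ : ∃ Pw : ℝ → ℝ, Pw = fun Q => CE * Q ^ bE * (η₂ Q + 15 * Ph Q) := ⟨_, rfl⟩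
  obtain ⟨PΔ, hPΔ⟩ : ∃ PΔ : ℝ → ℝ, PΔ = fun Q => 6 * L * Pv Q * Q ^ 3 := ⟨_, rfl⟩
  obtain ⟨Pe, hPe⟩ : ∃ Pe : ℝ → ℝ, Pe = fun Q => Pρ Q + Pw Q * Q + Pv Q * Q + K * PΔ Q ^ 2 := ⟨_, rfl⟩
  have pPE : PolyBd PE := by rw [hPE]; exact PolyBd.mono _ _
  have pPh : PolyBd Ph := by rw [hPh]; exact PolyBd.mono _ _
  have pCE : PolyBd (fun Q => CE * Q ^ bE) := PolyBd.mono _ _
  have pPρ : PolyBd Pρ := by rw [hPρ]; exact pCE.mul (pPE.add (PolyBd.const 1))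
  have pP : PolyBd P := by
    rw [hP]
    exact ((((PolyBd.const 1).add (pPh.const_mul 2)).add pPρ).add pPE).add (PolyBd.id.pow 2)
  have pη₂ : PolyBd η₂ := by
    rw [hη₂]
    exact (((pP.add (PolyBd.id.const_mul 2)).add (PolyBd.id.pow 2)).pow bK).const_mul CK
  have pPv : PolyBd Pv := by rw [hPv]; exact pCE.mul ((pPh.const_mul 15).add (PolyBd.const 1))
  have pPw : PolyBd Pw := by rw [hPw]; exact pCE.mul (pη₂.add (pPh.const_mul 15))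
  have pPΔ : PolyBd PΔ := by
    rw [hPΔ]
    exact (pPv.const_mul (6 * L)).mul (PolyBd.id.pow 3)
  have pPe : PolyBd Pe := by
    rw [hPe]
    exact ((pPρ.add (pPw.mul PolyBd.id)).add (pPv.mul PolyBd.id)).add ((pPΔ.pow 2).const_mul K)
  have pG : PolyBd (fun Q => PE Q + η₂ Q + 2 / κ * PΔ Q + PΔ Q + Pe Q) :=
    (((pPE.add pη₂).add (pPΔ.const_mul (2 / κ))).add pPΔ).add pPe
  obtain ⟨C, b, hC, hCb⟩ := pG.le
  refine ⟨C, b, ?_⟩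
  intro s d δ ε N Θ hS hsm
  have hδ := hS.δ_pos
  have hε := hS.ε_pos
  have hQ : 1 ≤ QQ N δ := one_le_QQ N hδ
  obtain ⟨Q, hQdef⟩ : ∃ Q : ℝ, Q = QQ N δ := ⟨_, rfl⟩
  rw [← hQdef] at hsm hQ
  have hQ0 : 0 ≤ Q := by linarith
  -- nonnegativity
  have nPE : 0 ≤ PE Q := by rw [hPE]; positivity
  have nPh : 0 ≤ Ph Q := by rw [hPh]; positivity
  have nPρ : 0 ≤ Pρ Q := by rw [hPρ]; positivity
  have nP : 0 ≤ P Q := by rw [hP]; positivity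
  have nη₂ : 0 ≤ η₂ Q := by rw [hη₂]; positivity
  have nPv : 0 ≤ Pv Q := by rw [hPv]; positivity
  have nPw : 0 ≤ Pw Q := by rw [hPw]; positivity
  have nPΔ : 0 ≤ PΔ Q := by rw [hPΔ]; positivity
  have nPe : 0 ≤ Pe Q := by rw [hPe]; positivity
  have nκ : 0 ≤ 2 / κ * PΔ Q := by positivity
  have hGQ := hCb Q hQ
  have small : ∀ g : ℝ, g ≤ PE Q + η₂ Q + 2 / κ * PΔ Q + PΔ Q + Pe Q → g * ε ≤ 1 := fun g hg =>
    (mul_le_mul_of_nonneg_right (hg.trans hGQ) hε.le).trans hsm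
  have sPE : PE Q * ε ≤ 1 := small _ (by linarith)
  have sη₂ : η₂ Q * ε ≤ 1 := small _ (by linarith)
  have sPΔ : 2 / κ * PΔ Q * ε ≤ 1 := small _ (by linarith)
  have hs0 : s ≤ B.s₀ := by
    have h1 := hS.s_le
    have h2 := hG.s₁_le
    have h3 := hG.s₁_pos
    linarith
  -- the steps
  have hos : OsumBd (E B Θ) N (s - 2 * δ) d (PE Q * ε ^ 2) := by
    have := newton_osumE hG hCD hD hS (by rw [← hQdef]; simpa [hPE] using sPE)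
    rw [← hQdef] at this
    simpa [hPE] using this
  obtain ⟨h, hh⟩ := newton_div1 hG hCE hE hS nPE sPE hos
  rw [← hQdef] at hh
  have hh' : Div1 B Θ s d δ ε (Ph Q) (Pρ Q) h := by simpa [hPh, hPρ] using hh
  have hm : Mid2 B Θ s d δ ε (Ph Q) h := newton_mid hG hS nPh hh'
  have hos2 : OsumBd (bF (A B Θ) h) N (s - 14 * δ) (d * (1 - 3 * δ)) (η₂ Q * ε ^ 2) := by
    have hPQ : P Q = 1 + 2 * Ph Q + Pρ Q + PE Q + Q ^ 2 := by rw [hP]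
    have hQ2 : 0 ≤ Q ^ 2 := by positivity
    have := newton_compat hG hCK hK hS (P := P Q) hh' hm hos (by linarith) (by linarith) (by linarith)
      (by linarith) (by rw [← hQdef]; linarith) nPh (by rw [← hQdef]; simpa [hη₂] using sη₂)
    rw [← hQdef] at this
    simpa [hη₂] using this
  obtain ⟨v, hv⟩ := newton_div2 hG hCE hE hS nPh hm nη₂ sη₂ hos2
  rw [← hQdef] at hv
  have hv' : Div2 B Θ s d δ ε (Pv Q) (Pw Q) h v := by simpa [hPv, hPw] using hv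
  have hLb : ∀ z ∈ Dom 0 s d, ‖dy Θ z.1 z.2‖ ≤ L := by
    intro z hz
    have hsl : Slice B s (2 * κ) (fun x => Θ x z.2) :=
      (hS.cand.slice hs0 hz.1).mono le_rfl (by linarith)
    have hz1 : z.1 ∈ hstrip s := by
      have := hz.2
      simpa [hstrip] using this
    exact (hLs s₁ κ hG.pre s hS.s_le _ hsl z.1 hz1).1
  have hPΔQ : PΔ Q = 6 * L * Pv Q * Q ^ 3 := by rw [hPΔ]
  have hsmΔ : 6 * L * Pv Q * QQ N δ ^ 3 * ε ≤ κ / 2 := by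
    rw [← hQdef, ← hPΔQ]
    have h1 : 2 / κ * PΔ Q * ε = (PΔ Q * ε) * (2 / κ) := by ring
    rw [h1, mul_div_assoc', div_le_one hκ] at sPΔ
    linarith
  obtain ⟨f1, f2, f3, f4, f5⟩ := newton_final hG hS hL hLb nPv nPw nPρ hh' hm hv' hsmΔ
  rw [← hQdef, ← hPΔQ] at f4 f5
  have hd := hS.d_pos
  have sub0 : Dom 0 (s - 20 * δ) (d * (1 - 20 * δ)) ⊆ Dom 0 (s - 16 * δ) (d * (1 - 4 * δ)) :=
    Dom_mono le_rfl (by linarith) (by nlinarith)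
  have sub1 : Dom 1 (s - 20 * δ) (d * (1 - 20 * δ)) ⊆ Dom 1 (s - 16 * δ) (d * (1 - 4 * δ)) :=
    Dom_mono le_rfl (by linarith) (by nlinarith)
  refine ⟨fun y t => dy Θ y t * v y t, f1.mono sub0, f2.mono sub0,
    fun y hy => f3 y (hstrip_mono (by linarith) hy), f4.mono sub0 ?_, f5.mono sub1 ?_⟩
  · rw [← hQdef]
    have h1 : PΔ Q ≤ C * Q ^ b := by linarith
    exact mul_le_mul_of_nonneg_right h1 hε.le
  · have hPeQ : Pe Q = Pρ Q + Pw Q * Q + Pv Q * Q + K * PΔ Q ^ 2 := by rw [hPe]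
    rw [← hPeQ, ← hQdef]
    have h1 : Pe Q ≤ C * Q ^ b := by linarith
    exact mul_le_mul_of_nonneg_right h1 (by positivity)

end Claimed.Agent.R269.S3
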