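/-
Row 269, Section 3, UNIT H: convergence of the Newton scheme.   Owner: helper228.

`Good B s₁ κ K`, `(C,b)` from `StNewton`.   `s_i = s₁ - (s₁/10)(1 - 2^{-i})`, `δ_i = 2^{-i} s₁/400`, `d_{i+1} = d_i (1 - 20 δ_i) ≥ 9 d_0/10`, `4 d_0 ≤ s₁`,
 errors `exp(-x_i)`, `x_i = a (3/2)^i`,  `N_i := ⌈x_i/δ_i⌉`, so `Q_i ≤ c₁ x_i³`.   `a` is so large that `C (c₁ x³)^b e^{-x/2} ≤ 1` and `2 x² e^{-x/2} ≤ κ` for `x ≥ a` (ConvNum);
 `K d_0 ≤ e^{-a}`;  `Θ_0 = φ` (`Good.Es_phi`).   Induction: ConvStep.   Limit on `𝒟⁰(s₁/2, d_0/2)`: ConvLim.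
-/
import Claimed.Agent.R269.S3.Factor
import Claimed.Agent.R269.S3.Newton
import Claimed.Agent.R269.S3.ConvLim

set_option autoImplicit false

namespace Claimed.Agent.R269.S3

theorem NewtonC.mono {B : Base} {s₁ κ C C' : ℝ} {b : ℕ} (h : NewtonC B s₁ κ C b) (hC : C ≤ C') :
    NewtonC B s₁ κ C' b := by
  intro s d δ ε N Θ hS hsm
  have hQ : 0 ≤ QQ N δ ^ b := by
    have := one_le_QQ N hS.δ_pos
    positivity
  have hε := hS.ε_pos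
  have e1 : C * QQ N δ ^ b * ε ≤ C' * QQ N δ ^ b * ε := by gcongr
  have e2 : C * QQ N δ ^ b * ε ^ 2 ≤ C' * QQ N δ ^ b * ε ^ 2 := by gcongr
  obtain ⟨Δ, r1, r2, r3, r4, r5⟩ := h s d δ ε N Θ hS (e1.trans hsm)
  exact ⟨Δ, r1, r2, r3, fun j hj z hz => (r4 j hj z hz).trans e1, r5.mono subset_rfl e2⟩

/-- **Unit H.** -/
theorem conv_main (B : Base) : StMain B := by
  obtain ⟨s₁, κ, K, hG⟩ := factor_main B
  obtain ⟨C0, b, hN0⟩ := newton_main B s₁ κ K hG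
  have hN : NewtonC B s₁ κ (max C0 0) b := hN0.mono (le_max_left _ _)
  have hC : 0 ≤ max C0 0 := le_max_right _ _
  have hs := hG.s₁_pos
  have hκ := hG.κ_pos
  have hK := hG.K_ge
  obtain ⟨a, ha, hm⟩ := conv_master (max C0 0) (2 + 2 / (s₁ / 400)) κ b hκ
  obtain ⟨d₀, hd₀def⟩ : ∃ d₀, d₀ = min (Real.exp (-a) / K) (s₁ / 4) := ⟨_, rfl⟩
  have hd₀ : 0 < d₀ := by
    rw [hd₀def]
    exact lt_min (div_pos (Real.exp_pos _) (by linarith)) (by linarith)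
  have hd₀' : d₀ ≤ s₁ / 4 := hd₀def ▸ min_le_right _ _
  have hKd : K * d₀ ≤ Real.exp (-a) := by
    have : d₀ ≤ Real.exp (-a) / K := hd₀def ▸ min_le_left _ _
    rw [le_div_iff₀ (by linarith)] at this
    linarith
  -- the sequence
  have hstep := inv_succ hG hC hN hd₀ hd₀' ha hm
  let seq : (i : ℕ) → {Θ : ℂ → ℂ → ℂ // Inv B s₁ κ d₀ a i Θ} := fun i =>
    Nat.rec (motive := fun i => {Θ : ℂ → ℂ → ℂ // Inv B s₁ κ d₀ a i Θ})
      ⟨fun y _ => B.φ y, inv_zero hG hd₀' hKd⟩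
      (fun i p => ⟨fun y t => p.1 y t + (hstep i p.1 p.2).choose y t, (hstep i p.1 p.2).choose_spec.1⟩) i
  have hseq : ∀ i, ∀ z ∈ Dom 0 (sI s₁ (i + 1)) (dI s₁ d₀ (i + 1)),
      ‖(seq (i + 1)).1 z.1 z.2 - (seq i).1 z.1 z.2‖ ≤ κ * (1 / 2) ^ (i + 1) := by
    intro i z hz
    have e : (seq (i + 1)).1 z.1 z.2 - (seq i).1 z.1 z.2
        = (hstep i (seq i).1 (seq i).2).choose z.1 z.2 := by
      show (seq i).1 z.1 z.2 + (hstep i (seq i).1 (seq i).2).choose z.1 z.2 - (seq i).1 z.1 z.2 = _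
      ring
    rw [e]
    exact (hstep i (seq i).1 (seq i).2).choose_spec.2 z hz
  obtain ⟨Θ, hΘ⟩ := conv_limit hG hd₀ hd₀' ha (fun i => (seq i).1) (fun i => (seq i).2) hseq
  refine ⟨s₁ / 2, d₀ / 2, κ, Θ, by linarith, by linarith, ?_, ?_, hΘ⟩
  · have := hG.s₁_le
    linarith
  · have := hG.κ_le_σ
    linarith

end Claimed.Agent.R269.S3
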