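/-
Row 269, Section 3, UNIT A (package BP-S3-A): analytic support function ⇒ `Base`.   Statements: helper228.
HOST-FREE except for Real.lean / Glance.lean / S3/Defs.lean.  No paper reading.

PLAN.  `prelim_main` is PROVED below from three leaves.
(A1) `prelim_ext`: a `2π`-periodic real analytic `u : ℝ → ℝ` extends to a bounded holomorphic function on a strip.
   For every `x₀` there is `ρ(x₀) > 0` and a power series `∑ a_k (x - x₀)^k` (real coefficients, `|a_k| ρ^k ≤ C`) equal to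
   `u` on `(x₀-ρ, x₀+ρ)`;  `U_{x₀}(z) := ∑ a_k (z - x₀)^k` is holomorphic on `ball x₀ ρ`.  By compactness of `[0,2π]` and
   periodicity there is one `ρ` for all `x₀` (Lebesgue number).  Put `U z := U_{Re z}(z)` for `|Im z| < σ := ρ/2`.
   Near `z₀`, `U = U_{Re z₀}`: for `x₁` close to `x₀`, `U_{x₁}` and `U_{x₀}` agree on a real interval, hence on the
   (convex) intersection of the two balls (identity theorem).  Periodicity, `U(conj z) = conj (U z)`: coefficients are
   real and depend periodically on `x₀` (or identity theorem again).  Boundedness: shrink `σ` (continuous on the compact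
   set `[0,2π] × [-σ/2, σ/2]`, periodic).
   Alternative: `a_k = iteratedDeriv k u x₀ / k!`.
(A2) `prelim_rad`: on the real axis, `rad U x = u x + u'' x` (derivatives of the restriction of a holomorphic function which
   is real on the real axis: `HasDerivAt.real_of_complex` / `HasDerivAt.comp_ofReal`).
(A3) `prelim_laz`: the Lazutkin coordinate.  `r := rad hc` is holomorphic on `hstrip σ`, periodic, real and positive on `ℝ`.
   (i) there are `σ₁ ≤ σ/4`, `0 < m₀` with `m₀ ≤ Re r` and `|r| ≤ M₀`, and moreover `|arg|` small, on `hstrip σ₁`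
       (compactness + periodicity, or: `|r(z) - r(Re z)| ≤ L |Im z|` by a Cauchy estimate);
   (ii) `g₀ := exp (log r / 3)` (principal branch) is holomorphic on `hstrip σ₁`, `g₀^3 = r`, positive on `ℝ`, periodic,
       conj-symmetric; `γ := (2π)⁻¹ ∫₀^{2π} g₀ > 0`, `c := γ^3`, `g := g₀/γ`;  shrink `σ₁` so that `Re g ≥ m > 0`;
   (iii) `X` := primitive of `g` on the convex strip with `X 0 = 0` (`ca_exists_primitive`, Lib/CA1Prim.lean);
       `X(z + 2π) = X z + 2π` (the difference has derivative `0`, value at `0` is `∫₀^{2π} g = 2π`);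
       `X(conj z) = conj (X z)` (same argument);
   (iv) `prelim_inv` (leaf, host-free): the inverse `φ` of `X` on `hstrip (m σ₁)`;
   (v) `φ' = 1/g(φ)`, so `r(φ) φ'^3 = r(φ) γ^3 / g₀(φ)^3 = c`;  `1/M ≤ |φ'| ≤ 1/m`;  `φ' > 0` on `ℝ`.

STATUS (helper124): ALL LEAVES PROVED IN PLACE; nothing is left to prove in this file.  Helpers: `pex_*`, `PexGood` (A1, A2), `plz_*`, `plzRoot*` (A3, A4).
Route used for `prelim_ext`.  A *good triple* `(x₀, r, V)`: `V` holomorphic on `ball x₀ r`, equal to `u` at the real points of the ball.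
(1) every real `x₀` has a good triple (complexified power series); (2) two good triples agree on the intersection of their balls
(identity theorem; the intersection is convex and contains `Re z`); (3) `Ω` = union of the balls of ALL good triples, `U` = the glued
function; `Ω` is invariant under `z ↦ z + 2π k`; (4) a strip lies in `Ω` (compactness of `[0,2π]`);
(5) periodicity, symmetry: identity theorem on the strip; bound: compactness + periodicity.
-/
import Claimed.Agent.R269.S3.Stmt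
import Claimed.Agent.R269.S3.Gen
import Claimed.Agent.R269.S3.LibFS
import Claimed.Agent.R269.Lib.CA1Prim

set_option autoImplicit false

namespace Claimed.Agent.R269.S3

open Real Complex ComplexConjugate Filter Topology

/-! ### (A1), (A2): `prelim_ext`, `prelim_rad` -/

/-- real points accumulate at real points -/
theorem pex_tendsto_ofReal (a : ℝ) : Tendsto (fun t : ℝ => (t : ℂ)) (𝓝[≠] a) (𝓝[≠] (a : ℂ)) := by
  apply tendsto_nhdsWithin_of_tendsto_nhds_of_eventually_within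
  · exact (Complex.continuous_ofReal.tendsto a).mono_left nhdsWithin_le_nhds
  · filter_upwards [self_mem_nhdsWithin] with t ht
    have ht' : t ≠ a := ht
    simpa using ht'

/-- identity theorem: two holomorphic functions which agree at the real points of a connected set. -/
theorem pex_eqOn {f g : ℂ → ℂ} {B : Set ℂ} (hB : IsOpen B) (hc : IsPreconnected B)
    (hf : DifferentiableOn ℂ f B) (hg : DifferentiableOn ℂ g B) {a : ℝ} (ha : (a : ℂ) ∈ B)
    (h : ∀ t : ℝ, (t : ℂ) ∈ B → f t = g t) : Set.EqOn f g B := by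
  apply AnalyticOnNhd.eqOn_of_preconnected_of_frequently_eq (hf.analyticOnNhd hB) (hg.analyticOnNhd hB)
    hc ha
  apply (pex_tendsto_ofReal a).frequently
  apply Filter.Eventually.frequently
  have h1 : ∀ᶠ t : ℝ in 𝓝 a, (t : ℂ) ∈ B :=
    (Complex.continuous_ofReal.tendsto a).eventually (hB.mem_nhds ha)
  filter_upwards [nhdsWithin_le_nhds h1] with t ht
  exact h t ht

/-- a good triple -/
def PexGood (u : ℝ → ℝ) (x₀ r : ℝ) (V : ℂ → ℂ) : Prop :=
  0 < r ∧ DifferentiableOn ℂ V (Metric.ball (x₀ : ℂ) r) ∧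
    ∀ x : ℝ, (x : ℂ) ∈ Metric.ball (x₀ : ℂ) r → V x = u x

/-- (1) local complexification -/
theorem pex_local (u : ℝ → ℝ) (x₀ : ℝ) (ha : AnalyticAt ℝ u x₀) : ∃ r V, PexGood u x₀ r V := by
  obtain ⟨p, R, hp⟩ := ha
  obtain ⟨r, hr0, hrR⟩ := ENNReal.lt_iff_exists_nnreal_btwn.1 hp.r_pos
  have hr0' : (0 : ℝ) < r := by exact_mod_cast hr0
  obtain ⟨a, ha, C, hC, hbound⟩ :=
    p.norm_mul_pow_le_mul_pow_of_lt_radius (lt_of_lt_of_le hrR hp.r_le)
  refine ⟨r, fun z => ∑' n : ℕ, ((p.coeff n : ℝ) : ℂ) * (z - x₀) ^ n, hr0', ?_, ?_⟩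
  · apply differentiableOn_tsum_of_summable_norm (u := fun n => C * a ^ n)
      ((summable_geometric_of_lt_one ha.1.le ha.2).mul_left C) (fun n => by fun_prop)
      Metric.isOpen_ball
    intro n w hw
    rw [Metric.mem_ball, dist_eq_norm] at hw
    rw [norm_mul, norm_pow, Complex.norm_real, ← FormalMultilinearSeries.norm_apply_eq_norm_coef]
    refine le_trans ?_ (hbound n)
    gcongr
  · intro x hx
    have hx' : |x - x₀| < r := by
      rw [Metric.mem_ball, dist_eq_norm, ← Complex.ofReal_sub, Complex.norm_real] at hx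
      exact hx
    have hmem : x - x₀ ∈ Metric.eball (0 : ℝ) R := by
      refine Metric.eball_subset_eball hrR.le ?_
      rw [Metric.eball_coe, mem_ball_zero_iff]
      exact hx'
    have hs := hp.hasSum hmem
    simp only [FormalMultilinearSeries.apply_eq_pow_smul_coeff, smul_eq_mul, add_sub_cancel] at hs
    rw [← hs.tsum_eq, Complex.ofReal_tsum]
    apply tsum_congr
    intro n
    push_cast
    ring

/-- (2) two good triples agree -/
theorem pex_unique {u : ℝ → ℝ} {x₀ r x₁ r' : ℝ} {V V' : ℂ → ℂ} (h : PexGood u x₀ r V)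
    (h' : PexGood u x₁ r' V') {z : ℂ} (hz : z ∈ Metric.ball (x₀ : ℂ) r)
    (hz' : z ∈ Metric.ball (x₁ : ℂ) r') : V z = V' z := by
  have hre : ∀ (c ρ : ℝ), z ∈ Metric.ball (c : ℂ) ρ → ((z.re : ℝ) : ℂ) ∈ Metric.ball (c : ℂ) ρ := by
    intro c ρ hzc
    rw [Metric.mem_ball, dist_eq_norm] at hzc ⊢
    rw [← Complex.ofReal_sub, Complex.norm_real, Real.norm_eq_abs]
    have h1 : |(z - c).re| ≤ ‖z - c‖ := Complex.abs_re_le_norm _
    simp only [Complex.sub_re, Complex.ofReal_re] at h1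
    linarith
  have := pex_eqOn (B := Metric.ball (x₀ : ℂ) r ∩ Metric.ball (x₁ : ℂ) r')
    (Metric.isOpen_ball.inter Metric.isOpen_ball)
    ((convex_ball _ _).inter (convex_ball _ _)).isPreconnected
    (h.2.1.mono Set.inter_subset_left) (h'.2.1.mono Set.inter_subset_right)
    (a := z.re) ⟨hre _ _ hz, hre _ _ hz'⟩ (fun t ht => by rw [h.2.2 t ht.1, h'.2.2 t ht.2])
  exact this ⟨hz, hz'⟩

/-- translation of a good triple by a period -/
theorem pex_translate {u : ℝ → ℝ} {a : ℝ} (hu : ∀ x, u (x + a) = u x) {x₀ r : ℝ} {V : ℂ → ℂ}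
    (h : PexGood u x₀ r V) : PexGood u (x₀ + a) r (fun z => V (z - a)) := by
  have hmaps : ∀ z ∈ Metric.ball (((x₀ + a : ℝ)) : ℂ) r, z - a ∈ Metric.ball (x₀ : ℂ) r := by
    intro z hz
    rw [Metric.mem_ball, dist_eq_norm] at hz ⊢
    have : z - a - x₀ = z - ((x₀ + a : ℝ) : ℂ) := by push_cast; ring
    rwa [this]
  refine ⟨h.1, h.2.1.comp (by fun_prop) hmaps, ?_⟩
  intro x hx
  have h1 := h.2.2 (x - a) (by
    have := hmaps x hx
    push_cast
    exact this)
  have h2 := hu (x - a)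
  rw [sub_add_cancel] at h2
  show V ((x : ℂ) - a) = u x
  rw [h2, ← h1]
  push_cast
  rfl

theorem pex_exists_int (a : ℝ) : ∃ k : ℤ, a - 2 * π * k ∈ Set.Icc 0 (2 * π) := by
  have hpi : (0 : ℝ) < 2 * π := by positivity
  refine ⟨toIcoDiv hpi 0 a, ?_⟩
  have h1 := toIcoMod_mem_Ico' hpi a
  rw [← self_sub_toIcoDiv_zsmul, zsmul_eq_mul] at h1
  have h2 : a - 2 * π * (toIcoDiv hpi 0 a : ℝ) = a - (toIcoDiv hpi 0 a : ℝ) * (2 * π) := by ring
  rw [h2]
  exact ⟨h1.1, h1.2.le⟩

/-- (A1), verbatim statement of `prelim_ext`. -/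
theorem prelim_ext (u : ℝ → ℝ) (ha : AnalyticOnNhd ℝ u Set.univ) (hp : Function.Periodic u (2 * π)) :
    ∃ (σ M : ℝ) (U : ℂ → ℂ), 0 < σ ∧ DifferentiableOn ℂ U (hstrip σ) ∧ (∀ x : ℝ, U x = u x) ∧
      (∀ z ∈ hstrip σ, U (z + 2 * π) = U z) ∧ (∀ z ∈ hstrip σ, U (conj z) = conj (U z)) ∧
      (∀ z ∈ hstrip σ, ‖U z‖ ≤ M) := by
  classical
  -- the domain and the glued function
  set Ω : Set ℂ := {z | ∃ x₀ r V, PexGood u x₀ r V ∧ z ∈ Metric.ball (x₀ : ℂ) r} with hΩdef
  let U : ℂ → ℂ := fun z => if h : z ∈ Ω then h.choose_spec.choose_spec.choose z else 0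
  have hUV : ∀ x₀ r V, PexGood u x₀ r V → ∀ z ∈ Metric.ball (x₀ : ℂ) r, U z = V z := by
    intro x₀ r V hV z hz
    have hzΩ : z ∈ Ω := ⟨x₀, r, V, hV, hz⟩
    have hs := hzΩ.choose_spec.choose_spec.choose_spec
    show (if h : z ∈ Ω then h.choose_spec.choose_spec.choose z else 0) = V z
    rw [dif_pos hzΩ]
    exact pex_unique hs.1 hV hs.2 hz
  have hΩopen : IsOpen Ω := by
    rw [isOpen_iff_mem_nhds]
    rintro z ⟨x₀, r, V, hV, hz⟩
    exact Filter.mem_of_superset (Metric.isOpen_ball.mem_nhds hz) fun w hw => ⟨x₀, r, V, hV, hw⟩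
  have hUdiff : DifferentiableOn ℂ U Ω := by
    rintro z ⟨x₀, r, V, hV, hz⟩
    apply DifferentiableAt.differentiableWithinAt
    have h1 : DifferentiableAt ℂ V z := hV.2.1.differentiableAt (Metric.isOpen_ball.mem_nhds hz)
    apply h1.congr_of_eventuallyEq
    filter_upwards [Metric.isOpen_ball.mem_nhds hz] with w hw
    exact hUV x₀ r V hV w hw
  have hreal : ∀ x : ℝ, (x : ℂ) ∈ Ω ∧ U x = u x := by
    intro x
    obtain ⟨r, V, hV⟩ := pex_local u x (ha x (Set.mem_univ x))
    have hx : (x : ℂ) ∈ Metric.ball (x : ℂ) r := Metric.mem_ball_self hV.1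
    exact ⟨⟨x, r, V, hV, hx⟩, by rw [hUV x r V hV _ hx, hV.2.2 x hx]⟩
  have hperk : ∀ (k : ℤ) (x : ℝ), u (x + 2 * π * k) = u x := by
    intro k x
    have := (hp.int_mul k) x
    rwa [mul_comm] at this
  have hΩper : ∀ (k : ℤ), ∀ z ∈ Ω, z + ((2 * π * k : ℝ) : ℂ) ∈ Ω := by
    rintro k z ⟨x₀, r, V, hV, hz⟩
    refine ⟨_, r, _, pex_translate (hperk k) hV, ?_⟩
    rw [Metric.mem_ball, dist_eq_norm] at hz ⊢
    have : z + ((2 * π * k : ℝ) : ℂ) - ((x₀ + 2 * π * k : ℝ) : ℂ) = z - x₀ := by push_cast; ring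
    rwa [this]
  -- a strip inside `Ω`
  have hK : IsCompact ((fun x : ℝ => (x : ℂ)) '' Set.Icc 0 (2 * π)) :=
    isCompact_Icc.image Complex.continuous_ofReal
  have hKΩ : ((fun x : ℝ => (x : ℂ)) '' Set.Icc 0 (2 * π)) ⊆ Ω := by
    rintro _ ⟨x, _, rfl⟩
    exact (hreal x).1
  obtain ⟨δ, hδ, hthick⟩ := hK.exists_thickening_subset_open hΩopen hKΩ
  have hstripΩ : hstrip δ ⊆ Ω := by
    intro z hz
    have hz' : |z.im| < δ := hz
    obtain ⟨k, hk⟩ := pex_exists_int z.re
    have h1 : z - ((2 * π * k : ℝ) : ℂ) ∈ Ω := by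
      apply hthick
      rw [Metric.mem_thickening_iff]
      refine ⟨((z.re - 2 * π * k : ℝ) : ℂ), ⟨_, hk, rfl⟩, ?_⟩
      rw [dist_eq_norm]
      have h2 : z - ((2 * π * k : ℝ) : ℂ) - ((z.re - 2 * π * k : ℝ) : ℂ) = (z.im : ℂ) * Complex.I := by
        have h4 := Complex.re_add_im z
        push_cast
        linear_combination h4.symm
      rw [h2, norm_mul, Complex.norm_I, mul_one, Complex.norm_real]
      exact hz'
    have h3 := hΩper k _ h1
    rwa [sub_add_cancel] at h3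
  have hd : DifferentiableOn ℂ U (hstrip δ) := hUdiff.mono hstripΩ
  have h0mem : (((0 : ℝ)) : ℂ) ∈ hstrip δ := by
    show |(((0 : ℝ)) : ℂ).im| < δ
    simpa using hδ
  have hshiftmem : ∀ (a : ℝ), ∀ z ∈ hstrip δ, z + a ∈ hstrip δ := by
    intro a z hz
    have hz' : |z.im| < δ := hz
    show |(z + a).im| < δ
    simpa using hz'
  -- periodicity
  have hUper : ∀ (k : ℤ), ∀ z ∈ hstrip δ, U (z + ((2 * π * k : ℝ) : ℂ)) = U z := by
    intro k
    apply pex_eqOn (isOpen_hstrip δ) (convex_hstrip δ).isPreconnected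
      (hd.comp (by fun_prop) (hshiftmem _)) hd h0mem
    intro t _
    show U ((t : ℂ) + ((2 * π * k : ℝ) : ℂ)) = U t
    rw [← Complex.ofReal_add, (hreal _).2, (hreal _).2, hperk]
  have hconjmem : ∀ z ∈ hstrip δ, conj z ∈ hstrip δ := by
    intro z hz
    have hz' : |z.im| < δ := hz
    show |(conj z).im| < δ
    simpa using hz'
  have hUconj : ∀ z ∈ hstrip δ, conj (U (conj z)) = U z := by
    apply pex_eqOn (isOpen_hstrip δ) (convex_hstrip δ).isPreconnected _ hd h0mem
    · intro t _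
      rw [Complex.conj_ofReal, (hreal _).2, Complex.conj_ofReal]
    · intro z hz
      apply DifferentiableAt.differentiableWithinAt
      have h1 : DifferentiableAt ℂ U (conj z) :=
        hd.differentiableAt ((isOpen_hstrip δ).mem_nhds (hconjmem z hz))
      have h2 := h1.conj_conj
      rw [Complex.conj_conj] at h2
      exact h2
  -- the bound
  have hK2 : IsCompact (Set.Icc (0 : ℝ) (2 * π) ×ℂ Set.Icc (-(δ / 2)) (δ / 2)) :=
    isCompact_Icc.reProdIm isCompact_Icc
  have hK2sub : (Set.Icc (0 : ℝ) (2 * π) ×ℂ Set.Icc (-(δ / 2)) (δ / 2)) ⊆ hstrip δ := by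
    intro z hz
    rw [Complex.mem_reProdIm] at hz
    show |z.im| < δ
    rw [abs_lt]
    constructor <;> linarith [hz.2.1, hz.2.2]
  obtain ⟨M, hM⟩ := hK2.exists_bound_of_continuousOn (hd.continuousOn.mono hK2sub)
  have hsub : hstrip (δ / 2) ⊆ hstrip δ := by
    intro z hz
    have hz' : |z.im| < δ / 2 := hz
    show |z.im| < δ
    linarith
  refine ⟨δ / 2, M, U, half_pos hδ, hd.mono hsub, fun x => (hreal x).2, ?_, ?_, ?_⟩
  · intro z hz
    have := hUper 1 z (hsub hz)
    rw [← this]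
    congr 1
    push_cast; ring
  · intro z hz
    rw [← hUconj z (hsub hz), Complex.conj_conj]
  · intro z hz
    have hz' : |z.im| < δ / 2 := hz
    obtain ⟨k, hk⟩ := pex_exists_int z.re
    have h1 : z - ((2 * π * k : ℝ) : ℂ) ∈ hstrip δ := by
      have := hshiftmem (-(2 * π * k)) z (hsub hz)
      rw [sub_eq_add_neg, ← Complex.ofReal_neg]
      exact this
    have h2 := hUper k _ h1
    rw [sub_add_cancel] at h2
    rw [h2]
    apply hM
    rw [Complex.mem_reProdIm]
    constructor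
    · simpa using hk
    · rw [abs_lt] at hz'
      simp only [Complex.sub_im, Complex.ofReal_im, sub_zero]
      exact ⟨hz'.1.le, hz'.2.le⟩

/-- derivative on the real axis of a holomorphic function that is real on the real axis -/
theorem pex_deriv_real {u : ℝ → ℝ} {U : ℂ → ℂ} {σ : ℝ} (hσ : 0 < σ) (hU : DifferentiableOn ℂ U (hstrip σ))
    (hu : ∀ x : ℝ, U x = u x) (x : ℝ) : deriv U x = ((deriv u x : ℝ) : ℂ) := by
  have hx : (x : ℂ) ∈ hstrip σ := by
    show |(x : ℂ).im| < σ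
    simpa using hσ
  have h1 : HasDerivAt U (deriv U x) (x : ℂ) :=
    (hU.differentiableAt ((isOpen_hstrip σ).mem_nhds hx)).hasDerivAt
  have h2 : HasDerivAt (fun t : ℝ => (U t).re) (deriv U x).re x := h1.real_of_complex
  have h3 : (fun t : ℝ => (U t).re) = u := by
    funext t
    rw [hu t, Complex.ofReal_re]
  rw [h3] at h2
  have h4 : HasDerivAt (fun t : ℝ => U t) (deriv U x) x := h1.comp_ofReal
  have h5 : HasDerivAt (fun t : ℝ => (U t).im) (deriv U x).im x :=
    (Complex.imCLM.hasFDerivAt.comp_hasDerivAt x h4)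
  have h6 : (fun t : ℝ => (U t).im) = fun _ => 0 := by
    funext t
    rw [hu t, Complex.ofReal_im]
  rw [h6] at h5
  have h7 : (deriv U x).im = 0 := h5.unique (hasDerivAt_const x 0)
  apply Complex.ext
  · rw [Complex.ofReal_re, h2.deriv]
  · rw [Complex.ofReal_im, h7]

/-- (A2), verbatim statement of `prelim_rad`. -/
theorem prelim_rad (u : ℝ → ℝ) (U : ℂ → ℂ) (σ : ℝ) (hσ : 0 < σ) (hU : DifferentiableOn ℂ U (hstrip σ))
    (hu : ∀ x : ℝ, U x = u x) (x : ℝ) : rad U x = ((u x + deriv (deriv u) x : ℝ) : ℂ) := by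
  unfold rad
  rw [pex_deriv_real hσ (hU.deriv (isOpen_hstrip σ)) (pex_deriv_real hσ hU hu) x, hu x]
  push_cast
  rfl

/-! ### (A3), (A4): `prelim_inv`, `prelim_laz` -/

/-! ### `prelim_inv` -/

/-- lower Lipschitz bound for a map with `Re X' ≥ m` on a strip -/
theorem plz_lower {X : ℂ → ℂ} {σ m : ℝ} (hX : DifferentiableOn ℂ X (hstrip σ))
    (hre : ∀ z ∈ hstrip σ, m ≤ (deriv X z).re) {z z' : ℂ} (hz : z ∈ hstrip σ) (hz' : z' ∈ hstrip σ) :
    m * ‖z - z'‖ ≤ ‖X z - X z'‖ := by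
  have hmem : ∀ τ ∈ Set.Icc (0 : ℝ) 1, z' + (τ : ℂ) * (z - z') ∈ hstrip σ := by
    intro τ hτ
    have := (convex_hstrip σ).add_smul_sub_mem hz' hz hτ
    rwa [Complex.real_smul] at this
  have hder : ∀ τ ∈ Set.Icc (0 : ℝ) 1,
      HasDerivAt (fun t : ℝ => (conj (z - z') * X (z' + (t : ℂ) * (z - z'))).re)
        (Complex.normSq (z - z') * (deriv X (z' + (τ : ℂ) * (z - z'))).re) τ := by
    intro τ hτ
    have h1 : HasDerivAt X (deriv X (z' + (τ : ℂ) * (z - z'))) (z' + (τ : ℂ) * (z - z')) :=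
      (hX.differentiableAt ((isOpen_hstrip σ).mem_nhds (hmem τ hτ))).hasDerivAt
    have h2 : HasDerivAt (fun ζ : ℂ => z' + ζ * (z - z')) (z - z') (τ : ℂ) := by
      have := ((hasDerivAt_id (τ : ℂ)).mul_const (z - z')).const_add z'
      simpa using this
    have h3 : HasDerivAt (fun ζ : ℂ => conj (z - z') * X (z' + ζ * (z - z')))
        (conj (z - z') * (deriv X (z' + (τ : ℂ) * (z - z')) * (z - z'))) (τ : ℂ) :=
      (HasDerivAt.comp (h₂ := X) (h := fun ζ : ℂ => z' + ζ * (z - z')) (τ : ℂ) h1 h2).const_mul _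
    have h4 := h3.real_of_complex
    have h5 : (conj (z - z') * (deriv X (z' + (τ : ℂ) * (z - z')) * (z - z'))).re =
        Complex.normSq (z - z') * (deriv X (z' + (τ : ℂ) * (z - z'))).re := by
      have : conj (z - z') * (deriv X (z' + (τ : ℂ) * (z - z')) * (z - z')) =
          ((Complex.normSq (z - z') : ℝ) : ℂ) * deriv X (z' + (τ : ℂ) * (z - z')) := by
        rw [Complex.normSq_eq_conj_mul_self]; ring
      rw [this, Complex.re_ofReal_mul]
    rwa [h5] at h4
  have hmv := Convex.mul_sub_le_image_sub_of_le_deriv (convex_Icc (0 : ℝ) 1)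
    (f := fun t : ℝ => (conj (z - z') * X (z' + (t : ℂ) * (z - z'))).re)
    (C := Complex.normSq (z - z') * m)
    (fun τ hτ => (hder τ hτ).continuousAt.continuousWithinAt)
    (fun τ hτ => (hder τ (interior_subset hτ)).differentiableAt.differentiableWithinAt)
    (fun τ hτ => by
      rw [(hder τ (interior_subset hτ)).deriv]
      exact mul_le_mul_of_nonneg_left (hre _ (hmem τ (interior_subset hτ))) (Complex.normSq_nonneg _))
    0 (by simp) 1 (by simp) zero_le_one
  simp only [sub_zero, mul_one, Complex.ofReal_one, one_mul, Complex.ofReal_zero, zero_mul, add_zero,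
    add_sub_cancel] at hmv
  have h6 : (conj (z - z') * X z).re - (conj (z - z') * X z').re ≤ ‖z - z'‖ * ‖X z - X z'‖ := by
    rw [← Complex.sub_re, ← mul_sub]
    refine (Complex.re_le_norm _).trans ?_
    rw [norm_mul, Complex.norm_conj]
  have h7 : Complex.normSq (z - z') = ‖z - z'‖ * ‖z - z'‖ := by
    rw [Complex.normSq_eq_norm_sq]; ring
  rw [h7] at hmv
  rcases eq_or_lt_of_le (norm_nonneg (z - z')) with h0 | h0
  · rw [← h0, mul_zero]
    exact norm_nonneg _
  · have h8 : ‖z - z'‖ * (m * ‖z - z'‖) ≤ ‖z - z'‖ * ‖X z - X z'‖ := by linarith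
    exact le_of_mul_le_mul_left h8 h0

/-- (A3-iv), verbatim statement of `prelim_inv`. -/
theorem prelim_inv (X : ℂ → ℂ) (σ m : ℝ) (hσ : 0 < σ) (hm : 0 < m)
    (hX : DifferentiableOn ℂ X (hstrip σ)) (hre : ∀ z ∈ hstrip σ, m ≤ (deriv X z).re)
    (hper : ∀ z ∈ hstrip σ, X (z + 2 * π) = X z + 2 * π)
    (hconj : ∀ z ∈ hstrip σ, X (conj z) = conj (X z)) :
    ∃ φ : ℂ → ℂ, DifferentiableOn ℂ φ (hstrip (m * σ)) ∧
      (∀ w ∈ hstrip (m * σ), φ w ∈ hstrip σ ∧ X (φ w) = w) ∧
      (∀ w ∈ hstrip (m * σ), φ (w + 2 * π) = φ w + 2 * π) ∧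
      (∀ w ∈ hstrip (m * σ), φ (conj w) = conj (φ w)) := by
  classical
  have hlow := fun {z z' : ℂ} (hz : z ∈ hstrip σ) (hz' : z' ∈ hstrip σ) => plz_lower hX hre hz hz'
  have hinj : ∀ z ∈ hstrip σ, ∀ z' ∈ hstrip σ, X z = X z' → z = z' := by
    intro z hz z' hz' h
    have h1 := hlow hz hz'
    rw [h, sub_self, norm_zero] at h1
    have h2 : ‖z - z'‖ ≤ 0 := by
      by_contra hcon
      push Not at hcon
      have := mul_pos hm hcon
      linarith
    exact sub_eq_zero.1 (norm_le_zero_iff.1 h2)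
  -- `m |Im z| ≤ |Im X z|`
  have him : ∀ z ∈ hstrip σ, m * |z.im| ≤ |(X z).im| := by
    intro z hz
    have h1 := hlow hz (gen_conj_mem hz)
    rw [hconj z hz] at h1
    have e1 : ∀ v : ℂ, ‖v - conj v‖ = 2 * |v.im| := by
      intro v
      rw [Complex.sub_conj, norm_mul, Complex.norm_I, mul_one, Complex.norm_real, Real.norm_eq_abs,
        abs_mul]
      norm_num
    rw [e1, e1] at h1
    linarith
  have h0mem : (0 : ℂ) ∈ hstrip σ := by simpa using gen_real_mem hσ 0
  -- the image is open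
  have hopen : IsOpen (X '' hstrip σ) := by
    rcases (hX.analyticOnNhd (isOpen_hstrip σ)).is_constant_or_isOpen
      (convex_hstrip σ).isPreconnected with ⟨w, hw⟩ | h
    · exfalso
      have h1mem : (1 : ℂ) ∈ hstrip σ := by simpa using gen_real_mem hσ 1
      have := hinj 0 h0mem 1 h1mem (by rw [hw 0 h0mem, hw 1 h1mem])
      exact zero_ne_one this
    · exact h _ subset_rfl (isOpen_hstrip σ)
  -- surjectivity
  have hsurj : hstrip (m * σ) ⊆ X '' hstrip σ := by
    apply (convex_hstrip (m * σ)).isPreconnected.subset_of_closure_inter_subset hopen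
    · refine ⟨X 0, ?_, ⟨0, h0mem, rfl⟩⟩
      have h1 := hconj 0 h0mem
      rw [map_zero] at h1
      have h2 : (X 0).im = 0 := by
        have := congrArg Complex.im h1
        rw [Complex.conj_im] at this
        linarith
      show |(X 0).im| < m * σ
      rw [h2, abs_zero]
      positivity
    · rintro w ⟨hwcl, hwS⟩
      have hwS' : |w.im| < m * σ := hwS
      obtain ⟨ws, hws, hlim⟩ := mem_closure_iff_seq_limit.1 hwcl
      choose zs hzs hXzs using hws
      have hcau : CauchySeq zs := by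
        have hc := hlim.cauchySeq
        rw [Metric.cauchySeq_iff] at hc ⊢
        intro ε hε
        obtain ⟨N, hN⟩ := hc (m * ε) (by positivity)
        refine ⟨N, fun a ha b hb => ?_⟩
        have h1 := hN a ha b hb
        rw [dist_eq_norm, ← hXzs a, ← hXzs b] at h1
        have h2 := hlow (hzs a) (hzs b)
        rw [dist_eq_norm]
        by_contra hcon
        push Not at hcon
        have := mul_le_mul_of_nonneg_left hcon hm.le
        linarith
      obtain ⟨z, hz⟩ := cauchySeq_tendsto_of_complete hcau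
      have hzmem : z ∈ hstrip σ := by
        have h1 : Tendsto (fun n => m * |(zs n).im|) atTop (𝓝 (m * |z.im|)) :=
          (((Complex.continuous_im.tendsto z).comp hz).abs).const_mul m
        have h2 : Tendsto (fun n => |(ws n).im|) atTop (𝓝 |w.im|) :=
          ((Complex.continuous_im.tendsto w).comp hlim).abs
        have h3 : m * |z.im| ≤ |w.im| := le_of_tendsto_of_tendsto' h1 h2 (fun n => by
          rw [← hXzs n]
          exact him _ (hzs n))
        show |z.im| < σ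
        by_contra hcon
        push Not at hcon
        have := mul_le_mul_of_nonneg_left hcon hm.le
        linarith
      refine ⟨z, hzmem, ?_⟩
      have hc : ContinuousAt X z :=
        (hX.differentiableAt ((isOpen_hstrip σ).mem_nhds hzmem)).continuousAt
      have h4 : Tendsto (fun n => X (zs n)) atTop (𝓝 (X z)) := hc.tendsto.comp hz
      have h5 : (fun n => X (zs n)) = ws := funext hXzs
      rw [h5] at h4
      exact tendsto_nhds_unique h4 hlim
  -- the inverse
  let φ : ℂ → ℂ := fun w => if h : w ∈ hstrip (m * σ) then (hsurj h).choose else 0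
  have hφ : ∀ w ∈ hstrip (m * σ), φ w ∈ hstrip σ ∧ X (φ w) = w := by
    intro w hw
    have hs := (hsurj hw).choose_spec
    show (if h : w ∈ hstrip (m * σ) then (hsurj h).choose else 0) ∈ hstrip σ ∧
      X (if h : w ∈ hstrip (m * σ) then (hsurj h).choose else 0) = w
    rw [dif_pos hw]
    exact hs
  refine ⟨φ, ?_, hφ, ?_, ?_⟩
  · intro w hw
    apply DifferentiableAt.differentiableWithinAt
    have hnhds := (isOpen_hstrip (m * σ)).mem_nhds hw
    have hcont : ContinuousAt φ w := by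
      rw [Metric.continuousAt_iff]
      intro ε hε
      obtain ⟨δ, hδ, hball⟩ := Metric.mem_nhds_iff.1 hnhds
      refine ⟨min δ (m * ε), lt_min hδ (by positivity), fun v hv => ?_⟩
      have hv1 : v ∈ hstrip (m * σ) := hball (lt_of_lt_of_le hv (min_le_left _ _))
      have hv2 : dist v w < m * ε := lt_of_lt_of_le hv (min_le_right _ _)
      have h1 := hlow (hφ v hv1).1 (hφ w hw).1
      rw [(hφ v hv1).2, (hφ w hw).2, ← dist_eq_norm, ← dist_eq_norm] at h1
      by_contra hcon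
      push Not at hcon
      have := mul_le_mul_of_nonneg_left hcon hm.le
      linarith
    have hd : HasDerivAt X (deriv X (φ w)) (φ w) :=
      (hX.differentiableAt ((isOpen_hstrip σ).mem_nhds (hφ w hw).1)).hasDerivAt
    have hne : deriv X (φ w) ≠ 0 := by
      intro h0
      have := hre _ (hφ w hw).1
      rw [h0, Complex.zero_re] at this
      linarith
    exact (HasDerivAt.of_local_left_inverse hcont hd hne
      (by filter_upwards [hnhds] with v hv using (hφ v hv).2)).differentiableAt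
  · intro w hw
    have hw2 := gen_add_two_pi_mem hw
    apply hinj _ (hφ _ hw2).1 _ (gen_add_two_pi_mem (hφ w hw).1)
    rw [(hφ _ hw2).2, hper _ (hφ w hw).1, (hφ w hw).2]
  · intro w hw
    have hw2 := gen_conj_mem hw
    apply hinj _ (hφ _ hw2).1 _ (gen_conj_mem (hφ w hw).1)
    rw [(hφ _ hw2).2, hconj _ (hφ w hw).1, (hφ w hw).2]

/-! ### compactness and periodicity -/

theorem plz_per_int {α : Type*} {f : ℂ → α} {s : ℝ} (hp : ∀ y ∈ hstrip s, f (y + 2 * π) = f y) (k : ℤ) :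
    ∀ y ∈ hstrip s, f (y + ((2 * π * k : ℝ) : ℂ)) = f y := by
  have hnat : ∀ (l : ℕ), ∀ y ∈ hstrip s, f (y + ((2 * π * l : ℝ) : ℂ)) = f y := by
    intro l
    induction l with
    | zero => intro y _; simp
    | succ l ih =>
      intro y hy
      have h1 : y + ((2 * π * ((l + 1 : ℕ) : ℝ) : ℝ) : ℂ) = (y + ((2 * π * l : ℝ) : ℂ)) + 2 * π := by
        push_cast; ring
      rw [h1, hp _ (lfs_add_real_mem hy _), ih y hy]
  intro y hy
  obtain ⟨l, rfl | rfl⟩ := k.eq_nat_or_neg
  · exact_mod_cast hnat l y hy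
  · have h1 := hnat l (y + ((2 * π * ((-(l : ℤ) : ℤ) : ℝ) : ℝ) : ℂ)) (lfs_add_real_mem hy _)
    rw [← h1]
    congr 1
    push_cast; ring

/-- an open periodic neighbourhood of the real axis contains a strip -/
theorem plz_strip_of_open {W : Set ℂ} (hW : IsOpen W)
    (hper : ∀ k : ℤ, ∀ z ∈ W, z + ((2 * π * k : ℝ) : ℂ) ∈ W) (hreal : ∀ x : ℝ, (x : ℂ) ∈ W) :
    ∃ δ : ℝ, 0 < δ ∧ hstrip δ ⊆ W := by
  have hK : IsCompact ((fun x : ℝ => (x : ℂ)) '' Set.Icc 0 (2 * π)) :=
    isCompact_Icc.image Complex.continuous_ofReal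
  have hKW : ((fun x : ℝ => (x : ℂ)) '' Set.Icc 0 (2 * π)) ⊆ W := by
    rintro _ ⟨x, _, rfl⟩
    exact hreal x
  obtain ⟨δ, hδ, hthick⟩ := hK.exists_thickening_subset_open hW hKW
  refine ⟨δ, hδ, fun z hz => ?_⟩
  have hz' : |z.im| < δ := hz
  obtain ⟨k, hk⟩ := pex_exists_int z.re
  have h1 : z - ((2 * π * k : ℝ) : ℂ) ∈ W := by
    apply hthick
    rw [Metric.mem_thickening_iff]
    refine ⟨((z.re - 2 * π * k : ℝ) : ℂ), ⟨_, hk, rfl⟩, ?_⟩
    rw [dist_eq_norm]
    have h2 : z - ((2 * π * k : ℝ) : ℂ) - ((z.re - 2 * π * k : ℝ) : ℂ) = (z.im : ℂ) * Complex.I := by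
      have h4 := Complex.re_add_im z
      push_cast
      linear_combination h4.symm
    rw [h2, norm_mul, Complex.norm_I, mul_one, Complex.norm_real]
    exact hz'
  have h3 := hper k _ h1
  rwa [sub_add_cancel] at h3

/-- a continuous periodic real function on a strip attains its minimum over the half strip -/
theorem plz_min {f : ℂ → ℝ} {δ : ℝ} (hδ : 0 < δ) (hc : ContinuousOn f (hstrip δ))
    (hper : ∀ z ∈ hstrip δ, f (z + 2 * π) = f z) :
    ∃ z₀ ∈ hstrip δ, ∀ z ∈ hstrip (δ / 2), f z₀ ≤ f z := by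
  have hK2 : IsCompact (Set.Icc (0 : ℝ) (2 * π) ×ℂ Set.Icc (-(δ / 2)) (δ / 2)) :=
    isCompact_Icc.reProdIm isCompact_Icc
  have hK2sub : (Set.Icc (0 : ℝ) (2 * π) ×ℂ Set.Icc (-(δ / 2)) (δ / 2)) ⊆ hstrip δ := by
    intro z hz
    rw [Complex.mem_reProdIm] at hz
    show |z.im| < δ
    rw [abs_lt]
    constructor <;> linarith [hz.2.1, hz.2.2]
  have hne : (Set.Icc (0 : ℝ) (2 * π) ×ℂ Set.Icc (-(δ / 2)) (δ / 2)).Nonempty := by
    refine ⟨0, ?_⟩
    rw [Complex.mem_reProdIm]
    simp only [Complex.zero_re, Complex.zero_im, Set.mem_Icc]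
    refine ⟨⟨le_rfl, by positivity⟩, by linarith, by linarith⟩
  obtain ⟨z₀, hz₀, hmin⟩ := hK2.exists_isMinOn hne (hc.mono hK2sub)
  refine ⟨z₀, hK2sub hz₀, fun z hz => ?_⟩
  have hz' : |z.im| < δ / 2 := hz
  have hzδ : z ∈ hstrip δ := by
    show |z.im| < δ
    linarith
  obtain ⟨k, hk⟩ := pex_exists_int z.re
  have h1 : z - ((2 * π * k : ℝ) : ℂ) ∈ hstrip δ := by
    have := lfs_add_real_mem hzδ (-(2 * π * k))
    rw [sub_eq_add_neg, ← Complex.ofReal_neg]
    exact this
  have h2 := plz_per_int hper k _ h1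
  rw [sub_add_cancel] at h2
  rw [h2]
  apply hmin
  rw [Complex.mem_reProdIm]
  constructor
  · simpa using hk
  · rw [abs_lt] at hz'
    simp only [Complex.sub_im, Complex.ofReal_im, sub_zero]
    exact ⟨hz'.1.le, hz'.2.le⟩

theorem plz_hstrip_mono {s s' : ℝ} (h : s ≤ s') : hstrip s ⊆ hstrip s' := by
  intro z hz
  have hz' : |z.im| < s := hz
  show |z.im| < s'
  linarith

/-! ### the cube root -/

/-- the principal cube root -/
noncomputable def plzRoot (r : ℂ → ℂ) (z : ℂ) : ℂ := Complex.exp (Complex.log (r z) / 3)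

theorem plzRoot_cube {r : ℂ → ℂ} {z : ℂ} (h : r z ≠ 0) : plzRoot r z ^ 3 = r z := by
  unfold plzRoot
  rw [← Complex.exp_nat_mul]
  have : ((3 : ℕ) : ℂ) * (Complex.log (r z) / 3) = Complex.log (r z) := by
    push_cast; ring
  rw [this, Complex.exp_log h]

theorem plzRoot_re_pos (r : ℂ → ℂ) (z : ℂ) : 0 < (plzRoot r z).re := by
  unfold plzRoot
  rw [Complex.exp_re]
  apply mul_pos (Real.exp_pos _)
  apply Real.cos_pos_of_mem_Ioo
  have h1 : (Complex.log (r z) / 3).im = Complex.arg (r z) / 3 := by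
    rw [show Complex.log (r z) / 3 = Complex.log (r z) / ((3 : ℝ) : ℂ) by norm_num, Complex.div_ofReal_im,
      Complex.log_im]
  rw [h1]
  have h2 := Complex.neg_pi_lt_arg (r z)
  have h3 := Complex.arg_le_pi (r z)
  have h4 := Real.pi_pos
  constructor <;> linarith

theorem plzRoot_conj {r : ℂ → ℂ} {z : ℂ} (h : r (conj z) = conj (r z)) (hpos : 0 < (r z).re) :
    plzRoot r (conj z) = conj (plzRoot r z) := by
  unfold plzRoot
  have harg : (r z).arg ≠ π := by
    intro h1
    have h2 := (Complex.abs_arg_lt_pi_div_two_iff).2 (Or.inl hpos)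
    rw [h1, abs_of_pos Real.pi_pos] at h2
    linarith [Real.pi_pos]
  rw [h, Complex.log_conj _ harg, ← Complex.exp_conj, map_div₀, map_ofNat]

theorem plzRoot_diff {r : ℂ → ℂ} {s : ℝ} (hr : DifferentiableOn ℂ r (hstrip s))
    (hpos : ∀ z ∈ hstrip s, 0 < (r z).re) : DifferentiableOn ℂ (plzRoot r) (hstrip s) := by
  unfold plzRoot
  apply DifferentiableOn.cexp
  apply DifferentiableOn.div_const
  exact hr.clog (fun z hz => Or.inl (hpos z hz))

/-! ### `prelim_laz` -/

theorem plz_eqOn_of_hasDerivAt {f g f' : ℂ → ℂ} {s : ℝ} (hf : ∀ z ∈ hstrip s, HasDerivAt f (f' z) z)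
    (hg : ∀ z ∈ hstrip s, HasDerivAt g (f' z) z) {x : ℂ} (hx : x ∈ hstrip s) (h : f x = g x) :
    Set.EqOn f g (hstrip s) :=
  (isOpen_hstrip s).eqOn_of_deriv_eq (convex_hstrip s).isPreconnected
    (fun z hz => (hf z hz).differentiableAt.differentiableWithinAt)
    (fun z hz => (hg z hz).differentiableAt.differentiableWithinAt)
    (fun z hz => by rw [(hf z hz).deriv, (hg z hz).deriv]) hx h

/-- (A3), verbatim statement of `prelim_laz`. -/
theorem prelim_laz (hc : ℂ → ℂ) (σ : ℝ) (hσ : 0 < σ) (hd : DifferentiableOn ℂ hc (hstrip σ))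
    (hper : ∀ z ∈ hstrip σ, hc (z + 2 * π) = hc z) (hconj : ∀ z ∈ hstrip σ, hc (conj z) = conj (hc z))
    (hpos : ∀ x : ℝ, 0 < (rad hc x).re) :
    ∃ (c s₀ Mφ mφ : ℝ) (φ : ℂ → ℂ), 0 < c ∧ 0 < s₀ ∧ 0 < mφ ∧ DifferentiableOn ℂ φ (hstrip s₀) ∧
      (∀ z ∈ hstrip s₀, φ (z + 2 * π) = φ z + 2 * π) ∧ (∀ z ∈ hstrip s₀, φ (conj z) = conj (φ z)) ∧
      (∀ z ∈ hstrip s₀, φ z ∈ hstrip (σ / 4)) ∧ (∀ z ∈ hstrip s₀, ‖deriv φ z‖ ≤ Mφ) ∧
      (∀ z ∈ hstrip s₀, mφ ≤ ‖deriv φ z‖) ∧ (∀ x : ℝ, 0 < (deriv φ x).re) ∧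
      (∀ z ∈ hstrip s₀, rad hc (φ z) * deriv φ z ^ 3 = c) := by
  have hpi : (0 : ℝ) < 2 * π := by positivity
  -- the radius of curvature
  have hrd : DifferentiableOn ℂ (rad hc) (hstrip σ) := diff_rad hd
  have hrper : ∀ z ∈ hstrip σ, rad hc (z + 2 * π) = rad hc z := by
    intro z hz
    unfold rad
    rw [hper z hz, deriv_per (gen_diff_deriv hd) (deriv_per hd hper) z hz]
  have hrconj : ∀ z ∈ hstrip σ, rad hc (conj z) = conj (rad hc z) := by
    intro z hz
    unfold rad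
    rw [hconj z hz, deriv_conj (gen_diff_deriv hd) (deriv_conj hd hconj) z hz, map_add]
  -- (i) a strip where `Re r > 0`
  obtain ⟨δ₀, hδ₀, hδ₀W⟩ := plz_strip_of_open (W := hstrip σ ∩ (fun z => (rad hc z).re) ⁻¹' Set.Ioi 0)
    ((Complex.continuous_re.comp_continuousOn hrd.continuousOn).isOpen_inter_preimage
      (isOpen_hstrip σ) isOpen_Ioi)
    (fun k z hz => ⟨lfs_add_real_mem hz.1 _, by
      show 0 < (rad hc (z + ((2 * π * k : ℝ) : ℂ))).re
      rw [plz_per_int hrper k z hz.1]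
      exact hz.2⟩)
    (fun x => ⟨gen_real_mem hσ x, hpos x⟩)
  have hsub₀ : hstrip δ₀ ⊆ hstrip σ := fun z hz => (hδ₀W hz).1
  have hrpos : ∀ z ∈ hstrip δ₀, 0 < (rad hc z).re := fun z hz => (hδ₀W hz).2
  -- (ii) the cube root
  have hgd : DifferentiableOn ℂ (plzRoot (rad hc)) (hstrip δ₀) := plzRoot_diff (hrd.mono hsub₀) hrpos
  have hgper : ∀ z ∈ hstrip δ₀, plzRoot (rad hc) (z + 2 * π) = plzRoot (rad hc) z := by
    intro z hz
    unfold plzRoot
    rw [hrper z (hsub₀ hz)]
  have hgconj : ∀ z ∈ hstrip δ₀, plzRoot (rad hc) (conj z) = conj (plzRoot (rad hc) z) :=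
    fun z hz => plzRoot_conj (hrconj z (hsub₀ hz)) (hrpos z hz)
  obtain ⟨z₁, -, hmin⟩ := plz_min hδ₀ (f := fun z => (plzRoot (rad hc) z).re)
    (Complex.continuous_re.comp_continuousOn hgd.continuousOn)
    (fun z hz => by simp only [hgper z hz])
  obtain ⟨z₂, -, hmax⟩ := plz_min hδ₀ (f := fun z => -‖plzRoot (rad hc) z‖)
    (hgd.continuousOn.norm.neg) (fun z hz => by simp only [hgper z hz])
  have hm₁ : 0 < (plzRoot (rad hc) z₁).re := plzRoot_re_pos _ _
  have hM₁ : 0 < ‖plzRoot (rad hc) z₂‖ := by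
    rw [norm_pos_iff]
    exact Complex.exp_ne_zero _
  -- the mean
  have hcontre : Continuous fun x : ℝ => (plzRoot (rad hc) x).re :=
    Complex.continuous_re.comp (lfs_cont_of_diff₀ hδ₀ hgd)
  obtain ⟨γ, hγdef⟩ : ∃ γ : ℝ, γ = (2 * π)⁻¹ * ∫ x in (0 : ℝ)..(2 * π), (plzRoot (rad hc) x).re :=
    ⟨_, rfl⟩
  have hγ : 0 < γ := by
    rw [hγdef]
    exact mul_pos (inv_pos.2 hpi) (intervalIntegral.intervalIntegral_pos_of_pos
      (hcontre.intervalIntegrable _ _) (fun x => plzRoot_re_pos _ _) hpi)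
  have hγC : (γ : ℂ) ≠ 0 := by exact_mod_cast hγ.ne'
  have hint : ∫ x in (0 : ℝ)..(2 * π), plzRoot (rad hc) x = ((2 * π * γ : ℝ) : ℂ) := by
    have h1 : ∀ x : ℝ, plzRoot (rad hc) x = (((plzRoot (rad hc) x).re : ℝ) : ℂ) :=
      fun x => gen_real_val hδ₀ hgconj x
    rw [intervalIntegral.integral_congr (g := fun x : ℝ => (((plzRoot (rad hc) x).re : ℝ) : ℂ))
      (fun x _ => h1 x), intervalIntegral.integral_ofReal]
    congr 1
    rw [hγdef]
    field_simp
  -- the strip
  obtain ⟨σ₁, hσ₁def⟩ : ∃ σ₁ : ℝ, σ₁ = min (δ₀ / 2) (σ / 4) := ⟨_, rfl⟩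
  have hσ₁ : 0 < σ₁ := by
    rw [hσ₁def]
    exact lt_min (by positivity) (by positivity)
  have hS2 : hstrip σ₁ ⊆ hstrip (δ₀ / 2) := plz_hstrip_mono (by rw [hσ₁def]; exact min_le_left _ _)
  have hS4 : hstrip σ₁ ⊆ hstrip (σ / 4) := plz_hstrip_mono (by rw [hσ₁def]; exact min_le_right _ _)
  have hS0 : hstrip σ₁ ⊆ hstrip δ₀ := hS2.trans (plz_hstrip_mono (by linarith))
  -- (iii) the primitive
  have hGd : DifferentiableOn ℂ (fun z => plzRoot (rad hc) z / γ) (hstrip σ₁) :=
    (hgd.mono hS0).div_const _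
  obtain ⟨X, hX0, hXd⟩ := ca_exists_primitive (isOpen_hstrip σ₁) (convex_hstrip σ₁) hGd 0 0
  have h0mem : (0 : ℂ) ∈ hstrip σ₁ := by simpa using gen_real_mem hσ₁ 0
  have hXdiff : DifferentiableOn ℂ X (hstrip σ₁) :=
    fun z hz => (hXd z hz).differentiableAt.differentiableWithinAt
  have hX2π : X (2 * π) = 2 * π := by
    have h1 : ∫ x in (0 : ℝ)..(2 * π), plzRoot (rad hc) x / γ = X ((2 * π : ℝ) : ℂ) - X ((0 : ℝ) : ℂ) := by
      apply intervalIntegral.integral_eq_sub_of_hasDerivAt (f := fun x : ℝ => X x)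
      · intro x _
        exact (hXd x (gen_real_mem hσ₁ x)).comp_ofReal
      · exact ((lfs_cont_of_diff₀ hδ₀ hgd).div_const _).intervalIntegrable _ _
    rw [intervalIntegral.integral_div, hint] at h1
    push_cast at h1
    rw [hX0, sub_zero] at h1
    rw [← h1]
    field_simp
  have hXper : ∀ z ∈ hstrip σ₁, X (z + 2 * π) = X z + 2 * π := by
    apply plz_eqOn_of_hasDerivAt (f' := fun z => plzRoot (rad hc) z / γ) _
      (fun z hz => (hXd z hz).add_const _) h0mem (by rw [zero_add, hX0, zero_add, hX2π])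
    intro z hz
    have h1 := hXd _ (gen_add_two_pi_mem hz)
    rw [hgper z (hS0 hz)] at h1
    exact HasDerivAt.comp_add_const z (2 * π) h1
  have hXconj' : ∀ z ∈ hstrip σ₁, conj (X (conj z)) = X z := by
    apply plz_eqOn_of_hasDerivAt (f' := fun z => plzRoot (rad hc) z / γ) _ hXd h0mem
      (by rw [map_zero, hX0, map_zero])
    intro z hz
    have h1 := (hXd _ (gen_conj_mem hz)).conj_conj
    rw [Complex.conj_conj, hgconj z (hS0 hz), map_div₀, Complex.conj_conj, Complex.conj_ofReal] at h1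
    exact h1
  have hXconj : ∀ z ∈ hstrip σ₁, X (conj z) = conj (X z) := by
    intro z hz
    rw [← hXconj' z hz, Complex.conj_conj]
  have hm : 0 < (plzRoot (rad hc) z₁).re / γ := div_pos hm₁ hγ
  have hGre : ∀ z ∈ hstrip σ₁, (plzRoot (rad hc) z₁).re / γ ≤ (plzRoot (rad hc) z / γ).re := by
    intro z hz
    rw [Complex.div_ofReal_re]
    exact div_le_div_of_nonneg_right (hmin z (hS2 hz)) hγ.le
  have hre : ∀ z ∈ hstrip σ₁, (plzRoot (rad hc) z₁).re / γ ≤ (deriv X z).re := by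
    intro z hz
    rw [(hXd z hz).deriv]
    exact hGre z hz
  -- (iv) the inverse
  obtain ⟨φ, hφd, hφ, hφper, hφconj⟩ :=
    prelim_inv X σ₁ ((plzRoot (rad hc) z₁).re / γ) hσ₁ hm hXdiff hre hXper hXconj
  have hs₀ : 0 < (plzRoot (rad hc) z₁).re / γ * σ₁ := mul_pos hm hσ₁
  -- (v) the derivative of the inverse
  have hφ' : ∀ w ∈ hstrip ((plzRoot (rad hc) z₁).re / γ * σ₁),
      plzRoot (rad hc) (φ w) / γ * deriv φ w = 1 := by
    intro w hw
    have hnhds := (isOpen_hstrip _).mem_nhds hw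
    have h1 : HasDerivAt φ (deriv φ w) w := (hφd.differentiableAt hnhds).hasDerivAt
    have h2 := HasDerivAt.comp w (hXd _ (hφ w hw).1) h1
    have h3 : HasDerivAt (X ∘ φ) 1 w := by
      apply (hasDerivAt_id w).congr_of_eventuallyEq
      filter_upwards [hnhds] with v hv
      exact (hφ v hv).2
    exact h2.unique h3
  have hGnorm : ∀ z ∈ hstrip σ₁, ‖plzRoot (rad hc) z / γ‖ ≤ ‖plzRoot (rad hc) z₂‖ / γ := by
    intro z hz
    rw [norm_div, Complex.norm_real, Real.norm_eq_abs, abs_of_pos hγ]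
    have := hmax z (hS2 hz)
    exact div_le_div_of_nonneg_right (by linarith) hγ.le
  refine ⟨γ ^ 3, _, ((plzRoot (rad hc) z₁).re / γ)⁻¹, (‖plzRoot (rad hc) z₂‖ / γ)⁻¹, φ, by positivity, hs₀,
    by positivity, hφd, hφper, hφconj, fun z hz => hS4 (hφ z hz).1, ?_, ?_, ?_, ?_⟩
  · intro w hw
    have h1 := hφ' w hw
    have h2 := congrArg norm h1
    rw [norm_mul, norm_one] at h2
    have h3 : (plzRoot (rad hc) z₁).re / γ ≤ ‖plzRoot (rad hc) (φ w) / γ‖ :=
      (hGre _ (hφ w hw).1).trans (Complex.re_le_norm _)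
    rw [le_inv_comm₀ (by
      by_contra hcon
      have h0 : ‖deriv φ w‖ = 0 := le_antisymm (not_lt.1 hcon) (norm_nonneg _)
      rw [h0, mul_zero] at h2
      exact zero_ne_one h2) hm]
    have h4 : ‖plzRoot (rad hc) (φ w) / γ‖ = ‖deriv φ w‖⁻¹ := eq_inv_of_mul_eq_one_left h2
    rw [← h4]
    exact h3
  · intro w hw
    have h1 := hφ' w hw
    have h2 := congrArg norm h1
    rw [norm_mul, norm_one] at h2
    have h3 := hGnorm _ (hφ w hw).1
    have h5 : 0 < ‖plzRoot (rad hc) (φ w) / γ‖ := lt_of_lt_of_le hm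
      ((hGre _ (hφ w hw).1).trans (Complex.re_le_norm _))
    have h4 : ‖deriv φ w‖ = ‖plzRoot (rad hc) (φ w) / γ‖⁻¹ := eq_inv_of_mul_eq_one_right h2
    rw [h4]
    exact inv_anti₀ h5 h3
  · intro x
    have hx := gen_real_mem hs₀ x
    have h1 := hφ' x hx
    have h4 : deriv φ x = (plzRoot (rad hc) (φ x) / γ)⁻¹ := eq_inv_of_mul_eq_one_right h1
    rw [h4, Complex.inv_re]
    have h5 : 0 < (plzRoot (rad hc) (φ x) / γ).re := lt_of_lt_of_le hm (hGre _ (hφ x hx).1)
    apply div_pos h5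
    rw [Complex.normSq_pos]
    intro h0
    rw [h0, Complex.zero_re] at h5
    exact lt_irrefl _ h5
  · intro w hw
    have h1 := hφ' w hw
    have hne : rad hc (φ w) ≠ 0 := by
      intro h0
      have := hrpos _ (hS0 (hφ w hw).1)
      rw [h0, Complex.zero_re] at this
      exact lt_irrefl _ this
    rw [← plzRoot_cube hne, ← mul_pow]
    have h2 : plzRoot (rad hc) (φ w) * deriv φ w = γ := by
      have : plzRoot (rad hc) (φ w) * deriv φ w = γ * (plzRoot (rad hc) (φ w) / γ * deriv φ w) := by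
        field_simp
      rw [this, h1, mul_one]
    rw [h2]
    push_cast
    rfl

/-- **Unit A.** -/
theorem prelim_main : StPrelim := by
  intro h hs hg ha
  obtain ⟨σ, M, U, hσ, hU, hu, hper, hconj, hM⟩ := prelim_ext h ha hs.periodic
  have hpos : ∀ x : ℝ, 0 < (rad U x).re := by
    intro x
    rw [prelim_rad h U σ hσ hU hu x]
    simpa using hs.radius_pos x
  obtain ⟨c, s₀, Mφ, mφ, φ, hc, hs₀, hmφ, h1, h2, h3, h4, h5, h6, h7, h8⟩ :=
    prelim_laz U σ hσ hU hper hconj hpos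
  have hrig : GlancingRigid (fun θ : ℝ => (U θ).re) := by
    have : (fun θ : ℝ => (U θ).re) = h := by
      funext θ
      simp [hu θ]
    rw [this]
    exact hg
  exact ⟨⟨U, σ, hσ, hU, hper, hconj, M, hM, hpos, c, hc, φ, s₀, hs₀, h1, h2, h3, h4, Mφ, mφ, hmφ, h5, h6,
    h7, h8, hrig⟩, hu⟩

end Claimed.Agent.R269.S3
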