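/-
Row 269, Section 3: `stage_T2` (P1 Theorem 3.1 in the form of the structure `Glance`) from the unit exports.   Owner: helper228.
-/
import Claimed.Agent.R269.S3.Prelim
import Claimed.Agent.R269.S3.Conv
import Claimed.Agent.R269.S3.Collar

set_option autoImplicit false

namespace Claimed.Agent.R269.S3

/-- T2 = P1 Theorem 3.1. -/
theorem s3_stage_T2 (h : ℝ → ℝ) (hs : IsSupport h) (hg : GlancingRigid h)
    (ha : AnalyticOnNhd ℝ h Set.univ) : ∃ G : Glance, ∀ θ : ℝ, G.hc θ = h θ := by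
  obtain ⟨B, hB⟩ := prelim_main h hs hg ha
  obtain ⟨s, d, κ, Θ, hd, hds, hs0, hκ, hsol⟩ := conv_main B
  obtain ⟨G, hG⟩ := collar_main B s d κ Θ hd hds hs0 hκ hsol
  exact ⟨G, fun θ => by rw [hG]; exact hB θ⟩

end Claimed.Agent.R269.S3
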