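/-
Row 269, Section 3, UNIT D, leaf package LF-S3-D1 (`RatFlux.lean`): THE FLUX FORMULA.   Statements + plan: helper237.   HOST-FREE (Mathlib only), ~250 lines.

Discrete Dirichlet problem on the vertices `0..q`:   `ξ_0 = ξ_q = 0`,   `c_{j+1}(ξ_{j+2} - ξ_{j+1}) - c_j(ξ_{j+1} - ξ_j) = F_j`   for `j + 1 < q`
(`F j` is the right side at the INTERIOR VERTEX `j + 1`; `c j` is the coefficient of the EDGE `j → j+1`, `j < q`).
   `fluxS F j = ∑_{i<j} F i`,   `flux0 = - (∑_{j<q} S_j/c_j) / (∑_{j<q} 1/c_j)`,   `fluxSol k = ∑_{j<k} (flux0 + S_j)/c_j`.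
PLAN.  `FluxOK q γ c`: `γ > 0`, `|c_j/γ - 1| ≤ 1/10` for `j < q`.   Put `e = c_j/γ - 1`.  Then `|c_j/γ| ≥ 9/10`, `c_j ≠ 0`, `|1/c_j| ≤ (10/9)/γ`,
   `γ/c_j - 1 = -e/(1+e)`, `|γ/c_j - 1| ≤ (1/10)/(9/10) = 1/9`, so `Re (γ/c_j) ≥ 8/9` and `|∑_{j<q} 1/c_j| ≥ Re(∑ γ/c_j)/γ ≥ (8q/9)/γ`.
 * `fluxSol_eq`: `c_j (ξ_{j+1} - ξ_j) = flux0 + S_j` (`Finset.sum_range_succ`, `c_j ≠ 0`), subtract two consecutive ones, `S_{j+1} - S_j = F_j`.
 * `fluxSol_last`: `∑_{j<q} (J + S_j)/c_j = J ∑ 1/c_j + ∑ S_j/c_j = 0`.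
 * `fluxSol_bound`: `|S_j| ≤ j M ≤ q M` (`j < q`; only `F i` with `i + 1 < q` occur), `|flux0| ≤ (q · qM · (10/9)/γ)/((8q/9)/γ) = (5/4) q M`,
     `|ξ_k| ≤ k (9/4) q M (10/9)/γ ≤ (5/2) q² M/γ`.
 * `fluxSol_sub`, `fluxSol_conj`: `Finset.sum_sub_distrib`, `map_sum`, `map_div₀`; no hypothesis.
 * `fluxSol_diff`: `DifferentiableOn.fun_sum`, `.div`, `.add`, `.neg`.
-/
import Mathlib

set_option autoImplicit false

namespace Claimed.Agent.R269.S3

open ComplexConjugate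

/-- `S_j = ∑_{i<j} F i`. -/
noncomputable def fluxS (F : ℕ → ℂ) (j : ℕ) : ℂ := ∑ i ∈ Finset.range j, F i

/-- the flux through the first edge. -/
noncomputable def flux0 (q : ℕ) (c F : ℕ → ℂ) : ℂ :=
  -(∑ j ∈ Finset.range q, fluxS F j / c j) / ∑ j ∈ Finset.range q, 1 / c j

/-- the solution of the discrete Dirichlet problem. -/
noncomputable def fluxSol (q : ℕ) (c F : ℕ → ℂ) (k : ℕ) : ℂ :=
  ∑ j ∈ Finset.range k, (flux0 q c F + fluxS F j) / c j

/-- admissible edge coefficients. -/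
def FluxOK (q : ℕ) (γ : ℝ) (c : ℕ → ℂ) : Prop := 0 < γ ∧ ∀ j < q, ‖c j / (γ : ℂ) - 1‖ ≤ 1 / 10

variable {q : ℕ} {γ : ℝ} {c F F' : ℕ → ℂ}

/-- `|c_j| ≥ (9/10) γ`. -/
theorem FluxOK.norm_ge (h : FluxOK q γ c) : ∀ j < q, 9 / 10 * γ ≤ ‖c j‖ := by
  intro j hj
  have hγ := h.1
  have h1 := h.2 j hj
  have h2 : 1 - ‖c j / (γ : ℂ)‖ ≤ ‖c j / (γ : ℂ) - 1‖ := by
    have := norm_sub_norm_le (1 : ℂ) (c j / (γ : ℂ))
    rw [norm_one, norm_sub_rev] at this
    exact this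
  have h3 : ‖c j / (γ : ℂ)‖ = ‖c j‖ / γ := by
    rw [norm_div, Complex.norm_real, Real.norm_of_nonneg hγ.le]
  rw [h3] at h2
  have h4 : 9 / 10 ≤ ‖c j‖ / γ := by linarith
  rwa [le_div_iff₀ hγ] at h4

theorem FluxOK.ne (h : FluxOK q γ c) : ∀ j < q, c j ≠ 0 := by
  intro j hj h0
  have := h.norm_ge j hj
  rw [h0, norm_zero] at this
  have := h.1
  linarith

theorem FluxOK.inv_le (h : FluxOK q γ c) : ∀ j < q, ‖1 / c j‖ ≤ 10 / 9 / γ := by
  intro j hj
  have hγ := h.1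
  have h1 := h.norm_ge j hj
  rw [norm_div, norm_one, div_div, div_le_div_iff₀ (by linarith [mul_pos (by norm_num : (0:ℝ) < 9 / 10) hγ]) (by positivity)]
  linarith

/-- `Re (γ/c_j) ≥ 8/9`. -/
theorem FluxOK.re_ge (h : FluxOK q γ c) : ∀ j < q, 8 / 9 ≤ ((γ : ℂ) * (1 / c j)).re := by
  intro j hj
  have hγ := h.1
  have hc := h.ne j hj
  have hγc : (γ : ℂ) ≠ 0 := by exact_mod_cast hγ.ne'
  have e : (γ : ℂ) * (1 / c j) - 1 = -(c j / (γ : ℂ) - 1) * ((γ : ℂ) * (1 / c j)) := by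
    field_simp
    ring
  have n1 : ‖(γ : ℂ) * (1 / c j)‖ ≤ 10 / 9 := by
    rw [norm_mul, Complex.norm_real, Real.norm_of_nonneg hγ.le]
    have := mul_le_mul_of_nonneg_left (h.inv_le j hj) hγ.le
    refine this.trans (le_of_eq ?_)
    field_simp
  have n2 : ‖(γ : ℂ) * (1 / c j) - 1‖ ≤ 1 / 9 := by
    rw [e, norm_mul, norm_neg]
    calc _ ≤ 1 / 10 * (10 / 9 : ℝ) := mul_le_mul (h.2 j hj) n1 (norm_nonneg _) (by norm_num)
      _ = 1 / 9 := by norm_num
  have n3 := (Complex.abs_re_le_norm _).trans n2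
  rw [Complex.sub_re, Complex.one_re] at n3
  have := (abs_le.mp n3).1
  linarith

theorem FluxOK.sum_ge (h : FluxOK q γ c) : 8 / 9 * q / γ ≤ ‖∑ j ∈ Finset.range q, 1 / c j‖ := by
  have hγ := h.1
  have h1 : 8 / 9 * (q : ℝ) ≤ ((γ : ℂ) * ∑ j ∈ Finset.range q, 1 / c j).re := by
    rw [Finset.mul_sum, Complex.re_sum]
    have : ∑ j ∈ Finset.range q, (8 / 9 : ℝ) ≤ ∑ j ∈ Finset.range q, ((γ : ℂ) * (1 / c j)).re :=
      Finset.sum_le_sum fun j hj => h.re_ge j (Finset.mem_range.mp hj)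
    rw [Finset.sum_const, Finset.card_range, nsmul_eq_mul] at this
    linarith
  have h2 := h1.trans (Complex.re_le_norm _)
  rw [norm_mul, Complex.norm_real, Real.norm_of_nonneg hγ.le] at h2
  rw [div_le_iff₀ hγ]
  linarith

theorem FluxOK.sum_ne (h : FluxOK q γ c) (hq : 0 < q) : ∑ j ∈ Finset.range q, 1 / c j ≠ 0 := by
  intro h0
  have := h.sum_ge
  rw [h0, norm_zero] at this
  have hγ := h.1
  have hq' : (0 : ℝ) < q := by exact_mod_cast hq
  have : 0 < 8 / 9 * (q : ℝ) / γ := by positivity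
  linarith

theorem fluxSol_zero (q : ℕ) (c F : ℕ → ℂ) : fluxSol q c F 0 = 0 := by
  simp [fluxSol]

theorem fluxSol_last (h : FluxOK q γ c) (hq : 0 < q) (F : ℕ → ℂ) : fluxSol q c F q = 0 := by
  have hs := h.sum_ne hq
  unfold fluxSol
  have e : ∀ j ∈ Finset.range q, (flux0 q c F + fluxS F j) / c j = flux0 q c F * (1 / c j) + fluxS F j / c j := by
    intro j _
    ring
  rw [Finset.sum_congr rfl e, Finset.sum_add_distrib, ← Finset.mul_sum]
  unfold flux0
  field_simp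
  ring

theorem fluxSol_step (h : FluxOK q γ c) (F : ℕ → ℂ) {j : ℕ} (hj : j < q) :
    c j * (fluxSol q c F (j + 1) - fluxSol q c F j) = flux0 q c F + fluxS F j := by
  have hc := h.ne j hj
  unfold fluxSol
  rw [Finset.sum_range_succ, add_sub_cancel_left]
  field_simp

theorem fluxSol_eq (h : FluxOK q γ c) (F : ℕ → ℂ) {j : ℕ} (hj : j + 1 < q) :
    c (j + 1) * (fluxSol q c F (j + 2) - fluxSol q c F (j + 1)) - c j * (fluxSol q c F (j + 1) - fluxSol q c F j)
      = F j := by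
  rw [fluxSol_step h F hj, fluxSol_step h F (by omega : j < q)]
  unfold fluxS
  rw [Finset.sum_range_succ]
  ring

theorem fluxS_sub (F F' : ℕ → ℂ) (j : ℕ) : fluxS (fun i => F i - F' i) j = fluxS F j - fluxS F' j := by
  unfold fluxS
  rw [Finset.sum_sub_distrib]

theorem flux0_sub (q : ℕ) (c F F' : ℕ → ℂ) : flux0 q c (fun i => F i - F' i) = flux0 q c F - flux0 q c F' := by
  unfold flux0
  simp only [fluxS_sub, sub_div, Finset.sum_sub_distrib]
  ring

theorem fluxSol_sub (q : ℕ) (c F F' : ℕ → ℂ) (k : ℕ) :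
    fluxSol q c (fun i => F i - F' i) k = fluxSol q c F k - fluxSol q c F' k := by
  unfold fluxSol
  rw [← Finset.sum_sub_distrib]
  apply Finset.sum_congr rfl
  intro j _
  rw [flux0_sub, fluxS_sub]
  ring

theorem fluxSol_bound (h : FluxOK q γ c) (hq : 0 < q) {M : ℝ} (hM0 : 0 ≤ M) (hM : ∀ j, j + 1 < q → ‖F j‖ ≤ M)
    {k : ℕ} (hk : k ≤ q) : ‖fluxSol q c F k‖ ≤ 3 * (q : ℝ) ^ 2 * M / γ := by
  have hγ := h.1
  have hq' : (0 : ℝ) < q := by exact_mod_cast hq
  have hS : ∀ j < q, ‖fluxS F j‖ ≤ q * M := by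
    intro j hj
    unfold fluxS
    refine (norm_sum_le _ _).trans ?_
    have : ∑ i ∈ Finset.range j, ‖F i‖ ≤ ∑ i ∈ Finset.range j, M :=
      Finset.sum_le_sum fun i hi => hM i (by have := Finset.mem_range.mp hi; omega)
    refine this.trans ?_
    rw [Finset.sum_const, Finset.card_range, nsmul_eq_mul]
    apply mul_le_mul_of_nonneg_right _ hM0
    exact_mod_cast hj.le
  have hnum : ‖∑ j ∈ Finset.range q, fluxS F j / c j‖ ≤ q * (q * M * (10 / 9 / γ)) := by
    refine (norm_sum_le _ _).trans ?_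
    have : ∀ j ∈ Finset.range q, ‖fluxS F j / c j‖ ≤ q * M * (10 / 9 / γ) := by
      intro j hj
      have hj' := Finset.mem_range.mp hj
      rw [div_eq_mul_one_div, norm_mul]
      exact mul_le_mul (hS j hj') (h.inv_le j hj') (norm_nonneg _) (by positivity)
    refine (Finset.sum_le_sum this).trans ?_
    rw [Finset.sum_const, Finset.card_range, nsmul_eq_mul]
  have hJ : ‖flux0 q c F‖ ≤ 5 / 4 * (q * M) := by
    unfold flux0
    rw [norm_div, norm_neg]
    have hden := h.sum_ge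
    have hdpos : 0 < 8 / 9 * (q : ℝ) / γ := by positivity
    rw [div_le_iff₀ (lt_of_lt_of_le hdpos hden)]
    refine hnum.trans ?_
    have : 5 / 4 * (q * M) * (8 / 9 * (q : ℝ) / γ) ≤ 5 / 4 * (q * M) * ‖∑ j ∈ Finset.range q, 1 / c j‖ :=
      mul_le_mul_of_nonneg_left hden (by positivity)
    refine le_trans (le_of_eq ?_) this
    field_simp
    ring
  unfold fluxSol
  refine (norm_sum_le _ _).trans ?_
  have hterm : ∀ j ∈ Finset.range k, ‖(flux0 q c F + fluxS F j) / c j‖ ≤ 9 / 4 * (q * M) * (10 / 9 / γ) := by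
    intro j hj
    have hj' : j < q := lt_of_lt_of_le (Finset.mem_range.mp hj) hk
    rw [div_eq_mul_one_div, norm_mul]
    have : ‖flux0 q c F + fluxS F j‖ ≤ 9 / 4 * (q * M) := by
      refine (norm_add_le _ _).trans ?_
      have := hS j hj'
      linarith
    exact mul_le_mul this (h.inv_le j hj') (norm_nonneg _) (by positivity)
  refine (Finset.sum_le_sum hterm).trans ?_
  rw [Finset.sum_const, Finset.card_range, nsmul_eq_mul]
  have hk' : (k : ℝ) ≤ q := by exact_mod_cast hk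
  have : (k : ℝ) * (9 / 4 * (q * M) * (10 / 9 / γ)) ≤ q * (9 / 4 * (q * M) * (10 / 9 / γ)) :=
    mul_le_mul_of_nonneg_right hk' (by positivity)
  refine this.trans ?_
  have e : (q : ℝ) * (9 / 4 * (q * M) * (10 / 9 / γ)) = 5 / 2 * (q : ℝ) ^ 2 * M / γ := by
    field_simp
    ring
  rw [e]
  apply div_le_div_of_nonneg_right _ hγ.le
  have : 0 ≤ (q : ℝ) ^ 2 * M := by positivity
  linarith

theorem fluxSol_conj (q : ℕ) (c F : ℕ → ℂ) (k : ℕ) :
    fluxSol q (fun i => conj (c i)) (fun i => conj (F i)) k = conj (fluxSol q c F k) := by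
  simp only [fluxSol, flux0, fluxS, map_sum, map_div₀, map_add, map_neg, map_one]

/-- holomorphic dependence on a parameter. -/
theorem fluxSol_diff {U : Set ℂ} {c F : ℂ → ℕ → ℂ} (hq : 0 < q) (hok : ∀ y ∈ U, FluxOK q γ (c y))
    (hc : ∀ j < q, DifferentiableOn ℂ (fun y => c y j) U) (hF : ∀ j, j + 1 < q → DifferentiableOn ℂ (fun y => F y j) U)
    {k : ℕ} (hk : k ≤ q) : DifferentiableOn ℂ (fun y => fluxSol q (c y) (F y) k) U := by
  have hS : ∀ j < q, DifferentiableOn ℂ (fun y => fluxS (F y) j) U := by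
    intro j hj
    unfold fluxS
    apply DifferentiableOn.fun_sum
    intro i hi
    exact hF i (by have := Finset.mem_range.mp hi; omega)
  have hJ : DifferentiableOn ℂ (fun y => flux0 q (c y) (F y)) U := by
    unfold flux0
    apply DifferentiableOn.div
    · apply DifferentiableOn.neg
      apply DifferentiableOn.fun_sum
      intro j hj
      have hj' := Finset.mem_range.mp hj
      exact (hS j hj').div (hc j hj') (fun y hy => (hok y hy).ne j hj')
    · apply DifferentiableOn.fun_sum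
      intro j hj
      have hj' := Finset.mem_range.mp hj
      exact (differentiableOn_const _).div (hc j hj') (fun y hy => (hok y hy).ne j hj')
    · intro y hy
      exact (hok y hy).sum_ne hq
  unfold fluxSol
  apply DifferentiableOn.fun_sum
  intro j hj
  have hj' : j < q := lt_of_lt_of_le (Finset.mem_range.mp hj) hk
  exact (hJ.add (hS j hj')).div (hc j hj') (fun y hy => (hok y hy).ne j hj')

end Claimed.Agent.R269.S3
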